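import Vale.Agent.P223.H.Common

/-! Block 1a, 9a: small balls, strict fundamental domains, frames. -/

namespace Vale.Agent.P223.H.Frame1

open scoped ContDiff Topology
open MeasureTheory Metric

variable {n : ℕ} {Γ : Type} [Group Γ] [MulAction Γ (E n)]

theorem small_ball (h : Act n Γ) (x : E n) :
    ∃ r : ℝ, 0 < r ∧ ∀ (γ : Γ) (y : E n), y ∈ ball x r → γ • y ∈ ball x r → γ = 1 := by
  have hT := h.proper (closedBall x 1) (isCompact_closedBall x 1)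
  have key : ∀ γ : Γ, ∀ᶠ r in 𝓝[>] (0 : ℝ), ∀ y : E n, y ∈ ball x r → γ • y ∈ ball x r → γ = 1 := by
    intro γ
    by_cases hγ : γ = 1
    · exact Filter.Eventually.of_forall fun _ _ _ _ => hγ
    · have hd : 0 < dist (γ • x) x := dist_pos.2 fun h0 => hγ (h.free γ x h0)
      obtain ⟨δ, hδ, hδ'⟩ := Metric.continuousAt_iff.1 ((Common.cont h γ).continuousAt (x := x))
        (dist (γ • x) x / 2) (half_pos hd)
      have h1 : ∀ᶠ r in 𝓝[>] (0 : ℝ), r < δ :=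
        nhdsWithin_le_nhds (Iio_mem_nhds hδ)
      have h2 : ∀ᶠ r in 𝓝[>] (0 : ℝ), r < dist (γ • x) x / 2 :=
        nhdsWithin_le_nhds (Iio_mem_nhds (half_pos hd))
      filter_upwards [h1, h2] with r hr1 hr2 y hy hy'
      exfalso
      have h3 := hδ' ((mem_ball.1 hy).trans hr1)
      have h4 := dist_triangle (γ • x) (γ • y) x
      have h5 := mem_ball.1 hy'
      rw [dist_comm (γ • x) (γ • y)] at h4
      linarith
  have h1 : ∀ᶠ r in 𝓝[>] (0 : ℝ), ∀ γ ∈ {γ : Γ | ∃ y ∈ closedBall x 1, γ • y ∈ closedBall x 1},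
      ∀ y : E n, y ∈ ball x r → γ • y ∈ ball x r → γ = 1 :=
    (Filter.eventually_all_finite hT).2 fun γ _ => key γ
  have h2 : ∀ᶠ r in 𝓝[>] (0 : ℝ), r < 1 := nhdsWithin_le_nhds (Iio_mem_nhds one_pos)
  obtain ⟨r, hr1, hr2, hr3⟩ := (h1.and (h2.and self_mem_nhdsWithin)).exists
  refine ⟨r, hr3, fun γ y hy hy' => hr1 γ ⟨y, ?_, ?_⟩ y hy hy'⟩
  · exact ball_subset_closedBall (ball_subset_ball hr2.le hy)
  · exact ball_subset_closedBall (ball_subset_ball hr2.le hy')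

theorem cover (h : Act n Γ) : ∃ (m : ℕ) (c : Fin m → E n) (r : Fin m → ℝ),
    (∀ i, 0 < r i) ∧ (∀ i (γ : Γ) (y : E n), y ∈ ball (c i) (r i) → γ • y ∈ ball (c i) (r i) →
      γ = 1) ∧ ∀ x : E n, ∃ (γ : Γ) (i : Fin m), γ • x ∈ ball (c i) (r i) := by
  obtain ⟨K, hK, hK'⟩ := h.cocompact
  choose r hr hr' using small_ball h
  obtain ⟨t, _, ht⟩ := hK.elim_nhds_subcover (fun x => ball x (r x)) fun x _ =>
    ball_mem_nhds x (hr x)
  refine ⟨t.card, fun i => t.equivFin.symm i, fun i => r (t.equivFin.symm i), fun i => hr _,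
    fun i => hr' _, fun x => ?_⟩
  obtain ⟨γ, hγ⟩ := hK' x
  obtain ⟨y, hy, hxy⟩ := Set.mem_iUnion₂.1 (ht hγ)
  exact ⟨γ, t.equivFin ⟨y, hy⟩, by simpa using hxy⟩

theorem specDom : SpecDom := by
  intro n Γ _ _ h
  obtain ⟨m, c, r, -, hinj, hcov⟩ := cover h
  let B : Fin m → Set (E n) := fun i => ball (c i) (r i)
  have hcount := Common.countable h
  refine ⟨⋃ i, (B i \ ⋃ j, ⋃ (_ : j < i), ⋃ γ : Γ, (fun x : E n => γ • x) ⁻¹' B j), ?_, ?_, ?_⟩
  · refine MeasurableSet.iUnion fun i => isOpen_ball.measurableSet.diff ?_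
    refine MeasurableSet.iUnion fun j => MeasurableSet.iUnion fun _ => MeasurableSet.iUnion fun γ => ?_
    exact (isOpen_ball.preimage (Common.cont h γ)).measurableSet
  · refine (Bornology.isBounded_iUnion.2 fun i : Fin m => isBounded_ball (x := c i) (r := r i)).subset ?_
    exact Set.iUnion_mono fun i => Set.sdiff_subset
  · intro x
    classical
    have hex : ∃ k : ℕ, ∃ (hk : k < m) (γ : Γ), γ • x ∈ B ⟨k, hk⟩ := by
      obtain ⟨γ, i, hi⟩ := hcov x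
      exact ⟨i, i.2, γ, hi⟩
    obtain ⟨hk, γ, hγ⟩ := Nat.find_spec hex
    have hmin : ∀ j : Fin m, (j : ℕ) < Nat.find hex → ∀ g : Γ, g • x ∉ B j := by
      intro j hj g hg
      exact Nat.find_min hex hj ⟨j.2, g, hg⟩
    refine ⟨γ, ?_, ?_⟩
    · refine Set.mem_iUnion.2 ⟨⟨Nat.find hex, hk⟩, hγ, ?_⟩
      simp only [Set.mem_iUnion, Set.mem_preimage, not_exists]
      intro j hj g hg
      rw [← mul_smul] at hg
      exact hmin j hj _ hg
    · intro g hg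
      obtain ⟨i, hi1, hi2⟩ := Set.mem_iUnion.1 hg
      simp only [Set.mem_iUnion, Set.mem_preimage, not_exists] at hi2
      have h1 : ¬ ((i : ℕ) < Nat.find hex) := fun hlt => hmin i hlt g hi1
      have h2 : ¬ (Nat.find hex < (i : ℕ)) := by
        intro hlt
        refine hi2 ⟨Nat.find hex, hk⟩ hlt (γ * g⁻¹) ?_
        rwa [mul_smul, inv_smul_smul]
      have h3 : i = ⟨Nat.find hex, hk⟩ := Fin.ext (le_antisymm (not_lt.1 h2) (not_lt.1 h1))
      subst h3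
      have h4 := hinj ⟨Nat.find hex, hk⟩ (g * γ⁻¹) (γ • x) hγ (by
        rw [mul_smul, inv_smul_smul]; exact hi1)
      exact mul_inv_eq_one.1 h4

/-- small bumps with square sum one -/
theorem bumps (h : Act n Γ) : ∃ (m : ℕ) (χ : Fin m → E n → ℝ), (∀ i, ContDiff ℝ ∞ (χ i)) ∧
    (∀ i, HasCompactSupport (χ i)) ∧ (∀ i x, 0 ≤ χ i x) ∧
    (∀ i (γ : Γ) (y : E n), χ i y ≠ 0 → χ i (γ • y) ≠ 0 → γ = 1) ∧
    ∀ x, ∑ i, ∑ᶠ γ : Γ, χ i (γ⁻¹ • x) ^ 2 = 1 := by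
  obtain ⟨m, c, r, -, hinj, hcov⟩ := cover h
  have hex : ∀ i, ∃ f : E n → ℝ, Function.support f = ball (c i) (r i) ∧ ContDiff ℝ ∞ f ∧
      Set.range f ⊆ Set.Icc 0 1 := fun i =>
    (isOpen_ball (x := c i) (ε := r i)).exists_contDiff_support_eq (n := ⊤)
  choose η h1 h2 h3 using hex
  have hcs : ∀ i, HasCompactSupport (η i) := fun i => by
    refine HasCompactSupport.of_support_subset_isCompact (isCompact_closedBall (c i) (r i)) ?_
    rw [h1]; exact ball_subset_closedBall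
  have h0 : ∀ i x, 0 ≤ η i x := fun i x => (h3 i ⟨x, rfl⟩).1
  have hfin : ∀ i (x : E n), (Function.support fun γ : Γ => η i (γ⁻¹ • x) ^ 2).Finite := fun i x =>
    ((Common.locallyFinite_support h (η i) (hcs i)).point_finite x).subset fun γ hγ => by
      intro h0; apply hγ; simp only at h0 ⊢; rw [h0]; simp
  have hsm : ContDiff ℝ ∞ fun x : E n => ∑ i, ∑ᶠ γ : Γ, η i (γ⁻¹ • x) ^ 2 := by
    refine ContDiff.sum fun i _ => ?_
    refine Common.contDiff_avg h (fun x => η i x ^ 2) ?_ ((h2 i).pow 2)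
    exact (hcs i).mono fun x hx => by
      intro h0; apply hx; simp only at h0 ⊢; rw [h0]; simp
  have hpos : ∀ x : E n, 0 < ∑ i, ∑ᶠ γ : Γ, η i (γ⁻¹ • x) ^ 2 := by
    intro x
    obtain ⟨γ, i, hi⟩ := hcov x
    have hi' : η i (γ • x) ≠ 0 := by
      have : γ • x ∈ Function.support (η i) := by rw [h1]; exact hi
      exact this
    refine Finset.sum_pos' (fun j _ => finsum_nonneg fun γ => sq_nonneg _) ⟨i, Finset.mem_univ _, ?_⟩
    refine finsum_pos (fun γ => sq_nonneg _) ⟨γ⁻¹, ?_⟩ (hfin i x)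
    simp only [inv_inv]
    positivity
  have hinv : ∀ (g : Γ) (x : E n), ∑ i, ∑ᶠ γ : Γ, η i (γ⁻¹ • g • x) ^ 2 =
      ∑ i, ∑ᶠ γ : Γ, η i (γ⁻¹ • x) ^ 2 := fun g x =>
    Finset.sum_congr rfl fun i _ => Common.avg_inv (fun y => η i y ^ 2) g x
  refine ⟨m, fun i x => η i x / √(∑ i, ∑ᶠ γ : Γ, η i (γ⁻¹ • x) ^ 2), fun i => ?_, fun i => ?_,
    fun i x => ?_, fun i γ y hy hy' => ?_, fun x => ?_⟩
  · exact (h2 i).div (hsm.sqrt fun x => (hpos x).ne') fun x => (Real.sqrt_pos.2 (hpos x)).ne'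
  · exact (hcs i).mono fun x hx => by
      intro h0; apply hx; simp only at h0 ⊢; rw [h0]; simp
  · exact div_nonneg (h0 i x) (Real.sqrt_nonneg _)
  · have e1 : y ∈ ball (c i) (r i) := by
      rw [← h1]; exact fun h0 => hy (by simp [h0])
    have e2 : γ • y ∈ ball (c i) (r i) := by
      rw [← h1]; exact fun h0 => hy' (by simp [h0])
    exact hinj i γ y e1 e2
  · have : ∀ i, ∑ᶠ γ : Γ, (η i (γ⁻¹ • x) / √(∑ j, ∑ᶠ g : Γ, η j (g⁻¹ • γ⁻¹ • x) ^ 2)) ^ 2 =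
        (∑ᶠ γ : Γ, η i (γ⁻¹ • x) ^ 2) * (∑ j, ∑ᶠ g : Γ, η j (g⁻¹ • x) ^ 2)⁻¹ := by
      intro i
      rw [finsum_mul' _ _ (hfin i x)]
      refine finsum_congr fun γ => ?_
      rw [hinv, div_pow, Real.sq_sqrt (hpos x).le, div_eq_mul_inv]
    simp only [this]
    rw [← Finset.sum_mul, mul_inv_cancel₀ (hpos x).ne']

end Vale.Agent.P223.H.Frame1
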