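import Vale.Agent.P223.H.Bridge
import Vale.Agent.P223.H.Frame1

/-! Block 2: families of maps whose average generates the Laplacian. -/

namespace Vale.Agent.P223.H.B2

open scoped ContDiff Topology Matrix
open Common

/-- Smooth factorisation `A = ∑ v vᵀ` of a smooth family of positive definite matrices. -/
theorem factor {X : Type} [NormedAddCommGroup X] [NormedSpace ℝ X] : ∀ (m : ℕ)
    (A : X → Matrix (Fin m) (Fin m) ℝ), (∀ i j, ContDiff ℝ ∞ fun x => A x i j) →
    (∀ x, (A x).PosDef) → ∃ v : Fin m → X → Fin m → ℝ,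
      (∀ k i, ContDiff ℝ ∞ fun x => v k x i) ∧ ∀ x i j, A x i j = ∑ k, v k x i * v k x j
  | 0, A, _, _ => ⟨fun k => k.elim0, fun k => k.elim0, fun x i => i.elim0⟩
  | m + 1, A, hA, hp => by
    have hsym : ∀ x i j, A x i j = A x j i := fun x i j => by
      have := congrFun (congrFun (hp x).isHermitian j) i
      simpa using this
    have h00 : ∀ x, 0 < A x 0 0 := fun x => (hp x).diag_pos
    let A' : X → Matrix (Fin m) (Fin m) ℝ := fun x =>
      Matrix.of fun i j => A x i.succ j.succ - A x i.succ 0 * A x j.succ 0 / A x 0 0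
    have hA' : ∀ i j, ContDiff ℝ ∞ fun x => A' x i j := fun i j =>
      (hA _ _).sub (((hA _ _).mul (hA _ _)).div (hA _ _) fun x => (h00 x).ne')
    have hp' : ∀ x, (A' x).PosDef := by
      intro x
      refine Matrix.PosDef.of_dotProduct_mulVec_pos ?_ fun w hw => ?_
      · ext i j
        simp only [Matrix.conjTranspose_apply, A', Matrix.of_apply, star_trivial]
        rw [hsym x j.succ i.succ]; ring
      · set c : ℝ := -(∑ j, A x j.succ 0 * w j) / A x 0 0 with hc
        have hz : (Fin.cons c w : Fin (m + 1) → ℝ) ≠ 0 := by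
          intro h0
          apply hw
          funext j
          have := congrFun h0 j.succ
          simpa using this
        have h1 := (hp x).dotProduct_mulVec_pos hz
        have e1 : star w ⬝ᵥ (A' x *ᵥ w) = (∑ i, ∑ j, A x i.succ j.succ * w i * w j) -
            (∑ j, A x j.succ 0 * w j) ^ 2 / A x 0 0 := by
          simp only [dotProduct, Matrix.mulVec, star_trivial, A', Matrix.of_apply]
          rw [sq, Finset.sum_mul_sum, Finset.sum_div, ← Finset.sum_sub_distrib]
          refine Finset.sum_congr rfl fun i _ => ?_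
          rw [Finset.mul_sum, Finset.sum_div, ← Finset.sum_sub_distrib]
          refine Finset.sum_congr rfl fun j _ => ?_
          ring
        have e2 : star (Fin.cons c w : Fin (m + 1) → ℝ) ⬝ᵥ (A x *ᵥ (Fin.cons c w : Fin (m + 1) → ℝ))
            = A x 0 0 * c ^ 2 + 2 * c * (∑ j, A x j.succ 0 * w j) +
              ∑ i, ∑ j, A x i.succ j.succ * w i * w j := by
          simp only [dotProduct, Matrix.mulVec, star_trivial, Fin.sum_univ_succ, Fin.cons_zero,
            Fin.cons_succ]
          have : ∑ i, A x 0 (Fin.succ i) * w i = ∑ j, A x j.succ 0 * w j :=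
            Finset.sum_congr rfl fun i _ => by rw [hsym x 0 i.succ]
          rw [this]
          simp only [mul_add, Finset.sum_add_distrib]
          have e3 : ∑ i, w i * (A x (Fin.succ i) 0 * c) = c * ∑ j, A x j.succ 0 * w j := by
            rw [Finset.mul_sum]; exact Finset.sum_congr rfl fun i _ => by ring
          have e4 : ∑ i, w i * ∑ j, A x (Fin.succ i) (Fin.succ j) * w j =
              ∑ i, ∑ j, A x i.succ j.succ * w i * w j :=
            Finset.sum_congr rfl fun i _ => by
              rw [Finset.mul_sum]; exact Finset.sum_congr rfl fun j _ => by ring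
          rw [e3, e4]; ring
        rw [e1]
        rw [e2] at h1
        have h2 : A x 0 0 * c ^ 2 + 2 * c * (∑ j, A x j.succ 0 * w j) =
            - ((∑ j, A x j.succ 0 * w j) ^ 2 / A x 0 0) := by
          rw [hc]
          have := (h00 x).ne'
          field_simp
          ring
        linarith
    obtain ⟨v, hv, hv'⟩ := factor m A' hA' hp'
    refine ⟨Fin.cons (fun x i => A x i 0 / √(A x 0 0)) fun k x => Fin.cons 0 (v k x),
      fun k i => ?_, fun x i j => ?_⟩
    · refine Fin.cases ?_ (fun k => ?_) k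
      · simp only [Fin.cons_zero]
        exact (hA _ _).div ((hA _ _).sqrt fun x => (h00 x).ne') fun x => (Real.sqrt_pos.2 (h00 x)).ne'
      · simp only [Fin.cons_succ]
        refine Fin.cases ?_ (fun i => ?_) i
        · simp only [Fin.cons_zero]; exact contDiff_const
        · simp only [Fin.cons_succ]; exact hv k i
    · rw [Fin.sum_univ_succ]
      simp only [Fin.cons_zero, Fin.cons_succ]
      have hs : √(A x 0 0) * √(A x 0 0) = A x 0 0 := Real.mul_self_sqrt (h00 x).le
      have hs0 : √(A x 0 0) ≠ 0 := (Real.sqrt_pos.2 (h00 x)).ne'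
      have h0 := (h00 x).ne'
      rw [div_mul_div_comm, hs]
      refine Fin.cases ?_ (fun i => ?_) i
      · simp only [Fin.cons_zero, zero_mul, Finset.sum_const_zero, add_zero]
        rw [hsym x 0 j]
        field_simp
      · refine Fin.cases ?_ (fun j => ?_) j
        · simp only [Fin.cons_zero, mul_zero, Finset.sum_const_zero, add_zero]
          field_simp
        · simp only [Fin.cons_succ]
          rw [← hv' x i j]
          simp only [A', Matrix.of_apply]
          ring

/-! ### the maps -/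

variable {n : ℕ} {Γ : Type} [Group Γ] [MulAction Γ (E n)]

/-- `y ↦ y + r ξ(y) + r² ζ(y)` -/
def F (ξ ζ : E n → E n) (r : ℝ) (y : E n) : E n := y + r • ξ y + r ^ 2 • ζ y

/-- the equivariant extension -/
noncomputable def ph (Γ : Type) [Group Γ] [MulAction Γ (E n)] (ξ ζ : E n → E n) (r : ℝ)
    (x : E n) : E n := x + ∑ᶠ γ : Γ, (γ • F ξ ζ r (γ⁻¹ • x) - x)

/-- Data for one family of maps. -/
structure Dat (n : ℕ) (Γ : Type) [Group Γ] [MulAction Γ (E n)] (χ : E n → ℝ) (ξ ζ : E n → E n) :
    Prop where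
  cs : HasCompactSupport χ
  sep : ∀ (γ : Γ) (y : E n), χ y ≠ 0 → χ (γ • y) ≠ 0 → γ = 1
  sξ : ContDiff ℝ ∞ ξ
  sζ : ContDiff ℝ ∞ ζ
  zξ : ∀ y, χ y = 0 → ξ y = 0
  zζ : ∀ y, χ y = 0 → ζ y = 0

section
variable {χ : E n → ℝ} {ξ ζ : E n → E n} (h : Act n Γ) (d : Dat n Γ χ ξ ζ)
include d

theorem Dat.term_zero (r : ℝ) (x : E n) (γ : Γ) (h0 : χ (γ⁻¹ • x) = 0) :
    γ • F ξ ζ r (γ⁻¹ • x) - x = 0 := by
  simp [F, d.zξ _ h0, d.zζ _ h0]

theorem Dat.ph_of_ne (r : ℝ) (x : E n) (γ : Γ) (h0 : χ (γ⁻¹ • x) ≠ 0) :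
    ph Γ ξ ζ r x = γ • F ξ ζ r (γ⁻¹ • x) := by
  have : ∑ᶠ γ : Γ, (γ • F ξ ζ r (γ⁻¹ • x) - x) = γ • F ξ ζ r (γ⁻¹ • x) - x := by
    refine finsum_eq_single _ γ fun g hg => d.term_zero r x g ?_
    by_contra h1
    apply hg
    have := d.sep (g⁻¹ * γ) (γ⁻¹ • x) h0 (by rw [mul_smul, smul_inv_smul]; exact h1)
    exact (inv_mul_eq_one.1 this)
  rw [ph, this]; abel

theorem Dat.ph_of_eq (r : ℝ) (x : E n) (h0 : ∀ γ : Γ, χ (γ⁻¹ • x) = 0) :
    ph Γ ξ ζ r x = x := by
  have : ∑ᶠ γ : Γ, (γ • F ξ ζ r (γ⁻¹ • x) - x) = 0 := by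
    rw [finsum_congr fun γ => d.term_zero r x γ (h0 γ), finsum_zero]
  rw [ph, this, add_zero]

theorem Dat.ph_zero (x : E n) : ph Γ ξ ζ 0 x = x := by
  by_cases h0 : ∀ γ : Γ, χ (γ⁻¹ • x) = 0
  · exact d.ph_of_eq 0 x h0
  · push Not at h0
    obtain ⟨γ, hγ⟩ := h0
    rw [d.ph_of_ne 0 x γ hγ]
    simp [F]

theorem Dat.ph_equi (r : ℝ) (g : Γ) (x : E n) : ph Γ ξ ζ r (g • x) = g • ph Γ ξ ζ r x := by
  by_cases h0 : ∀ γ : Γ, χ (γ⁻¹ • x) = 0
  · rw [d.ph_of_eq r x h0, d.ph_of_eq r (g • x)]
    intro γ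
    have := h0 (g⁻¹ * γ)
    rwa [mul_inv_rev, inv_inv, mul_smul] at this
  · push Not at h0
    obtain ⟨γ, hγ⟩ := h0
    have e : (g * γ)⁻¹ • g • x = γ⁻¹ • x := by
      rw [mul_inv_rev, mul_smul, inv_smul_smul]
    rw [d.ph_of_ne r x γ hγ, d.ph_of_ne r (g • x) (g * γ) (by rwa [e]), e, mul_smul]

include h

theorem Dat.smooth : ContDiff ℝ ∞ fun p : ℝ × E n => ph Γ ξ ζ p.1 p.2 := by
  have hlf : LocallyFinite fun γ : Γ => Function.support fun p : ℝ × E n =>
      γ • F ξ ζ p.1 (γ⁻¹ • p.2) - p.2 := by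
    refine ((Common.locallyFinite h d.cs).preimage_continuous (g := fun p : ℝ × E n => p.2)
      continuous_snd).subset fun γ p hp => ?_
    refine subset_tsupport χ fun h0 => hp (d.term_zero p.1 p.2 γ h0)
  have hF : ContDiff ℝ ∞ fun p : ℝ × E n => F ξ ζ p.1 p.2 := by
    unfold F
    exact (contDiff_snd.add (contDiff_fst.smul (d.sξ.comp contDiff_snd))).add
      ((contDiff_fst.pow 2).smul (d.sζ.comp contDiff_snd))
  have hs : ∀ γ : Γ, ContDiff ℝ ∞ fun p : ℝ × E n => γ • F ξ ζ p.1 (γ⁻¹ • p.2) - p.2 := fun γ =>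
    ((h.smooth γ).comp (hF.comp (contDiff_fst.prodMk ((h.smooth γ⁻¹).comp contDiff_snd)))).sub
      contDiff_snd
  refine contDiff_snd.add (contDiff_iff_contDiffAt.2 fun x => ?_)
  obtain ⟨t, ht, hft⟩ := hlf x
  have : (fun p : ℝ × E n => ∑ᶠ γ : Γ, (γ • F ξ ζ p.1 (γ⁻¹ • p.2) - p.2)) =ᶠ[𝓝 x]
      fun p => ∑ γ ∈ hft.toFinset, (γ • F ξ ζ p.1 (γ⁻¹ • p.2) - p.2) := by
    filter_upwards [ht] with y hy
    refine finsum_eq_sum_of_support_subset _ fun i hi => ?_
    simp only [Set.Finite.coe_toFinset, Set.mem_ofPred_eq]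
    exact ⟨y, hi, hy⟩
  exact (ContDiffAt.sum fun i _ => (hs i).contDiffAt).congr_of_eventuallyEq this

end

/-! ### second derivative along the maps -/

theorem fderiv_eq_sum (f : E n → ℝ) (x w : E n) : fderiv ℝ f x w = ∑ a, w a * pd a f x := by
  have : w = ∑ a, w a • (Pi.single a (1 : ℝ) : E n) := by
    ext k; simp [Finset.sum_apply, Pi.single_apply]
  conv_lhs => rw [this]
  rw [map_sum]
  exact Finset.sum_congr rfl fun a _ => by rw [map_smul]; rfl

theorem second (f : E n → ℝ) (hf : ContDiff ℝ 2 f) (y ξ ζ : E n) :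
    iteratedDeriv 2 (fun r : ℝ => f (y + r • ξ + r ^ 2 • ζ)) 0 =
      (∑ a, ∑ b, ξ a * ξ b * pd b (fun z => pd a f z) y) + 2 * ∑ a, ζ a * pd a f y := by
  have hc : ∀ r : ℝ, HasDerivAt (fun r : ℝ => y + r • ξ + r ^ 2 • ζ) (ξ + (2 * r) • ζ) r := by
    intro r
    have h1 : HasDerivAt (fun r : ℝ => r • ξ) ((1 : ℝ) • ξ) r := (hasDerivAt_id r).smul_const ξ
    have h2 : HasDerivAt (fun r : ℝ => r ^ 2 • ζ) ((2 * r) • ζ) r := by
      have := (hasDerivAt_pow 2 r).smul_const ζ
      simpa using this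
    have := (h1.const_add y).add h2
    rw [one_smul] at this
    exact this
  have hch : ∀ (k : E n → ℝ), Differentiable ℝ k → ∀ r : ℝ,
      HasDerivAt (fun r : ℝ => k (y + r • ξ + r ^ 2 • ζ))
        (∑ a, (ξ + (2 * r) • ζ) a * pd a k (y + r • ξ + r ^ 2 • ζ)) r := by
    intro k hk r
    have := (hk (y + r • ξ + r ^ 2 • ζ)).hasFDerivAt.comp_hasDerivAt r (hc r)
    rwa [fderiv_eq_sum] at this
  have hfd : Differentiable ℝ f := hf.differentiable (by simp)
  have hpd : ∀ a, Differentiable ℝ (fun z => pd a f z) := fun a =>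
    (Bridge.contDiff_pd hf (k := 1) (by norm_num) a).differentiable (by simp)
  have hd1 : deriv (fun r : ℝ => f (y + r • ξ + r ^ 2 • ζ)) =
      fun r => ∑ a, (ξ + (2 * r) • ζ) a * pd a f (y + r • ξ + r ^ 2 • ζ) :=
    funext fun r => (hch f hfd r).deriv
  rw [iteratedDeriv_succ, iteratedDeriv_one, hd1]
  have hd2 : HasDerivAt (fun r : ℝ => ∑ a, (ξ + (2 * r) • ζ) a * pd a f (y + r • ξ + r ^ 2 • ζ))
      (∑ a, ((2 * ζ a) * pd a f (y + (0 : ℝ) • ξ + (0 : ℝ) ^ 2 • ζ) +
        (ξ + (2 * (0 : ℝ)) • ζ) a * ∑ b, (ξ + (2 * (0 : ℝ)) • ζ) b *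
          pd b (fun z => pd a f z) (y + (0 : ℝ) • ξ + (0 : ℝ) ^ 2 • ζ))) 0 := by
    refine HasDerivAt.fun_sum fun a _ => ?_
    refine HasDerivAt.mul ?_ (hch _ (hpd a) 0)
    have h3 : HasDerivAt (fun r : ℝ => ξ a + (2 * r) * ζ a) (2 * ζ a) 0 := by
      have := (((hasDerivAt_id (0 : ℝ)).const_mul 2).mul_const (ζ a)).const_add (ξ a)
      simpa using this
    exact h3
  rw [hd2.deriv]
  simp only [zero_smul, add_zero, mul_zero, ne_eq, OfNat.ofNat_ne_zero, not_false_eq_true, zero_pow]
  rw [Finset.sum_add_distrib, Finset.mul_sum, add_comm]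
  congr 1
  · refine Finset.sum_congr rfl fun a _ => ?_
    rw [Finset.mul_sum]
    exact Finset.sum_congr rfl fun b _ => by ring
  · exact Finset.sum_congr rfl fun a _ => by ring

theorem main : SpecMaps := by
  intro n Γ _ _ G h hG
  obtain ⟨m, χ, h1, h2, -, h4, h5⟩ := Frame1.bumps h
  have hM := Bridge.metricOn hG.smooth hG.pos
  have hinv : ∀ i j, ContDiff ℝ ∞ fun x => (G x)⁻¹ i j := fun i j =>
    contDiff_iff_contDiffAt.2 fun x => hM.sm_inv isOpen_univ (Set.mem_univ x) i j
  have hchr : ∀ k i j, ContDiff ℝ ∞ fun x => chr G x k i j := fun k i j =>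
    contDiff_iff_contDiffAt.2 fun x => hM.sm_christoffel isOpen_univ (Set.mem_univ x) k i j
  obtain ⟨v, hv, hv'⟩ := factor n (fun x => (G x)⁻¹) hinv fun x => (hG.pos x).inv
  have hsy : ∀ x i j, (G x)⁻¹ i j = (G x)⁻¹ j i := fun x i j =>
    hM.inv_symm (Set.mem_univ x) i j
  -- the index type
  let I := Fin m × Option (Fin n)
  let ξ : I → E n → E n := fun a y => match a.2 with
    | none => 0
    | some k => (√2 * χ a.1 y) • v k y
  let ζ : I → E n → E n := fun a y => match a.2 with
    | none => fun k => -(χ a.1 y ^ 2 * ∑ i, ∑ j, (G y)⁻¹ i j * chr G y k i j)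
    | some _ => 0
  have hd : ∀ a : I, Dat n Γ (χ a.1) (ξ a) (ζ a) := by
    rintro ⟨i, k⟩
    refine ⟨h2 i, fun γ y => h4 i γ y, ?_, ?_, ?_, ?_⟩
    · cases k with
      | none => exact contDiff_const
      | some k => exact (contDiff_const.mul (h1 i)).smul (contDiff_pi.2 fun j => hv k j)
    · cases k with
      | none =>
        refine contDiff_pi.2 fun k => (((h1 i).pow 2).mul ?_).neg
        exact ContDiff.sum fun a _ => ContDiff.sum fun b _ => (hinv a b).mul (hchr k a b)
      | some k => exact contDiff_const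
    · intro y hy
      cases k with
      | none => rfl
      | some k => simp only [ξ]; simp only at hy; rw [hy]; simp
    · intro y hy
      cases k with
      | none => funext j; simp only [ζ]; simp only at hy; rw [hy]; simp
      | some k => rfl
  have hgen : ∀ f : E n → ℝ, ContDiff ℝ 2 f → ∀ x,
      ∑ a : I, iteratedDeriv 2 (fun r => f (ph Γ (ξ a) (ζ a) r x)) 0 = 2 * lap G f x := by
    intro f hf x
    have key : ∀ i : Fin m, ∑ k : Option (Fin n),
        iteratedDeriv 2 (fun r => f (ph Γ (ξ (i, k)) (ζ (i, k)) r x)) 0 =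
          2 * (∑ᶠ γ : Γ, χ i (γ⁻¹ • x) ^ 2) * lap G f x := by
      intro i
      by_cases h0 : ∀ γ : Γ, χ i (γ⁻¹ • x) = 0
      · have e1 : ∑ᶠ γ : Γ, χ i (γ⁻¹ • x) ^ 2 = 0 := by
          rw [finsum_congr fun γ => by rw [h0 γ], zero_pow two_ne_zero, finsum_zero]
        rw [e1, mul_zero, zero_mul]
        refine Finset.sum_eq_zero fun k _ => ?_
        have : (fun r => f (ph Γ (ξ (i, k)) (ζ (i, k)) r x)) = fun _ => f x :=
          funext fun r => by rw [(hd (i, k)).ph_of_eq r x h0]
        rw [this, iteratedDeriv_const]; simp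
      · push Not at h0
        obtain ⟨γ, hγ⟩ := h0
        set y := γ⁻¹ • x with hy
        have hxy : γ • y = x := by rw [hy, smul_inv_smul]
        have e1 : ∑ᶠ γ : Γ, χ i (γ⁻¹ • x) ^ 2 = χ i y ^ 2 := by
          refine finsum_eq_single _ γ fun g hg => ?_
          by_contra h3
          apply hg
          have h3' : χ i (g⁻¹ • x) ≠ 0 := fun h0 => h3 (by rw [h0, zero_pow two_ne_zero])
          have := h4 i (g⁻¹ * γ) y hγ (by rw [mul_smul, hxy]; exact h3')
          exact inv_mul_eq_one.1 this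
        have hf' : ContDiff ℝ 2 fun z => f (γ • z) :=
          hf.comp ((h.smooth γ).of_le ENat.LEInfty.out)
        have e2 : ∀ k, iteratedDeriv 2 (fun r => f (ph Γ (ξ (i, k)) (ζ (i, k)) r x)) 0 =
            (∑ a, ∑ b, ξ (i, k) y a * ξ (i, k) y b * pd b (fun z => pd a (fun z => f (γ • z)) z) y)
              + 2 * ∑ a, ζ (i, k) y a * pd a (fun z => f (γ • z)) y := by
          intro k
          rw [← second (fun z => f (γ • z)) hf' y (ξ (i, k) y) (ζ (i, k) y)]
          congr 1
          funext r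
          rw [(hd (i, k)).ph_of_ne r x γ hγ]
          rfl
        rw [Finset.sum_congr rfl fun k _ => e2 k, Fintype.sum_option, e1, ← hxy,
          ← Bridge.lap_comp h hG γ f hf y]
        set q := fun z => f (γ • z) with hq
        have e3 : (∑ a, ∑ b, ξ (i, none) y a * ξ (i, none) y b * pd b (fun z => pd a q z) y) +
            2 * ∑ a, ζ (i, none) y a * pd a q y =
            - (2 * χ i y ^ 2 * ∑ k, ∑ a, ∑ b, (G y)⁻¹ a b * chr G y k a b * pd k q y) := by
          have z1 : ∀ a, ξ (i, none) y a = 0 := fun a => rfl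
          simp only [z1, zero_mul, Finset.sum_const_zero, zero_add]
          rw [Finset.mul_sum, Finset.mul_sum, ← Finset.sum_neg_distrib]
          refine Finset.sum_congr rfl fun k _ => ?_
          have z2 : ζ (i, none) y k = -(χ i y ^ 2 * ∑ i, ∑ j, (G y)⁻¹ i j * chr G y k i j) := rfl
          rw [z2]
          have z3 : ∑ a, ∑ b, (G y)⁻¹ a b * chr G y k a b * pd k q y =
              (∑ a, ∑ b, (G y)⁻¹ a b * chr G y k a b) * pd k q y := by
            rw [Finset.sum_mul]
            exact Finset.sum_congr rfl fun a _ => by rw [Finset.sum_mul]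
          rw [z3]; ring
        have e4 : ∑ k : Fin n, ((∑ a, ∑ b, ξ (i, some k) y a * ξ (i, some k) y b *
              pd b (fun z => pd a q z) y) + 2 * ∑ a, ζ (i, some k) y a * pd a q y) =
            2 * χ i y ^ 2 * ∑ a, ∑ b, (G y)⁻¹ a b * pd a (fun z => pd b q z) y := by
          have z1 : ∀ k a, ζ (i, some k) y a = 0 := fun k a => rfl
          have z2 : ∀ k a, ξ (i, some k) y a = √2 * χ i y * v k y a := fun k a => rfl
          simp only [z1, z2, zero_mul, Finset.sum_const_zero, mul_zero, add_zero]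
          calc ∑ k : Fin n, ∑ a, ∑ b, √2 * χ i y * v k y a * (√2 * χ i y * v k y b) *
                pd b (fun z => pd a q z) y
              = ∑ k : Fin n, ∑ a, ∑ b, 2 * χ i y ^ 2 * ((v k y a * v k y b) *
                pd b (fun z => pd a q z) y) := by
                refine Finset.sum_congr rfl fun k _ => Finset.sum_congr rfl fun a _ =>
                  Finset.sum_congr rfl fun b _ => ?_
                have : √2 * √2 = (2 : ℝ) := Real.mul_self_sqrt (by norm_num)
                calc _ = (√2 * √2) * (χ i y ^ 2 * ((v k y a * v k y b) *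
                    pd b (fun z => pd a q z) y)) := by ring
                  _ = _ := by rw [this]; ring
            _ = 2 * χ i y ^ 2 * ∑ k : Fin n, ∑ a, ∑ b, ((v k y a * v k y b) *
                pd b (fun z => pd a q z) y) := by
                simp only [Finset.mul_sum]
            _ = 2 * χ i y ^ 2 * ∑ a, ∑ b, ∑ k : Fin n, ((v k y a * v k y b) *
                pd b (fun z => pd a q z) y) := by
                congr 1
                rw [Finset.sum_comm]
                exact Finset.sum_congr rfl fun a _ => Finset.sum_comm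
            _ = 2 * χ i y ^ 2 * ∑ a, ∑ b, (G y)⁻¹ a b * pd b (fun z => pd a q z) y := by
                congr 1
                refine Finset.sum_congr rfl fun a _ => Finset.sum_congr rfl fun b _ => ?_
                rw [← Finset.sum_mul, ← hv' y a b]
            _ = _ := by
                congr 1
                rw [Finset.sum_comm]
                exact Finset.sum_congr rfl fun a _ => Finset.sum_congr rfl fun b _ => by
                  rw [hsy y b a]
        rw [e3, e4]
        have e5 : lap G q y = (∑ a, ∑ b, (G y)⁻¹ a b * pd a (fun z => pd b q z) y) -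
            ∑ k, ∑ a, ∑ b, (G y)⁻¹ a b * chr G y k a b * pd k q y := by
          have : ∑ k, ∑ a, ∑ b, (G y)⁻¹ a b * chr G y k a b * pd k q y =
              ∑ a, ∑ b, (G y)⁻¹ a b * ∑ k, chr G y k a b * pd k q y := by
            rw [Finset.sum_comm]
            refine Finset.sum_congr rfl fun a _ => ?_
            rw [Finset.sum_comm]
            refine Finset.sum_congr rfl fun b _ => ?_
            rw [Finset.mul_sum]
            exact Finset.sum_congr rfl fun k _ => by ring
          rw [this, lap, ← Finset.sum_sub_distrib]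
          refine Finset.sum_congr rfl fun a _ => ?_
          rw [← Finset.sum_sub_distrib]
          exact Finset.sum_congr rfl fun b _ => by rw [mul_sub]
        rw [e5]; ring
    rw [Fintype.sum_prod_type, Finset.sum_congr rfl fun i _ => key i, ← Finset.sum_mul,
      ← Finset.mul_sum, h5 x, mul_one]
  have hm : 0 < m := by
    rcases Nat.eq_zero_or_pos m with h0 | h0
    · exfalso
      subst h0
      have := h5 0
      simp at this
    · exact h0
  refine ⟨Fintype.card I, Fintype.card_pos_iff.2 ⟨(⟨0, hm⟩, none)⟩, ⟨?_⟩⟩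
  let e := (Fintype.equivFin I).symm
  exact
    { φ := fun a r x => ph Γ (ξ (e a)) (ζ (e a)) r x
      smooth := fun a => (hd (e a)).smooth h
      zero := fun a x => (hd (e a)).ph_zero x
      equi := fun a r γ x => (hd (e a)).ph_equi r γ x
      gen := fun f hf x => by
        rw [← hgen f hf x]
        exact e.sum_comp fun a => iteratedDeriv 2 (fun r => f (ph Γ (ξ a) (ζ a) r x)) 0 }

end Vale.Agent.P223.H.B2
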