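import Vale.Agent.P223.H.Spec

/-! Block 3d: the discrete heat flow (from frames, weights, maps and their estimates). -/

namespace Vale.Agent.P223.H.B3d

open scoped ContDiff

variable {n : ℕ} {Γ : Type} [Group Γ] [MulAction Γ (E n)]
  {G : E n → Matrix (Fin n) (Fin n) ℝ} {N : ℕ}

/-! ### Elementary properties of the averaging operator -/

theorem P_mono (M : Maps n Γ G N) (ε : ℝ) {f g : E n → ℝ} (h : ∀ y, f y ≤ g y) (x : E n) :
    M.P ε f x ≤ M.P ε g x := by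
  unfold Maps.P
  refine mul_le_mul_of_nonneg_left (Finset.sum_le_sum fun a _ => ?_) (by positivity)
  have h1 := h (M.φ a ε x)
  have h2 := h (M.φ a (-ε) x)
  linarith

theorem P_smul (M : Maps n Γ G N) (ε c : ℝ) (f : E n → ℝ) (x : E n) :
    M.P ε (fun y => c * f y) x = c * M.P ε f x := by
  unfold Maps.P
  simp only [Finset.mul_sum]
  refine Finset.sum_congr rfl fun a _ => ?_
  ring

theorem P_const (hN : 0 < N) (M : Maps n Γ G N) (ε c : ℝ) (x : E n) :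
    M.P ε (fun _ => c) x = c := by
  unfold Maps.P
  have : (N : ℝ) ≠ 0 := by positivity
  simp only [Finset.sum_const, Finset.card_univ, Fintype.card_fin, nsmul_eq_mul]
  field_simp
  ring

theorem smooth_φ (M : Maps n Γ G N) (a : Fin N) (r : ℝ) : ContDiff ℝ ∞ (fun x => M.φ a r x) :=
  (M.smooth a).comp (contDiff_const.prodMk contDiff_id)

theorem P_contDiff (M : Maps n Γ G N) (ε : ℝ) {k : WithTop ℕ∞} (hk : k ≤ ∞) {f : E n → ℝ}
    (hf : ContDiff ℝ k f) : ContDiff ℝ k (M.P ε f) := by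
  unfold Maps.P
  refine contDiff_const.mul (ContDiff.sum fun a _ => ContDiff.div_const ?_ _)
  exact (hf.comp ((smooth_φ M a ε).of_le hk)).add (hf.comp ((smooth_φ M a (-ε)).of_le hk))

theorem P_sum (hN : 0 < N) (M : Maps n Γ G N) (ε : ℝ) {f : E n → ℝ}
    (hf : ∀ x, HasSum (fun γ : Γ => f (γ • x)) 1) (x : E n) :
    HasSum (fun γ : Γ => M.P ε f (γ • x)) 1 := by
  have h1 : HasSum (fun γ : Γ => (N : ℝ)⁻¹ *
      ∑ a, (f (γ • M.φ a ε x) + f (γ • M.φ a (-ε) x)) / 2)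
      ((N : ℝ)⁻¹ * ∑ _a : Fin N, ((1 : ℝ) + 1) / 2) := by
    refine HasSum.mul_left _ (hasSum_sum fun a _ => HasSum.div_const ?_ _)
    exact (hf (M.φ a ε x)).add (hf (M.φ a (-ε) x))
  have h2 : (N : ℝ)⁻¹ * ∑ _a : Fin N, ((1 : ℝ) + 1) / 2 = 1 := by
    have : (N : ℝ) ≠ 0 := by positivity
    simp only [Finset.sum_const, Finset.card_univ, Fintype.card_fin, nsmul_eq_mul]
    field_simp
    norm_num
  rw [h2] at h1
  refine h1.congr_fun ?_
  intro γ
  unfold Maps.P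
  simp only [M.equi]

/-- comparison of the weights at `x` and `φ(r, x)` -/
theorem harnack_maps (h : Act n Γ) {W : E n → ℝ} (hW : Wt n Γ G W) (M : Maps n Γ G N) :
    ∃ H : ℝ, 1 ≤ H ∧ ∀ a (r : ℝ) x, |r| ≤ 1 → W (M.φ a r x) ≤ H * W x ∧
      W x ≤ H * W (M.φ a r x) := by
  obtain ⟨K, hK, hK'⟩ := h.cocompact
  set K' : Set (E n) := K ∪ ⋃ a : Fin N, (fun p : ℝ × E n => M.φ a p.1 p.2) ''
    (Set.Icc (-1) 1 ×ˢ K) with hK'def
  have hcK' : IsCompact K' := hK.union (isCompact_iUnion fun a =>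
    (isCompact_Icc.prod hK).image (M.smooth a).continuous)
  obtain ⟨C, hC⟩ := hW.harnack K' hcK'
  refine ⟨max C 1, le_max_right _ _, fun a r x hr => ?_⟩
  obtain ⟨γ, hγ⟩ := hK' x
  have hy : γ • x ∈ K' := Or.inl hγ
  have hz : M.φ a r (γ • x) ∈ K' :=
    Or.inr (Set.mem_iUnion.2 ⟨a, (r, γ • x), ⟨abs_le.1 hr, hγ⟩, rfl⟩)
  have ex : x = γ⁻¹ • γ • x := by simp
  have ez : M.φ a r x = γ⁻¹ • M.φ a r (γ • x) := by rw [M.equi]; simp
  have h1 := hC γ⁻¹ _ hz _ hy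
  have h2 := hC γ⁻¹ _ hy _ hz
  rw [← ez, ← ex] at h1 h2
  exact ⟨h1.trans (mul_le_mul_of_nonneg_right (le_max_left _ _) (hW.pos _).le),
    h2.trans (mul_le_mul_of_nonneg_right (le_max_left _ _) (hW.pos _).le)⟩

theorem one_sub_ge {t : ℝ} (h0 : 0 ≤ t) (h1 : t ≤ 1 / 2) : Real.exp (-(2 * t)) ≤ 1 - t := by
  have h2 : 1 + 2 * t ≤ Real.exp (2 * t) := by linarith [Real.add_one_le_exp (2 * t)]
  rw [Real.exp_neg, inv_le_iff_one_le_mul₀ (Real.exp_pos _)]
  nlinarith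

section
variable {J : Type} [Fintype J] {Fr : Frame n Γ J} {M : Maps n Γ G N}

/-- one step applied to a positive function with controlled jets -/
theorem one_step (CC CB : ℝ) (hCC : 0 < CC) (hCB : 0 < CB)
    (hcons : ∀ ε : ℝ, 0 < ε → ε ≤ 1 → ∀ f : E n → ℝ, ContDiff ℝ 4 f → ∀ (x : E n) (B : ℝ), 0 ≤ B →
      (∀ a (r : ℝ), |r| ≤ ε → jet Fr f (M.φ a r x) ≤ B ^ 2) →
      |M.P ε f x - f x - ε ^ 2 * (N : ℝ)⁻¹ * lap G f x| ≤ CC * ε ^ 3 * B)
    (hlap : ∀ f : E n → ℝ, ContDiff ℝ 4 f → ∀ x, lap G f x ^ 2 ≤ CB * jet Fr f x)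
    (u : E n → ℝ) (hu : ContDiff ℝ 4 u) (hu0 : ∀ x, 0 < u x) (a b : ℝ) (ha : 0 < a) (hb : 0 < b)
    (hj : ∀ x, jet Fr u x ≤ (a * u x) ^ 2)
    (hm : ∀ i (r : ℝ) x, |r| ≤ 1 → u (M.φ i r x) ≤ b * u x) :
    ∃ K : ℝ, 0 < K ∧ ∀ ε : ℝ, 0 < ε → ε ≤ 1 → ∀ x, |M.P ε u x - u x| ≤ K * ε ^ 2 * u x := by
  refine ⟨(N : ℝ)⁻¹ * ((CB + 1) * a) + CC * (a * b), by positivity, fun ε hε hε1 x => ?_⟩
  have hx := hu0 x
  have hε3 : ε ^ 3 ≤ ε ^ 2 := pow_le_pow_of_le_one hε.le hε1 (by norm_num)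
  have hl : |lap G u x| ≤ (CB + 1) * a * u x := by
    refine abs_le_of_sq_le_sq ((hlap u hu x).trans ?_) (by positivity)
    calc CB * jet Fr u x ≤ CB * (a * u x) ^ 2 := mul_le_mul_of_nonneg_left (hj x) hCB.le
      _ ≤ (CB + 1) ^ 2 * (a * u x) ^ 2 := by
          refine mul_le_mul_of_nonneg_right ?_ (sq_nonneg _)
          nlinarith
      _ = _ := by ring
  have hc := hcons ε hε hε1 u hu x (a * b * u x) (by positivity) fun i r hr => ?_
  · have e1 : CC * ε ^ 3 * (a * b * u x) ≤ CC * (a * b) * ε ^ 2 * u x := by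
      have : 0 ≤ CC * (a * b) * u x := by positivity
      nlinarith
    have e2 : |ε ^ 2 * (N : ℝ)⁻¹ * lap G u x| ≤ (N : ℝ)⁻¹ * ((CB + 1) * a) * ε ^ 2 * u x := by
      rw [abs_mul, abs_of_nonneg (by positivity : 0 ≤ ε ^ 2 * (N : ℝ)⁻¹)]
      calc ε ^ 2 * (N : ℝ)⁻¹ * |lap G u x| ≤ ε ^ 2 * (N : ℝ)⁻¹ * ((CB + 1) * a * u x) :=
            mul_le_mul_of_nonneg_left hl (by positivity)
        _ = _ := by ring
    calc |M.P ε u x - u x| = |(M.P ε u x - u x - ε ^ 2 * (N : ℝ)⁻¹ * lap G u x) +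
          ε ^ 2 * (N : ℝ)⁻¹ * lap G u x| := by congr 1; ring
      _ ≤ _ := abs_add_le _ _
      _ ≤ CC * (a * b) * ε ^ 2 * u x + (N : ℝ)⁻¹ * ((CB + 1) * a) * ε ^ 2 * u x :=
          add_le_add (hc.trans e1) e2
      _ = _ := by ring
  · refine (hj _).trans ?_
    have h1 := hm i r x (hr.trans hε1)
    have h2 := (hu0 (M.φ i r x)).le
    refine pow_le_pow_left₀ (by positivity) ?_ 2
    calc a * u (M.φ i r x) ≤ a * (b * u x) := mul_le_mul_of_nonneg_left h1 ha.le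
      _ = _ := by ring

/-- lower bound for one step, uniform in `ε` -/
theorem lower_step (hN : 0 < N) {W : E n → ℝ} (hW : ∀ x, 0 < W x) {H K : ℝ} (hH : 1 ≤ H)
    (hHar : ∀ a (r : ℝ) x, |r| ≤ 1 → W x ≤ H * W (M.φ a r x)) (hK : 0 < K)
    (hPW : ∀ ε : ℝ, 0 < ε → ε ≤ 1 → ∀ x, |M.P ε W x - W x| ≤ K * ε ^ 2 * W x) :
    ∃ L : ℝ, 0 < L ∧ ∀ ε : ℝ, 0 < ε → ε ≤ 1 → ∀ x, Real.exp (-(L * ε ^ 2)) * W x ≤ M.P ε W x := by
  have hH0 : 0 < H := by linarith
  have hlogH : 0 ≤ Real.log H := Real.log_nonneg hH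
  refine ⟨2 * K * (1 + Real.log H), by positivity, fun ε hε hε1 x => ?_⟩
  have hx := hW x
  rcases le_or_gt (K * ε ^ 2) (1 / 2) with hs | hs
  · have h1 : (1 - K * ε ^ 2) * W x ≤ M.P ε W x := by
      have := (abs_le.1 (hPW ε hε hε1 x)).1
      linarith
    refine le_trans ?_ h1
    refine mul_le_mul_of_nonneg_right ?_ hx.le
    refine le_trans (Real.exp_le_exp.2 ?_) (one_sub_ge (by positivity) hs)
    have : 0 ≤ K * Real.log H * ε ^ 2 := by positivity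
    nlinarith
  · have h1 : H⁻¹ * W x ≤ M.P ε W x := by
      have h2 : ∀ a : Fin N, ∀ r : ℝ, |r| ≤ 1 → H⁻¹ * W x ≤ W (M.φ a r x) := by
        intro a r hr
        rw [inv_mul_le_iff₀ hH0]
        exact hHar a r x hr
      have hε' : |ε| ≤ 1 := by rw [abs_of_pos hε]; exact hε1
      have hε'' : |-ε| ≤ 1 := by rw [abs_neg]; exact hε'
      calc H⁻¹ * W x = M.P ε (fun _ => H⁻¹ * W x) x := (P_const hN M ε _ x).symm
        _ ≤ M.P ε W x := by
            unfold Maps.P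
            refine mul_le_mul_of_nonneg_left (Finset.sum_le_sum fun a _ => ?_) (by positivity)
            have h3 := h2 a ε hε'
            have h4 := h2 a (-ε) hε''
            linarith
    refine le_trans ?_ h1
    refine mul_le_mul_of_nonneg_right ?_ hx.le
    have e : H⁻¹ = Real.exp (-Real.log H) := by rw [Real.exp_neg, Real.exp_log hH0]
    rw [e]
    refine Real.exp_le_exp.2 ?_
    have h5 : 0 ≤ (2 * (K * ε ^ 2) - 1) * Real.log H := mul_nonneg (by linarith) hlogH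
    have h6 : 0 < K * ε ^ 2 := by positivity
    nlinarith

/-- the discrete flow -/
noncomputable def flow (M : Maps n Γ G N) (ε : ℝ) (W : E n → ℝ) (k : ℕ) : E n → ℝ :=
  (M.P ε)^[k] W

theorem flow_succ (ε : ℝ) (W : E n → ℝ) (k : ℕ) :
    flow M ε W (k + 1) = M.P ε (flow M ε W k) := Function.iterate_succ_apply' _ _ _

theorem flow_contDiff (ε : ℝ) {W : E n → ℝ} (hW : ContDiff ℝ 4 W) (k : ℕ) :
    ContDiff ℝ 4 (flow M ε W k) := by
  induction k with
  | zero => exact hW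
  | succ k ih => rw [flow_succ]; exact P_contDiff M ε (by norm_cast) ih

theorem flow_sum (hN : 0 < N) (ε : ℝ) {W : E n → ℝ}
    (hW : ∀ x, HasSum (fun γ : Γ => W (γ • x)) 1) (k : ℕ) :
    ∀ x, HasSum (fun γ : Γ => flow M ε W k (γ • x)) 1 := by
  induction k with
  | zero => exact hW
  | succ k ih => rw [flow_succ]; exact P_sum hN M ε ih

theorem flow_lower {W : E n → ℝ} {L ε : ℝ}
    (h : ∀ x, Real.exp (-(L * ε ^ 2)) * W x ≤ M.P ε W x) (k : ℕ) :
    ∀ x, Real.exp (-(L * (k * ε ^ 2))) * W x ≤ flow M ε W k x := by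
  induction k with
  | zero =>
    intro x
    show Real.exp (-(L * (((0 : ℕ) : ℝ) * ε ^ 2))) * W x ≤ W x
    simp
  | succ k ih =>
    intro x
    rw [flow_succ]
    calc Real.exp (-(L * (((k + 1 : ℕ) : ℝ) * ε ^ 2))) * W x
        = Real.exp (-(L * (k * ε ^ 2))) * (Real.exp (-(L * ε ^ 2)) * W x) := by
          have e : -(L * (((k + 1 : ℕ) : ℝ) * ε ^ 2)) = -(L * (k * ε ^ 2)) + -(L * ε ^ 2) := by
            push_cast
            ring
          rw [e, Real.exp_add, mul_assoc]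
      _ ≤ Real.exp (-(L * (k * ε ^ 2))) * M.P ε W x :=
          mul_le_mul_of_nonneg_left (h x) (Real.exp_pos _).le
      _ = M.P ε (fun y => Real.exp (-(L * (k * ε ^ 2))) * W y) x := (P_smul _ _ _ _ _).symm
      _ ≤ _ := P_mono M ε ih x

theorem flow_jet (hN : 0 < N) {W U : E n → ℝ} (hU : ∀ x, 0 < U x) {ε CQ K D : ℝ} (hCQ : 0 < CQ)
    (hD : 0 < D) (hWs : ContDiff ℝ 4 W)
    (hQC : ∀ f : E n → ℝ, ContDiff ℝ 4 f → ∀ x,
      jet Fr (M.P ε f) x ≤ (1 + CQ * ε ^ 2) * M.P ε (jet Fr f) x)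
    (hPU : ∀ x, |M.P ε U x - U x| ≤ K * ε ^ 2 * U x)
    (hW : ∀ x, jet Fr W x ≤ D * U x) (k : ℕ) :
    ∀ x, jet Fr (flow M ε W k) x ≤ (Real.exp ((CQ + K) * (k * ε ^ 2)) * D) * U x := by
  induction k with
  | zero =>
    intro x
    show jet Fr W x ≤ (Real.exp ((CQ + K) * (((0 : ℕ) : ℝ) * ε ^ 2)) * D) * U x
    simpa using hW x
  | succ k ih =>
    intro x
    rw [flow_succ]
    have hx := hU x
    have b1 : 1 + CQ * ε ^ 2 ≤ Real.exp (CQ * ε ^ 2) := by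
      linarith [Real.add_one_le_exp (CQ * ε ^ 2)]
    have b2 : M.P ε U x ≤ Real.exp (K * ε ^ 2) * U x := by
      have h1 := (abs_le.1 (hPU x)).2
      have h2 : 1 + K * ε ^ 2 ≤ Real.exp (K * ε ^ 2) := by
        linarith [Real.add_one_le_exp (K * ε ^ 2)]
      calc M.P ε U x ≤ (1 + K * ε ^ 2) * U x := by linarith
        _ ≤ _ := mul_le_mul_of_nonneg_right h2 hx.le
    have b3 : 0 ≤ M.P ε U x := by
      have := P_mono M ε (f := fun _ => 0) (fun y => (hU y).le) x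
      rwa [P_const hN] at this
    calc jet Fr (M.P ε (flow M ε W k)) x
        ≤ (1 + CQ * ε ^ 2) * M.P ε (jet Fr (flow M ε W k)) x :=
          hQC (flow M ε W k) (flow_contDiff ε hWs k) x
      _ ≤ (1 + CQ * ε ^ 2) * M.P ε (fun y =>
            (Real.exp ((CQ + K) * (k * ε ^ 2)) * D) * U y) x :=
          mul_le_mul_of_nonneg_left (P_mono M ε ih x) (by positivity)
      _ = (1 + CQ * ε ^ 2) * ((Real.exp ((CQ + K) * (k * ε ^ 2)) * D) * M.P ε U x) := by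
          rw [P_smul]
      _ ≤ Real.exp (CQ * ε ^ 2) * ((Real.exp ((CQ + K) * (k * ε ^ 2)) * D) *
            (Real.exp (K * ε ^ 2) * U x)) :=
          mul_le_mul b1 (mul_le_mul_of_nonneg_left b2 (by positivity)) (by positivity)
            (Real.exp_pos _).le
      _ = (Real.exp (CQ * ε ^ 2) * Real.exp ((CQ + K) * (k * ε ^ 2)) *
            Real.exp (K * ε ^ 2)) * D * U x := by ring
      _ = _ := by
          rw [← Real.exp_add, ← Real.exp_add]
          congr 3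
          push_cast
          ring

/-- the bounds for a single time slice -/
theorem mk_step {W v : E n → ℝ} {CB S A q : ℝ} (hW : ∀ x, 0 < W x) (hCB : 0 < CB) (hS : 1 ≤ S)
    (hbdd : ∀ x, v x ^ 2 ≤ jet Fr v x ∧ gradSq G v x ≤ CB * jet Fr v x ∧
      gradSq G (fun y => gradSq G v y) x ≤ CB * jet Fr v x ^ 2 ∧
      lap G v x ^ 2 ≤ CB * jet Fr v x ∧ gradSq G (fun y => lap G v y) x ≤ CB * jet Fr v x)
    (hv : ContDiff ℝ 4 v) (hsum : ∀ x, HasSum (fun γ : Γ => v (γ • x)) 1)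
    (hq : 0 < q) (hlow : ∀ x, W x ≤ q * v x) (hjet : ∀ x, jet Fr v x ≤ (S * W x) ^ 2)
    (hA1 : q ≤ A) (hA2 : (CB + 1) * S ^ 2 ≤ A) : Step n Γ G W A v := by
  have hS0 : 0 < S := by linarith
  have hSS : S ≤ S ^ 2 := by nlinarith
  have hA4 : (CB + 1) * S ≤ A := (mul_le_mul_of_nonneg_left hSS (by positivity)).trans hA2
  have hA5 : S ≤ A := by
    refine le_trans ?_ hA4
    nlinarith
  have hCB2 : CB ≤ (CB + 1) ^ 2 := by nlinarith
  have hsq : ∀ (a s t : ℝ), 0 ≤ s → s ≤ t → 0 ≤ a → (s * a) ^ 2 ≤ (t * a) ^ 2 := by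
    intro a s t hs hst ha
    exact pow_le_pow_left₀ (by positivity) (mul_le_mul_of_nonneg_right hst ha) 2
  have hj0 : ∀ x, 0 ≤ jet Fr v x := fun x => (sq_nonneg _).trans (hbdd x).1
  have key : ∀ x, CB * jet Fr v x ≤ (A * W x) ^ 2 := by
    intro x
    calc CB * jet Fr v x ≤ (CB + 1) ^ 2 * (S * W x) ^ 2 :=
          mul_le_mul hCB2 (hjet x) (hj0 x) (by positivity)
      _ = ((CB + 1) * S * W x) ^ 2 := by ring
      _ ≤ (A * W x) ^ 2 := hsq _ _ _ (by positivity) hA4 (hW x).le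
  refine ⟨hv, fun x => ?_, fun x => ?_, fun x => ?_, fun x => ?_, fun x => ?_, fun x => ?_, hsum⟩
  · have h1 := hlow x
    have hvp : 0 < v x := by
      by_contra hc
      have := hW x
      nlinarith
    exact h1.trans (mul_le_mul_of_nonneg_right hA1 hvp.le)
  · have hx := hW x
    have h2 := abs_le_of_sq_le_sq ((hbdd x).1.trans (hjet x)) (by positivity)
    exact (le_abs_self _).trans (h2.trans (mul_le_mul_of_nonneg_right hA5 hx.le))
  · exact (hbdd x).2.1.trans (key x)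
  · have hx := hW x
    calc gradSq G (fun y => gradSq G v y) x ≤ CB * jet Fr v x ^ 2 := (hbdd x).2.2.1
      _ ≤ (CB + 1) ^ 2 * ((S * W x) ^ 2) ^ 2 :=
          mul_le_mul hCB2 (pow_le_pow_left₀ (hj0 x) (hjet x) 2) (by positivity) (by positivity)
      _ = ((CB + 1) * S ^ 2 * W x ^ 2) ^ 2 := by ring
      _ ≤ (A * W x ^ 2) ^ 2 := hsq _ _ _ (by positivity) hA2 (by positivity)
  · have hx := hW x
    have hA0 : 0 < A := lt_of_lt_of_le hS0 hA5
    exact abs_le_of_sq_le_sq ((hbdd x).2.2.2.1.trans (key x)) (by positivity)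
  · exact (hbdd x).2.2.2.2.trans (key x)

end

theorem main (h1 : SpecFrame) (h2 : SpecWeight) (h3 : SpecMaps) (h4 : SpecQC) (h5 : SpecCons)
    (h6 : SpecBdd) : SpecFlow := by
  intro n Γ _ _ G hΓ hG
  obtain ⟨J, hJ, ⟨Fr⟩⟩ := h1 n Γ hΓ
  obtain ⟨W, U, C', hW, hUs, hU, hjW', hjU', hUW', hWU'⟩ := h2 n Γ G J Fr hΓ hG
  obtain ⟨N, hN, ⟨M⟩⟩ := h3 n Γ G hΓ hG
  obtain ⟨CQ, hCQ, hQC⟩ := h4 n Γ G J Fr N M hΓ hN
  obtain ⟨CC, hCC, hcons⟩ := h5 n Γ G J Fr N M hΓ hG hN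
  obtain ⟨CB, hCB, hbdd⟩ := h6 n Γ G J Fr hΓ hG
  obtain ⟨H, hH, hHar⟩ := harnack_maps hΓ hW M
  have hc₀ : (0 : ℝ) < (N : ℝ)⁻¹ := by positivity
  refine ⟨W, (N : ℝ)⁻¹, hW, hc₀, fun T hT => ?_⟩
  obtain ⟨C, hC1, hjW, hjU, hUW, hWU⟩ : ∃ C : ℝ, 1 ≤ C ∧ (∀ x, jet Fr W x ≤ C * W x ^ 2) ∧
      (∀ x, jet Fr U x ≤ C * U x ^ 2) ∧ (∀ x, U x ≤ C * W x ^ 2) ∧
      (∀ x, W x ^ 2 ≤ C * U x) := by
    refine ⟨max C' 1, le_max_right _ _, fun x => ?_, fun x => ?_, fun x => ?_, fun x => ?_⟩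
    · exact (hjW' x).trans (mul_le_mul_of_nonneg_right (le_max_left _ _) (sq_nonneg _))
    · exact (hjU' x).trans (mul_le_mul_of_nonneg_right (le_max_left _ _) (sq_nonneg _))
    · exact (hUW' x).trans (mul_le_mul_of_nonneg_right (le_max_left _ _) (sq_nonneg _))
    · exact (hWU' x).trans (mul_le_mul_of_nonneg_right (le_max_left _ _) (hU x).le)
  have hC0 : 0 < C := by linarith
  have hH0 : 0 < H := by linarith
  have hCC2 : C ≤ C ^ 2 := by nlinarith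
  have hWs : ContDiff ℝ 4 W := hW.smooth.of_le (by norm_cast)
  have hUs4 : ContDiff ℝ 4 U := hUs.of_le (by norm_cast)
  have hcons1 := fun ε hε hε1 f hf x B hB hj => (hcons ε hε hε1 f hf x B hB hj).1
  have hlap := fun f hf x => (hbdd f hf x).2.2.2.1
  obtain ⟨K1, hK1, hPW⟩ := one_step CC CB hCC hCB hcons1 hlap W hWs hW.pos C H hC0 hH0
    (fun x => by
      calc jet Fr W x ≤ C * W x ^ 2 := hjW x
        _ ≤ C ^ 2 * W x ^ 2 := mul_le_mul_of_nonneg_right hCC2 (sq_nonneg _)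
        _ = _ := by ring)
    (fun i r x hr => (hHar i r x hr).1)
  obtain ⟨K2, hK2, hPU⟩ := one_step CC CB hCC hCB hcons1 hlap U hUs4 hU C (C ^ 2 * H ^ 2) hC0
    (by positivity)
    (fun x => by
      calc jet Fr U x ≤ C * U x ^ 2 := hjU x
        _ ≤ C ^ 2 * U x ^ 2 := mul_le_mul_of_nonneg_right hCC2 (sq_nonneg _)
        _ = _ := by ring)
    (fun i r x hr => by
      have h2 := (hW.pos (M.φ i r x)).le
      calc U (M.φ i r x) ≤ C * W (M.φ i r x) ^ 2 := hUW _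
        _ ≤ C * (H * W x) ^ 2 :=
            mul_le_mul_of_nonneg_left (pow_le_pow_left₀ h2 (hHar i r x hr).1 2) hC0.le
        _ = C * H ^ 2 * W x ^ 2 := by ring
        _ ≤ C * H ^ 2 * (C * U x) := mul_le_mul_of_nonneg_left (hWU x) (by positivity)
        _ = _ := by ring)
  obtain ⟨L, hL, hPW'⟩ := lower_step hN hW.pos hH (fun a r x hr => (hHar a r x hr).2) hK1 hPW
  obtain ⟨S, hS⟩ : ∃ S : ℝ, S = Real.exp ((CQ + K2) * T) * C ^ 2 := ⟨_, rfl⟩
  have hexp1 : 1 ≤ Real.exp ((CQ + K2) * T) := Real.one_le_exp (by positivity)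
  have hS1 : 1 ≤ S := by
    rw [hS]
    exact one_le_mul_of_one_le_of_one_le hexp1 (one_le_pow₀ hC1)
  have hS0 : 0 < S := by linarith
  obtain ⟨A, hA1, hA2, hA3⟩ : ∃ A : ℝ, Real.exp (L * T) ≤ A ∧ (CB + 1) * S ^ 2 ≤ A ∧
      CC * (S * H) ≤ A := by
    refine ⟨Real.exp (L * T) + (CB + 1) * S ^ 2 + CC * (S * H), ?_, ?_, ?_⟩
    · have : 0 ≤ (CB + 1) * S ^ 2 + CC * (S * H) := by positivity
      linarith
    · have : 0 ≤ Real.exp (L * T) + CC * (S * H) := by positivity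
      linarith
    · have : 0 ≤ Real.exp (L * T) + (CB + 1) * S ^ 2 := by positivity
      linarith
  have hA0 : 0 < A := lt_of_lt_of_le (Real.exp_pos _) hA1
  have hjet' : ∀ ε : ℝ, 0 < ε → ε ≤ 1 → ∀ k : ℕ, k * ε ^ 2 ≤ T → ∀ x,
      jet Fr (flow M ε W k) x ≤ (S * W x) ^ 2 := by
    intro ε hε hε1 k hk x
    have hx := hW.pos x
    have h1 := flow_jet (D := C ^ 2) hN hU hCQ (by positivity) hWs (hQC ε hε hε1)
      (hPU ε hε hε1) (fun x => by
        calc jet Fr W x ≤ C * W x ^ 2 := hjW x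
          _ ≤ C * (C * U x) := mul_le_mul_of_nonneg_left (hWU x) hC0.le
          _ = _ := by ring) k x
    have h3 : Real.exp ((CQ + K2) * (k * ε ^ 2)) ≤ Real.exp ((CQ + K2) * T) :=
      Real.exp_le_exp.2 (mul_le_mul_of_nonneg_left hk (by positivity))
    calc jet Fr (flow M ε W k) x
        ≤ (Real.exp ((CQ + K2) * (k * ε ^ 2)) * C ^ 2) * U x := h1
      _ ≤ (Real.exp ((CQ + K2) * T) * C ^ 2) * (C * W x ^ 2) :=
          mul_le_mul (mul_le_mul_of_nonneg_right h3 (by positivity)) (hUW x) (hU x).le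
            (by positivity)
      _ = Real.exp ((CQ + K2) * T) * (C ^ 3 * W x ^ 2) := by ring
      _ ≤ Real.exp ((CQ + K2) * T) ^ 2 * (C ^ 4 * W x ^ 2) := by
          refine mul_le_mul ?_ (mul_le_mul_of_nonneg_right ?_ (sq_nonneg _)) (by positivity)
            (by positivity)
          · nlinarith
          · exact pow_le_pow_right₀ hC1 (by norm_num)
      _ = _ := by rw [hS]; ring
  refine ⟨A, hA0, fun ε hε hε1 => ⟨flow M ε W, rfl, fun k hk => ?_, fun k hk x => ?_⟩⟩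
  · have hlow := flow_lower (hPW' ε hε hε1) k
    refine mk_step (Fr := Fr) (CB := CB) (S := S) (q := Real.exp (L * T)) hW.pos hCB hS1
      (hbdd (flow M ε W k) (flow_contDiff ε hWs k)) (flow_contDiff ε hWs k)
      (flow_sum hN ε hW.sum k) (Real.exp_pos _) (fun x => ?_) (hjet' ε hε hε1 k hk) hA1 hA2
    have hx := hW.pos x
    have h1 := hlow x
    have hvp : 0 < flow M ε W k x := lt_of_lt_of_le (by positivity) h1
    have e : Real.exp (L * (k * ε ^ 2)) * (Real.exp (-(L * (k * ε ^ 2))) * W x) = W x := by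
      rw [← mul_assoc, ← Real.exp_add]; simp
    have h3 : Real.exp (L * (k * ε ^ 2)) ≤ Real.exp (L * T) :=
      Real.exp_le_exp.2 (mul_le_mul_of_nonneg_left hk hL.le)
    calc W x = Real.exp (L * (k * ε ^ 2)) * (Real.exp (-(L * (k * ε ^ 2))) * W x) := e.symm
      _ ≤ Real.exp (L * (k * ε ^ 2)) * flow M ε W k x :=
          mul_le_mul_of_nonneg_left h1 (Real.exp_pos _).le
      _ ≤ Real.exp (L * T) * flow M ε W k x := mul_le_mul_of_nonneg_right h3 hvp.le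
  · have hx := hW.pos x
    have hc := hcons ε hε hε1 (flow M ε W k) (flow_contDiff ε hWs k) x (S * H * W x)
      (by positivity) fun a r hr => ?_
    · rw [flow_succ]
      refine ⟨hc.1.trans ?_, hc.2.trans ?_⟩
      · calc CC * ε ^ 3 * (S * H * W x) = CC * (S * H) * (ε ^ 3 * W x) := by ring
          _ ≤ A * (ε ^ 3 * W x) := mul_le_mul_of_nonneg_right hA3 (by positivity)
          _ = _ := by ring
      · calc (CC * ε ^ 3 * (S * H * W x)) ^ 2 = (CC * (S * H) * (ε ^ 3 * W x)) ^ 2 := by ring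
          _ ≤ (A * (ε ^ 3 * W x)) ^ 2 := pow_le_pow_left₀ (by positivity)
              (mul_le_mul_of_nonneg_right hA3 (by positivity)) 2
          _ = _ := by ring
    · refine (hjet' ε hε hε1 k hk _).trans ?_
      have h1 := (hHar a r x (hr.trans hε1)).1
      have h2 := (hW.pos (M.φ a r x)).le
      refine pow_le_pow_left₀ (by positivity) ?_ 2
      calc S * W (M.φ a r x) ≤ S * (H * W x) := mul_le_mul_of_nonneg_left h1 hS0.le
        _ = _ := by ring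

end Vale.Agent.P223.H.B3d
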