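import Vale.Agent.P223.H.Grad
import Mathlib.Analysis.Calculus.LineDeriv.IntegrationByParts
import Mathlib.MeasureTheory.Integral.DominatedConvergence

/-! Block 5a: integration by parts with cutoff functions. -/

namespace Vale.Agent.P223.H.IBP

open scoped ContDiff Matrix
open MeasureTheory Filter Topology Common

variable {n : ℕ} {Γ : Type} [Group Γ] [MulAction Γ (E n)] {G : E n → Matrix (Fin n) (Fin n) ℝ}

theorem contDiff_det (hG : Met n Γ G) : ContDiff ℝ ∞ (fun x => (G x).det) := by
  simp only [Matrix.det_apply']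
  exact ContDiff.sum fun σ _ => contDiff_const.mul (contDiff_prod fun i _ => hG.smooth _ _)

theorem contDiff_dens (hG : Met n Γ G) : ContDiff ℝ ∞ (dens G) :=
  (contDiff_det hG).sqrt fun x => (hG.pos x).det_pos.ne'

/-- Cauchy-Schwarz for the pairing of a differential and a vector field -/
theorem cs_pair {x : E n} (hG : (G x).PosDef) (u z : E n) :
    (∑ i, u i * z i) ^ 2 ≤ (∑ i, ∑ j, (G x)⁻¹ i j * u i * u j) *
      ∑ i, ∑ j, G x i j * z i * z j := by
  have hu : IsUnit (G x).det := hG.det_pos.ne'.isUnit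
  have h := Grad.posSemidef_cs hG.inv.posSemidef u (G x *ᵥ z)
  have e1 : (G x)⁻¹ *ᵥ (G x *ᵥ z) = z := by
    rw [Matrix.mulVec_mulVec, Matrix.nonsing_inv_mul _ hu, Matrix.one_mulVec]
  rw [e1] at h
  have e2 : u ⬝ᵥ ((G x)⁻¹ *ᵥ u) = ∑ i, ∑ j, (G x)⁻¹ i j * u i * u j := by
    simp only [dotProduct, Matrix.mulVec, Finset.mul_sum]
    exact Finset.sum_congr rfl fun i _ => Finset.sum_congr rfl fun j _ => by ring
  have e3 : (G x *ᵥ z) ⬝ᵥ z = ∑ i, ∑ j, G x i j * z i * z j := by
    simp only [dotProduct, Matrix.mulVec, Finset.sum_mul]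
    exact Finset.sum_congr rfl fun i _ => Finset.sum_congr rfl fun j _ => by ring
  rw [e2, e3] at h
  exact h

/-- the pairing of `dh` and `Z` -/
noncomputable def pair (h : E n → ℝ) (Z : E n → E n) (x : E n) : ℝ := ∑ i, pd i h x * Z x i

theorem abs_pair_le {x : E n} (hG : (G x).PosDef) (h : E n → ℝ) (Z : E n → E n) {B W : ℝ}
    (hB : 0 ≤ B) (h1 : √(gradSq G h x) ≤ B)
    (hZ : ∑ i, ∑ j, G x i j * Z x i * Z x j ≤ W ^ 2) : |pair h Z x| ≤ B * |W| := by
  have h0 := cs_pair hG (fun i => pd i h x) (Z x)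
  have hg0 : 0 ≤ gradSq G h x := Grad.gradSq_nonneg' hG h
  have h2 : gradSq G h x ≤ B ^ 2 := by
    rw [← Real.sq_sqrt hg0]
    exact pow_le_pow_left₀ (Real.sqrt_nonneg _) h1 2
  have h3 : pair h Z x ^ 2 ≤ (B * |W|) ^ 2 := by
    calc pair h Z x ^ 2 ≤ gradSq G h x * ∑ i, ∑ j, G x i j * Z x i * Z x j := h0
      _ ≤ gradSq G h x * W ^ 2 := mul_le_mul_of_nonneg_left hZ hg0
      _ ≤ B ^ 2 * W ^ 2 := mul_le_mul_of_nonneg_right h2 (sq_nonneg _)
      _ = (B * |W|) ^ 2 := by rw [mul_pow, sq_abs]
  exact abs_le_of_sq_le_sq h3 (by positivity)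

/-- Integration by parts against a compactly supported function. -/
theorem ibp (hG : Met n Γ G) (h : E n → ℝ) (hh : ContDiff ℝ 1 h) (hc : HasCompactSupport h)
    (Z : E n → E n) (hZ : ContDiff ℝ 1 Z) :
    ∫ x, h x * divg G Z x * dens G x = - ∫ x, pair h Z x * dens G x := by
  have hd : ContDiff ℝ 1 (dens G) := contDiff_infty.1 (contDiff_dens hG) 1
  have hZi : ∀ i, ContDiff ℝ 1 (fun y => dens G y * Z y i) := fun i =>
    hd.mul (contDiff_pi.1 hZ i)
  have e1 : ∀ x, h x * divg G Z x * dens G x = ∑ i, h x * pd i (fun y => dens G y * Z y i) x := by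
    intro x
    have : dens G x ≠ 0 := (dens_pos hG x).ne'
    unfold divg
    rw [← Finset.mul_sum]
    field_simp
  have e2 : ∀ x, pair h Z x * dens G x = ∑ i, pd i h x * (dens G x * Z x i) := by
    intro x
    unfold pair
    rw [Finset.sum_mul]
    exact Finset.sum_congr rfl fun i _ => by ring
  have c1 : ∀ i, Continuous fun x => h x * pd i (fun y => dens G y * Z y i) x := fun i =>
    hh.continuous.mul (((hZi i).continuous_fderiv (by simp)).clm_apply continuous_const)
  have c2 : ∀ i, Continuous fun x => pd i h x * (dens G x * Z x i) := fun i =>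
    ((hh.continuous_fderiv (by simp)).clm_apply continuous_const).mul (hZi i).continuous
  have i1 : ∀ i, Integrable fun x => h x * pd i (fun y => dens G y * Z y i) x := fun i =>
    (c1 i).integrable_of_hasCompactSupport (hc.mul_right)
  have hpd : ∀ i, HasCompactSupport (fun x => pd i h x) := fun i => hc.fderiv_apply ℝ _
  have i2 : ∀ i, Integrable fun x => pd i h x * (dens G x * Z x i) := fun i =>
    (c2 i).integrable_of_hasCompactSupport ((hpd i).mul_right)
  have i3 : ∀ i, Integrable fun x => h x * (dens G x * Z x i) := fun i =>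
    (hh.continuous.mul (hZi i).continuous).integrable_of_hasCompactSupport (hc.mul_right)
  simp only [e1, e2]
  rw [integral_finsetSum _ fun i _ => i1 i, integral_finsetSum _ fun i _ => i2 i,
    ← Finset.sum_neg_distrib]
  refine Finset.sum_congr rfl fun i _ => ?_
  exact integral_mul_fderiv_eq_neg_fderiv_mul_of_integrable (i2 i) (i1 i) (i3 i)
    (fun x _ => hh.differentiable (by simp) x) (fun x _ => (hZi i).differentiable (by simp) x)

section cutoff

variable (χ : E n → ℝ)

/-- the cutoff functions -/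
def cut (F : Finset Γ) (x : E n) : ℝ := ∑ γ ∈ F, χ (γ⁻¹ • x)

variable {χ}

theorem cut_smooth (hΓ : Act n Γ) (hχ : ContDiff ℝ ∞ χ) (F : Finset Γ) :
    ContDiff ℝ ∞ (cut χ F) :=
  ContDiff.sum fun γ _ => hχ.comp (hΓ.smooth γ⁻¹)

theorem cut_compact (hΓ : Act n Γ) (hc : HasCompactSupport χ) (F : Finset Γ) :
    HasCompactSupport (cut χ F) := by
  refine HasCompactSupport.intro (K := ⋃ γ ∈ F, (fun x : E n => γ • x) '' tsupport χ)
    (F.finite_toSet.isCompact_biUnion fun γ _ => hc.isCompact.image (cont hΓ γ)) fun x hx => ?_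
  refine Finset.sum_eq_zero fun γ hγ => ?_
  by_contra h0
  apply hx
  simp only [Set.mem_iUnion]
  exact ⟨γ, hγ, γ⁻¹ • x, subset_tsupport χ h0, by simp⟩

theorem supp_finite (hΓ : Act n Γ) {F : Type} [Zero F] {f : E n → F} (hc : HasCompactSupport f)
    (x : E n) : (Function.support fun γ : Γ => f (γ⁻¹ • x)).Finite :=
  ((locallyFinite_support hΓ f hc).point_finite x).subset fun _ hγ => hγ

theorem sum_le_finsum (hΓ : Act n Γ) {g : E n → ℝ} (hg : ∀ x, 0 ≤ g x)
    (hc : HasCompactSupport g) (F : Finset Γ) (x : E n) :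
    ∑ γ ∈ F, g (γ⁻¹ • x) ≤ ∑ᶠ γ : Γ, g (γ⁻¹ • x) := by
  classical
  have hs := supp_finite hΓ hc x
  rw [finsum_eq_sum_of_support_subset (s := F ∪ hs.toFinset) _ (by
    intro γ hγ; simp only [Finset.coe_union, Set.Finite.coe_toFinset]; exact Or.inr hγ)]
  exact Finset.sum_le_sum_of_subset_of_nonneg Finset.subset_union_left fun γ _ _ => hg _

theorem cut_nonneg (h0 : ∀ x, 0 ≤ χ x) (F : Finset Γ) (x : E n) : 0 ≤ cut χ F x :=
  Finset.sum_nonneg fun _ _ => h0 _

theorem cut_le_one (hΓ : Act n Γ) (hc : HasCompactSupport χ) (h0 : ∀ x, 0 ≤ χ x)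
    (h1 : ∀ x, ∑ᶠ γ : Γ, χ (γ⁻¹ • x) = 1) (F : Finset Γ) (x : E n) : cut χ F x ≤ 1 := by
  rw [← h1 x]; exact sum_le_finsum hΓ h0 hc F x

/-- near every point the cutoff functions are eventually `1` -/
theorem cut_eventually (hΓ : Act n Γ) (hc : HasCompactSupport χ)
    (h1 : ∀ x, ∑ᶠ γ : Γ, χ (γ⁻¹ • x) = 1) (x : E n) :
    ∀ᶠ F : Finset Γ in atTop, cut χ F =ᶠ[𝓝 x] fun _ => 1 := by
  classical
  obtain ⟨t, ht, hft⟩ := locallyFinite_support hΓ χ hc x
  refine eventually_atTop.2 ⟨hft.toFinset, fun F hF => ?_⟩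
  filter_upwards [ht] with y hy
  rw [← h1 y]
  refine (finsum_eq_sum_of_support_subset _ fun γ hγ => ?_).symm
  have : γ ∈ hft.toFinset := by
    rw [Set.Finite.mem_toFinset]
    exact ⟨y, hγ, hy⟩
  exact_mod_cast hF this

theorem cut_tendsto (hΓ : Act n Γ) (hc : HasCompactSupport χ)
    (h1 : ∀ x, ∑ᶠ γ : Γ, χ (γ⁻¹ • x) = 1) (x : E n) :
    Tendsto (fun F : Finset Γ => cut χ F x) atTop (𝓝 1) :=
  tendsto_const_nhds.congr' ((cut_eventually hΓ hc h1 x).mono fun _ hF => hF.self_of_nhds.symm)

theorem pair_tendsto (hΓ : Act n Γ) (hc : HasCompactSupport χ)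
    (h1 : ∀ x, ∑ᶠ γ : Γ, χ (γ⁻¹ • x) = 1) (Z : E n → E n) (x : E n) :
    Tendsto (fun F : Finset Γ => pair (cut χ F) Z x) atTop (𝓝 0) := by
  refine tendsto_const_nhds.congr' ((cut_eventually hΓ hc h1 x).mono fun F hF => ?_)
  have e : fderiv ℝ (cut χ F) x = 0 := by
    rw [Filter.EventuallyEq.fderiv_eq hF]; simp
  simp [pair, H.pd, e]

theorem grad_bound (hΓ : Act n Γ) (hG : Met n Γ G) (hχ : ContDiff ℝ ∞ χ)
    (hc : HasCompactSupport χ) : ∃ C : ℝ, 0 < C ∧ ∀ (F : Finset Γ) (x : E n),
      √(gradSq G (cut χ F) x) ≤ C := by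
  set g : E n → ℝ := fun x => √(gradSq G χ x) with hg
  have hχd : Differentiable ℝ χ := hχ.differentiable (by simp)
  have hgc : Continuous g := by
    refine Real.continuous_sqrt.comp ?_
    unfold gradSq gradIp
    have hcg : Continuous fun x => (G x) := continuous_matrix fun i j => (hG.smooth i j).continuous
    have hinv : Continuous fun x => (G x)⁻¹ := by
      have h : (fun x => (G x)⁻¹) = fun x => ((G x).det)⁻¹ • (G x).adjugate := by
        funext x
        rw [Matrix.inv_def, Ring.inverse_eq_inv']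
      rw [h]
      exact (hcg.matrix_det.inv₀ fun x => (hG.pos x).det_pos.ne').smul hcg.matrix_adjugate
    have hpd : ∀ i, Continuous fun x => pd i χ x := fun i =>
      ((hχ.continuous_fderiv (by simp)).clm_apply continuous_const)
    exact continuous_finsetSum _ fun i _ => continuous_finsetSum _ fun j _ =>
      ((hinv.matrix_elem i j).mul (hpd i)).mul (hpd j)
  have hgs : HasCompactSupport g := by
    refine HasCompactSupport.intro hc.isCompact fun x hx => ?_
    have : fderiv ℝ χ x = 0 := by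
      by_contra h0
      exact hx (support_fderiv_subset ℝ h0)
    simp [hg, gradSq, gradIp, pd, this]
  have hg0 : ∀ x, 0 ≤ g x := fun x => Real.sqrt_nonneg _
  have hSc : Continuous fun x : E n => ∑ᶠ γ : Γ, g (γ⁻¹ • x) := by
    have := contDiff_avg hΓ (m := 0) g hgs (by
      rw [show ((0 : ℕ∞) : WithTop ℕ∞) = 0 from rfl, contDiff_zero]; exact hgc)
    exact this.continuous
  obtain ⟨C, hC0, hC⟩ := bounded hΓ _ hSc (fun γ x => by rw [avg_inv])
  refine ⟨C, hC0, fun F x => ?_⟩
  have e1 : √(gradSq G (cut χ F) x) ≤ ∑ γ ∈ F, √(gradSq G (fun y => χ (γ⁻¹ • y)) x) :=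
    Grad.sqrt_gradSq_sum_le (hG.pos x) F (fun γ y => χ (γ⁻¹ • y)) fun γ _ =>
      (hχd (γ⁻¹ • x)).comp x (diff hΓ γ⁻¹ x)
  have e2 : ∀ γ : Γ, √(gradSq G (fun y => χ (γ⁻¹ • y)) x) = g (γ⁻¹ • x) := fun γ => by
    rw [gradSq_comp hΓ hG γ⁻¹ χ x (hχd _)]
  simp only [e2] at e1
  exact e1.trans ((sum_le_finsum hΓ hg0 hgs F x).trans ((le_abs_self _).trans (hC x)))

end cutoff

theorem main : SpecIBP := by
  intro n Γ _ _ G W hΓ hG hW Z C f h hZ hZW hf hh hfh
  have hcount : Countable Γ := countable hΓ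
  obtain ⟨χ, hχ, hc, h0, h1⟩ := exists_chi hΓ
  obtain ⟨B, hB0, hB⟩ := grad_bound hΓ hG hχ hc
  have hdc : Continuous (dens G) := (contDiff_dens hG).continuous
  have hcc : ∀ F : Finset Γ, Continuous (cut χ F) := fun F => (cut_smooth hΓ hχ F).continuous
  have hpc : ∀ F : Finset Γ, Continuous (pair (cut χ F) Z) := fun F => by
    unfold pair
    refine continuous_finsetSum _ fun i _ => ?_
    exact (((contDiff_infty.1 (cut_smooth hΓ hχ F) 1).continuous_fderiv (by simp)).clm_apply
      continuous_const).mul ((continuous_apply i).comp hZ.continuous)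
  -- limits
  have lim : ∀ u : E n → ℝ, Integrable (fun x => u x * dens G x) →
      Tendsto (fun F : Finset Γ => ∫ x, cut χ F x * (u x * dens G x)) atTop
        (𝓝 (∫ x, u x * dens G x)) := by
    intro u hu
    refine tendsto_integral_filter_of_dominated_convergence (fun x => ‖u x * dens G x‖)
      (Eventually.of_forall fun F => (hcc F).aestronglyMeasurable.mul hu.aestronglyMeasurable)
      (Eventually.of_forall fun F => Eventually.of_forall fun x => ?_) hu.norm
      (Eventually.of_forall fun x => ?_)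
    · rw [norm_mul]
      have : ‖cut χ F x‖ ≤ 1 := by
        rw [Real.norm_eq_abs, abs_of_nonneg (cut_nonneg h0 F x)]
        exact cut_le_one hΓ hc h0 h1 F x
      exact (mul_le_mul_of_nonneg_right this (norm_nonneg _)).trans_eq (one_mul _)
    · simpa using (cut_tendsto hΓ hc h1 x).mul_const (u x * dens G x)
  have limp : Tendsto (fun F : Finset Γ => ∫ x, pair (cut χ F) Z x * dens G x) atTop (𝓝 0) := by
    have := tendsto_integral_filter_of_dominated_convergence (μ := volume)
      (l := (atTop : Filter (Finset Γ))) (F := fun F x => pair (cut χ F) Z x * dens G x)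
      (f := fun _ => (0 : ℝ)) (fun x => B * |C| * (W x * dens G x))
      (Eventually.of_forall fun F => ((hpc F).mul hdc).aestronglyMeasurable)
      (Eventually.of_forall fun F => Eventually.of_forall fun x => ?_) (hW.integ.const_mul _)
      (Eventually.of_forall fun x => ?_)
    · simpa using this
    · have := abs_pair_le (hG.pos x) (cut χ F) Z hB0.le (hB F x) (hZW x)
      rw [norm_mul, Real.norm_eq_abs, Real.norm_eq_abs, abs_of_pos (dens_pos hG x)]
      rw [abs_mul, abs_of_pos (hW.pos x)] at this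
      calc |pair (cut χ F) Z x| * dens G x ≤ B * (|C| * W x) * dens G x :=
            mul_le_mul_of_nonneg_right this (dens_pos hG x).le
        _ = _ := by ring
    · simpa using (pair_tendsto hΓ hc h1 Z x).mul_const (dens G x)
  -- inequality with cutoff
  have key : ∀ F : Finset Γ, ∫ x, cut χ F x * (f x * dens G x) ≤
      (∫ x, cut χ F x * (h x * dens G x)) - ∫ x, pair (cut χ F) Z x * dens G x := by
    intro F
    have hcs1 : ContDiff ℝ 1 (cut χ F) := contDiff_infty.1 (cut_smooth hΓ hχ F) 1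
    have hcomp := cut_compact hΓ hc F
    have hi := ibp hG (cut χ F) hcs1 hcomp Z hZ
    have hbd : ∀ u : E n → ℝ, Integrable (fun x => u x * dens G x) →
        Integrable (fun x => cut χ F x * (u x * dens G x)) := by
      intro u hu
      refine hu.norm.mono' ((hcc F).aestronglyMeasurable.mul hu.aestronglyMeasurable)
        (Eventually.of_forall fun x => ?_)
      rw [norm_mul]
      have : ‖cut χ F x‖ ≤ 1 := by
        rw [Real.norm_eq_abs, abs_of_nonneg (cut_nonneg h0 F x)]
        exact cut_le_one hΓ hc h0 h1 F x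
      exact (mul_le_mul_of_nonneg_right this (norm_nonneg _)).trans_eq (one_mul _)
    have hdiv : Continuous (fun x => divg G Z x) := by
      unfold divg
      refine (hdc.inv₀ fun x => (dens_pos hG x).ne').mul (continuous_finsetSum _ fun i _ => ?_)
      have hd1 : ContDiff ℝ 1 (dens G) := contDiff_infty.1 (contDiff_dens hG) 1
      exact ((hd1.mul (contDiff_pi.1 hZ i)).continuous_fderiv (by simp)).clm_apply
        continuous_const
    have hint : Integrable (fun x => cut χ F x * divg G Z x * dens G x) :=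
      (((hcc F).mul hdiv).mul hdc).integrable_of_hasCompactSupport
        ((hcomp.mul_right).mul_right)
    have h2 : ∫ x, cut χ F x * (f x * dens G x) ≤
        ∫ x, (cut χ F x * (h x * dens G x) + cut χ F x * divg G Z x * dens G x) := by
      refine integral_mono (hbd f hf) ((hbd h hh).add hint) fun x => ?_
      have h3 : 0 ≤ cut χ F x * dens G x := mul_nonneg (cut_nonneg h0 F x) (dens_pos hG x).le
      have h4 := mul_le_mul_of_nonneg_left (hfh x) h3
      simp only
      nlinarith
    rw [integral_add (hbd h hh) hint, hi] at h2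
    linarith
  have := le_of_tendsto_of_tendsto' (lim f hf) ((lim h hh).sub limp) key
  simpa using this

end Vale.Agent.P223.H.IBP
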