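import Vale.Agent.P223.H.SpecT
import Vale.Agent.P223.H.IBP

/-! Block 22: uniform equivalence of the metrics `G t`, `t ∈ [0, T]`. -/

namespace Vale.Agent.P223.H.Equiv

open scoped ContDiff Matrix
open Common

variable {n : ℕ} {Γ : Type} [Group Γ] [MulAction Γ (E n)]
  {G : ℝ → E n → Matrix (Fin n) (Fin n) ℝ}

theorem contDiff_det (hG : Fam n Γ G) : ContDiff ℝ ∞ (fun p : ℝ × E n => (G p.1 p.2).det) := by
  simp only [Matrix.det_apply']
  exact ContDiff.sum fun σ _ => contDiff_const.mul (contDiff_prod fun i _ => hG.smooth _ _)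

theorem contDiff_dens (hG : Fam n Γ G) : ContDiff ℝ ∞ (fun p : ℝ × E n => dens (G p.1) p.2) :=
  (contDiff_det hG).sqrt fun p => ((hG.met p.1).pos p.2).det_pos.ne'

theorem contDiff_inv (hG : Fam n Γ G) (i j : Fin n) :
    ContDiff ℝ ∞ (fun p : ℝ × E n => (G p.1 p.2)⁻¹ i j) := by
  have h : (fun p : ℝ × E n => (G p.1 p.2)⁻¹ i j) =
      fun p : ℝ × E n => ((G p.1 p.2).det)⁻¹ *
        ((G p.1 p.2).updateRow j (Pi.single i 1)).det := by
    funext p
    rw [Matrix.inv_def, Ring.inverse_eq_inv', Matrix.smul_apply, Matrix.adjugate_apply, smul_eq_mul]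
  rw [h]
  refine ((contDiff_det hG).inv fun p => ((hG.met p.1).pos p.2).det_pos.ne').mul ?_
  simp only [Matrix.det_apply']
  refine ContDiff.sum fun σ _ => contDiff_const.mul (contDiff_prod fun k _ => ?_)
  by_cases hk : σ k = j
  · have : (fun p : ℝ × E n => (G p.1 p.2).updateRow j (Pi.single i 1) (σ k) k) =
        fun _ => (Pi.single i (1 : ℝ) : E n) k := by
      funext p; rw [hk, Matrix.updateRow_self]
    rw [this]; exact contDiff_const
  · have : (fun p : ℝ × E n => (G p.1 p.2).updateRow j (Pi.single i 1) (σ k) k) =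
        fun p => G p.1 p.2 (σ k) k := by
      funext p; rw [Matrix.updateRow_ne hk]
    rw [this]; exact hG.smooth _ _

/-- bounds on compact sets -/
theorem exists_bound {K : Set (E n)} (hK : IsCompact K) (T : ℝ) (f : ℝ × E n → ℝ)
    (hf : Continuous f) : ∃ C : ℝ, 0 < C ∧ ∀ t, 0 ≤ t → t ≤ T → ∀ x ∈ K, |f (t, x)| ≤ C := by
  obtain ⟨C, hC⟩ := ((isCompact_Icc (a := (0 : ℝ)) (b := T)).prod hK).exists_bound_of_continuousOn
    hf.continuousOn
  refine ⟨max C 1, by positivity, fun t h0 hT x hx => ?_⟩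
  exact (hC (t, x) ⟨⟨h0, hT⟩, hx⟩).trans (le_max_left _ _)

theorem quad_le (M : Matrix (Fin n) (Fin n) ℝ) (w : E n) :
    ∑ i, ∑ j, M i j * w i * w j ≤ (∑ i, ∑ j, |M i j|) * ‖w‖ ^ 2 := by
  rw [Finset.sum_mul]
  refine Finset.sum_le_sum fun i _ => ?_
  rw [Finset.sum_mul]
  refine Finset.sum_le_sum fun j _ => (le_abs_self _).trans ?_
  rw [abs_mul, abs_mul, mul_assoc, sq]
  exact mul_le_mul_of_nonneg_left (mul_le_mul (norm_le_pi_norm w i) (norm_le_pi_norm w j)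
    (abs_nonneg _) (norm_nonneg _)) (abs_nonneg _)

theorem diag_le (M : Matrix (Fin n) (Fin n) ℝ) (i : Fin n) : M i i ≤ ∑ i, ∑ j, |M i j| := by
  have h1 : |M i i| ≤ ∑ j, |M i j| :=
    Finset.single_le_sum (f := fun j => |M i j|) (fun j _ => abs_nonneg _) (Finset.mem_univ i)
  have h2 : ∑ j, |M i j| ≤ ∑ i, ∑ j, |M i j| :=
    Finset.single_le_sum (f := fun i => ∑ j, |M i j|)
      (fun i _ => Finset.sum_nonneg fun j _ => abs_nonneg _) (Finset.mem_univ i)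
  exact (le_abs_self _).trans (h1.trans h2)

theorem norm_sq_le {q C : ℝ} (w : E n) (hq : 0 ≤ q) (hC : 0 ≤ C) (h : ∀ i, w i ^ 2 ≤ C * q) :
    ‖w‖ ^ 2 ≤ C * q := by
  have h1 : ‖w‖ ≤ √(C * q) := by
    rw [pi_norm_le_iff_of_nonneg (Real.sqrt_nonneg _)]
    intro i
    rw [Real.norm_eq_abs]
    exact Real.abs_le_sqrt (h i)
  calc ‖w‖ ^ 2 ≤ √(C * q) ^ 2 := pow_le_pow_left₀ (norm_nonneg _) h1 2
    _ = C * q := Real.sq_sqrt (by positivity)

theorem quad_eq (M : Matrix (Fin n) (Fin n) ℝ) (w : E n) :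
    ∑ i, ∑ j, M i j * w i * w j = w ⬝ᵥ (M *ᵥ w) := by
  simp only [dotProduct, Matrix.mulVec, Finset.mul_sum]
  exact Finset.sum_congr rfl fun i _ => Finset.sum_congr rfl fun j _ => by ring

theorem quad_nonneg {M : Matrix (Fin n) (Fin n) ℝ} (hM : M.PosDef) (w : E n) :
    0 ≤ ∑ i, ∑ j, M i j * w i * w j := by
  rw [quad_eq]
  have := hM.posSemidef.dotProduct_mulVec_nonneg w
  simpa using this

/-- the norm is controlled by the metric -/
theorem norm_le_form {g : E n → Matrix (Fin n) (Fin n) ℝ} {x : E n} (hg : (g x).PosDef)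
    {C : ℝ} (hC : ∑ i, ∑ j, |(g x)⁻¹ i j| ≤ C) (w : E n) :
    ‖w‖ ^ 2 ≤ C * ∑ i, ∑ j, g x i j * w i * w j := by
  have hC0 : 0 ≤ C := le_trans (Finset.sum_nonneg fun i _ => Finset.sum_nonneg fun j _ =>
    abs_nonneg _) hC
  refine norm_sq_le w (quad_nonneg hg w) hC0 fun i => ?_
  have h := IBP.cs_pair hg (Pi.single i (1 : ℝ)) w
  have e1 : ∑ k, (Pi.single i (1 : ℝ) : E n) k * w k = w i := by simp [Pi.single_apply]
  have e2 : ∑ k, ∑ l, (g x)⁻¹ k l * (Pi.single i (1 : ℝ) : E n) k *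
      (Pi.single i (1 : ℝ) : E n) l = (g x)⁻¹ i i := by simp [Pi.single_apply]
  rw [e1, e2] at h
  exact h.trans (mul_le_mul_of_nonneg_right ((diag_le _ i).trans hC) (quad_nonneg hg w))

/-- the norm of a covector is controlled by the inverse metric -/
theorem norm_le_form' {g : E n → Matrix (Fin n) (Fin n) ℝ} {x : E n} (hg : (g x).PosDef)
    {C : ℝ} (hC : ∑ i, ∑ j, |g x i j| ≤ C) (w : E n) :
    ‖w‖ ^ 2 ≤ C * ∑ i, ∑ j, (g x)⁻¹ i j * w i * w j := by
  have hC0 : 0 ≤ C := le_trans (Finset.sum_nonneg fun i _ => Finset.sum_nonneg fun j _ =>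
    abs_nonneg _) hC
  refine norm_sq_le w (quad_nonneg hg.inv w) hC0 fun i => ?_
  have h := IBP.cs_pair hg w (Pi.single i (1 : ℝ))
  have e1 : ∑ k, w k * (Pi.single i (1 : ℝ) : E n) k = w i := by simp [Pi.single_apply]
  have e2 : ∑ k, ∑ l, g x k l * (Pi.single i (1 : ℝ) : E n) k *
      (Pi.single i (1 : ℝ) : E n) l = g x i i := by simp [Pi.single_apply]
  rw [e1, e2, mul_comm] at h
  exact h.trans (mul_le_mul_of_nonneg_right ((diag_le _ i).trans hC) (quad_nonneg hg.inv w))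

/-- transformation of the form -/
theorem form_trans {g : E n → Matrix (Fin n) (Fin n) ℝ} (hg : Met n Γ g) (γ : Γ) (x w : E n) :
    ∑ i, ∑ j, g x i j * w i * w j =
      ∑ i, ∑ j, g (γ • x) i j * (Dm γ x *ᵥ w) i * (Dm γ x *ᵥ w) j := by
  rw [quad_eq, quad_eq, ← G_trans hg γ x]
  rw [← Matrix.mulVec_mulVec, ← Matrix.mulVec_mulVec, Matrix.dotProduct_mulVec, Matrix.vecMul_transpose]

/-- transformation of the inverse form -/
theorem form_trans' {g : E n → Matrix (Fin n) (Fin n) ℝ} (h : Act n Γ) (hg : Met n Γ g) (γ : Γ)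
    (x w : E n) :
    ∑ i, ∑ j, (g x)⁻¹ i j * w i * w j =
      ∑ i, ∑ j, (g (γ • x))⁻¹ i j * (((Dm γ x)ᵀ)⁻¹ *ᵥ w) i * (((Dm γ x)ᵀ)⁻¹ *ᵥ w) j := by
  have hD : IsUnit (Dm γ x)ᵀ.det := by
    rw [Matrix.det_transpose]; exact (det_pos h γ x).ne'.isUnit
  set w' := ((Dm γ x)ᵀ)⁻¹ *ᵥ w with hw'
  have hw : w = (Dm γ x)ᵀ *ᵥ w' := by
    rw [hw', Matrix.mulVec_mulVec, Matrix.mul_nonsing_inv _ hD, Matrix.one_mulVec]
  rw [quad_eq, quad_eq, ← Ginv_trans h hg γ x, hw]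
  rw [← Matrix.mulVec_mulVec, ← Matrix.mulVec_mulVec, Matrix.dotProduct_mulVec _ (Dm γ x),
    ← Matrix.mulVec_transpose]

theorem main : SpecEquiv := by
  intro n Γ _ _ G h hG T hT
  obtain ⟨K, hK, hK'⟩ := h.cocompact
  have c1 : Continuous fun p : ℝ × E n => ∑ i, ∑ j, |G p.1 p.2 i j| :=
    continuous_finsetSum _ fun i _ => continuous_finsetSum _ fun j _ =>
      (hG.smooth i j).continuous.abs
  have c2 : Continuous fun p : ℝ × E n => ∑ i, ∑ j, |(G p.1 p.2)⁻¹ i j| :=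
    continuous_finsetSum _ fun i _ => continuous_finsetSum _ fun j _ =>
      (contDiff_inv hG i j).continuous.abs
  have c3 : Continuous fun p : ℝ × E n => dens (G p.1) p.2 := (contDiff_dens hG).continuous
  have c4 : Continuous fun p : ℝ × E n => (dens (G p.1) p.2)⁻¹ :=
    c3.inv₀ fun p => (dens_pos (hG.met p.1) p.2).ne'
  obtain ⟨C1, p1, h1⟩ := exists_bound hK T _ c1
  obtain ⟨C2, p2, h2⟩ := exists_bound hK T _ c2
  obtain ⟨C3, p3, h3⟩ := exists_bound hK T _ c3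
  obtain ⟨C4, p4, h4⟩ := exists_bound hK T _ c4
  have b1 : ∀ t, 0 ≤ t → t ≤ T → ∀ x ∈ K, ∑ i, ∑ j, |G t x i j| ≤ C1 := fun t h0 hT x hx =>
    (le_abs_self _).trans (h1 t h0 hT x hx)
  have b2 : ∀ t, 0 ≤ t → t ≤ T → ∀ x ∈ K, ∑ i, ∑ j, |(G t x)⁻¹ i j| ≤ C2 := fun t h0 hT x hx =>
    (le_abs_self _).trans (h2 t h0 hT x hx)
  refine ⟨C1 * C2 + C3 * C4, by positivity, fun t s ht ht' hs hs' x => ?_⟩
  obtain ⟨γ, hγ⟩ := hK' x
  refine ⟨?_, fun w => ?_, fun w => ?_⟩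
  · rw [← dens_trans h (hG.met t) γ x, ← dens_trans h (hG.met s) γ x, ← mul_assoc]
    refine mul_le_mul_of_nonneg_right ?_ (det_pos h γ x).le
    have e1 : dens (G t) (γ • x) ≤ C3 := (le_abs_self _).trans (h3 t ht ht' _ hγ)
    have e2 : (dens (G s) (γ • x))⁻¹ ≤ C4 := (le_abs_self _).trans (h4 s hs hs' _ hγ)
    have e3 := dens_pos (hG.met s) (γ • x)
    have e4 : 1 ≤ C4 * dens (G s) (γ • x) := by
      rw [inv_eq_one_div, div_le_iff₀ e3] at e2; exact e2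
    nlinarith [mul_pos p1 p2, mul_pos (mul_pos p1 p2) e3, mul_le_mul_of_nonneg_left e4 p3.le]
  · rw [form_trans' h (hG.met t) γ x w, form_trans' h (hG.met s) γ x w]
    set w' := ((Dm γ x)ᵀ)⁻¹ *ᵥ w
    have e1 := (quad_le ((G t (γ • x))⁻¹) w').trans
      (mul_le_mul_of_nonneg_right (b2 t ht ht' _ hγ) (sq_nonneg _))
    have e2 := norm_le_form' ((hG.met s).pos (γ • x)) (b1 s hs hs' _ hγ) w'
    have e3 := quad_nonneg ((hG.met s).pos (γ • x)).inv w'
    have e4 := mul_le_mul_of_nonneg_left e2 p2.le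
    have e5 := mul_nonneg (mul_pos p3 p4).le e3
    linarith
  · rw [form_trans (hG.met t) γ x w, form_trans (hG.met s) γ x w]
    set w' := Dm γ x *ᵥ w
    have e1 := (quad_le (G t (γ • x)) w').trans
      (mul_le_mul_of_nonneg_right (b1 t ht ht' _ hγ) (sq_nonneg _))
    have e2 := norm_le_form ((hG.met s).pos (γ • x)) (b2 s hs hs' _ hγ) w'
    have e3 := quad_nonneg ((hG.met s).pos (γ • x)) w'
    have e4 := mul_le_mul_of_nonneg_left e2 p1.le
    have e5 := mul_nonneg (mul_pos p3 p4).le e3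
    linarith

end Vale.Agent.P223.H.Equiv
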