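import Vale.Agent.P223.H.SpecT
import Vale.Agent.P223.H.B3d
import Vale.Agent.P223.H.Equiv

/-! Block 21b: the discrete heat flow for a moving metric. -/

namespace Vale.Agent.P223.H.B21b

open scoped ContDiff
open MeasureTheory

variable {n : ℕ} {Γ : Type} [Group Γ] [MulAction Γ (E n)] {N : ℕ}

/-! ### Elementary properties of the averaging operator -/

theorem P_mono (M : MapsT n Γ N) (t ε : ℝ) {f g : E n → ℝ} (h : ∀ y, f y ≤ g y) (x : E n) :
    M.P t ε f x ≤ M.P t ε g x := by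
  unfold MapsT.P
  refine mul_le_mul_of_nonneg_left (Finset.sum_le_sum fun a _ => ?_) (by positivity)
  have h1 := h (M.φ a t ε x)
  have h2 := h (M.φ a t (-ε) x)
  linarith

theorem P_smul (M : MapsT n Γ N) (t ε c : ℝ) (f : E n → ℝ) (x : E n) :
    M.P t ε (fun y => c * f y) x = c * M.P t ε f x := by
  unfold MapsT.P
  simp only [Finset.mul_sum]
  refine Finset.sum_congr rfl fun a _ => ?_
  ring

theorem P_const (hN : 0 < N) (M : MapsT n Γ N) (t ε c : ℝ) (x : E n) :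
    M.P t ε (fun _ => c) x = c := by
  unfold MapsT.P
  have : (N : ℝ) ≠ 0 := by positivity
  simp only [Finset.sum_const, Finset.card_univ, Fintype.card_fin, nsmul_eq_mul]
  field_simp
  ring

theorem smooth_φ (M : MapsT n Γ N) (a : Fin N) (t r : ℝ) :
    ContDiff ℝ ∞ (fun x => M.φ a t r x) :=
  (M.smooth a).comp (contDiff_const.prodMk (contDiff_const.prodMk contDiff_id))

theorem P_contDiff (M : MapsT n Γ N) (t ε : ℝ) {k : WithTop ℕ∞} (hk : k ≤ ∞) {f : E n → ℝ}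
    (hf : ContDiff ℝ k f) : ContDiff ℝ k (M.P t ε f) := by
  unfold MapsT.P
  refine contDiff_const.mul (ContDiff.sum fun a _ => ContDiff.div_const ?_ _)
  exact (hf.comp ((smooth_φ M a t ε).of_le hk)).add (hf.comp ((smooth_φ M a t (-ε)).of_le hk))

theorem P_sum (hN : 0 < N) (M : MapsT n Γ N) (t ε : ℝ) {f : E n → ℝ}
    (hf : ∀ x, HasSum (fun γ : Γ => f (γ • x)) 1) (x : E n) :
    HasSum (fun γ : Γ => M.P t ε f (γ • x)) 1 := by
  have h1 : HasSum (fun γ : Γ => (N : ℝ)⁻¹ *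
      ∑ a, (f (γ • M.φ a t ε x) + f (γ • M.φ a t (-ε) x)) / 2)
      ((N : ℝ)⁻¹ * ∑ _a : Fin N, ((1 : ℝ) + 1) / 2) := by
    refine HasSum.mul_left _ (hasSum_sum fun a _ => HasSum.div_const ?_ _)
    exact (hf (M.φ a t ε x)).add (hf (M.φ a t (-ε) x))
  have h2 : (N : ℝ)⁻¹ * ∑ _a : Fin N, ((1 : ℝ) + 1) / 2 = 1 := by
    have : (N : ℝ) ≠ 0 := by positivity
    simp only [Finset.sum_const, Finset.card_univ, Fintype.card_fin, nsmul_eq_mul]
    field_simp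
    norm_num
  rw [h2] at h1
  refine h1.congr_fun ?_
  intro γ
  unfold MapsT.P
  simp only [M.equi]

/-- comparison of the weights at `x` and `φ(t, r, x)` -/
theorem harnack_maps (h : Act n Γ) {G : E n → Matrix (Fin n) (Fin n) ℝ} {W : E n → ℝ}
    (hW : Wt n Γ G W) (M : MapsT n Γ N) (T : ℝ) :
    ∃ H : ℝ, 1 ≤ H ∧ ∀ a (t r : ℝ) x, 0 ≤ t → t ≤ T → |r| ≤ 1 →
      W (M.φ a t r x) ≤ H * W x ∧ W x ≤ H * W (M.φ a t r x) := by
  obtain ⟨K, hK, hK'⟩ := h.cocompact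
  set K' : Set (E n) := K ∪ ⋃ a : Fin N, (fun p : ℝ × ℝ × E n => M.φ a p.1 p.2.1 p.2.2) ''
    (Set.Icc 0 T ×ˢ (Set.Icc (-1) 1 ×ˢ K)) with hK'def
  have hcK' : IsCompact K' := hK.union (isCompact_iUnion fun a =>
    (isCompact_Icc.prod (isCompact_Icc.prod hK)).image (M.smooth a).continuous)
  obtain ⟨C, hC⟩ := hW.harnack K' hcK'
  refine ⟨max C 1, le_max_right _ _, fun a t r x ht0 htT hr => ?_⟩
  obtain ⟨γ, hγ⟩ := hK' x
  have hy : γ • x ∈ K' := Or.inl hγ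
  have hz : M.φ a t r (γ • x) ∈ K' :=
    Or.inr (Set.mem_iUnion.2 ⟨a, (t, r, γ • x), ⟨⟨ht0, htT⟩, abs_le.1 hr, hγ⟩, rfl⟩)
  have ex : x = γ⁻¹ • γ • x := by simp
  have ez : M.φ a t r x = γ⁻¹ • M.φ a t r (γ • x) := by rw [M.equi]; simp
  have h1 := hC γ⁻¹ _ hz _ hy
  have h2 := hC γ⁻¹ _ hy _ hz
  rw [← ez, ← ex] at h1 h2
  exact ⟨h1.trans (mul_le_mul_of_nonneg_right (le_max_left _ _) (hW.pos _).le),
    h2.trans (mul_le_mul_of_nonneg_right (le_max_left _ _) (hW.pos _).le)⟩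

section
variable {J : Type} [Fintype J] {Fr : Frame n Γ J} {M : MapsT n Γ N}
  {G : ℝ → E n → Matrix (Fin n) (Fin n) ℝ}

/-- one step applied to a positive function with controlled jets -/
theorem one_step (CC CB T : ℝ) (hCC : 0 < CC) (hCB : 0 < CB)
    (hcons : ∀ t : ℝ, 0 ≤ t → t ≤ T → ∀ ε : ℝ, 0 < ε → ε ≤ 1 → ∀ f : E n → ℝ, ContDiff ℝ 4 f →
      ∀ (x : E n) (B : ℝ), 0 ≤ B → (∀ a (r : ℝ), |r| ≤ ε → jet Fr f (M.φ a t r x) ≤ B ^ 2) →
      |M.P t ε f x - f x - ε ^ 2 * (N : ℝ)⁻¹ * lap (G t) f x| ≤ CC * ε ^ 3 * B)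
    (hlap : ∀ t : ℝ, 0 ≤ t → t ≤ T → ∀ f : E n → ℝ, ContDiff ℝ 4 f → ∀ x,
      lap (G t) f x ^ 2 ≤ CB * jet Fr f x)
    (u : E n → ℝ) (hu : ContDiff ℝ 4 u) (hu0 : ∀ x, 0 < u x) (a b : ℝ) (ha : 0 < a) (hb : 0 < b)
    (hj : ∀ x, jet Fr u x ≤ (a * u x) ^ 2)
    (hm : ∀ i (t r : ℝ) x, 0 ≤ t → t ≤ T → |r| ≤ 1 → u (M.φ i t r x) ≤ b * u x) :
    ∃ K : ℝ, 0 < K ∧ ∀ t : ℝ, 0 ≤ t → t ≤ T → ∀ ε : ℝ, 0 < ε → ε ≤ 1 → ∀ x,
      |M.P t ε u x - u x| ≤ K * ε ^ 2 * u x := by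
  refine ⟨(N : ℝ)⁻¹ * ((CB + 1) * a) + CC * (a * b), by positivity,
    fun t ht0 htT ε hε hε1 x => ?_⟩
  have hx := hu0 x
  have hε3 : ε ^ 3 ≤ ε ^ 2 := pow_le_pow_of_le_one hε.le hε1 (by norm_num)
  have hl : |lap (G t) u x| ≤ (CB + 1) * a * u x := by
    refine abs_le_of_sq_le_sq ((hlap t ht0 htT u hu x).trans ?_) (by positivity)
    calc CB * jet Fr u x ≤ CB * (a * u x) ^ 2 := mul_le_mul_of_nonneg_left (hj x) hCB.le
      _ ≤ (CB + 1) ^ 2 * (a * u x) ^ 2 := by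
          refine mul_le_mul_of_nonneg_right ?_ (sq_nonneg _)
          nlinarith
      _ = _ := by ring
  have hc := hcons t ht0 htT ε hε hε1 u hu x (a * b * u x) (by positivity) fun i r hr => ?_
  · have e1 : CC * ε ^ 3 * (a * b * u x) ≤ CC * (a * b) * ε ^ 2 * u x := by
      have : 0 ≤ CC * (a * b) * u x := by positivity
      nlinarith
    have e2 : |ε ^ 2 * (N : ℝ)⁻¹ * lap (G t) u x| ≤
        (N : ℝ)⁻¹ * ((CB + 1) * a) * ε ^ 2 * u x := by
      rw [abs_mul, abs_of_nonneg (by positivity : 0 ≤ ε ^ 2 * (N : ℝ)⁻¹)]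
      calc ε ^ 2 * (N : ℝ)⁻¹ * |lap (G t) u x| ≤ ε ^ 2 * (N : ℝ)⁻¹ * ((CB + 1) * a * u x) :=
            mul_le_mul_of_nonneg_left hl (by positivity)
        _ = _ := by ring
    calc |M.P t ε u x - u x| = |(M.P t ε u x - u x - ε ^ 2 * (N : ℝ)⁻¹ * lap (G t) u x) +
          ε ^ 2 * (N : ℝ)⁻¹ * lap (G t) u x| := by congr 1; ring
      _ ≤ _ := abs_add_le _ _
      _ ≤ CC * (a * b) * ε ^ 2 * u x + (N : ℝ)⁻¹ * ((CB + 1) * a) * ε ^ 2 * u x :=
          add_le_add (hc.trans e1) e2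
      _ = _ := by ring
  · refine (hj _).trans ?_
    have h1 := hm i t r x ht0 htT (hr.trans hε1)
    have h2 := (hu0 (M.φ i t r x)).le
    refine pow_le_pow_left₀ (by positivity) ?_ 2
    calc a * u (M.φ i t r x) ≤ a * (b * u x) := mul_le_mul_of_nonneg_left h1 ha.le
      _ = _ := by ring

/-- lower bound for one step, uniform in `ε` -/
theorem lower_step (hN : 0 < N) {W : E n → ℝ} (hW : ∀ x, 0 < W x) {H K T : ℝ} (hH : 1 ≤ H)
    (hHar : ∀ a (t r : ℝ) x, 0 ≤ t → t ≤ T → |r| ≤ 1 → W x ≤ H * W (M.φ a t r x)) (hK : 0 < K)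
    (hPW : ∀ t : ℝ, 0 ≤ t → t ≤ T → ∀ ε : ℝ, 0 < ε → ε ≤ 1 → ∀ x,
      |M.P t ε W x - W x| ≤ K * ε ^ 2 * W x) :
    ∃ L : ℝ, 0 < L ∧ ∀ t : ℝ, 0 ≤ t → t ≤ T → ∀ ε : ℝ, 0 < ε → ε ≤ 1 → ∀ x,
      Real.exp (-(L * ε ^ 2)) * W x ≤ M.P t ε W x := by
  have hH0 : 0 < H := by linarith
  have hlogH : 0 ≤ Real.log H := Real.log_nonneg hH
  refine ⟨2 * K * (1 + Real.log H), by positivity, fun t ht0 htT ε hε hε1 x => ?_⟩
  have hx := hW x
  rcases le_or_gt (K * ε ^ 2) (1 / 2) with hs | hs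
  · have h1 : (1 - K * ε ^ 2) * W x ≤ M.P t ε W x := by
      have := (abs_le.1 (hPW t ht0 htT ε hε hε1 x)).1
      linarith
    refine le_trans ?_ h1
    refine mul_le_mul_of_nonneg_right ?_ hx.le
    refine le_trans (Real.exp_le_exp.2 ?_) (B3d.one_sub_ge (by positivity) hs)
    have : 0 ≤ K * Real.log H * ε ^ 2 := by positivity
    nlinarith
  · have h1 : H⁻¹ * W x ≤ M.P t ε W x := by
      have h2 : ∀ a : Fin N, ∀ r : ℝ, |r| ≤ 1 → H⁻¹ * W x ≤ W (M.φ a t r x) := by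
        intro a r hr
        rw [inv_mul_le_iff₀ hH0]
        exact hHar a t r x ht0 htT hr
      have hε' : |ε| ≤ 1 := by rw [abs_of_pos hε]; exact hε1
      have hε'' : |-ε| ≤ 1 := by rw [abs_neg]; exact hε'
      calc H⁻¹ * W x = M.P t ε (fun _ => H⁻¹ * W x) x := (P_const hN M t ε _ x).symm
        _ ≤ M.P t ε W x := by
            unfold MapsT.P
            refine mul_le_mul_of_nonneg_left (Finset.sum_le_sum fun a _ => ?_) (by positivity)
            have h3 := h2 a ε hε'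
            have h4 := h2 a (-ε) hε''
            linarith
    refine le_trans ?_ h1
    refine mul_le_mul_of_nonneg_right ?_ hx.le
    have e : H⁻¹ = Real.exp (-Real.log H) := by rw [Real.exp_neg, Real.exp_log hH0]
    rw [e]
    refine Real.exp_le_exp.2 ?_
    have h5 : 0 ≤ (2 * (K * ε ^ 2) - 1) * Real.log H := mul_nonneg (by linarith) hlogH
    have h6 : 0 < K * ε ^ 2 := by positivity
    nlinarith

/-- the discrete flow -/
noncomputable def flow (M : MapsT n Γ N) (c ε : ℝ) (W : E n → ℝ) : ℕ → E n → ℝ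
  | 0 => W
  | k + 1 => M.P (k * (c * ε ^ 2)) ε (flow M c ε W k)

theorem flow_succ (c ε : ℝ) (W : E n → ℝ) (k : ℕ) :
    flow M c ε W (k + 1) = M.P (k * (c * ε ^ 2)) ε (flow M c ε W k) := rfl

theorem flow_contDiff (c ε : ℝ) {W : E n → ℝ} (hW : ContDiff ℝ 4 W) (k : ℕ) :
    ContDiff ℝ 4 (flow M c ε W k) := by
  induction k with
  | zero => exact hW
  | succ k ih => rw [flow_succ]; exact P_contDiff M _ ε (by norm_cast) ih

theorem flow_sum (hN : 0 < N) (c ε : ℝ) {W : E n → ℝ}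
    (hW : ∀ x, HasSum (fun γ : Γ => W (γ • x)) 1) (k : ℕ) :
    ∀ x, HasSum (fun γ : Γ => flow M c ε W k (γ • x)) 1 := by
  induction k with
  | zero => exact hW
  | succ k ih => rw [flow_succ]; exact P_sum hN M _ ε ih

theorem time_le {c ε T : ℝ} (hc : 0 < c) (hε : 0 < ε) {k : ℕ}
    (h : ((k + 1 : ℕ) : ℝ) * (c * ε ^ 2) ≤ T) : (k : ℝ) * (c * ε ^ 2) ≤ T := by
  refine le_trans (mul_le_mul_of_nonneg_right ?_ (by positivity)) h
  push_cast
  linarith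

theorem flow_lower {W : E n → ℝ} {L c ε T : ℝ} (hc : 0 < c) (hε : 0 < ε)
    (h : ∀ t : ℝ, 0 ≤ t → t ≤ T → ∀ x, Real.exp (-(L * ε ^ 2)) * W x ≤ M.P t ε W x) (k : ℕ) :
    (k : ℝ) * (c * ε ^ 2) ≤ T → ∀ x,
      Real.exp (-(L * (k * ε ^ 2))) * W x ≤ flow M c ε W k x := by
  induction k with
  | zero =>
    intro _ x
    show Real.exp (-(L * (((0 : ℕ) : ℝ) * ε ^ 2))) * W x ≤ W x
    simp
  | succ k ih =>
    intro hk x
    have hk' := time_le hc hε hk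
    rw [flow_succ]
    calc Real.exp (-(L * (((k + 1 : ℕ) : ℝ) * ε ^ 2))) * W x
        = Real.exp (-(L * (k * ε ^ 2))) * (Real.exp (-(L * ε ^ 2)) * W x) := by
          have e : -(L * (((k + 1 : ℕ) : ℝ) * ε ^ 2)) = -(L * (k * ε ^ 2)) + -(L * ε ^ 2) := by
            push_cast
            ring
          rw [e, Real.exp_add, mul_assoc]
      _ ≤ Real.exp (-(L * (k * ε ^ 2))) * M.P (k * (c * ε ^ 2)) ε W x :=
          mul_le_mul_of_nonneg_left (h _ (by positivity) hk' x) (Real.exp_pos _).le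
      _ = M.P (k * (c * ε ^ 2)) ε (fun y => Real.exp (-(L * (k * ε ^ 2))) * W y) x :=
          (P_smul _ _ _ _ _ _).symm
      _ ≤ _ := P_mono M _ ε (ih hk') x

theorem flow_jet (hN : 0 < N) {W U : E n → ℝ} (hU : ∀ x, 0 < U x) {c ε CQ K D T : ℝ}
    (hc : 0 < c) (hε : 0 < ε) (hCQ : 0 < CQ) (hD : 0 < D) (hWs : ContDiff ℝ 4 W)
    (hQC : ∀ t : ℝ, 0 ≤ t → t ≤ T → ∀ f : E n → ℝ, ContDiff ℝ 4 f → ∀ x,
      jet Fr (M.P t ε f) x ≤ (1 + CQ * ε ^ 2) * M.P t ε (jet Fr f) x)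
    (hPU : ∀ t : ℝ, 0 ≤ t → t ≤ T → ∀ x, |M.P t ε U x - U x| ≤ K * ε ^ 2 * U x)
    (hW : ∀ x, jet Fr W x ≤ D * U x) (k : ℕ) : (k : ℝ) * (c * ε ^ 2) ≤ T →
    ∀ x, jet Fr (flow M c ε W k) x ≤ (Real.exp ((CQ + K) * (k * ε ^ 2)) * D) * U x := by
  induction k with
  | zero =>
    intro _ x
    show jet Fr W x ≤ (Real.exp ((CQ + K) * (((0 : ℕ) : ℝ) * ε ^ 2)) * D) * U x
    simpa using hW x
  | succ k ih =>
    intro hk x
    have hk' := time_le hc hε hk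
    have ht0 : 0 ≤ (k : ℝ) * (c * ε ^ 2) := by positivity
    rw [flow_succ]
    obtain ⟨t, ht⟩ : ∃ t : ℝ, t = (k : ℝ) * (c * ε ^ 2) := ⟨_, rfl⟩
    rw [← ht] at hk' ht0 ⊢
    have hx := hU x
    have b1 : 1 + CQ * ε ^ 2 ≤ Real.exp (CQ * ε ^ 2) := by
      linarith [Real.add_one_le_exp (CQ * ε ^ 2)]
    have b2 : M.P t ε U x ≤ Real.exp (K * ε ^ 2) * U x := by
      have h1 := (abs_le.1 (hPU t ht0 hk' x)).2
      have h2 : 1 + K * ε ^ 2 ≤ Real.exp (K * ε ^ 2) := by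
        linarith [Real.add_one_le_exp (K * ε ^ 2)]
      calc M.P t ε U x ≤ (1 + K * ε ^ 2) * U x := by linarith
        _ ≤ _ := mul_le_mul_of_nonneg_right h2 hx.le
    have b3 : 0 ≤ M.P t ε U x := by
      have := P_mono M t ε (f := fun _ => 0) (fun y => (hU y).le) x
      rwa [P_const hN] at this
    calc jet Fr (M.P t ε (flow M c ε W k)) x
        ≤ (1 + CQ * ε ^ 2) * M.P t ε (jet Fr (flow M c ε W k)) x :=
          hQC t ht0 hk' (flow M c ε W k) (flow_contDiff c ε hWs k) x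
      _ ≤ (1 + CQ * ε ^ 2) * M.P t ε (fun y =>
            (Real.exp ((CQ + K) * (k * ε ^ 2)) * D) * U y) x :=
          mul_le_mul_of_nonneg_left (P_mono M t ε (ih (time_le hc hε hk)) x) (by positivity)
      _ = (1 + CQ * ε ^ 2) * ((Real.exp ((CQ + K) * (k * ε ^ 2)) * D) * M.P t ε U x) := by
          rw [P_smul]
      _ ≤ Real.exp (CQ * ε ^ 2) * ((Real.exp ((CQ + K) * (k * ε ^ 2)) * D) *
            (Real.exp (K * ε ^ 2) * U x)) :=
          mul_le_mul b1 (mul_le_mul_of_nonneg_left b2 (by positivity)) (by positivity)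
            (Real.exp_pos _).le
      _ = (Real.exp (CQ * ε ^ 2) * Real.exp ((CQ + K) * (k * ε ^ 2)) *
            Real.exp (K * ε ^ 2)) * D * U x := by ring
      _ = _ := by
          rw [← Real.exp_add, ← Real.exp_add]
          congr 3
          push_cast
          ring

/-- a weight for `G 0` is a weight for all `G t` -/
theorem wt_all (h4 : SpecEquiv) (hΓ : Act n Γ) (hG : Fam n Γ G) {W : E n → ℝ}
    (hW : Wt n Γ (G 0) W) (t : ℝ) (ht : 0 ≤ t) : Wt n Γ (G t) W := by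
  obtain ⟨L, hL, hLe⟩ := h4 n Γ G hΓ hG (t + 1) (by linarith)
  have hd := fun x => (hLe t 0 ht (by linarith) le_rfl (by linarith) x).1
  have hg := fun x => (hLe t 0 ht (by linarith) le_rfl (by linarith) x).2.1
  refine ⟨hW.smooth, hW.pos, hW.sum, ?_, ?_, hW.harnack⟩
  · have hc : Continuous (fun x => W x * dens (G t) x) := by
      refine hW.smooth.continuous.mul ?_
      exact (Equiv.contDiff_dens hG).continuous.comp (Continuous.prodMk_right t)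
    refine (hW.integ.const_mul L).mono hc.aestronglyMeasurable (Filter.Eventually.of_forall ?_)
    intro x
    have h1 : 0 ≤ dens (G t) x := Real.sqrt_nonneg _
    have h2 : 0 ≤ dens (G 0) x := Real.sqrt_nonneg _
    have h3 := (hW.pos x).le
    rw [Real.norm_of_nonneg (by positivity), Real.norm_of_nonneg (by positivity)]
    calc W x * dens (G t) x ≤ W x * (L * dens (G 0) x) := mul_le_mul_of_nonneg_left (hd x) h3
      _ = _ := by ring
  · obtain ⟨C, hC⟩ := hW.grad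
    refine ⟨√L * C, fun x => ?_⟩
    calc gradSq (G t) W x ≤ L * gradSq (G 0) W x := hg x (fun i => pd i W x)
      _ ≤ L * (C * W x) ^ 2 := mul_le_mul_of_nonneg_left (hC x) hL.le
      _ = (√L) ^ 2 * (C * W x) ^ 2 := by rw [Real.sq_sqrt hL.le]
      _ = _ := by ring

end

theorem main (h1 : SpecFrame) (h2 : SpecWeight) (h3 : SpecUni) (h4 : SpecEquiv) :
    SpecFlowT := by
  intro n Γ _ _ G hΓ hG
  obtain ⟨J, hJ, ⟨Fr⟩⟩ := h1 n Γ hΓ
  obtain ⟨W, U, C', hW, hUs, hU, hjW', hjU', hUW', hWU'⟩ := h2 n Γ (G 0) J Fr hΓ (hG.met 0)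
  refine ⟨W, fun t ht => wt_all h4 hΓ hG hW t ht, fun T hT => ?_⟩
  obtain ⟨N, M, CU, hN, hCU, huni⟩ := h3 n Γ G J Fr T hΓ hG hT
  obtain ⟨H, hH, hHar⟩ := harnack_maps hΓ hW M T
  have hc₀ : (0 : ℝ) < (N : ℝ)⁻¹ := by positivity
  obtain ⟨C, hC1, hjW, hjU, hUW, hWU⟩ : ∃ C : ℝ, 1 ≤ C ∧ (∀ x, jet Fr W x ≤ C * W x ^ 2) ∧
      (∀ x, jet Fr U x ≤ C * U x ^ 2) ∧ (∀ x, U x ≤ C * W x ^ 2) ∧
      (∀ x, W x ^ 2 ≤ C * U x) := by
    refine ⟨max C' 1, le_max_right _ _, fun x => ?_, fun x => ?_, fun x => ?_, fun x => ?_⟩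
    · exact (hjW' x).trans (mul_le_mul_of_nonneg_right (le_max_left _ _) (sq_nonneg _))
    · exact (hjU' x).trans (mul_le_mul_of_nonneg_right (le_max_left _ _) (sq_nonneg _))
    · exact (hUW' x).trans (mul_le_mul_of_nonneg_right (le_max_left _ _) (sq_nonneg _))
    · exact (hWU' x).trans (mul_le_mul_of_nonneg_right (le_max_left _ _) (hU x).le)
  have hC0 : 0 < C := by linarith
  have hH0 : 0 < H := by linarith
  have hCC2 : C ≤ C ^ 2 := by nlinarith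
  have hWs : ContDiff ℝ 4 W := hW.smooth.of_le (by norm_cast)
  have hUs4 : ContDiff ℝ 4 U := hUs.of_le (by norm_cast)
  have hQC := fun t ht0 htT f hf => (huni t ht0 htT f hf).1
  have hcons := fun t ht0 htT f hf => (huni t ht0 htT f hf).2.1
  have hbdd := fun t ht0 htT f hf => (huni t ht0 htT f hf).2.2
  have hcons1 := fun t ht0 htT ε hε hε1 f hf x B hB hj =>
    (hcons t ht0 htT f hf ε hε hε1 x B hB hj).1
  have hlap := fun t ht0 htT f hf x => (hbdd t ht0 htT f hf x).2.2.2.1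
  obtain ⟨K1, hK1, hPW⟩ := one_step (G := G) CU CU T hCU hCU hcons1 hlap W hWs hW.pos C H hC0 hH0
    (fun x => by
      calc jet Fr W x ≤ C * W x ^ 2 := hjW x
        _ ≤ C ^ 2 * W x ^ 2 := mul_le_mul_of_nonneg_right hCC2 (sq_nonneg _)
        _ = _ := by ring)
    (fun i t r x ht0 htT hr => (hHar i t r x ht0 htT hr).1)
  obtain ⟨K2, hK2, hPU⟩ := one_step (G := G) CU CU T hCU hCU hcons1 hlap U hUs4 hU C
    (C ^ 2 * H ^ 2) hC0 (by positivity)
    (fun x => by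
      calc jet Fr U x ≤ C * U x ^ 2 := hjU x
        _ ≤ C ^ 2 * U x ^ 2 := mul_le_mul_of_nonneg_right hCC2 (sq_nonneg _)
        _ = _ := by ring)
    (fun i t r x ht0 htT hr => by
      have h2 := (hW.pos (M.φ i t r x)).le
      calc U (M.φ i t r x) ≤ C * W (M.φ i t r x) ^ 2 := hUW _
        _ ≤ C * (H * W x) ^ 2 :=
            mul_le_mul_of_nonneg_left (pow_le_pow_left₀ h2 (hHar i t r x ht0 htT hr).1 2) hC0.le
        _ = C * H ^ 2 * W x ^ 2 := by ring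
        _ ≤ C * H ^ 2 * (C * U x) := mul_le_mul_of_nonneg_left (hWU x) (by positivity)
        _ = _ := by ring)
  obtain ⟨L, hL, hPW'⟩ := lower_step hN hW.pos hH
    (fun a t r x ht0 htT hr => (hHar a t r x ht0 htT hr).2) hK1 hPW
  -- `k ε² ≤ N T`
  have hkN : ∀ (ε : ℝ) (k : ℕ), (k : ℝ) * ((N : ℝ)⁻¹ * ε ^ 2) ≤ T →
      (k : ℝ) * ε ^ 2 ≤ N * T := by
    intro ε k hk
    have hN0 : (0 : ℝ) < N := by positivity
    calc (k : ℝ) * ε ^ 2 = N * ((k : ℝ) * ((N : ℝ)⁻¹ * ε ^ 2)) := by field_simp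
      _ ≤ _ := mul_le_mul_of_nonneg_left hk hN0.le
  obtain ⟨T', hT'⟩ : ∃ T' : ℝ, T' = N * T := ⟨_, rfl⟩
  have hT'0 : 0 < T' := by rw [hT']; positivity
  rw [← hT'] at hkN
  obtain ⟨S, hS⟩ : ∃ S : ℝ, S = Real.exp ((CU + K2) * T') * C ^ 2 := ⟨_, rfl⟩
  have hexp1 : 1 ≤ Real.exp ((CU + K2) * T') := Real.one_le_exp (by positivity)
  have hS1 : 1 ≤ S := by
    rw [hS]
    exact one_le_mul_of_one_le_of_one_le hexp1 (one_le_pow₀ hC1)
  have hS0 : 0 < S := by linarith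
  obtain ⟨A, hA1, hA2, hA3⟩ : ∃ A : ℝ, Real.exp (L * T') ≤ A ∧ (CU + 1) * S ^ 2 ≤ A ∧
      CU * (S * H) ≤ A := by
    refine ⟨Real.exp (L * T') + (CU + 1) * S ^ 2 + CU * (S * H), ?_, ?_, ?_⟩
    · have : 0 ≤ (CU + 1) * S ^ 2 + CU * (S * H) := by positivity
      linarith
    · have : 0 ≤ Real.exp (L * T') + CU * (S * H) := by positivity
      linarith
    · have : 0 ≤ Real.exp (L * T') + (CU + 1) * S ^ 2 := by positivity
      linarith
  have hA0 : 0 < A := lt_of_lt_of_le (Real.exp_pos _) hA1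
  have hjet' : ∀ ε : ℝ, 0 < ε → ε ≤ 1 → ∀ k : ℕ, k * ((N : ℝ)⁻¹ * ε ^ 2) ≤ T → ∀ x,
      jet Fr (flow M (N : ℝ)⁻¹ ε W k) x ≤ (S * W x) ^ 2 := by
    intro ε hε hε1 k hk x
    have hx := hW.pos x
    have h1 := flow_jet (D := C ^ 2) (T := T) (CQ := CU) (K := K2) hN hU hc₀ hε hCU
      (by positivity) hWs
      (fun t ht0 htT f hf => hQC t ht0 htT f hf ε hε hε1)
      (fun t ht0 htT => hPU t ht0 htT ε hε hε1) (fun x => by
        calc jet Fr W x ≤ C * W x ^ 2 := hjW x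
          _ ≤ C * (C * U x) := mul_le_mul_of_nonneg_left (hWU x) hC0.le
          _ = _ := by ring) k hk x
    have h3 : Real.exp ((CU + K2) * (k * ε ^ 2)) ≤ Real.exp ((CU + K2) * T') :=
      Real.exp_le_exp.2 (mul_le_mul_of_nonneg_left (hkN ε k hk) (by positivity))
    calc jet Fr (flow M (N : ℝ)⁻¹ ε W k) x
        ≤ (Real.exp ((CU + K2) * (k * ε ^ 2)) * C ^ 2) * U x := h1
      _ ≤ (Real.exp ((CU + K2) * T') * C ^ 2) * (C * W x ^ 2) :=
          mul_le_mul (mul_le_mul_of_nonneg_right h3 (by positivity)) (hUW x) (hU x).le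
            (by positivity)
      _ = Real.exp ((CU + K2) * T') * (C ^ 3 * W x ^ 2) := by ring
      _ ≤ Real.exp ((CU + K2) * T') ^ 2 * (C ^ 4 * W x ^ 2) := by
          refine mul_le_mul ?_ (mul_le_mul_of_nonneg_right ?_ (sq_nonneg _)) (by positivity)
            (by positivity)
          · nlinarith
          · exact pow_le_pow_right₀ hC1 (by norm_num)
      _ = _ := by rw [hS]; ring
  refine ⟨(N : ℝ)⁻¹, A, hc₀, hA0, fun ε hε hε1 => ⟨flow M (N : ℝ)⁻¹ ε W, rfl,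
    fun k hk => ?_, fun k hk x => ?_⟩⟩
  · have ht0 : 0 ≤ (k : ℝ) * ((N : ℝ)⁻¹ * ε ^ 2) := by positivity
    have hlow := flow_lower hc₀ hε (fun t ht0 htT => hPW' t ht0 htT ε hε hε1) k hk
    refine B3d.mk_step (Fr := Fr) (CB := CU) (S := S) (q := Real.exp (L * T')) hW.pos hCU hS1
      (hbdd _ ht0 hk (flow M (N : ℝ)⁻¹ ε W k) (flow_contDiff _ ε hWs k))
      (flow_contDiff _ ε hWs k)
      (flow_sum hN _ ε hW.sum k) (Real.exp_pos _) (fun x => ?_) (hjet' ε hε hε1 k hk) hA1 hA2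
    have hx := hW.pos x
    have h1 := hlow x
    have hvp : 0 < flow M (N : ℝ)⁻¹ ε W k x := lt_of_lt_of_le (by positivity) h1
    have e : Real.exp (L * (k * ε ^ 2)) * (Real.exp (-(L * (k * ε ^ 2))) * W x) = W x := by
      rw [← mul_assoc, ← Real.exp_add]; simp
    have h3 : Real.exp (L * (k * ε ^ 2)) ≤ Real.exp (L * T') :=
      Real.exp_le_exp.2 (mul_le_mul_of_nonneg_left (hkN ε k hk) hL.le)
    calc W x = Real.exp (L * (k * ε ^ 2)) * (Real.exp (-(L * (k * ε ^ 2))) * W x) := e.symm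
      _ ≤ Real.exp (L * (k * ε ^ 2)) * flow M (N : ℝ)⁻¹ ε W k x :=
          mul_le_mul_of_nonneg_left h1 (Real.exp_pos _).le
      _ ≤ Real.exp (L * T') * flow M (N : ℝ)⁻¹ ε W k x := mul_le_mul_of_nonneg_right h3 hvp.le
  · have ht0 : 0 ≤ (k : ℝ) * ((N : ℝ)⁻¹ * ε ^ 2) := by positivity
    have hx := hW.pos x
    have hc := hcons _ ht0 hk (flow M (N : ℝ)⁻¹ ε W k) (flow_contDiff _ ε hWs k) ε hε hε1 x
      (S * H * W x) (by positivity) fun a r hr => ?_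
    · rw [flow_succ]
      refine ⟨hc.1.trans ?_, hc.2.trans ?_⟩
      · calc CU * ε ^ 3 * (S * H * W x) = CU * (S * H) * (ε ^ 3 * W x) := by ring
          _ ≤ A * (ε ^ 3 * W x) := mul_le_mul_of_nonneg_right hA3 (by positivity)
          _ = _ := by ring
      · calc (CU * ε ^ 3 * (S * H * W x)) ^ 2 = (CU * (S * H) * (ε ^ 3 * W x)) ^ 2 := by ring
          _ ≤ (A * (ε ^ 3 * W x)) ^ 2 := pow_le_pow_left₀ (by positivity)
              (mul_le_mul_of_nonneg_right hA3 (by positivity)) 2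
          _ = _ := by ring
    · refine (hjet' ε hε hε1 k hk _).trans ?_
      have h1 := (hHar a _ r x ht0 hk (hr.trans hε1)).1
      have h2 := (hW.pos (M.φ a ((k : ℝ) * ((N : ℝ)⁻¹ * ε ^ 2)) r x)).le
      refine pow_le_pow_left₀ (by positivity) ?_ 2
      calc S * W (M.φ a _ r x) ≤ S * (H * W x) := mul_le_mul_of_nonneg_left h1 hS0.le
        _ = _ := by ring

end Vale.Agent.P223.H.B21b
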