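import Vale.Agent.P223.H.Defs

/-! Definitions: families of metrics, Ricci flow. -/

namespace Vale.Agent.P223.H

open scoped ContDiff
open MeasureTheory

/-- A smooth one-parameter family of Riemannian metrics on `ℝ^n / Γ`. -/
structure Fam (n : ℕ) (Γ : Type) [Group Γ] [MulAction Γ (E n)]
    (G : ℝ → E n → Matrix (Fin n) (Fin n) ℝ) : Prop where
  smooth : ∀ i j, ContDiff ℝ ∞ (fun p : ℝ × E n => G p.1 p.2 i j)
  met : ∀ t, Met n Γ (G t)

/-- The time derivative of a family of metrics. -/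
noncomputable def dtG {n : ℕ} (G : ℝ → E n → Matrix (Fin n) (Fin n) ℝ) (t : ℝ) (x : E n)
    (i j : Fin n) : ℝ := deriv (fun s => G s x i j) t

/-- half the trace of the time derivative -/
noncomputable def trh {n : ℕ} (G : ℝ → E n → Matrix (Fin n) (Fin n) ℝ) (t : ℝ) (x : E n) : ℝ :=
  1 / 2 * ∑ i, ∑ j, (G t x)⁻¹ i j * dtG G t x i j

/-- A Ricci flow on `ℝ^n / Γ` for all times `t ≥ 0`. -/
structure RF (n : ℕ) (Γ : Type) [Group Γ] [MulAction Γ (E n)]
    (G : ℝ → E n → Matrix (Fin n) (Fin n) ℝ) : Prop where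
  smooth : ∀ i j, ContDiffOn ℝ ∞ (fun p : ℝ × E n => G p.1 p.2 i j) (Set.Ici 0 ×ˢ Set.univ)
  met : ∀ t, 0 ≤ t → Met n Γ (G t)
  flow : ∀ t, 0 < t → ∀ x i j, HasDerivAt (fun s => G s x i j) (-2 * ric (G t) x i j) t

end Vale.Agent.P223.H
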