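import Vale.Agent.P223.H.Spec2
import Vale.Agent.P223.H.Defs2

/-! Phase 2B: moving metrics (families `G t`), Ricci flow. -/

namespace Vale.Agent.P223.H

open scoped ContDiff
open MeasureTheory

/-! ## [21] the flow for moving metrics -/

/-- maps depending on the time `t` -/
structure MapsT (n : ℕ) (Γ : Type) [Group Γ] [MulAction Γ (E n)] (N : ℕ) where
  φ : Fin N → ℝ → ℝ → E n → E n
  smooth : ∀ a, ContDiff ℝ ∞ (fun p : ℝ × ℝ × E n => φ a p.1 p.2.1 p.2.2)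
  zero : ∀ a t x, φ a t 0 x = x
  equi : ∀ a t r (γ : Γ) x, φ a t r (γ • x) = γ • φ a t r x

/-- the averaging operator at time `t` -/
noncomputable def MapsT.P {n : ℕ} {Γ : Type} [Group Γ] [MulAction Γ (E n)] {N : ℕ}
    (M : MapsT n Γ N) (t ε : ℝ) (f : E n → ℝ) (x : E n) : ℝ :=
  (N : ℝ)⁻¹ * ∑ a, (f (M.φ a t ε x) + f (M.φ a t (-ε) x)) / 2

/-- BLOCK 21a : maps with uniform constants for `t ∈ [0, T]`. -/
def SpecUni : Prop := ∀ (n : ℕ) (Γ : Type) [Group Γ] [MulAction Γ (E n)]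
  (G : ℝ → E n → Matrix (Fin n) (Fin n) ℝ) (J : Type) [Fintype J] (Fr : Frame n Γ J) (T : ℝ),
  Act n Γ → Fam n Γ G → 0 < T →
  ∃ (N : ℕ) (M : MapsT n Γ N) (C : ℝ), 0 < N ∧ 0 < C ∧ ∀ t : ℝ, 0 ≤ t → t ≤ T →
  ∀ f : E n → ℝ, ContDiff ℝ 4 f →
  (∀ ε : ℝ, 0 < ε → ε ≤ 1 → ∀ x,
    jet Fr (M.P t ε f) x ≤ (1 + C * ε ^ 2) * M.P t ε (jet Fr f) x) ∧
  (∀ ε : ℝ, 0 < ε → ε ≤ 1 → ∀ (x : E n) (B : ℝ), 0 ≤ B →
    (∀ a (r : ℝ), |r| ≤ ε → jet Fr f (M.φ a t r x) ≤ B ^ 2) →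
    |M.P t ε f x - f x - ε ^ 2 * (N : ℝ)⁻¹ * lap (G t) f x| ≤ C * ε ^ 3 * B ∧
    gradSq (G t) (fun y => M.P t ε f y - f y - ε ^ 2 * (N : ℝ)⁻¹ * lap (G t) f y) x ≤
      (C * ε ^ 3 * B) ^ 2) ∧
  (∀ x, f x ^ 2 ≤ jet Fr f x ∧ gradSq (G t) f x ≤ C * jet Fr f x ∧
    gradSq (G t) (fun y => gradSq (G t) f y) x ≤ C * jet Fr f x ^ 2 ∧
    lap (G t) f x ^ 2 ≤ C * jet Fr f x ∧
    gradSq (G t) (fun y => lap (G t) f y) x ≤ C * jet Fr f x)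

/-! ### product with a circle, used for block 21a -/

/-- the group `Γ × ℤ`; the second factor acts on `ℝ × ℝ^n` by translations by `P` -/
def GZ (Γ : Type) (_ : ℝ) : Type := Γ × Multiplicative ℤ

noncomputable instance (Γ : Type) [Group Γ] (P : ℝ) : Group (GZ Γ P) :=
  inferInstanceAs (Group (Γ × Multiplicative ℤ))

noncomputable instance (n : ℕ) (Γ : Type) [Group Γ] [MulAction Γ (E n)] (P : ℝ) :
    MulAction (GZ Γ P) (E (n + 1)) where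
  smul g y := Fin.cons (y 0 + (Multiplicative.toAdd g.2 : ℤ) * P) (g.1 • (Fin.tail y : E n) : E n)
  one_smul y := by
    funext i
    refine Fin.cases ?_ (fun j => ?_) i
    · show y 0 + ((Multiplicative.toAdd (1 : Multiplicative ℤ) : ℤ) : ℝ) * P = y 0
      simp
    · show ((1 : Γ) • (Fin.tail y : E n)) j = y j.succ
      rw [one_smul]; rfl
  mul_smul g h y := by
    funext i
    refine Fin.cases ?_ (fun j => ?_) i
    · show y 0 + ((Multiplicative.toAdd (g.2 * h.2) : ℤ) : ℝ) * P =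
        (y 0 + ((Multiplicative.toAdd h.2 : ℤ) : ℝ) * P) +
          ((Multiplicative.toAdd g.2 : ℤ) : ℝ) * P
      rw [toAdd_mul]; push_cast; ring
    · show ((g.1 * h.1) • (Fin.tail y : E n)) j = (g.1 • (h.1 • (Fin.tail y : E n))) j
      rw [mul_smul]

/-- the metric `dt² + G t` -/
noncomputable def prodMet {n : ℕ} (G : ℝ → E n → Matrix (Fin n) (Fin n) ℝ) (y : E (n + 1)) :
    Matrix (Fin (n + 1)) (Fin (n + 1)) ℝ := Matrix.of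
  (Fin.cons (Fin.cons 1 fun _ => 0) fun i => Fin.cons 0 fun j => G (y 0) (Fin.tail y) i j)

/-- BLOCK 21a.1 -/
def SpecProdAct : Prop := ∀ (n : ℕ) (Γ : Type) [Group Γ] [MulAction Γ (E n)] (P : ℝ), 0 < P →
  Act n Γ → Act (n + 1) (GZ Γ P)

/-- BLOCK 21a.2 -/
def SpecProdMet : Prop := ∀ (n : ℕ) (Γ : Type) [Group Γ] [MulAction Γ (E n)] (P : ℝ)
  (G : ℝ → E n → Matrix (Fin n) (Fin n) ℝ), Act n Γ → Fam n Γ G → (∀ t, G (t + P) = G t) →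
  Met (n + 1) (GZ Γ P) (prodMet G) ∧
  (∀ f : E n → ℝ, ContDiff ℝ 2 f → ∀ y : E (n + 1),
    lap (prodMet G) (fun z => f (Fin.tail z)) y = lap (G (y 0)) f (Fin.tail y)) ∧
  (∀ F : E (n + 1) → ℝ, ∀ y : E (n + 1), DifferentiableAt ℝ F y →
    gradSq (prodMet G) F y = pd 0 F y ^ 2 +
      gradSq (G (y 0)) (fun x : E n => F (Fin.cons (y 0) x)) (Fin.tail y))

/-- BLOCK 21a.3 : frames and jets -/
def SpecProdFrame : Prop := ∀ (n : ℕ) (Γ : Type) [Group Γ] [MulAction Γ (E n)] (P : ℝ)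
  (J : Type) [Fintype J] (Fr : Frame n Γ J), Act n Γ →
  ∃ Fr' : Frame (n + 1) (GZ Γ P) (Option J),
  (∀ f : E n → ℝ, ContDiff ℝ 4 f → ∀ y : E (n + 1),
    jet Fr' (fun z => f (Fin.tail z)) y = jet Fr f (Fin.tail y)) ∧
  (∀ F : E (n + 1) → ℝ, ContDiff ℝ 4 F → ∀ y : E (n + 1),
    jet Fr (fun x : E n => F (Fin.cons (y 0) x)) (Fin.tail y) ≤ jet Fr' F y)

/-- BLOCK 21a.4 : periodic time function -/
def SpecTau : Prop := ∀ T : ℝ, 0 < T → ∃ (P : ℝ) (τ : ℝ → ℝ), 0 < P ∧ ContDiff ℝ ∞ τ ∧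
  (∀ t, τ (t + P) = τ t) ∧ ∀ t, 0 ≤ t → t ≤ T → τ t = t

/- 21a.5 : SpecMaps → SpecQC → SpecCons → SpecBdd → SpecProdAct → SpecProdMet → SpecProdFrame →
   SpecTau → SpecUni  (apply the four specs on `E (n+1)` to `prodMet (fun t => G (τ t))` and the
   functions `f ∘ tail`; `φ a t r x = tail (M̂.φ a r (cons t x))`). -/

/-- BLOCK 22 : uniform equivalence of the metrics `G t`, `t ∈ [0, T]` -/
def SpecEquiv : Prop := ∀ (n : ℕ) (Γ : Type) [Group Γ] [MulAction Γ (E n)]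
  (G : ℝ → E n → Matrix (Fin n) (Fin n) ℝ), Act n Γ → Fam n Γ G → ∀ T : ℝ, 0 < T →
  ∃ L : ℝ, 0 < L ∧ ∀ t s : ℝ, 0 ≤ t → t ≤ T → 0 ≤ s → s ≤ T → ∀ x : E n,
  dens (G t) x ≤ L * dens (G s) x ∧
  (∀ ξ : E n, ∑ i, ∑ j, (G t x)⁻¹ i j * ξ i * ξ j ≤ L * ∑ i, ∑ j, (G s x)⁻¹ i j * ξ i * ξ j) ∧
  (∀ w : E n, ∑ i, ∑ j, G t x i j * w i * w j ≤ L * ∑ i, ∑ j, G s x i j * w i * w j)

/-- BLOCK 21b : discrete heat flow for a moving metric.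
(SpecFrame → SpecWeight → SpecUni → SpecEquiv → SpecFlowT, as in `B3d.lean`.) -/
def SpecFlowT : Prop := ∀ (n : ℕ) (Γ : Type) [Group Γ] [MulAction Γ (E n)]
  (G : ℝ → E n → Matrix (Fin n) (Fin n) ℝ), Act n Γ → Fam n Γ G →
  ∃ W : E n → ℝ, (∀ t, 0 ≤ t → Wt n Γ (G t) W) ∧ ∀ T : ℝ, 0 < T → ∃ c₀ A : ℝ, 0 < c₀ ∧ 0 < A ∧
  ∀ ε : ℝ, 0 < ε → ε ≤ 1 → ∃ v : ℕ → E n → ℝ, v 0 = W ∧
  (∀ k : ℕ, k * (c₀ * ε ^ 2) ≤ T → Step n Γ (G (k * (c₀ * ε ^ 2))) W A (v k)) ∧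
  (∀ k : ℕ, k * (c₀ * ε ^ 2) ≤ T → ∀ x,
    |v (k + 1) x - v k x - ε ^ 2 * c₀ * lap (G (k * (c₀ * ε ^ 2))) (v k) x| ≤ A * ε ^ 3 * W x ∧
    gradSq (G (k * (c₀ * ε ^ 2)))
      (fun y => v (k + 1) y - v k y - ε ^ 2 * c₀ * lap (G (k * (c₀ * ε ^ 2))) (v k) y) x ≤
      (A * ε ^ 3 * W x) ^ 2)

/-! ## [23] time Taylor estimate, [24] assembly -/

/-- the derivative of `eD (G t) a η v * dens (G t)` with respect to `t` (for fixed `v`), divided by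
`dens (G t)` -/
noncomputable def tE {n : ℕ} (G : ℝ → E n → Matrix (Fin n) (Fin n) ℝ) (a η t : ℝ) (v : E n → ℝ)
    (x : E n) : ℝ :=
  trh G t x * (v x * (gradSq (G t) v x / v x ^ 2 + η) ^ a) -
  a * (v x * (gradSq (G t) v x / v x ^ 2 + η) ^ (a - 1)) *
    (∑ i, ∑ j, dtG G t x i j * grd (G t) v x i * grd (G t) v x j) / v x ^ 2

/-- BLOCK 23 -/
def SpecTT : Prop := ∀ (n : ℕ) (Γ : Type) [Group Γ] [MulAction Γ (E n)]
  (G : ℝ → E n → Matrix (Fin n) (Fin n) ℝ), Act n Γ → Fam n Γ G → ∀ T a η A : ℝ, 0 < T → 1 ≤ a →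
  0 < η → 0 < A → ∃ C : ℝ, 0 < C ∧ ∀ t s : ℝ, 0 ≤ t → t ≤ s → s ≤ T →
  ∀ (x : E n) (W : ℝ) (v v' : E n → ℝ), 0 < W →
  DifferentiableAt ℝ v x → DifferentiableAt ℝ v' x →
  W ≤ A * v x → W ≤ A * v' x → v x ≤ A * W → v' x ≤ A * W →
  gradSq (G t) v x ≤ (A * W) ^ 2 → gradSq (G t) v' x ≤ (A * W) ^ 2 →
  eD (G s) a η v' x * dens (G s) x - eD (G t) a η v' x * dens (G t) x ≤
    ((s - t) * tE G a η t v x + C * (s - t) * ((s - t) * W + |v' x - v x| +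
      √(gradSq (G t) (fun y => v' y - v y) x))) * dens (G t) x

/-- BLOCK 4' : pointwise Bochner inequality for moving metrics; `h` is the time derivative of the
metric at the point `x`. (`ρ`, `σ` of arbitrary sign.) -/
def SpecBochnerT : Prop := ∀ (n : ℕ) (G : E n → Matrix (Fin n) (Fin n) ℝ),
  (∀ i j, ContDiff ℝ ∞ (fun x => G x i j)) → (∀ x, (G x).PosDef) →
  ∀ (x : E n) (h : Fin n → Fin n → ℝ) (ρ σ : ℝ),
  (∀ w : E n, -ρ * ∑ i, ∑ j, w i * w j * G x i j ≤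
    ∑ i, ∑ j, w i * w j * (ric G x i j + 1 / 2 * h i j)) →
  ∀ (a η q R : ℝ), 1 ≤ a → 0 < η → |ρ| ≤ R → 0 ≤ q → ρ + σ / (2 * a) ≤ q →
  ∀ v : E n → ℝ, ContDiff ℝ 4 v → (∀ x, 0 < v x) →
  ∀ κ : ℝ, κ = √n + 2 * a →
    2 * a / (κ ^ 2 * (a + 1)) * (v x * (gradSq G v x / v x ^ 2 + η) ^ (a + 1)) ≤
    2 * a / (κ ^ 2 * (a + 1)) * (v x * (κ ^ 2 * (q + 2 * η / κ ^ 2)) ^ (a + 1)) +
      2 * a * R * η * (v x * (gradSq G v x / v x ^ 2 + η) ^ (a - 1)) -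
      (dE G a η v (fun y => lap G v y) x + σ * (v x * (gradSq G v x / v x ^ 2 + η) ^ a) -
        a * (v x * (gradSq G v x / v x ^ 2 + η) ^ (a - 1)) *
          (∑ i, ∑ j, h i j * grd G v x i * grd G v x j) / v x ^ 2) +
      divg G (ZZ G a η κ v) x

/-- BLOCK 24 : main analytic result for moving metrics.
(SpecFlowT → SpecEquiv → SpecTT → SpecBochnerT → SpecAT, as in `B5d.lean`. Order of the choices:
`T` (with the initial energy for `η = 1`), then `A`, `c₀` (SpecFlowT), then `η`, then `ε`.) -/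
def SpecAT : Prop := ∀ (n : ℕ) (Γ : Type) [Group Γ] [MulAction Γ (E n)]
  (G : ℝ → E n → Matrix (Fin n) (Fin n) ℝ), 4 ≤ n → Act n Γ → Fam n Γ G →
  ∀ ρ σ : ℝ → E n → ℝ, Continuous (fun p : ℝ × E n => ρ p.1 p.2) →
  Continuous (fun p : ℝ × E n => σ p.1 p.2) →
  (∀ t (γ : Γ) (x : E n), ρ t (γ • x) = ρ t x) → (∀ t (γ : Γ) (x : E n), σ t (γ • x) = σ t x) →
  (∀ t, 0 ≤ t → ∀ x w : E n, -ρ t x * ∑ i, ∑ j, w i * w j * G t x i j ≤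
    ∑ i, ∑ j, w i * w j * (ric (G t) x i j + 1 / 2 * dtG G t x i j)) →
  (∀ t, 0 ≤ t → ∀ x, trh G t x ≤ σ t x) →
  ∀ D : Set (E n), MeasurableSet D → (∀ x : E n, ∃ γ : Γ, γ • x ∈ D) → ∀ B : ENNReal,
  (∀ t, 0 ≤ t →
    int (G t) D (fun x => max 0 (ρ t x + σ t x / ((n : ℝ) - 2)) ^ ((n : ℝ) / 2)) ≤ B) →
  ∀ δ : ℝ, 0 < δ →
  ∃ (t : ℝ) (W v : E n → ℝ) (A : ℝ), Wt n Γ (G t) W ∧ Step n Γ (G t) W A v ∧
    int (G t) Set.univ (fun x => v x * (gradSq (G t) v x / v x ^ 2) ^ ((n : ℝ) / 2)) ≤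
      ENNReal.ofReal (((n : ℝ) - 2 + √n) ^ n) * B + ENNReal.ofReal δ

/-! ## [25] Ricci flow -/

/-- covariant derivative of the Ricci tensor: `∇_k Ric_{ij}` -/
noncomputable def dric {n : ℕ} (G : E n → Matrix (Fin n) (Fin n) ℝ) (x : E n) (k i j : Fin n) :
    ℝ := pd k (fun y => ric G y i j) x -
  ∑ l, (chr G x l k i * ric G x l j + chr G x l k j * ric G x i l)

/-- BLOCK 25a : the Ricci tensor is symmetric; contracted Bianchi identity -/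
def SpecBianchi : Prop := ∀ (n : ℕ) (G : E n → Matrix (Fin n) (Fin n) ℝ),
  (∀ i j, ContDiff ℝ ∞ (fun x => G x i j)) → (∀ x, (G x).PosDef) → ∀ x,
  (∀ i j, ric G x i j = ric G x j i) ∧
  ∀ k, 2 * ∑ i, ∑ j, (G x)⁻¹ i j * dric G x i j k = pd k (fun y => scal G y) x

/-- squared norm of the Ricci tensor -/
noncomputable def ricSq {n : ℕ} (G : E n → Matrix (Fin n) (Fin n) ℝ) (x : E n) : ℝ :=
  ∑ i, ∑ j, ∑ k, ∑ l, (G x)⁻¹ i k * (G x)⁻¹ j l * ric G x i j * ric G x k l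

/-- BLOCK 25b : evolution of the scalar curvature and of the volume under the Ricci flow
(local). (SpecBianchi → SpecEvol.) -/
def SpecEvol : Prop := ∀ (n : ℕ) (G : ℝ → E n → Matrix (Fin n) (Fin n) ℝ),
  (∀ i j, ContDiff ℝ ∞ (fun p : ℝ × E n => G p.1 p.2 i j)) → (∀ t x, (G t x).PosDef) →
  ∀ t : ℝ, (∀ x i j, dtG G t x i j = -2 * ric (G t) x i j) → ∀ x,
  HasDerivAt (fun s => scal (G s) x) (lap (G t) (fun y => scal (G t) y) x + 2 * ricSq (G t) x) t ∧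
  HasDerivAt (fun s => dens (G s) x) (-scal (G t) x * dens (G t) x) t ∧
  scal (G t) x ^ 2 ≤ n * ricSq (G t) x

/-- BLOCK 25c : monotonicity. (SpecEvol → SpecLapInt → SpecMono.) -/
def SpecMono : Prop := ∀ (n : ℕ) (Γ : Type) [Group Γ] [MulAction Γ (E n)]
  (G : ℝ → E n → Matrix (Fin n) (Fin n) ℝ), 3 ≤ n → Act n Γ → Fam n Γ G → ∀ t₀ : ℝ,
  (∀ t, t₀ < t → ∀ x i j, dtG G t x i j = -2 * ric (G t) x i j) →
  ∀ D : Set (E n), MeasurableSet D → Bornology.IsBounded D → (∀ x : E n, ∃! γ : Γ, γ • x ∈ D) →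
  ∀ s t : ℝ, t₀ ≤ s → s ≤ t →
  int (G t) D (fun x => max 0 (-scal (G t) x) ^ ((n : ℝ) / 2)) ≤
    int (G s) D (fun x => max 0 (-scal (G s) x) ^ ((n : ℝ) / 2))

/-- BLOCK 26a : reparametrisation: for `t₀ > 0` there is a smooth family on all of `ℝ` which agrees
with the Ricci flow for `t ≥ t₀`. -/
def SpecExt : Prop := ∀ (n : ℕ) (Γ : Type) [Group Γ] [MulAction Γ (E n)]
  (G : ℝ → E n → Matrix (Fin n) (Fin n) ℝ), RF n Γ G → ∀ t₀ : ℝ, 0 < t₀ →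
  ∃ G' : ℝ → E n → Matrix (Fin n) (Fin n) ℝ, Fam n Γ G' ∧ ∀ t, t₀ ≤ t → G' t = G t

/-- BLOCK 26b : continuity at `t = 0`. -/
def SpecZero : Prop := ∀ (n : ℕ) (Γ : Type) [Group Γ] [MulAction Γ (E n)]
  (G : ℝ → E n → Matrix (Fin n) (Fin n) ℝ), Act n Γ → RF n Γ G →
  ∀ D : Set (E n), MeasurableSet D → Bornology.IsBounded D → ∀ p : ℝ, 0 ≤ p → ∀ δ : ENNReal, 0 < δ →
  ∃ t₁ : ℝ, 0 < t₁ ∧ ∀ t, 0 ≤ t → t < t₁ →
    int (G t) D (fun x => max 0 (-scal (G t) x) ^ p) ≤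
      int (G 0) D (fun x => max 0 (-scal (G 0) x) ^ p) + δ

end Vale.Agent.P223.H
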