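import Vale.Agent.P223.H.B5d
import Vale.Agent.P223.H.SpecT

/-! Block 24 : the main analytic estimate for moving metrics. -/

namespace Vale.Agent.P223.H.B24

open scoped ContDiff Topology Matrix ENNReal
open MeasureTheory Filter B5a B5b B5c B5d

/-- Uniform bounds for continuous invariant functions of `(t, x)`. -/
theorem boundedT {n : ℕ} {Γ : Type} [Group Γ] [MulAction Γ (E n)] (hΓ : Act n Γ)
    {f : ℝ → E n → ℝ} (hf : Continuous fun p : ℝ × E n => f p.1 p.2)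
    (hi : ∀ t (γ : Γ) (x : E n), f t (γ • x) = f t x) (T : ℝ) :
    ∃ C : ℝ, 0 < C ∧ ∀ t, 0 ≤ t → t ≤ T → ∀ x, |f t x| ≤ C := by
  obtain ⟨K, hK, hK'⟩ := hΓ.cocompact
  obtain ⟨C, hC⟩ := ((isCompact_Icc (a := (0 : ℝ)) (b := T)).prod hK).exists_bound_of_continuousOn
    hf.continuousOn
  refine ⟨max C 1, by positivity, fun t h0 hT x => ?_⟩
  obtain ⟨γ, hγ⟩ := hK' x
  rw [← hi t γ x]
  exact (hC (t, γ • x) ⟨⟨h0, hT⟩, hγ⟩).trans (le_max_left _ _)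

/-- The pointwise decrease of the energy density, moving metric. -/
theorem stepT (hTT : SpecTT) (n : ℕ) (Γ : Type) [Group Γ] [MulAction Γ (E n)]
    (G : ℝ → E n → Matrix (Fin n) (Fin n) ℝ) (hΓ : Act n Γ) (hG : Fam n Γ G) (T a η A c₀ : ℝ)
    (hT : 0 < T) (ha : 1 ≤ a) (hη : 0 < η) (hA : 0 < A) (hc : 0 < c₀) :
    ∃ C : ℝ, 0 < C ∧ ∀ (t s ε : ℝ) (x : E n) (W : ℝ) (v v' l : E n → ℝ), 0 ≤ t → s = t + c₀ * ε ^ 2 →
      s ≤ T → 0 < W → 0 < ε → ε ≤ 1 →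
      DifferentiableAt ℝ v x → DifferentiableAt ℝ v' x → DifferentiableAt ℝ l x →
      W ≤ A * v x → W ≤ A * v' x → v x ≤ A * W → v' x ≤ A * W →
      gradSq (G t) v x ≤ (A * W) ^ 2 → gradSq (G t) v' x ≤ (A * W) ^ 2 →
      |l x| ≤ A * W → gradSq (G t) l x ≤ (A * W) ^ 2 →
      |v' x - v x - ε ^ 2 * c₀ * l x| ≤ A * ε ^ 3 * W →
      gradSq (G t) (fun y => v' y - v y - ε ^ 2 * c₀ * l y) x ≤ (A * ε ^ 3 * W) ^ 2 →
      eD (G s) a η v' x * dens (G s) x - eD (G t) a η v x * dens (G t) x ≤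
        (ε ^ 2 * c₀ * (dE (G t) a η v l x + tE G a η t v x) + C * ε ^ 3 * W) * dens (G t) x := by
  obtain ⟨C₁, hC₁, h1⟩ := step_le a η A c₀ ha hη hA hc
  obtain ⟨C₂, hC₂, h2⟩ := hTT n Γ G hΓ hG T a η A hT ha hη hA
  refine ⟨C₁ + C₂ * c₀ * (c₀ + 3 * (c₀ + 1) * A), by positivity, ?_⟩
  intro t s ε x W v v' l ht hs hsT hW hε hε1 dv dv' dl g1 g2 g3 g4 g5 g6 g7 g8 g9 g10
  have hPD := (hG.met t).pos x
  have hd := Common.dens_pos (hG.met t) x
  have k1 := h1 n (G t) x W ε v v' l hPD hW hε hε1 dv dv' dl g1 g2 g3 g4 g5 g6 g7 g8 g9 g10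
  have hts : t ≤ s := by rw [hs]; nlinarith [sq_nonneg ε]
  have k2 := h2 t s ht hts hsT x W v v' hW dv dv' g1 g2 g3 g4 g5 g6
  have hst : s - t = ε ^ 2 * c₀ := by rw [hs]; ring
  rw [hst] at k2
  -- size of the increment
  set r : E n → ℝ := fun y => v' y - v y - ε ^ 2 * c₀ * l y with hr
  have hε3 : ε ^ 3 ≤ ε ^ 2 := pow_le_pow_of_le_one hε.le hε1 (by norm_num)
  have m1 : |v' x - v x| ≤ (c₀ + 1) * A * ε ^ 2 * W := by
    have e : v' x - v x = ε ^ 2 * c₀ * l x + (v' x - v x - ε ^ 2 * c₀ * l x) := by ring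
    rw [e]
    calc |ε ^ 2 * c₀ * l x + (v' x - v x - ε ^ 2 * c₀ * l x)|
        ≤ |ε ^ 2 * c₀ * l x| + |v' x - v x - ε ^ 2 * c₀ * l x| := abs_add_le _ _
      _ ≤ ε ^ 2 * c₀ * (A * W) + A * ε ^ 2 * W := by
          refine add_le_add ?_ (g9.trans ?_)
          · rw [abs_mul, abs_of_pos (by positivity : 0 < ε ^ 2 * c₀)]
            gcongr
          · gcongr
      _ = _ := by ring
  have m2 : √(gradSq (G t) (fun y => v' y - v y) x) ≤ 2 * (c₀ + 1) * A * ε ^ 2 * W := by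
    have hpr : ∀ i, pd i r x = pd i v' x - pd i v x - ε ^ 2 * c₀ * pd i l x := fun i => by
      have d1 : DifferentiableAt ℝ (fun y => v' y - v y) x := dv'.sub dv
      have d2 : DifferentiableAt ℝ (fun y => ε ^ 2 * c₀ * l y) x := dl.const_mul _
      unfold pd
      rw [hr, fderiv_fun_sub d1 d2, fderiv_fun_sub dv' dv, fderiv_const_mul dl]
      rfl
    have hpw : ∀ i, pd i (fun y => v' y - v y) x = pd i v' x - pd i v x := fun i => by
      unfold pd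
      rw [fderiv_fun_sub dv' dv]; rfl
    have e := gradSq_lin_le (f := fun y => v' y - v y) (g := l) (h := r) (c := ε ^ 2 * c₀) (d := 1)
      hPD (fun i => by rw [hpr, hpw]; ring)
    refine Real.sqrt_le_iff.2 ⟨by positivity, e.trans ?_⟩
    have hl0 : 0 ≤ gradSq (G t) l x := bl_nonneg hPD.inv _
    calc 2 * ((ε ^ 2 * c₀) ^ 2 * gradSq (G t) l x) + 2 * (1 ^ 2 * gradSq (G t) r x)
        ≤ 2 * ((ε ^ 2 * c₀) ^ 2 * (A * W) ^ 2) + 2 * (1 ^ 2 * (A * ε ^ 3 * W) ^ 2) := by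
          gcongr
      _ ≤ 2 * ((ε ^ 2 * c₀) ^ 2 * (A * W) ^ 2) + 2 * (1 ^ 2 * (A * ε ^ 2 * W) ^ 2) := by
          gcongr
      _ = (2 * c₀ ^ 2 + 2) * (A * ε ^ 2 * W) ^ 2 := by ring
      _ ≤ (2 * (c₀ + 1)) ^ 2 * (A * ε ^ 2 * W) ^ 2 := by
          gcongr
          nlinarith
      _ = _ := by ring
  have m3 : C₂ * (ε ^ 2 * c₀) * (ε ^ 2 * c₀ * W + |v' x - v x| +
      √(gradSq (G t) (fun y => v' y - v y) x)) ≤ C₂ * c₀ * (c₀ + 3 * (c₀ + 1) * A) * ε ^ 3 * W := by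
    have hε4 : ε ^ 4 ≤ ε ^ 3 := pow_le_pow_of_le_one hε.le hε1 (by norm_num)
    calc C₂ * (ε ^ 2 * c₀) * (ε ^ 2 * c₀ * W + |v' x - v x| +
        √(gradSq (G t) (fun y => v' y - v y) x))
        ≤ C₂ * (ε ^ 2 * c₀) * (ε ^ 2 * c₀ * W + (c₀ + 1) * A * ε ^ 2 * W +
          2 * (c₀ + 1) * A * ε ^ 2 * W) := by gcongr
      _ = C₂ * c₀ * (c₀ + 3 * (c₀ + 1) * A) * ε ^ 4 * W := by ring
      _ ≤ _ := by gcongr
  have k3 := mul_le_mul_of_nonneg_right k1 hd.le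
  have k4 := mul_le_mul_of_nonneg_right m3 hd.le
  calc eD (G s) a η v' x * dens (G s) x - eD (G t) a η v x * dens (G t) x
      = (eD (G s) a η v' x * dens (G s) x - eD (G t) a η v' x * dens (G t) x) +
        (eD (G t) a η v' x - eD (G t) a η v x) * dens (G t) x := by ring
    _ ≤ (ε ^ 2 * c₀ * tE G a η t v x + C₂ * (ε ^ 2 * c₀) * (ε ^ 2 * c₀ * W + |v' x - v x| +
          √(gradSq (G t) (fun y => v' y - v y) x))) * dens (G t) x +
        (ε ^ 2 * c₀ * dE (G t) a η v l x + C₁ * ε ^ 3 * W) * dens (G t) x := add_le_add k2 k3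
    _ = ε ^ 2 * c₀ * (dE (G t) a η v l x + tE G a η t v x) * dens (G t) x +
        C₂ * (ε ^ 2 * c₀) * (ε ^ 2 * c₀ * W + |v' x - v x| +
          √(gradSq (G t) (fun y => v' y - v y) x)) * dens (G t) x +
        C₁ * ε ^ 3 * W * dens (G t) x := by ring
    _ ≤ ε ^ 2 * c₀ * (dE (G t) a η v l x + tE G a η t v x) * dens (G t) x +
        C₂ * c₀ * (c₀ + 3 * (c₀ + 1) * A) * ε ^ 3 * W * dens (G t) x +
        C₁ * ε ^ 3 * W * dens (G t) x := by linarith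
    _ = _ := by ring

section one
variable {n : ℕ} {Γ : Type} [Group Γ] [MulAction Γ (E n)] {g : E n → Matrix (Fin n) (Fin n) ℝ}
  {W v : E n → ℝ} {A η : ℝ}

theorem vpos (hA : 0 < A) (hW : Wt n Γ g W) (hS : Step n Γ g W A v) (x : E n) : 0 < v x :=
  pos_of hA (hW.pos x) (hS.lower x)

theorem sM (hA : 0 < A) (hη1 : η ≤ 1) (hW : Wt n Γ g W) (hS : Step n Γ g W A v) (x : E n) :
    gradSq g v x / v x ^ 2 + η ≤ A ^ 4 + 1 := by
  have := quot_le hA (hW.pos x) (hS.lower x) (hS.grad x)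
  linarith

theorem vsb (hA : 0 < A) (hη : 0 < η) (hη1 : η ≤ 1) (hM : Met n Γ g) (hW : Wt n Γ g W)
    (hS : Step n Γ g W A v) {p : ℝ} (hp : 0 ≤ p) (x : E n) :
    v x * (gradSq g v x / v x ^ 2 + η) ^ p ≤ A * (A ^ 4 + 1) ^ p * W x := by
  have h1 := vpos hA hW hS x
  have h2 := s_pos hM (vpos hA hW hS) hη x
  have h3 := hS.upper x
  have h4 : (gradSq g v x / v x ^ 2 + η) ^ p ≤ (A ^ 4 + 1) ^ p :=
    Real.rpow_le_rpow h2.le (sM hA hη1 hW hS x) hp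
  have h5 := hW.pos x
  calc v x * (gradSq g v x / v x ^ 2 + η) ^ p ≤ (A * W x) * (A ^ 4 + 1) ^ p := by gcongr
    _ = _ := by ring

theorem vs (hA : 0 < A) (hη : 0 < η) (hη1 : η ≤ 1) (hM : Met n Γ g) (hW : Wt n Γ g W)
    (hS : Step n Γ g W A v) {p : ℝ} (hp : 0 ≤ p) : Integrable fun x =>
      (v x * (gradSq g v x / v x ^ 2 + η) ^ p) * dens g x := by
  refine integ_of_le hM hW (C := A * (A ^ 4 + 1) ^ p) ?_ fun x => ?_
  · refine hS.smooth.continuous.mul (Continuous.rpow_const ?_ fun x => Or.inr hp)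
    exact (contDiff_s hM hS.smooth (vpos hA hW hS)).continuous
  · have h1 := vpos hA hW hS x
    have h2 := s_pos hM (vpos hA hW hS) hη x
    rw [abs_of_nonneg (by positivity)]
    exact vsb hA hη hη1 hM hW hS hp x

theorem vrho (hA : 0 < A) (hM : Met n Γ g) (hW : Wt n Γ g W) (hS : Step n Γ g W A v)
    {h : E n → ℝ} (hh : Continuous h) {m : ℝ} (hm : ∀ x, |h x| ≤ m) :
    Integrable fun x => (v x * h x) * dens g x := by
  refine integ_of_le hM hW (C := A * m) (hS.smooth.continuous.mul hh) fun x => ?_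
  have h1 := vpos hA hW hS x
  have h3 := hS.upper x
  have h5 := hW.pos x
  rw [abs_mul, abs_of_pos h1]
  calc v x * |h x| ≤ (A * W x) * m := by
        gcongr
        exact hm x
    _ = _ := by ring

/-- total mass -/
theorem one_le (hΓ : Act n Γ) (hA : 0 < A) (hM : Met n Γ g) (hW : Wt n Γ g W)
    (hS : Step n Γ g W A v) {K₀ : Set (E n)} (hK₀ : IsCompact K₀)
    (hK₀' : ∀ x, ∃ γ : Γ, γ • x ∈ K₀) {B : ENNReal} (hB : int g K₀ (fun _ => 1) ≤ B)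
    (hB' : B ≠ ⊤) : ∫ x, (v x * 1) * dens g x ≤ B.toReal := by
  have h1 := unf hΓ hM hS.smooth.continuous (fun x => (vpos hA hW hS x).le) hS.sum
    (h := fun _ => (1 : ℝ)) continuous_const (fun _ => zero_le_one) (fun _ _ => rfl) K₀
    hK₀.measurableSet hK₀'
  have hnn : ∀ x, 0 ≤ (v x * 1) * dens g x := fun x => by
    have h1 := vpos hA hW hS x
    have h2 := Common.dens_pos hM x
    positivity
  have h2 := ofReal_integral_eq_lintegral_ofReal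
    (vrho hA hM hW hS (continuous_const (y := (1 : ℝ))) (m := 1) (fun _ => by simp))
    (Eventually.of_forall hnn)
  rw [← h2] at h1
  have h3 := ENNReal.toReal_mono hB' (h1.trans hB)
  rwa [ENNReal.toReal_ofReal (integral_nonneg hnn)] at h3

/-- comparison of the two right-hand sides -/
theorem XP (hA : 0 < A) (hM : Met n Γ g) (hW : Wt n Γ g W) (hS : Step n Γ g W A v)
    {q : E n → ℝ} {κ Q δ V₀ : ℝ} (hκ : 0 < κ) (hδ : 0 < δ) (hη : 0 < η) (hqc : Continuous q)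
    (hq0 : ∀ x, 0 ≤ q x)
    (hqQ : ∀ x, q x ≤ Q) (hV₀0 : 0 ≤ V₀) (hone : ∫ x, (v x * 1) * dens g x ≤ V₀)
    (hη' : ∀ t : ℝ, 0 ≤ t → t ≤ Q → (κ ^ 2 * (t + 2 * η / κ ^ 2)) ^ ((n : ℝ) / 2) ≤
      (κ ^ 2 * t) ^ ((n : ℝ) / 2) + δ / (4 * (V₀ + 1))) :
    (Integrable fun x => (v x * (κ ^ 2 * (q x + 2 * η / κ ^ 2)) ^ ((n : ℝ) / 2)) * dens g x) ∧
    (Integrable fun x => (v x * q x ^ ((n : ℝ) / 2)) * dens g x) ∧
    ∫ x, (v x * (κ ^ 2 * (q x + 2 * η / κ ^ 2)) ^ ((n : ℝ) / 2)) * dens g x ≤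
      κ ^ n * (∫ x, (v x * q x ^ ((n : ℝ) / 2)) * dens g x) + δ / 4 := by
  have hp0 : (0 : ℝ) ≤ (n : ℝ) / 2 := by positivity
  have hXb : ∀ x, |(κ ^ 2 * (q x + 2 * η / κ ^ 2)) ^ ((n : ℝ) / 2)| ≤
      (κ ^ 2 * Q) ^ ((n : ℝ) / 2) + δ / (4 * (V₀ + 1)) := by
    intro x
    have h1 := hq0 x
    rw [abs_of_nonneg (by positivity)]
    refine (hη' (q x) h1 (hqQ x)).trans ?_
    have h2 : (κ ^ 2 * q x) ^ ((n : ℝ) / 2) ≤ (κ ^ 2 * Q) ^ ((n : ℝ) / 2) := by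
      refine Real.rpow_le_rpow (by positivity) ?_ hp0
      have := hqQ x
      gcongr
    linarith
  have hXc : Continuous fun x => (κ ^ 2 * (q x + 2 * η / κ ^ 2)) ^ ((n : ℝ) / 2) :=
    (continuous_const.mul (hqc.add continuous_const)).rpow_const fun x => Or.inr hp0
  have hPc : Continuous fun x => q x ^ ((n : ℝ) / 2) := hqc.rpow_const fun x => Or.inr hp0
  have hPb : ∀ x, |q x ^ ((n : ℝ) / 2)| ≤ Q ^ ((n : ℝ) / 2) := fun x => by
    rw [abs_of_nonneg (Real.rpow_nonneg (hq0 _) _)]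
    exact Real.rpow_le_rpow (hq0 _) (hqQ x) hp0
  have hκ2 : (κ ^ 2) ^ ((n : ℝ) / 2) = κ ^ n := by
    rw [← Real.rpow_natCast κ 2, ← Real.rpow_mul hκ.le]
    push_cast
    rw [mul_div_cancel₀ _ (two_ne_zero), Real.rpow_natCast]
  have j1 := vrho hA hM hW hS hXc hXb
  have j2 := vrho hA hM hW hS hPc hPb
  have j3 : Integrable fun x => (v x * 1) * dens g x :=
    vrho hA hM hW hS (continuous_const (y := (1 : ℝ))) (m := 1) (fun _ => by simp)
  refine ⟨j1, j2, ?_⟩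
  have h1 : ∫ x, (v x * (κ ^ 2 * (q x + 2 * η / κ ^ 2)) ^ ((n : ℝ) / 2)) * dens g x ≤
      ∫ x, (κ ^ n * ((v x * q x ^ ((n : ℝ) / 2)) * dens g x) +
      δ / (4 * (V₀ + 1)) * ((v x * 1) * dens g x)) := by
    refine integral_mono j1 ((j2.const_mul _).add (j3.const_mul _)) fun x => ?_
    have h2 := hη' (q x) (hq0 _) (hqQ x)
    rw [Real.mul_rpow (by positivity) (hq0 _), hκ2] at h2
    have h3 := mul_le_mul_of_nonneg_right (mul_le_mul_of_nonneg_left h2 (vpos hA hW hS x).le)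
      (Common.dens_pos hM x).le
    exact h3.trans (le_of_eq (by ring))
  rw [integral_add (j2.const_mul _) (j3.const_mul _), integral_const_mul,
    integral_const_mul] at h1
  have h5 : δ / (4 * (V₀ + 1)) * ∫ x, (v x * 1) * dens g x ≤ δ / 4 := by
    calc δ / (4 * (V₀ + 1)) * ∫ x, (v x * 1) * dens g x
        ≤ δ / (4 * (V₀ + 1)) * (V₀ + 1) := by
          gcongr
          linarith
      _ = δ / 4 := by field_simp
  linarith

/-- the conclusion, for a good time -/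
theorem concl (hΓ : Act n Γ) (hA : 0 < A) (hη : 0 < η) (hη1 : η ≤ 1) (hM : Met n Γ g)
    (hW : Wt n Γ g W) (hS : Step n Γ g W A v) {q : E n → ℝ} {κ δ a : ℝ} (hκ : 0 < κ)
    (hδ : 0 < δ) (ha : 1 ≤ a) (ha1 : a + 1 = (n : ℝ) / 2) (hqc : Continuous q)
    (hq0 : ∀ x, 0 ≤ q x) (hqi : ∀ (γ : Γ) (x : E n), q (γ • x) = q x)
    (hqint : Integrable fun x => (v x * q x ^ ((n : ℝ) / 2)) * dens g x)
    (hY : ∫ x, (v x * (gradSq g v x / v x ^ 2 + η) ^ (a + 1)) * dens g x ≤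
      κ ^ n * (∫ x, (v x * q x ^ ((n : ℝ) / 2)) * dens g x) + δ)
    {D : Set (E n)} (hD : MeasurableSet D) (hD' : ∀ x : E n, ∃ γ : Γ, γ • x ∈ D) {B : ENNReal}
    (hB : int g D (fun x => q x ^ ((n : ℝ) / 2)) ≤ B) :
    int g Set.univ (fun x => v x * (gradSq g v x / v x ^ 2) ^ ((n : ℝ) / 2)) ≤
      ENNReal.ofReal (κ ^ n) * B + ENNReal.ofReal δ := by
  have hvk := vpos hA hW hS
  have hp0 : (0 : ℝ) ≤ (n : ℝ) / 2 := by positivity
  have hPc : Continuous fun x => q x ^ ((n : ℝ) / 2) := hqc.rpow_const fun x => Or.inr hp0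
  have f1 : int g Set.univ (fun x => v x * (gradSq g v x / v x ^ 2) ^ ((n : ℝ) / 2)) ≤
      ENNReal.ofReal (∫ x, (v x * (gradSq g v x / v x ^ 2 + η) ^ (a + 1)) * dens g x) := by
    rw [ofReal_integral_eq_lintegral_ofReal (vs hA hη hη1 hM hW hS (by linarith))
      (Eventually.of_forall fun x => by
        have h1 := hvk x
        have h2 := Common.dens_pos hM x
        have h3 := s_pos hM hvk hη x
        simp only [Pi.zero_apply]; positivity)]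
    unfold int
    rw [Measure.restrict_univ]
    refine lintegral_mono fun x => ENNReal.ofReal_le_ofReal ?_
    have h1 := hvk x
    have h2 := Common.dens_pos hM x
    have h3 := Common.gradSq_nonneg hM v x
    simp only
    rw [ha1]
    gcongr
    linarith
  have hnn : ∀ x, 0 ≤ (v x * q x ^ ((n : ℝ) / 2)) * dens g x := fun x => by
    have h1 := hvk x
    have h2 := Common.dens_pos hM x
    have h3 := hq0 x
    positivity
  have f2 : ENNReal.ofReal (∫ x, (v x * q x ^ ((n : ℝ) / 2)) * dens g x) ≤ B := by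
    refine le_trans ?_ hB
    rw [ofReal_integral_eq_lintegral_ofReal hqint (Eventually.of_forall hnn)]
    exact unf hΓ hM hS.smooth.continuous (fun x => (hvk x).le) hS.sum hPc
      (fun x => Real.rpow_nonneg (hq0 _) _) (fun γ x => by simp only [hqi]) D hD hD'
  have hPk0 : 0 ≤ ∫ x, (v x * q x ^ ((n : ℝ) / 2)) * dens g x := integral_nonneg hnn
  calc _ ≤ ENNReal.ofReal (∫ x, (v x * (gradSq g v x / v x ^ 2 + η) ^ (a + 1)) * dens g x) := f1
    _ ≤ ENNReal.ofReal (κ ^ n * (∫ x, (v x * q x ^ ((n : ℝ) / 2)) * dens g x) + δ) :=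
        ENNReal.ofReal_le_ofReal hY
    _ = ENNReal.ofReal (κ ^ n) *
          ENNReal.ofReal (∫ x, (v x * q x ^ ((n : ℝ) / 2)) * dens g x) + ENNReal.ofReal δ := by
        rw [ENNReal.ofReal_add (by positivity) hδ.le, ENNReal.ofReal_mul (by positivity)]
    _ ≤ _ := by gcongr

/-- monotonicity of the energy in `η` -/
theorem energy_mono (hA : 0 < A) (hη : 0 < η) (hη1 : η ≤ 1) (hM : Met n Γ g) (hW : Wt n Γ g W)
    (hS : Step n Γ g W A v) {a : ℝ} (ha : 1 ≤ a) :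
    ∫ x, eD g a η v x * dens g x ≤ ∫ x, eD g a 1 v x * dens g x := by
  refine integral_mono (vs hA hη hη1 hM hW hS (by linarith))
    (vs hA one_pos le_rfl hM hW hS (by linarith)) fun x => ?_
  have h4 := vpos hA hW hS x
  have h5 := Common.gradSq_nonneg hM v x
  have h6 := Common.dens_pos hM x
  simp only [eD]
  gcongr

end one

/-- the pointwise differential inequality -/
theorem pw (hboch : SpecBochnerT) {n : ℕ} {Γ : Type} [Group Γ] [MulAction Γ (E n)]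
    {G : ℝ → E n → Matrix (Fin n) (Fin n) ℝ} {W v v' : E n → ℝ} {a η κ c₀ c₁ ε C₁ R t s r σ q : ℝ}
    (hM : Met n Γ (G t)) (hv : ∀ x, 0 < v x) (hv4 : ContDiff ℝ 4 v) (hc₀ : 0 < c₀) (hε : 0 < ε)
    (ha : 1 ≤ a) (hη : 0 < η) (hκ' : κ = √n + 2 * a) (hc₁' : c₁ = 2 * a / (κ ^ 2 * (a + 1)))
    (x : E n) (hric : ∀ w : E n, -r * ∑ i, ∑ j, w i * w j * G t x i j ≤
      ∑ i, ∑ j, w i * w j * (ric (G t) x i j + 1 / 2 * dtG G t x i j)) (htr : trh G t x ≤ σ)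
    (hR : |r| ≤ R) (hq0 : 0 ≤ q) (hq : r + σ / (2 * a) ≤ q)
    (hstep : eD (G s) a η v' x * dens (G s) x - eD (G t) a η v x * dens (G t) x ≤
      (ε ^ 2 * c₀ * (dE (G t) a η v (lap (G t) v) x + tE G a η t v x) + C₁ * ε ^ 3 * W x) *
        dens (G t) x) :
    c₁ * (v x * (gradSq (G t) v x / v x ^ 2 + η) ^ (a + 1)) ≤
      (c₁ * (v x * (κ ^ 2 * (q + 2 * η / κ ^ 2)) ^ (a + 1)) +
        2 * a * R * η * (v x * (gradSq (G t) v x / v x ^ 2 + η) ^ (a - 1)) +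
        ((ε ^ 2 * c₀)⁻¹ * (eD (G t) a η v x - eD (G s) a η v' x * dens (G s) x *
            (dens (G t) x)⁻¹) + (ε ^ 2 * c₀)⁻¹ * (C₁ * ε ^ 3) * W x)) +
      divg (G t) (ZZ (G t) a η κ v) x := by
  have hv1 := hv x
  have hd := Common.dens_pos hM x
  have b1 := hboch n (G t) hM.smooth hM.pos x (dtG G t x) r σ hric a η q R ha hη hR hq0 hq v hv4
    hv κ hκ'
  rw [← hc₁'] at b1
  have htE : tE G a η t v x ≤ σ * (v x * (gradSq (G t) v x / v x ^ 2 + η) ^ a) -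
      a * (v x * (gradSq (G t) v x / v x ^ 2 + η) ^ (a - 1)) *
      (∑ i, ∑ j, dtG G t x i j * grd (G t) v x i * grd (G t) v x j) / v x ^ 2 := by
    unfold tE
    have h2 := s_pos hM hv hη x
    gcongr
  have b3 : - (dE (G t) a η v (fun y => lap (G t) v y) x + tE G a η t v x) ≤
      (ε ^ 2 * c₀)⁻¹ * (eD (G t) a η v x - eD (G s) a η v' x * dens (G s) x *
          (dens (G t) x)⁻¹) + (ε ^ 2 * c₀)⁻¹ * (C₁ * ε ^ 3) * W x := by
    have e : (ε ^ 2 * c₀)⁻¹ * (eD (G t) a η v x - eD (G s) a η v' x * dens (G s) x *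
          (dens (G t) x)⁻¹) + (ε ^ 2 * c₀)⁻¹ * (C₁ * ε ^ 3) * W x =
      ((eD (G t) a η v x * dens (G t) x - eD (G s) a η v' x * dens (G s) x) +
        C₁ * ε ^ 3 * W x * dens (G t) x) / (ε ^ 2 * c₀ * dens (G t) x) := by
      field_simp
    rw [e, le_div_iff₀ (by positivity)]
    have h3 : dE (G t) a η v (fun y => lap (G t) v y) x = dE (G t) a η v (lap (G t) v) x := rfl
    rw [h3]
    linarith
  linarith

/-- the integrated differential inequality -/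
theorem ineq (hboch : SpecBochnerT) {n : ℕ} {Γ : Type} [Group Γ] [MulAction Γ (E n)]
    {G : ℝ → E n → Matrix (Fin n) (Fin n) ℝ} {W v v' : E n → ℝ} {A a η κ c₀ c₁ ε C₁ R t s V : ℝ}
    {ρ σ q : E n → ℝ} (hΓ : Act n Γ) (hM : Met n Γ (G t)) (hM' : Met n Γ (G s))
    (hW : Wt n Γ (G t) W) (hW' : Wt n Γ (G s) W) (hS : Step n Γ (G t) W A v)
    (hS' : Step n Γ (G s) W A v') (hA : 0 < A) (hc₀ : 0 < c₀) (hε : 0 < ε) (hC₁ : 0 < C₁)
    (ha : 1 ≤ a) (hη : 0 < η) (hη1 : η ≤ 1) (hκ' : κ = √n + 2 * a)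
    (hc₁' : c₁ = 2 * a / (κ ^ 2 * (a + 1)))
    (hric : ∀ x w : E n, -ρ x * ∑ i, ∑ j, w i * w j * G t x i j ≤
      ∑ i, ∑ j, w i * w j * (ric (G t) x i j + 1 / 2 * dtG G t x i j))
    (htr : ∀ x, trh G t x ≤ σ x) (hR : ∀ x, |ρ x| ≤ R) (hq0 : ∀ x, 0 ≤ q x)
    (hq : ∀ x, ρ x + σ x / (2 * a) ≤ q x)
    (hstep : ∀ x, eD (G s) a η v' x * dens (G s) x - eD (G t) a η v x * dens (G t) x ≤
      (ε ^ 2 * c₀ * (dE (G t) a η v (lap (G t) v) x + tE G a η t v x) + C₁ * ε ^ 3 * W x) *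
        dens (G t) x)
    (hV : ∫ x, W x * dens (G t) x ≤ V)
    (hX : Integrable fun x => (v x * (κ ^ 2 * (q x + 2 * η / κ ^ 2)) ^ (a + 1)) * dens (G t) x) :
    c₁ * (∫ x, (v x * (gradSq (G t) v x / v x ^ 2 + η) ^ (a + 1)) * dens (G t) x) ≤
      c₁ * (∫ x, (v x * (κ ^ 2 * (q x + 2 * η / κ ^ 2)) ^ (a + 1)) * dens (G t) x) +
      ((∫ x, eD (G t) a η v x * dens (G t) x) - (∫ x, eD (G s) a η v' x * dens (G s) x)) /
        (ε ^ 2 * c₀) +
      (C₁ * ε * V / c₀ + 2 * a * R * η * (A * (A ^ 4 + 1) ^ (a - 1) * V)) := by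
  obtain ⟨C₂, hZZ⟩ := ZZ_le a η κ A ha hη hA
  have hR0 : 0 ≤ R := (abs_nonneg _).trans (hR 0)
  have hvp := vpos hA hW hS
  have hs1 := hS.smooth
  have hpt := fun x => pw hboch hM hvp hs1 hc₀ hε ha hη hκ' hc₁' x (hric x) (htr x) (hR x)
    (hq0 x) (hq x) (hstep x)
  have j1 := vs hA hη hη1 hM hW hS (p := a + 1) (by linarith)
  have j2 := hX
  have j3 : Integrable fun x => eD (G t) a η v x * dens (G t) x :=
    vs hA hη hη1 hM hW hS (p := a) (by linarith)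
  have j4 : Integrable fun x => eD (G s) a η v' x * dens (G s) x :=
    vs hA hη hη1 hM' hW' hS' (p := a) (by linarith)
  have j5 := hW.integ
  have j0 := vs hA hη hη1 hM hW hS (p := a - 1) (by linarith)
  have j34 : Integrable fun x => eD (G t) a η v x * dens (G t) x -
      eD (G s) a η v' x * dens (G s) x := j3.sub j4
  have j6 : Integrable fun x => (ε ^ 2 * c₀)⁻¹ * (eD (G t) a η v x * dens (G t) x -
      eD (G s) a η v' x * dens (G s) x) := j34.const_mul _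
  have j7 : Integrable fun x => (ε ^ 2 * c₀)⁻¹ * (C₁ * ε ^ 3) * (W x * dens (G t) x) :=
    j5.const_mul _
  have j8 : Integrable fun x => c₁ * ((v x * (κ ^ 2 * (q x + 2 * η / κ ^ 2)) ^ (a + 1)) *
      dens (G t) x) := j2.const_mul _
  have j9 : Integrable fun x => 2 * a * R * η *
      ((v x * (gradSq (G t) v x / v x ^ 2 + η) ^ (a - 1)) * dens (G t) x) :=
    j0.const_mul _
  have i1 : Integrable fun x =>
      c₁ * (v x * (gradSq (G t) v x / v x ^ 2 + η) ^ (a + 1)) * dens (G t) x := by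
    refine (j1.const_mul c₁).congr (Eventually.of_forall fun x => ?_)
    simp only; ring
  have i3 : Integrable fun x => (ε ^ 2 * c₀)⁻¹ * (eD (G t) a η v x * dens (G t) x -
      eD (G s) a η v' x * dens (G s) x) +
      (ε ^ 2 * c₀)⁻¹ * (C₁ * ε ^ 3) * (W x * dens (G t) x) := j6.add j7
  have i4 : Integrable fun x => c₁ * ((v x * (κ ^ 2 * (q x + 2 * η / κ ^ 2)) ^ (a + 1)) *
      dens (G t) x) + 2 * a * R * η *
      ((v x * (gradSq (G t) v x / v x ^ 2 + η) ^ (a - 1)) * dens (G t) x) := j8.add j9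
  have e2 : (fun x => (c₁ * (v x * (κ ^ 2 * (q x + 2 * η / κ ^ 2)) ^ (a + 1)) +
        2 * a * R * η * (v x * (gradSq (G t) v x / v x ^ 2 + η) ^ (a - 1)) +
        ((ε ^ 2 * c₀)⁻¹ * (eD (G t) a η v x - eD (G s) a η v' x * dens (G s) x *
            (dens (G t) x)⁻¹) + (ε ^ 2 * c₀)⁻¹ * (C₁ * ε ^ 3) * W x)) * dens (G t) x) = fun x =>
      (c₁ * ((v x * (κ ^ 2 * (q x + 2 * η / κ ^ 2)) ^ (a + 1)) * dens (G t) x) +
      2 * a * R * η *
      ((v x * (gradSq (G t) v x / v x ^ 2 + η) ^ (a - 1)) * dens (G t) x)) +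
      ((ε ^ 2 * c₀)⁻¹ * (eD (G t) a η v x * dens (G t) x - eD (G s) a η v' x * dens (G s) x) +
      (ε ^ 2 * c₀)⁻¹ * (C₁ * ε ^ 3) * (W x * dens (G t) x)) := by
    funext x
    have hd := (Common.dens_pos hM x).ne'
    have h0 : (dens (G t) x)⁻¹ * dens (G t) x = 1 := inv_mul_cancel₀ hd
    have h1 : eD (G s) a η v' x * dens (G s) x * (dens (G t) x)⁻¹ * dens (G t) x =
        eD (G s) a η v' x * dens (G s) x := by rw [mul_assoc, h0, mul_one]
    calc _ = c₁ * (v x * (κ ^ 2 * (q x + 2 * η / κ ^ 2)) ^ (a + 1) * dens (G t) x) +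
          2 * a * R * η * (v x * (gradSq (G t) v x / v x ^ 2 + η) ^ (a - 1) * dens (G t) x) +
          ((ε ^ 2 * c₀)⁻¹ * (eD (G t) a η v x * dens (G t) x -
            eD (G s) a η v' x * dens (G s) x * (dens (G t) x)⁻¹ * dens (G t) x) +
          (ε ^ 2 * c₀)⁻¹ * (C₁ * ε ^ 3) * (W x * dens (G t) x)) := by ring
      _ = _ := by rw [h1]
  have i2 := i4.add i3
  have i2' : Integrable fun x => (c₁ * (v x * (κ ^ 2 * (q x + 2 * η / κ ^ 2)) ^ (a + 1)) +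
        2 * a * R * η * (v x * (gradSq (G t) v x / v x ^ 2 + η) ^ (a - 1)) +
        ((ε ^ 2 * c₀)⁻¹ * (eD (G t) a η v x - eD (G s) a η v' x * dens (G s) x *
            (dens (G t) x)⁻¹) + (ε ^ 2 * c₀)⁻¹ * (C₁ * ε ^ 3) * W x)) * dens (G t) x := by
    rw [e2]
    exact i2
  have key := B5b.main n Γ (G t) W hΓ hM hW (ZZ (G t) a η κ v) C₂ _ _
    (contDiff_ZZ hM hs1 hvp hη) (fun x => hZZ n (G t) x (W x) v
      (hM.pos x) (hW.pos x) (hs1.differentiable (by norm_num) x)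
      ((contDiff_gradSq hM (m := 3) hs1 (by norm_num)).differentiable (by norm_num) x)
      ((contDiff_eD hM hs1 hvp hη).differentiable (by norm_num) x)
      (hS.lower x) (hS.grad x) (hS.grad2 x)) i1 i2' hpt
  rw [e2] at key
  have e1 : ∫ x, c₁ * (v x * (gradSq (G t) v x / v x ^ 2 + η) ^ (a + 1)) * dens (G t) x =
      c₁ * ∫ x, (v x * (gradSq (G t) v x / v x ^ 2 + η) ^ (a + 1)) * dens (G t) x := by
    rw [← integral_const_mul]
    exact integral_congr_ae (Eventually.of_forall fun x => by simp only; ring)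
  rw [e1, integral_add i4 i3, integral_add j8 j9, integral_add j6 j7, integral_const_mul,
    integral_const_mul, integral_const_mul, integral_const_mul, integral_sub j3 j4] at key
  refine key.trans ?_
  have e3 : ((∫ x, eD (G t) a η v x * dens (G t) x) -
      (∫ x, eD (G s) a η v' x * dens (G s) x)) / (ε ^ 2 * c₀) =
      (ε ^ 2 * c₀)⁻¹ * ((∫ x, eD (G t) a η v x * dens (G t) x) -
      (∫ x, eD (G s) a η v' x * dens (G s) x)) := by
    rw [div_eq_inv_mul]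
  have e4 : C₁ * ε * V / c₀ = (ε ^ 2 * c₀)⁻¹ * (C₁ * ε ^ 3) * V := by
    field_simp
  have e5 : (ε ^ 2 * c₀)⁻¹ * (C₁ * ε ^ 3) * ∫ x, W x * dens (G t) x ≤
      (ε ^ 2 * c₀)⁻¹ * (C₁ * ε ^ 3) * V := by gcongr
  have e6 : ∫ x, (v x * (gradSq (G t) v x / v x ^ 2 + η) ^ (a - 1)) * dens (G t) x ≤
      A * (A ^ 4 + 1) ^ (a - 1) * V := by
    calc ∫ x, (v x * (gradSq (G t) v x / v x ^ 2 + η) ^ (a - 1)) * dens (G t) x
        ≤ ∫ x, A * (A ^ 4 + 1) ^ (a - 1) * (W x * dens (G t) x) := by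
          refine integral_mono j0 (j5.const_mul _) fun x => ?_
          have h1 := vsb hA hη hη1 hM hW hS (p := a - 1) (by linarith) x
          have h2 := mul_le_mul_of_nonneg_right h1 (Common.dens_pos hM x).le
          exact h2.trans (le_of_eq (by ring))
      _ = A * (A ^ 4 + 1) ^ (a - 1) * ∫ x, W x * dens (G t) x := integral_const_mul _ _
      _ ≤ A * (A ^ 4 + 1) ^ (a - 1) * V := by gcongr
  have e7 : 2 * a * R * η * ∫ x, (v x * (gradSq (G t) v x / v x ^ 2 + η) ^ (a - 1)) *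
      dens (G t) x ≤ 2 * a * R * η * (A * (A ^ 4 + 1) ^ (a - 1) * V) := by
    have : 0 ≤ a := by linarith
    gcongr
  rw [e3, e4]
  linarith

/-- all the constants which do not depend on the flow -/
theorem consts {n : ℕ} {a R κ c₁ Q δ V V₀ A : ℝ} (ha : 1 ≤ a) (hR : 0 < R) (hκ : 0 < κ)
    (hc₁ : 0 < c₁) (hδ : 0 < δ) (hV : 0 ≤ V) (hV₀ : 0 ≤ V₀) (hA : 0 < A) :
    ∃ η : ℝ, 0 < η ∧ η ≤ 1 ∧ (∀ t : ℝ, 0 ≤ t → t ≤ Q →
      (κ ^ 2 * (t + 2 * η / κ ^ 2)) ^ ((n : ℝ) / 2) ≤ (κ ^ 2 * t) ^ ((n : ℝ) / 2) +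
        δ / (4 * (V₀ + 1))) ∧
      2 * a * R * η * (A * (A ^ 4 + 1) ^ (a - 1) * V) ≤ c₁ * δ / 8 := by
  have hp0 : (0 : ℝ) ≤ (n : ℝ) / 2 := by positivity
  have ha0 : 0 < a := by linarith
  obtain ⟨η₁, hη₁, hη₁'⟩ := choose_eta κ ((n : ℝ) / 2) Q (δ / (4 * (V₀ + 1))) hκ hp0
    (by positivity)
  set M : ℝ := A * (A ^ 4 + 1) ^ (a - 1) * V with hM
  have hM0 : 0 ≤ M := by positivity
  refine ⟨min (min 1 η₁) (c₁ * δ / (8 * (2 * a * R * M + 1))), by positivity,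
    (min_le_left _ _).trans (min_le_left _ _), fun t h1 h2 => ?_, ?_⟩
  · refine le_trans ?_ (hη₁' t h1 h2)
    have h3 : min (min 1 η₁) (c₁ * δ / (8 * (2 * a * R * M + 1))) ≤ η₁ :=
      (min_le_left _ _).trans (min_le_right _ _)
    have h4 : 0 < min (min 1 η₁) (c₁ * δ / (8 * (2 * a * R * M + 1))) := by positivity
    refine Real.rpow_le_rpow (by positivity) ?_ hp0
    gcongr
  · have h3 : min (min 1 η₁) (c₁ * δ / (8 * (2 * a * R * M + 1))) ≤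
      c₁ * δ / (8 * (2 * a * R * M + 1)) := min_le_right _ _
    calc 2 * a * R * min (min 1 η₁) (c₁ * δ / (8 * (2 * a * R * M + 1))) * M
        = (2 * a * R * M) * min (min 1 η₁) (c₁ * δ / (8 * (2 * a * R * M + 1))) := by ring
      _ ≤ (2 * a * R * M + 1) * (c₁ * δ / (8 * (2 * a * R * M + 1))) := by
          gcongr
          linarith
      _ = _ := by field_simp

theorem choose_eps {c₀ c₁ δ C₁ V : ℝ} (hc₀ : 0 < c₀) (hc₁ : 0 < c₁) (hδ : 0 < δ) (hC₁ : 0 < C₁)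
    (hV : 0 ≤ V) : ∃ ε : ℝ, 0 < ε ∧ ε ≤ 1 ∧ c₀ * ε ^ 2 ≤ 1 ∧ C₁ * ε * V / c₀ ≤ c₁ * δ / 8 := by
  refine ⟨min (min 1 (1 / (c₀ + 1))) (c₁ * δ * c₀ / (8 * (C₁ * V + 1))), by positivity,
    (min_le_left _ _).trans (min_le_left _ _), ?_, ?_⟩
  · set e := min (min 1 (1 / (c₀ + 1))) (c₁ * δ * c₀ / (8 * (C₁ * V + 1))) with he
    have h1 : e ≤ 1 := (min_le_left _ _).trans (min_le_left _ _)
    have h2 : e ≤ 1 / (c₀ + 1) := (min_le_left _ _).trans (min_le_right _ _)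
    have h0 : 0 < e := by positivity
    calc c₀ * e ^ 2 = c₀ * e * e := by ring
      _ ≤ c₀ * e * 1 := by gcongr
      _ ≤ c₀ * (1 / (c₀ + 1)) * 1 := by gcongr
      _ ≤ 1 := by
        rw [mul_one, mul_one_div, div_le_one (by positivity)]
        linarith
  · have h1 : min (min 1 (1 / (c₀ + 1))) (c₁ * δ * c₀ / (8 * (C₁ * V + 1))) ≤
      c₁ * δ * c₀ / (8 * (C₁ * V + 1)) := min_le_right _ _
    rw [div_le_iff₀ hc₀]
    calc C₁ * min (min 1 (1 / (c₀ + 1))) (c₁ * δ * c₀ / (8 * (C₁ * V + 1))) * V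
        = (C₁ * V) * min (min 1 (1 / (c₀ + 1))) (c₁ * δ * c₀ / (8 * (C₁ * V + 1))) := by ring
      _ ≤ (C₁ * V + 1) * (c₁ * δ * c₀ / (8 * (C₁ * V + 1))) := by
          gcongr
          linarith
      _ = _ := by field_simp

theorem vol_finite {n : ℕ} {Γ : Type} [Group Γ] [MulAction Γ (E n)]
    {g : E n → Matrix (Fin n) (Fin n) ℝ} (hM : Met n Γ g) {K₀ : Set (E n)} (hK₀ : IsCompact K₀) :
    int g K₀ (fun _ => 1) ≠ ⊤ := by
  have hdc : Continuous (dens g) := Norm.continuous_dens hM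
  obtain ⟨m, hm⟩ := hK₀.exists_bound_of_continuousOn hdc.continuousOn
  unfold int
  refine ne_top_of_le_ne_top (b := ∫⁻ x in K₀, ENNReal.ofReal m) ?_ ?_
  · rw [lintegral_const]
    refine ENNReal.mul_ne_top ENNReal.ofReal_ne_top ?_
    rw [Measure.restrict_apply_univ]
    exact hK₀.measure_lt_top.ne
  · refine setLIntegral_mono' hK₀.measurableSet fun x hx => ?_
    refine ENNReal.ofReal_le_ofReal ?_
    rw [one_mul]
    exact (le_abs_self _).trans (hm x hx)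

/-- uniform comparison, consequences -/
theorem equivT (hequiv : SpecEquiv) {n : ℕ} {Γ : Type} [Group Γ] [MulAction Γ (E n)]
    {G : ℝ → E n → Matrix (Fin n) (Fin n) ℝ} {W : E n → ℝ} (hΓ : Act n Γ) (hG : Fam n Γ G)
    (hWt : ∀ t, 0 ≤ t → Wt n Γ (G t) W) {T : ℝ} (hT : 0 < T) {K₀ : Set (E n)}
    (hK₀ : IsCompact K₀) : ∃ L V V₀ : ℝ, 1 ≤ L ∧ 0 ≤ V ∧ 0 ≤ V₀ ∧
      (∀ t s : ℝ, 0 ≤ t → t ≤ T → 0 ≤ s → s ≤ T →
        ∀ x (f : E n → ℝ), gradSq (G t) f x ≤ L * gradSq (G s) f x) ∧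
      (∀ t, 0 ≤ t → t ≤ T → ∫ x, W x * dens (G t) x ≤ V) ∧
      (∀ t, 0 ≤ t → t ≤ T → int (G t) K₀ (fun _ => 1) ≤ ENNReal.ofReal V₀) := by
  obtain ⟨L', hL', hequiv⟩ := hequiv n Γ G hΓ hG T hT
  have hWpos : ∀ x, 0 < W x := (hWt 0 le_rfl).pos
  refine ⟨max L' 1, L' * ∫ x, W x * dens (G 0) x, L' * (int (G 0) K₀ (fun _ => 1)).toReal,
    le_max_right _ _, mul_nonneg hL'.le (integral_nonneg fun x =>
      mul_nonneg (hWpos x).le (Common.dens_pos (hG.met 0) x).le),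
    mul_nonneg hL'.le ENNReal.toReal_nonneg, fun t s h1 h2 h3 h4 x f => ?_, fun t h1 h2 => ?_,
    fun t h1 h2 => ?_⟩
  · refine ((hequiv t s h1 h2 h3 h4 x).2.1 fun i => pd i f x).trans ?_
    have h5 : 0 ≤ ∑ i, ∑ j, (G s x)⁻¹ i j * pd i f x * pd j f x :=
      Common.gradSq_nonneg (hG.met s) f x
    have h6 : ∑ i, ∑ j, (G s x)⁻¹ i j * pd i f x * pd j f x = gradSq (G s) f x := rfl
    rw [h6] at h5 ⊢
    gcongr
    exact le_max_left _ _
  · rw [← integral_const_mul]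
    refine integral_mono (hWt t h1).integ ((hWt 0 le_rfl).integ.const_mul _) fun x => ?_
    have h3 := (hequiv t 0 h1 h2 le_rfl hT.le x).1
    have h4 := (hWpos x).le
    calc W x * dens (G t) x ≤ W x * (L' * dens (G 0) x) := by gcongr
      _ = L' * (W x * dens (G 0) x) := by ring
  · rw [ENNReal.ofReal_mul hL'.le, ENNReal.ofReal_toReal (vol_finite (hG.met 0) hK₀)]
    unfold int
    rw [← lintegral_const_mul' _ _ ENNReal.ofReal_ne_top]
    refine lintegral_mono fun x => ?_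
    rw [← ENNReal.ofReal_mul hL'.le]
    refine ENNReal.ofReal_le_ofReal ?_
    rw [one_mul, one_mul]
    exact (hequiv t 0 h1 h2 le_rfl hT.le x).1

/-- number of steps -/
theorem steps {T e : ℝ} (hT : 2 ≤ T) (he : 0 < e) (he1 : e ≤ 1) :
    ∃ K : ℕ, (∀ k ≤ K, (k : ℝ) * e ≤ T) ∧ T / 2 ≤ (K : ℝ) * e := by
  refine ⟨⌊T / e⌋₊, fun k hk => ?_, ?_⟩
  · have h1 := Nat.floor_le (a := T / e) (by positivity)
    rw [le_div_iff₀ he] at h1
    refine le_trans ?_ h1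
    have : (k : ℝ) ≤ (⌊T / e⌋₊ : ℕ) := by exact_mod_cast hk
    gcongr
  · have := Nat.lt_floor_add_one (T / e)
    rw [div_lt_iff₀ he] at this
    linarith

/-- Block 24. -/
theorem main (hflow : SpecFlowT) (hequiv : SpecEquiv) (hTT : SpecTT) (hboch : SpecBochnerT) :
    SpecAT := by
  intro n Γ _ _ G hn hΓ hG ρ σ hρ hσ hρi hσi hric htr D hD hD' B hB δ hδ
  obtain ⟨W, hWt, hflow⟩ := hflow n Γ G hΓ hG
  have hn4 : (4 : ℝ) ≤ n := by exact_mod_cast hn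
  obtain ⟨a, ha'⟩ : ∃ a : ℝ, a = ((n : ℝ) - 2) / 2 := ⟨_, rfl⟩
  have ha : 1 ≤ a := by rw [ha']; linarith
  have ha1 : a + 1 = (n : ℝ) / 2 := by rw [ha']; ring
  have ha2 : 2 * a = (n : ℝ) - 2 := by rw [ha']; ring
  obtain ⟨κ, hκ'⟩ : ∃ κ : ℝ, κ = √n + 2 * a := ⟨_, rfl⟩
  have hκ : 0 < κ := by rw [hκ']; positivity
  have hκn : (n : ℝ) - 2 + √n = κ := by rw [hκ', ha']; ring
  obtain ⟨c₁, hc₁'⟩ : ∃ c₁ : ℝ, c₁ = 2 * a / (κ ^ 2 * (a + 1)) := ⟨_, rfl⟩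
  have hc₁ : 0 < c₁ := by rw [hc₁']; positivity
  obtain ⟨K₀, hK₀, hK₀'⟩ := hΓ.cocompact
  obtain ⟨I1, hI1⟩ : ∃ I1 : ℝ, I1 = ∫ x, eD (G 0) a 1 W x * dens (G 0) x := ⟨_, rfl⟩
  obtain ⟨T, hT2, hTI⟩ : ∃ T : ℝ, 2 ≤ T ∧ 4 * I1 / (c₁ * δ) < T :=
    ⟨max 2 (4 * I1 / (c₁ * δ) + 1), le_max_left _ _,
      lt_of_lt_of_le (by linarith) (le_max_right _ _)⟩
  have hT0 : 0 < T := by linarith
  obtain ⟨c₀, A, hc₀, hA, hflow⟩ := hflow T hT0
  obtain ⟨R, hR, hRb⟩ := boundedT hΓ hρ hρi T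
  obtain ⟨S, hS, hSb⟩ := boundedT hΓ hσ hσi T
  obtain ⟨L, V, V₀, hL1, hV0, hV₀0, hLg, hVt, hV₀t⟩ := equivT hequiv hΓ hG hWt hT0 hK₀
  obtain ⟨qf, hqf⟩ : ∃ qf : ℝ → E n → ℝ, ∀ t x, qf t x = max 0 (ρ t x + σ t x / ((n : ℝ) - 2)) :=
    ⟨_, fun _ _ => rfl⟩
  simp only [← hqf] at hB
  have hq0 : ∀ t x, 0 ≤ qf t x := fun t x => by rw [hqf]; exact le_max_left _ _
  have hn2 : (0 : ℝ) < (n : ℝ) - 2 := by linarith
  obtain ⟨Q, hqQ⟩ : ∃ Q : ℝ, ∀ t, 0 ≤ t → t ≤ T → ∀ x, qf t x ≤ Q := by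
    refine ⟨R + S / ((n : ℝ) - 2), fun t h1 h2 x => ?_⟩
    rw [hqf]
    refine max_le (by positivity) ?_
    have h3 := (abs_le.1 (hRb t h1 h2 x)).2
    have h4 := (abs_le.1 (hSb t h1 h2 x)).2
    gcongr
  have hqc : ∀ t, Continuous (qf t) := by
    intro t
    have h1 : Continuous fun x : E n => ρ t x := hρ.comp (Continuous.prodMk_right t)
    have h2 : Continuous fun x : E n => σ t x := hσ.comp (Continuous.prodMk_right t)
    have h3 : qf t = fun x => max 0 (ρ t x + σ t x / ((n : ℝ) - 2)) := funext (hqf t)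
    rw [h3]
    exact continuous_const.max (h1.add (h2.div_const _))
  have hqi : ∀ t (γ : Γ) (x : E n), qf t (γ • x) = qf t x := fun t γ x => by
    simp only [hqf, hρi, hσi]
  obtain ⟨η, hη, hη1, hη', hηe⟩ := consts (n := n) (Q := Q) ha hR hκ hc₁ hδ hV0 hV₀0 hA
  have hAL0 : 0 < A * L := by positivity
  obtain ⟨C₁, hC₁, hstep⟩ := stepT hTT n Γ G hΓ hG T a η (A * L) c₀ hT0 ha hη hAL0 hc₀
  obtain ⟨ε, hε, hε1, hεc, hεC⟩ := choose_eps hc₀ hc₁ hδ hC₁ hV0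
  obtain ⟨v, hv0, hstp, hinc⟩ := hflow ε hε hε1
  obtain ⟨K, hKT, hKge⟩ := steps hT2 (by positivity : 0 < c₀ * ε ^ 2) hεc
  obtain ⟨τ, hτ⟩ : ∃ τ : ℕ → ℝ, ∀ k : ℕ, τ k = (k : ℝ) * (c₀ * ε ^ 2) := ⟨_, fun _ => rfl⟩
  have hτ0 : ∀ k, 0 ≤ τ k := fun k => by rw [hτ]; positivity
  have hτT : ∀ k ≤ K, τ k ≤ T := fun k hk => by rw [hτ]; exact hKT k hk
  have hτs : ∀ k, τ (k + 1) = τ k + c₀ * ε ^ 2 := fun k => by
    rw [hτ, hτ]; push_cast; ring
  have hτz : τ 0 = 0 := by rw [hτ]; simp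
  simp only [← hτ] at hstp hinc
  have hSt : ∀ k ≤ K, Step n Γ (G (τ k)) W A (v k) := fun k hk => hstp k (hτT k hk)
  have hM : ∀ k, Met n Γ (G (τ k)) := fun k => hG.met _
  have hW : ∀ k, Wt n Γ (G (τ k)) W := fun k => hWt _ (hτ0 k)
  have hone : ∀ k ≤ K, ∫ x, (v k x * 1) * dens (G (τ k)) x ≤ V₀ := fun k hk => by
    have := one_le hΓ hA (hM k) (hW k) (hSt k hk) hK₀ hK₀' (hV₀t _ (hτ0 k) (hτT k hk))
      ENNReal.ofReal_ne_top
    rwa [ENNReal.toReal_ofReal hV₀0] at this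
  have hXP := fun k (hk : k ≤ K) => XP hA (hM k) (hW k) (hSt k hk) hκ hδ hη (hqc (τ k)) (hq0 _)
    (hqQ _ (hτ0 k) (hτT k hk)) hV₀0 (hone k hk) hη'
  have main1 : ∀ k < K, c₁ * (∫ x, (v k x * (gradSq (G (τ k)) (v k) x / v k x ^ 2 + η) ^ (a + 1)) *
      dens (G (τ k)) x) ≤ c₁ * (∫ x, (v k x * (κ ^ 2 * (qf (τ k) x + 2 * η / κ ^ 2)) ^ (a + 1)) *
      dens (G (τ k)) x) + ((∫ x, eD (G (τ k)) a η (v k) x * dens (G (τ k)) x) -
      (∫ x, eD (G (τ (k + 1))) a η (v (k + 1)) x * dens (G (τ (k + 1))) x)) / (ε ^ 2 * c₀) +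
      (C₁ * ε * V / c₀ + 2 * a * R * η * (A * (A ^ 4 + 1) ^ (a - 1) * V)) := by
    intro k hk
    have hk1 : k ≤ K := hk.le
    have hk2 : k + 1 ≤ K := hk
    refine ineq hboch hΓ (hM k) (hM (k + 1)) (hW k) (hW (k + 1)) (hSt k hk1) (hSt (k + 1) hk2) hA
      hc₀ hε hC₁ ha hη hη1 hκ' hc₁' (hric _ (hτ0 k)) (htr _ (hτ0 k)) (hRb _ (hτ0 k) (hτT k hk1))
      (hq0 _) (fun x => ?_) (fun x => ?_) (hVt _ (hτ0 k) (hτT k hk1)) ?_
    · rw [ha2, hqf]; exact le_max_right _ _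
    · have hs1 := (hSt k hk1).smooth
      have hs2 := (hSt (k + 1) hk2).smooth
      have hl := contDiff_lap (hM k) hs1
      have hWx := (hW k).pos x
      have hv1 := vpos hA (hW k) (hSt k hk1) x
      have hv2 := vpos hA (hW (k + 1)) (hSt (k + 1) hk2) x
      have hAL : A ≤ A * L := le_mul_of_one_le_right hA.le hL1
      have hALW : A * W x ≤ A * L * W x := by gcongr
      have hg2 : gradSq (G (τ k)) (v (k + 1)) x ≤ (A * L * W x) ^ 2 := by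
        calc gradSq (G (τ k)) (v (k + 1)) x ≤ L * gradSq (G (τ (k + 1))) (v (k + 1)) x :=
              hLg _ _ (hτ0 k) (hτT k hk1) (hτ0 _) (hτT _ hk2) x _
          _ ≤ L * (A * W x) ^ 2 := by
              gcongr
              exact (hSt (k + 1) hk2).grad x
          _ ≤ L ^ 2 * (A * W x) ^ 2 := by
              gcongr
              nlinarith
          _ = _ := by ring
      exact hstep (τ k) (τ (k + 1)) ε x (W x) (v k) (v (k + 1)) (lap (G (τ k)) (v k))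
        (hτ0 k) (hτs k) (hτT _ hk2) hWx hε hε1
        (hs1.differentiable (by norm_num) x) (hs2.differentiable (by norm_num) x)
        (hl.differentiable (by norm_num) x)
        (((hSt k hk1).lower x).trans (by gcongr)) (((hSt (k + 1) hk2).lower x).trans (by gcongr))
        (((hSt k hk1).upper x).trans hALW) (((hSt (k + 1) hk2).upper x).trans hALW)
        (((hSt k hk1).grad x).trans (by gcongr)) hg2
        (((hSt k hk1).lap0 x).trans hALW) (((hSt k hk1).lap1 x).trans (by gcongr))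
        ((hinc k (hτT k hk1) x).1.trans (by gcongr))
        ((hinc k (hτT k hk1) x).2.trans (by gcongr))
    · rw [ha1]; exact (hXP k hk1).1
  have hI0 : ∫ x, eD (G (τ 0)) a η (v 0) x * dens (G (τ 0)) x ≤ I1 := by
    have h1 := energy_mono hA hη hη1 (hM 0) (hW 0) (hSt 0 (Nat.zero_le _)) ha
    rw [hτz, hv0] at h1 ⊢
    rwa [hI1]
  obtain ⟨k, hk, hkY⟩ := pick (K := K)
    (Y := fun k => ∫ x, (v k x * (gradSq (G (τ k)) (v k) x / v k x ^ 2 + η) ^ (a + 1)) *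
      dens (G (τ k)) x)
    (X := fun k => ∫ x, (v k x * (κ ^ 2 * (qf (τ k) x + 2 * η / κ ^ 2)) ^ (a + 1)) *
      dens (G (τ k)) x)
    (P := fun k => κ ^ n * ∫ x, (v k x * qf (τ k) x ^ ((n : ℝ) / 2)) * dens (G (τ k)) x)
    (I := fun k => ∫ x, eD (G (τ k)) a η (v k) x * dens (G (τ k)) x)
    (C := C₁ * ε * V / c₀ + 2 * a * R * η * (A * (A ^ 4 + 1) ^ (a - 1) * V)) hc₀ hc₁ hε main1
    (fun k hk => by
      have := (hXP k hk.le).2.2
      rwa [← ha1] at this ⊢) (by linarith)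
    (integral_nonneg fun x => by
      have h1 := vpos hA (hW K) (hSt K le_rfl) x
      have h2 := Common.dens_pos (hM K) x
      have h3 := s_pos (hM K) (vpos hA (hW K) (hSt K le_rfl)) hη x
      simp only [Pi.zero_apply, eD]; positivity)
    (by
      rw [div_lt_iff₀ (by positivity)] at hTI
      have h1 : T / 2 * (c₁ * δ) ≤ K * (c₀ * ε ^ 2) * (c₁ * δ) := by gcongr
      have h2 : (K : ℝ) * ε ^ 2 * (c₀ * c₁ * δ) = K * (c₀ * ε ^ 2) * (c₁ * δ) := by ring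
      rw [h2]
      linarith)
  refine ⟨τ k, W, v k, A, hW k, hSt k hk.le, ?_⟩
  rw [hκn]
  exact concl hΓ hA hη hη1 (hM k) (hW k) (hSt k hk.le) hκ hδ ha ha1 (hqc _) (hq0 _) (hqi _)
    (hXP k hk.le).2.1 hkY hD hD' (hB _ (hτ0 k))

end Vale.Agent.P223.H.B24
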