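import Vale.Agent.P223.H.Common
import Vale.Agent.P223.Bdl.B1

/-! Bridge between `H.Defs` and the coordinate Riemannian geometry of `Bdl.B1`; invariance of the
Laplacian and of the curvature. -/

namespace Vale.Agent.P223.H.Bridge

open scoped ContDiff Matrix
open Finset Common

variable {n : ℕ}

theorem metricOn {G : E n → Matrix (Fin n) (Fin n) ℝ}
    (h1 : ∀ i j, ContDiff ℝ ∞ (fun x => G x i j)) (h2 : ∀ x, (G x).PosDef) :
    IsMetricOn Set.univ G := ⟨fun a b => (h1 a b).contDiffOn, fun x _ => h2 x⟩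

theorem pd_eq (i : Fin n) (f : E n → ℝ) (x : E n) : H.pd i f x = P223.pd i f x := rfl

theorem chr_eq (G : E n → Matrix (Fin n) (Fin n) ℝ) (x : E n) (k i j : Fin n) :
    H.chr G x k i j = christoffel G x k i j := rfl

theorem ric_eq (G : E n → Matrix (Fin n) (Fin n) ℝ) (x : E n) (i j : Fin n) :
    H.ric G x i j = ricci G x i j := rfl

theorem scal_eq (G : E n → Matrix (Fin n) (Fin n) ℝ) (x : E n) : H.scal G x = P223.scal G x := rfl

theorem dens_eq (G : E n → Matrix (Fin n) (Fin n) ℝ) (x : E n) : H.dens G x = P223.dens G x := rfl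

/-! ### calculus with `pd` for merely differentiable functions -/

section pdcalc
variable {c : Fin n} {f h : E n → ℝ} {x : E n}

theorem pd_add (hf : DifferentiableAt ℝ f x) (hh : DifferentiableAt ℝ h x) :
    H.pd c (fun y => f y + h y) x = H.pd c f x + H.pd c h x := by
  unfold H.pd; rw [fderiv_fun_add hf hh]; rfl

theorem pd_sub (hf : DifferentiableAt ℝ f x) (hh : DifferentiableAt ℝ h x) :
    H.pd c (fun y => f y - h y) x = H.pd c f x - H.pd c h x := by
  unfold H.pd; rw [fderiv_fun_sub hf hh]; rfl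

theorem pd_mul (hf : DifferentiableAt ℝ f x) (hh : DifferentiableAt ℝ h x) :
    H.pd c (fun y => f y * h y) x = H.pd c f x * h x + f x * H.pd c h x := by
  unfold H.pd
  rw [fderiv_fun_mul hf hh]
  simp only [add_apply, smul_apply, smul_eq_mul]
  ring

theorem pd_const (r : ℝ) : H.pd c (fun _ => r) x = 0 := by
  unfold H.pd; simp

theorem pd_sum {κ : Type} {s : Finset κ} {f : κ → E n → ℝ}
    (hf : ∀ k ∈ s, DifferentiableAt ℝ (f k) x) :
    H.pd c (fun y => ∑ k ∈ s, f k y) x = ∑ k ∈ s, H.pd c (f k) x := by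
  unfold H.pd
  rw [fderiv_fun_sum hf]
  simp only [_root_.sum_apply]

theorem contDiff_pd {m k : WithTop ℕ∞} (hf : ContDiff ℝ m f) (hmk : k + 1 ≤ m) (c : Fin n) :
    ContDiff ℝ k (fun y => H.pd c f y) := by
  unfold H.pd
  exact (hf.fderiv_right hmk).clm_apply contDiff_const

theorem pd_comm (hf : ContDiff ℝ 2 f) (a b : Fin n) :
    H.pd a (fun y => H.pd b f y) x = H.pd b (fun y => H.pd a f y) x := by
  have hs : IsSymmSndFDerivAt ℝ f x := hf.contDiffAt.isSymmSndFDerivAt (by simp)
  have hd : DifferentiableAt ℝ (fderiv ℝ f) x :=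
    ((hf.fderiv_right (m := 1) (by norm_num)).differentiable (by simp)) x
  have h3 : ∀ a b, H.pd a (fun y => H.pd b f y) x
      = fderiv ℝ (fderiv ℝ f) x (Pi.single a 1) (Pi.single b 1) := by
    intro a b
    unfold H.pd
    have : fderiv ℝ (fun y => fderiv ℝ f y (Pi.single b 1)) x
        = (fderiv ℝ (fderiv ℝ f) x).flip (Pi.single b 1) := by
      rw [fderiv_clm_apply hd (differentiableAt_const _)]
      simp
    rw [this]
    rfl
  rw [h3, h3]
  exact hs _ _

end pdcalc

section act
variable {Γ : Type} [Group Γ] [MulAction Γ (E n)] {G : E n → Matrix (Fin n) (Fin n) ℝ}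
  (h : Act n Γ) (hG : Met n Γ G)
include h

theorem jac_eq (γ : Γ) (x : E n) : jac (fun y : E n => γ • y) x = Dm γ x := by
  ext i j
  rw [Dm_apply, fderiv_single (h.smooth γ).contDiffAt j i]

include hG

theorem chg (γ : Γ) : Chg Set.univ Set.univ Set.univ (fun y : E n => γ • y) G G where
  isOpen := isOpen_univ
  sub := subset_rfl
  maps := fun _ _ => Set.mem_univ _
  smooth := fun _ _ => (h.smooth γ).contDiffAt
  compat := fun y _ => by rw [jac_eq h]; exact (G_trans hG γ y).symm

/-- invariance of the scalar curvature -/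
theorem scal_inv (γ : Γ) (x : E n) : H.scal G (γ • x) = H.scal G x :=
  (scal_trans (metricOn hG.smooth hG.pos) isOpen_univ (metricOn hG.smooth hG.pos) isOpen_univ
    (chg h hG γ) (Set.mem_univ x)).symm

/-- covariant Hessian -/
noncomputable def hess (G : E n → Matrix (Fin n) (Fin n) ℝ) (f : E n → ℝ) (x : E n) :
    Matrix (Fin n) (Fin n) ℝ :=
  fun i j => H.pd i (fun y => H.pd j f y) x - ∑ k, H.chr G x k i j * H.pd k f x

theorem hess_comp (γ : Γ) (f : E n → ℝ) (hf : ContDiff ℝ 2 f) (x : E n) :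
    hess G (fun y => f (γ • y)) x = (Dm γ x)ᵀ * hess G f (γ • x) * Dm γ x := by
  have hfd : Differentiable ℝ f := hf.differentiable (by simp)
  have hpd : ∀ e, Differentiable ℝ (fun y => H.pd e f y) := fun e =>
    (contDiff_pd hf (k := 1) (by norm_num) e).differentiable (by simp)
  have hjd : ∀ e j, DifferentiableAt ℝ (fun y => Dm γ y e j) x := fun e j => by
    have : (fun y => Dm γ y e j) = fun y => jac (fun z : E n => γ • z) y e j := by
      funext y; rw [jac_eq h]
    rw [this]
    exact (sm_jac (h.smooth γ).contDiffAt e j).diff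
  have hcd : ∀ e, DifferentiableAt ℝ (fun y => H.pd e f (γ • y)) x := fun e =>
    (hpd e _).comp x (diff h γ x)
  ext i j
  have r1 : ((Dm γ x)ᵀ * hess G f (γ • x) * Dm γ x) i j =
      ∑ m, ∑ l, Dm γ x l i * hess G f (γ • x) l m * Dm γ x m j := by
    simp only [Matrix.mul_apply, Matrix.transpose_apply, Finset.sum_mul]
  rw [r1]
  unfold hess
  have e1 : (fun y => H.pd j (fun z => f (γ • z)) y) =
      fun y => ∑ e, H.pd e f (γ • y) * Dm γ y e j := by
    funext y; exact Common.pd_comp h γ f y (hfd _) j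
  have e2 : H.pd i (fun y => H.pd j (fun z => f (γ • z)) y) x =
      ∑ e, ((∑ l, H.pd l (fun z => H.pd e f z) (γ • x) * Dm γ x l i) * Dm γ x e j +
        H.pd e f (γ • x) * hes (fun z : E n => γ • z) x e i j) := by
    rw [e1, Bridge.pd_sum fun e _ => (hcd e).fun_mul (hjd e j)]
    refine Finset.sum_congr rfl fun e _ => ?_
    rw [Bridge.pd_mul (hcd e) (hjd e j)]
    congr 1
    · congr 1
      exact Common.pd_comp h γ (fun z => H.pd e f z) x (hpd e _) i
    · congr 1
      have : (fun y => Dm γ y e j) = fun y => jac (fun z : E n => γ • z) y e j := by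
        funext y; rw [jac_eq h]
      rw [this]; rfl
  have e3 : ∑ k, H.chr G x k i j * H.pd k (fun z => f (γ • z)) x =
      ∑ e, H.pd e f (γ • x) * ((∑ l, ∑ m, Dm γ x l i * Dm γ x m j * H.chr G (γ • x) e l m) +
        hes (fun z : E n => γ • z) x e i j) := by
    have ct := fun e => christoffel_trans (metricOn hG.smooth hG.pos) (Set.mem_univ x)
      (metricOn hG.smooth hG.pos) isOpen_univ (Set.mem_univ _) (h.smooth γ).contDiffAt
      ((chg h hG γ).ev (Set.mem_univ x)) e i j
    simp only [jac_eq h] at ct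
    calc _ = ∑ k, ∑ e, H.chr G x k i j * (H.pd e f (γ • x) * Dm γ x e k) := by
          refine Finset.sum_congr rfl fun k _ => ?_
          rw [Common.pd_comp h γ f x (hfd _) k, Finset.mul_sum]
      _ = ∑ e, H.pd e f (γ • x) * ∑ k, Dm γ x e k * H.chr G x k i j := by
          rw [Finset.sum_comm]
          refine Finset.sum_congr rfl fun e _ => ?_
          rw [Finset.mul_sum]
          refine Finset.sum_congr rfl fun k _ => by ring
      _ = _ := by
          refine Finset.sum_congr rfl fun e _ => ?_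
          rw [show (∑ k, Dm γ x e k * H.chr G x k i j) = _ from ct e]; rfl
  rw [e2, e3]
  simp only [Finset.sum_add_distrib, mul_add]
  rw [add_sub_add_right_eq_sub]
  have r2 : ∑ e, H.pd e f (γ • x) * ∑ l, ∑ m, Dm γ x l i * Dm γ x m j * H.chr G (γ • x) e l m =
      ∑ m, ∑ l, Dm γ x l i * (∑ k, H.chr G (γ • x) k l m * H.pd k f (γ • x)) * Dm γ x m j := by
    calc _ = ∑ e, ∑ m, ∑ l, H.pd e f (γ • x) *
            (Dm γ x l i * Dm γ x m j * H.chr G (γ • x) e l m) := by
          refine Finset.sum_congr rfl fun e _ => ?_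
          rw [Finset.sum_comm, Finset.mul_sum]
          refine Finset.sum_congr rfl fun m _ => ?_
          rw [Finset.mul_sum]
      _ = ∑ m, ∑ e, ∑ l, H.pd e f (γ • x) *
            (Dm γ x l i * Dm γ x m j * H.chr G (γ • x) e l m) := Finset.sum_comm
      _ = _ := by
          refine Finset.sum_congr rfl fun m _ => ?_
          rw [Finset.sum_comm]
          refine Finset.sum_congr rfl fun l _ => ?_
          rw [Finset.mul_sum, Finset.sum_mul]
          refine Finset.sum_congr rfl fun e _ => by ring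
  rw [r2, ← Finset.sum_sub_distrib]
  refine Finset.sum_congr rfl fun m _ => ?_
  rw [Finset.sum_mul, ← Finset.sum_sub_distrib]
  refine Finset.sum_congr rfl fun l _ => by ring

/-- invariance of the Laplacian -/
theorem lap_comp (γ : Γ) (f : E n → ℝ) (hf : ContDiff ℝ 2 f) (x : E n) :
    lap G (fun y => f (γ • y)) x = lap G f (γ • x) := by
  have e : ∀ (f : E n → ℝ) (x : E n), lap G f x = ((G x)⁻¹ * (hess G f x)ᵀ).trace := by
    intro f x
    simp only [lap, Matrix.trace, Matrix.diag_apply, Matrix.mul_apply, Matrix.transpose_apply]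
    rfl
  rw [e, e, hess_comp h hG γ f hf, ← Ginv_trans h hG γ x]
  simp only [Matrix.transpose_mul, Matrix.transpose_transpose]
  have : (G x)⁻¹ * ((Dm γ x)ᵀ * ((hess G f (γ • x))ᵀ * Dm γ x)) =
      ((G x)⁻¹ * (Dm γ x)ᵀ * (hess G f (γ • x))ᵀ) * Dm γ x := by simp only [Matrix.mul_assoc]
  rw [this, Matrix.trace_mul_comm]
  simp only [Matrix.mul_assoc]

end act

end Vale.Agent.P223.H.Bridge
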