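import Vale.Agent.P223.H.Spec

/-! Phase 2A: the inequality with the scalar curvature for all metrics in the conformal class of a
metric with `Scal ≤ -s`, `Ric ≥ -C s`. -/

namespace Vale.Agent.P223.H

open scoped ContDiff
open MeasureTheory

/-- conformal metric `exp(2f) G` -/
noncomputable def confm {n : ℕ} (f : E n → ℝ) (G : E n → Matrix (Fin n) (Fin n) ℝ) (x : E n) :
    Matrix (Fin n) (Fin n) ℝ := Real.exp (2 * f x) • G x

/-- BLOCK 20a -/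
def SpecConfScal : Prop := ∀ (n : ℕ) (G : E n → Matrix (Fin n) (Fin n) ℝ),
  (∀ i j, ContDiff ℝ ∞ (fun x => G x i j)) → (∀ x, (G x).PosDef) →
  ∀ f : E n → ℝ, ContDiff ℝ ∞ f → ∀ x,
  Real.exp (2 * f x) * scal (confm f G) x =
    scal G x - 2 * ((n : ℝ) - 1) * lap G f x - ((n : ℝ) - 1) * ((n : ℝ) - 2) * gradSq G f x

/-- BLOCK 20b : the integral of a Laplacian over the quotient vanishes -/
def SpecLapInt : Prop := ∀ (n : ℕ) (Γ : Type) [Group Γ] [MulAction Γ (E n)]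
  (G : E n → Matrix (Fin n) (Fin n) ℝ), Act n Γ → Met n Γ G →
  ∀ f : E n → ℝ, ContDiff ℝ ∞ f → (∀ (γ : Γ) (x : E n), f (γ • x) = f x) →
  ∀ D : Set (E n), MeasurableSet D → Bornology.IsBounded D → (∀ x : E n, ∃! γ : Γ, γ • x ∈ D) →
  ∫ x in D, lap G f x * dens G x = 0

/-- BLOCK 20c : from the main theorem to the conformal class. `κ` is the constant of the main
theorem. -/
def SpecConf : Prop := ∀ (n : ℕ) (Γ : Type) [Group Γ] [MulAction Γ (E n)]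
  (G : E n → Matrix (Fin n) (Fin n) ℝ), 4 ≤ n → Act n Γ → Met n Γ G →
  ∀ (κ : ENNReal), (∀ (ρ : E n → ℝ) (D : Set (E n)), MeasurableSet D →
      (∀ x : E n, ∃ γ : Γ, γ • x ∈ D) → Continuous ρ → (∀ x, 0 ≤ ρ x) →
      (∀ (γ : Γ) (x : E n), ρ (γ • x) = ρ x) → RicGe G ρ →
      sv n Γ ≤ κ * int G D (fun x => ρ x ^ ((n : ℝ) / 2))) →
  ∀ (s C : ℝ), 0 < s → 0 ≤ C → (∀ x, scal G x ≤ -s) → RicGe G (fun _ => C * s) →
  ∀ f : E n → ℝ, ContDiff ℝ ∞ f → (∀ (γ : Γ) (x : E n), f (γ • x) = f x) →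
  ∀ D : Set (E n), MeasurableSet D → (∀ x : E n, ∃ γ : Γ, γ • x ∈ D) →
  sv n Γ ≤ κ * ENNReal.ofReal (C ^ ((n : ℝ) / 2)) *
    int (confm f G) D (fun x => max 0 (-scal (confm f G) x) ^ ((n : ℝ) / 2))

/- to prove: SpecConfScal ; SpecLapInt ; SpecDom → SpecConfScal → SpecLapInt → SpecConf.
Proof of 20c: D₀ strict bounded fundamental domain, V = ∫_{D₀} dens G. Integrate 20a against dens G:
∫_{D₀} exp(2f) scal(g) dens G ≤ -s V, so s V ≤ ∫_{D₀} scal(g)^- exp(2f) dens G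
≤ (∫_{D₀} (scal(g)^-)^{n/2} exp(n f) dens G)^{2/n} V^{1-2/n}, hence
s^{n/2} V ≤ ∫_{D₀} (scal(g)^-)^{n/2} dens g  (dens g = exp(n f) dens G). (Instead of Hölder use
Young: s·t ≤ ... i.e. t^{n/2} ≥ s^{n/2} + (n/2) s^{n/2-1} (t - s) pointwise with t = scal(g)^- exp(2f).)
The main theorem with ρ = C s gives sv ≤ κ (C s)^{n/2} V. Finally ∫_{D₀} F ≤ ∫_D F for invariant F. -/

end Vale.Agent.P223.H
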