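import Vale.Agent.P223.H.Grad
import Vale.Agent.P223.H.Spec2

/-! Block 20a: scalar curvature of a conformal metric. -/

namespace Vale.Agent.P223.H.ConfScal

open scoped ContDiff Matrix Topology
open Finset Common

/-! ### Algebra -/

section alg

variable {ι : Type} [Fintype ι] [DecidableEq ι]

/-- difference of the Christoffel symbols -/
def S (g : ι → ι → ℝ) (a u : ι → ℝ) (k i j : ι) : ℝ :=
  (if k = i then a j else 0) + (if k = j then a i else 0) - g i j * u k

variable {g gi : ι → ι → ℝ} {a u : ι → ℝ}

omit [Fintype ι] in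
theorem S_symm (hg : ∀ i j, g i j = g j i) (k i j : ι) : S g a u k i j = S g a u k j i := by
  unfold S; rw [hg i j]; ring

theorem S_trace (hu : ∀ i, ∑ k, g i k * u k = a i) (i : ι) :
    ∑ k, S g a u k i k = Fintype.card ι * a i := by
  unfold S
  simp only [Finset.sum_add_distrib, Finset.sum_sub_distrib, hu]
  simp

theorem S_trace' (hg : ∀ i j, g i j = g j i) (hu : ∀ i, ∑ k, g i k * u k = a i) (i : ι) :
    ∑ k, S g a u k k i = Fintype.card ι * a i := by
  rw [← S_trace hu i]
  exact Finset.sum_congr rfl fun k _ => S_symm hg _ _ _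

theorem contr (c : ι → ℝ) (i j : ι) :
    ∑ l, c l * S g a u l i j = c i * a j + c j * a i - g i j * ∑ l, c l * u l := by
  unfold S
  simp only [mul_sub, mul_add, Finset.sum_add_distrib, Finset.sum_sub_distrib, mul_ite, mul_zero,
    Finset.sum_ite_eq', Finset.mem_univ, if_true]
  congr 1
  rw [Finset.mul_sum]
  exact Finset.sum_congr rfl fun l _ => by ring

theorem contr2 (M : ι → ι → ℝ) (i : ι) :
    ∑ k, ∑ l, M k l * S g a u l i k =
      ∑ k, M k i * a k + (∑ k, M k k) * a i - ∑ k, ∑ l, M k l * (g i k * u l) := by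
  unfold S
  simp only [mul_sub, mul_add, Finset.sum_add_distrib, Finset.sum_sub_distrib, mul_ite, mul_zero,
    Finset.sum_ite_eq', Finset.mem_univ, if_true]
  congr 2
  rw [Finset.sum_mul]

/-- quadratic terms -/
theorem quad (hg : ∀ i j, g i j = g j i) (hu : ∀ i, ∑ k, g i k * u k = a i) (i j : ι) :
    ∑ k, ∑ l, (S g a u k k l * S g a u l i j - S g a u k j l * S g a u l i k) =
      ((Fintype.card ι : ℝ) - 2) * (a i * a j - g i j * ∑ l, a l * u l) := by
  simp only [Finset.sum_sub_distrib]
  rw [contr2 (fun k l => S g a u k j l) i, Finset.sum_comm]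
  simp only [← Finset.sum_mul]
  have e1 : ∀ l, (∑ k, S g a u k k l) = Fintype.card ι * a l := S_trace' hg hu
  simp only [e1]
  have e2 : ∑ l, ((Fintype.card ι : ℝ) * a l) * S g a u l i j =
      (Fintype.card ι : ℝ) * (a i * a j + a j * a i - g i j * ∑ l, a l * u l) := by
    rw [← contr a i j, Finset.mul_sum]
    exact Finset.sum_congr rfl fun l _ => by ring
  have e3 : ∑ k, S g a u k j i * a k = a j * a i + a i * a j - g j i * ∑ l, a l * u l := by
    rw [← contr a j i]
    exact Finset.sum_congr rfl fun l _ => by ring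
  have e4 : ∑ k, S g a u k j k = Fintype.card ι * a j := S_trace hu j
  have e5 : ∑ k, ∑ l, S g a u k j l * (g i k * u l) = g i j * ∑ l, a l * u l := by
    have h1 : ∀ k, ∑ l, S g a u k j l * (g i k * u l) =
        g i k * ((if k = j then ∑ l, a l * u l else 0) + u k * a j - a j * u k) := by
      intro k
      unfold S
      have h2 : ∀ l, ((if k = j then a l else 0) + (if k = l then a j else 0) - g j l * u k) *
          (g i k * u l) = g i k * ((if k = j then a l * u l else 0) +
            (if k = l then a j * u l else 0) - (g j l * u l) * u k) := by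
        intro l
        split_ifs <;> ring
      simp only [h2]
      rw [← Finset.mul_sum, Finset.sum_sub_distrib, Finset.sum_add_distrib, ← Finset.sum_mul, hu j]
      congr 2
      congr 1
      · split_ifs <;> simp
      · simp [mul_comm]
    simp only [h1]
    have h3 : ∀ k, g i k * ((if k = j then ∑ l, a l * u l else 0) + u k * a j - a j * u k) =
        if k = j then g i k * ∑ l, a l * u l else 0 := by
      intro k
      split_ifs <;> ring
    simp only [h3, Finset.sum_ite_eq', Finset.mem_univ, if_true]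
  rw [e2, e3, e4, e5, hg j i]
  ring

/-- linear terms -/
theorem lin (hg : ∀ i j, g i j = g j i) (hu : ∀ i, ∑ k, g i k * u k = a i)
    (C : ι → ι → ι → ℝ) (hC : ∀ k i j, C k i j = C k j i) (i j : ι) :
    ∑ k, ∑ l, (C k k l * S g a u l i j + S g a u k k l * C l i j -
        C k j l * S g a u l i k - S g a u k j l * C l i k) =
      ((Fintype.card ι : ℝ) - 2) * ∑ l, C l i j * a l - g i j * ∑ l, (∑ k, C k k l) * u l +
        ∑ l, (∑ k, g i k * C k l j + ∑ k, g j k * C k l i) * u l := by
  simp only [Finset.sum_sub_distrib, Finset.sum_add_distrib]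
  rw [contr2 (fun k l => C k j l) i]
  have e0 : ∑ k, ∑ l, S g a u k j l * C l i k =
      ∑ l, ∑ k, C l i k * S g a u k j l := by
    rw [Finset.sum_comm]
    exact Finset.sum_congr rfl fun l _ => Finset.sum_congr rfl fun k _ => by ring
  rw [e0, contr2 (fun l k => C l i k) j, Finset.sum_comm (f := fun k l => C k k l * S g a u l i j),
    Finset.sum_comm (f := fun k l => S g a u k k l * C l i j)]
  simp only [← Finset.sum_mul]
  rw [contr (fun l => ∑ k, C k k l) i j]
  have e1 : ∀ l, (∑ k, S g a u k k l) = Fintype.card ι * a l := S_trace' hg hu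
  simp only [e1]
  have e2 : ∀ l, ∑ k, C k k l = ∑ k, C k l k := fun l => Finset.sum_congr rfl fun k _ => hC _ _ _
  have e3 : ∑ k, ∑ l, C k j l * (g i k * u l) = ∑ l, (∑ k, g i k * C k l j) * u l := by
    rw [Finset.sum_comm]
    refine Finset.sum_congr rfl fun l _ => ?_
    rw [Finset.sum_mul]
    exact Finset.sum_congr rfl fun k _ => by rw [hC k j l]; ring
  have e4 : ∑ l, ∑ k, C l i k * (g j l * u k) = ∑ l, (∑ k, g j k * C k l i) * u l := by
    rw [Finset.sum_comm]
    refine Finset.sum_congr rfl fun l _ => ?_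
    rw [Finset.sum_mul]
    exact Finset.sum_congr rfl fun k _ => by rw [hC k i l]; ring
  have e5 : ∑ l, (Fintype.card ι : ℝ) * a l * C l i j =
      (Fintype.card ι : ℝ) * ∑ l, C l i j * a l := by
    rw [Finset.mul_sum]
    exact Finset.sum_congr rfl fun l _ => by ring
  have e6 : ∑ k, C k j i * a k = ∑ l, C l i j * a l :=
    Finset.sum_congr rfl fun l _ => by rw [hC l j i]
  rw [e3, e4, e5, e6, e2 i, e2 j]
  simp only [add_mul, Finset.sum_add_distrib]
  ring

end alg

/-! ### Calculus -/

section cal

variable {n : ℕ} {G : E n → Matrix (Fin n) (Fin n) ℝ} (hs : ∀ i j, ContDiff ℝ ∞ (fun x => G x i j))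
  (hp : ∀ x, (G x).PosDef) {f : E n → ℝ} (hf : ContDiff ℝ ∞ f)

include hp in
theorem g_symm (x : E n) (i j : Fin n) : G x i j = G x j i := by
  have := (hp x).isHermitian
  have h := congrFun (congrFun this j) i
  simpa using h

include hp in
theorem gi_symm (x : E n) (i j : Fin n) : (G x)⁻¹ i j = (G x)⁻¹ j i := by
  have := (hp x).inv.isHermitian
  have h := congrFun (congrFun this j) i
  simpa using h

include hp in
theorem g_gi (x : E n) (i j : Fin n) : ∑ k, G x i k * (G x)⁻¹ k j = if i = j then 1 else 0 := by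
  have h : G x * (G x)⁻¹ = 1 := Matrix.mul_nonsing_inv _ (hp x).det_pos.ne'.isUnit
  have := congrFun (congrFun h i) j
  rwa [Matrix.mul_apply, Matrix.one_apply] at this

include hp in
theorem gi_g (x : E n) (i j : Fin n) : ∑ k, (G x)⁻¹ i k * G x k j = if i = j then 1 else 0 := by
  have h : (G x)⁻¹ * G x = 1 := Matrix.nonsing_inv_mul _ (hp x).det_pos.ne'.isUnit
  have := congrFun (congrFun h i) j
  rwa [Matrix.mul_apply, Matrix.one_apply] at this

include hp in
theorem g_grd (f : E n → ℝ) (x : E n) (i : Fin n) : ∑ k, G x i k * grd G f x k = H.pd i f x := by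
  unfold grd
  simp only [Finset.mul_sum]
  rw [Finset.sum_comm]
  have : ∀ j, ∑ k, G x i k * ((G x)⁻¹ k j * H.pd j f x) = (if i = j then 1 else 0) * H.pd j f x := by
    intro j
    rw [← g_gi hp x i j, Finset.sum_mul]
    exact Finset.sum_congr rfl fun k _ => by ring
  simp only [this]
  simp

include hp in
theorem confm_inv (x : E n) : (confm f G x)⁻¹ = Real.exp (-(2 * f x)) • (G x)⁻¹ := by
  refine Matrix.inv_eq_right_inv ?_
  unfold confm
  rw [smul_mul_smul_comm, ← Real.exp_add, add_neg_cancel, Real.exp_zero, one_smul,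
    Matrix.mul_nonsing_inv _ (hp x).det_pos.ne'.isUnit]

include hs hf in
theorem pd_confm (x : E n) (c i j : Fin n) : H.pd c (fun y => confm f G y i j) x =
    Real.exp (2 * f x) * (2 * H.pd c f x * G x i j + H.pd c (fun y => G y i j) x) := by
  have hfd : DifferentiableAt ℝ f x := hf.differentiable (by simp) x
  have hgd : DifferentiableAt ℝ (fun y => G y i j) x := (hs i j).differentiable (by simp) x
  have h2f : DifferentiableAt ℝ (fun y => 2 * f y) x := hfd.const_mul 2
  have hed : DifferentiableAt ℝ (fun y => Real.exp (2 * f y)) x := h2f.exp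
  have e1 : H.pd c (fun y => Real.exp (2 * f y)) x = Real.exp (2 * f x) * (2 * H.pd c f x) := by
    have h := Grad.pd_comp_real (φ := Real.exp) (f := fun y => 2 * f y) (Real.hasDerivAt_exp _)
      h2f c
    rw [h, Bridge.pd_mul (differentiableAt_const _) hfd, Bridge.pd_const]
    ring
  have e2 : (fun y => confm f G y i j) = fun y => Real.exp (2 * f y) * G y i j := by
    funext y; simp [confm]
  rw [e2, Bridge.pd_mul hed hgd, e1]
  ring

include hs hp hf in
/-- Christoffel symbols of the conformal metric -/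
theorem chr_confm (x : E n) (k i j : Fin n) : H.chr (confm f G) x k i j = H.chr G x k i j +
    S (G x) (fun i => H.pd i f x) (grd G f x) k i j := by
  unfold H.chr
  simp only [pd_confm hs hf, confm_inv hp, Matrix.smul_apply, smul_eq_mul]
  have e : ∀ l, Real.exp (-(2 * f x)) * (G x)⁻¹ k l *
      (Real.exp (2 * f x) * (2 * H.pd i f x * G x j l + H.pd i (fun y => G y j l) x) +
      Real.exp (2 * f x) * (2 * H.pd j f x * G x i l + H.pd j (fun y => G y i l) x) -
      Real.exp (2 * f x) * (2 * H.pd l f x * G x i j + H.pd l (fun y => G y i j) x)) =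
      (G x)⁻¹ k l * (H.pd i (fun y => G y j l) x + H.pd j (fun y => G y i l) x -
        H.pd l (fun y => G y i j) x) +
      2 * (H.pd i f x * ((G x)⁻¹ k l * G x l j) + H.pd j f x * ((G x)⁻¹ k l * G x l i) -
        G x i j * ((G x)⁻¹ k l * H.pd l f x)) := by
    intro l
    have hexp : Real.exp (-(2 * f x)) * Real.exp (2 * f x) = 1 := by
      rw [← Real.exp_add, neg_add_cancel, Real.exp_zero]
    rw [g_symm hp x l j, g_symm hp x l i]
    calc _ = (Real.exp (-(2 * f x)) * Real.exp (2 * f x)) * ((G x)⁻¹ k l *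
          ((2 * H.pd i f x * G x j l + H.pd i (fun y => G y j l) x) +
          (2 * H.pd j f x * G x i l + H.pd j (fun y => G y i l) x) -
          (2 * H.pd l f x * G x i j + H.pd l (fun y => G y i j) x))) := by ring
      _ = _ := by rw [hexp]; ring
  simp only [e]
  rw [Finset.sum_add_distrib, ← Finset.mul_sum, Finset.sum_sub_distrib, Finset.sum_add_distrib,
    ← Finset.mul_sum, ← Finset.mul_sum, ← Finset.mul_sum, gi_g hp, gi_g hp]
  unfold S grd
  split_ifs <;> ring

include hs hp hf in
/-- the Laplacian is the divergence of the gradient -/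
theorem lap_eq_div (x : E n) :
    ∑ k, H.pd k (fun y => grd G f y k) x + ∑ l, (∑ k, H.chr G x k k l) * grd G f x l =
      lap G f x := by
  have hM := Bridge.metricOn hs hp
  have hpdf : ∀ j, DifferentiableAt ℝ (fun y => H.pd j f y) x := fun j =>
    ((Bridge.contDiff_pd (k := ∞) hf (by simp) j).differentiable (by simp)) x
  have hgid : ∀ i j, DifferentiableAt ℝ (fun y => (G y)⁻¹ i j) x := fun i j =>
    (hM.sm_inv isOpen_univ (Set.mem_univ x) i j).diff
  have e1 : ∀ k, H.pd k (fun y => grd G f y k) x = ∑ j, (H.pd k (fun y => (G y)⁻¹ k j) x *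
      H.pd j f x + (G x)⁻¹ k j * H.pd k (fun y => H.pd j f y) x) := by
    intro k
    unfold grd
    rw [Bridge.pd_sum fun j _ => (hgid k j).fun_mul (hpdf j)]
    exact Finset.sum_congr rfl fun j _ => Bridge.pd_mul (hgid k j) (hpdf j)
  have e2 : ∀ c a b, H.pd c (fun y => (G y)⁻¹ a b) x
      = - ∑ d, (H.chr G x a c d * (G x)⁻¹ d b + H.chr G x b c d * (G x)⁻¹ a d) := fun c a b =>
    hM.pd_inv isOpen_univ (Set.mem_univ x) c a b
  have e3 : ∀ k j, H.pd k (fun y => (G y)⁻¹ k j) x * H.pd j f x =
      - ∑ d, H.chr G x k k d * ((G x)⁻¹ d j * H.pd j f x) -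
        ∑ d, (G x)⁻¹ k d * (H.chr G x j k d * H.pd j f x) := by
    intro k j
    rw [e2, Finset.sum_add_distrib, neg_mul, add_mul, Finset.sum_mul, Finset.sum_mul, neg_add,
      sub_eq_add_neg]
    congr 2
    · exact Finset.sum_congr rfl fun d _ => by ring
    · exact Finset.sum_congr rfl fun d _ => by ring
  simp only [e1, e3]
  have e4 : ∑ l, (∑ k, H.chr G x k k l) * grd G f x l =
      ∑ k, ∑ j, ∑ d, H.chr G x k k d * ((G x)⁻¹ d j * H.pd j f x) := by
    unfold grd
    simp only [Finset.sum_mul]
    rw [Finset.sum_comm]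
    refine Finset.sum_congr rfl fun k _ => ?_
    rw [Finset.sum_comm]
    refine Finset.sum_congr rfl fun l _ => ?_
    rw [Finset.mul_sum]
  have e5 : ∑ k, ∑ j, ∑ d, (G x)⁻¹ k d * (H.chr G x j k d * H.pd j f x) =
      ∑ k, ∑ d, (G x)⁻¹ k d * ∑ j, H.chr G x j k d * H.pd j f x := by
    refine Finset.sum_congr rfl fun k _ => ?_
    rw [Finset.sum_comm]
    refine Finset.sum_congr rfl fun l _ => ?_
    rw [Finset.mul_sum]
  have e6 : lap G f x = ∑ k, ∑ j, (G x)⁻¹ k j * H.pd k (fun y => H.pd j f y) x -
      ∑ k, ∑ d, (G x)⁻¹ k d * ∑ j, H.chr G x j k d * H.pd j f x := by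
    unfold lap
    simp only [mul_sub, Finset.sum_sub_distrib]
  rw [e4, e6, ← e5]
  simp only [Finset.sum_add_distrib, Finset.sum_sub_distrib, Finset.sum_neg_distrib]
  ring

include hp in
theorem chr_lower (x : E n) (i a b : Fin n) : ∑ k, G x i k * H.chr G x k a b =
    (1 / 2) * (H.pd a (fun y => G y b i) x + H.pd b (fun y => G y a i) x -
      H.pd i (fun y => G y a b) x) := by
  unfold H.chr
  have e : ∀ k, G x i k * ((1 / 2) * ∑ l, (G x)⁻¹ k l * (H.pd a (fun y => G y b l) x +
      H.pd b (fun y => G y a l) x - H.pd l (fun y => G y a b) x)) =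
      ∑ l, (1 / 2) * ((G x i k * (G x)⁻¹ k l) * (H.pd a (fun y => G y b l) x +
      H.pd b (fun y => G y a l) x - H.pd l (fun y => G y a b) x)) := by
    intro k
    simp only [Finset.mul_sum]
    exact Finset.sum_congr rfl fun l _ => by ring
  simp only [e]
  rw [Finset.sum_comm]
  simp only [← Finset.mul_sum, ← Finset.sum_mul, g_gi hp]
  simp

include hp in
theorem compat (x : E n) (l i j : Fin n) : H.pd l (fun y => G y i j) x =
    ∑ k, G x i k * H.chr G x k l j + ∑ k, G x j k * H.chr G x k l i := by
  rw [chr_lower hp, chr_lower hp]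
  have e : ∀ a b, (fun y => G y a b) = fun y => G y b a := fun a b => by
    funext y; exact g_symm hp y a b
  rw [e j i]
  ring

include hs hp hf in
/-- Ricci curvature of the conformal metric -/
theorem ric_confm (x : E n) (i j : Fin n) : H.ric (confm f G) x i j = H.ric G x i j -
    ((n : ℝ) - 2) * (H.pd i (fun y => H.pd j f y) x - ∑ k, H.chr G x k i j * H.pd k f x -
      H.pd i f x * H.pd j f x) -
    (lap G f x + ((n : ℝ) - 2) * ∑ l, H.pd l f x * grd G f x l) * G x i j := by
  have hM := Bridge.metricOn hs hp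
  have hpdf : ∀ j, DifferentiableAt ℝ (fun y => H.pd j f y) x := fun j =>
    ((Bridge.contDiff_pd (k := ∞) hf (by simp) j).differentiable (by simp)) x
  have hgid : ∀ i j, DifferentiableAt ℝ (fun y => (G y)⁻¹ i j) x := fun i j =>
    (hM.sm_inv isOpen_univ (Set.mem_univ x) i j).diff
  have hgrd : ∀ k, DifferentiableAt ℝ (fun y => grd G f y k) x := fun k => by
    unfold grd
    exact DifferentiableAt.fun_sum fun j _ => (hgid k j).fun_mul (hpdf j)
  have hgd : ∀ i j, DifferentiableAt ℝ (fun y => G y i j) x := fun i j =>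
    (hs i j).differentiable (by simp) x
  have hchr : ∀ k i j, DifferentiableAt ℝ (fun y => H.chr G y k i j) x := fun k i j =>
    (hM.sm_christoffel isOpen_univ (Set.mem_univ x) k i j).diff
  have hite : ∀ (k i : Fin n) (h : E n → ℝ), DifferentiableAt ℝ h x →
      DifferentiableAt ℝ (fun y => if k = i then h y else 0) x := by
    intro k i h hh
    split_ifs
    · exact hh
    · exact differentiableAt_const _
  have hS : ∀ k i j, DifferentiableAt ℝ
      (fun y => S (G y) (fun i => H.pd i f y) (grd G f y) k i j) x := fun k i j => by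
    unfold S
    exact ((hite k i _ (hpdf j)).fun_add (hite k j _ (hpdf i))).fun_sub
      ((hgd i j).fun_mul (hgrd k))
  have hpite : ∀ (m k i : Fin n) (h : E n → ℝ),
      H.pd m (fun y => if k = i then h y else 0) x = if k = i then H.pd m h x else 0 := by
    intro m k i h
    split_ifs
    · rfl
    · exact Bridge.pd_const 0
  have hpS : ∀ m k i j, H.pd m (fun y => S (G y) (fun i => H.pd i f y) (grd G f y) k i j) x =
      (if k = i then H.pd m (fun y => H.pd j f y) x else 0) +
      (if k = j then H.pd m (fun y => H.pd i f y) x else 0) -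
      (H.pd m (fun y => G y i j) x * grd G f x k + G x i j * H.pd m (fun y => grd G f y k) x) := by
    intro m k i j
    unfold S
    rw [Bridge.pd_sub ((hite k i _ (hpdf j)).fun_add (hite k j _ (hpdf i)))
      ((hgd i j).fun_mul (hgrd k)), Bridge.pd_add (hite k i _ (hpdf j)) (hite k j _ (hpdf i)),
      hpite, hpite, Bridge.pd_mul (hgd i j) (hgrd k)]
  have hsym : ∀ k i j, H.chr G x k i j = H.chr G x k j i := fun k i j =>
    hM.christoffel_symm isOpen_univ (Set.mem_univ x) k i j
  have hu : ∀ i, ∑ k, G x i k * grd G f x k = H.pd i f x := g_grd hp f x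
  have hcomm : H.pd j (fun y => H.pd i f y) x = H.pd i (fun y => H.pd j f y) x :=
    Bridge.pd_comm (contDiff_infty.1 hf 2) j i
  have t1 : ∑ k, H.pd k (fun y => S (G y) (fun i => H.pd i f y) (grd G f y) k i j) x =
      2 * H.pd i (fun y => H.pd j f y) x - ∑ k, H.pd k (fun y => G y i j) x * grd G f x k -
        G x i j * ∑ k, H.pd k (fun y => grd G f y k) x := by
    simp only [hpS, Finset.sum_sub_distrib, Finset.sum_add_distrib, Finset.sum_ite_eq',
      Finset.mem_univ, if_true, Finset.mul_sum]
    rw [hcomm]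
    ring
  have t2 : ∑ k, H.pd j (fun y => S (G y) (fun i => H.pd i f y) (grd G f y) k i k) x =
      n * H.pd i (fun y => H.pd j f y) x := by
    rw [← Bridge.pd_sum fun k _ => hS k i k]
    have e : (fun y => ∑ k, S (G y) (fun i => H.pd i f y) (grd G f y) k i k) =
        fun y => (n : ℝ) * H.pd i f y := by
      funext y
      rw [S_trace (g_grd hp f y) i, Fintype.card_fin]
    rw [e, Bridge.pd_mul (differentiableAt_const _) (hpdf i), Bridge.pd_const, hcomm]
    ring
  have t3 := quad (g := G x) (a := fun i => H.pd i f x) (u := grd G f x) (g_symm hp x) hu i j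
  have t4 := lin (g := G x) (a := fun i => H.pd i f x) (u := grd G f x) (g_symm hp x) hu
    (H.chr G x) hsym i j
  have t5 : ∑ l, (∑ k, G x i k * H.chr G x k l j + ∑ k, G x j k * H.chr G x k l i) *
      grd G f x l = ∑ k, H.pd k (fun y => G y i j) x * grd G f x k :=
    Finset.sum_congr rfl fun l _ => by rw [← compat hp x l i j]
  have t6 := lap_eq_div hs hp hf x
  rw [t5] at t4
  simp only [Fintype.card_fin] at t3 t4
  unfold H.ric
  simp only [chr_confm hs hp hf]
  have e1 : ∀ k, H.pd k (fun y => H.chr G y k i j +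
      S (G y) (fun i => H.pd i f y) (grd G f y) k i j) x -
      H.pd j (fun y => H.chr G y k i k + S (G y) (fun i => H.pd i f y) (grd G f y) k i k) x =
      (H.pd k (fun y => H.chr G y k i j) x - H.pd j (fun y => H.chr G y k i k) x) +
      (H.pd k (fun y => S (G y) (fun i => H.pd i f y) (grd G f y) k i j) x -
        H.pd j (fun y => S (G y) (fun i => H.pd i f y) (grd G f y) k i k) x) := by
    intro k
    rw [Bridge.pd_add (hchr k i j) (hS k i j), Bridge.pd_add (hchr k i k) (hS k i k)]
    ring
  simp only [e1]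
  rw [Finset.sum_add_distrib, Finset.sum_sub_distrib (f := fun k => H.pd k (fun y =>
    S (G y) (fun i => H.pd i f y) (grd G f y) k i j) x), t1, t2]
  have e2 : ∀ k l, (H.chr G x k k l + S (G x) (fun i => H.pd i f x) (grd G f x) k k l) *
      (H.chr G x l i j + S (G x) (fun i => H.pd i f x) (grd G f x) l i j) -
      (H.chr G x k j l + S (G x) (fun i => H.pd i f x) (grd G f x) k j l) *
      (H.chr G x l i k + S (G x) (fun i => H.pd i f x) (grd G f x) l i k) =
      (H.chr G x k k l * H.chr G x l i j - H.chr G x k j l * H.chr G x l i k) +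
      ((H.chr G x k k l * S (G x) (fun i => H.pd i f x) (grd G f x) l i j +
        S (G x) (fun i => H.pd i f x) (grd G f x) k k l * H.chr G x l i j -
        H.chr G x k j l * S (G x) (fun i => H.pd i f x) (grd G f x) l i k -
        S (G x) (fun i => H.pd i f x) (grd G f x) k j l * H.chr G x l i k) +
      (S (G x) (fun i => H.pd i f x) (grd G f x) k k l *
        S (G x) (fun i => H.pd i f x) (grd G f x) l i j -
        S (G x) (fun i => H.pd i f x) (grd G f x) k j l *
        S (G x) (fun i => H.pd i f x) (grd G f x) l i k)) := by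
    intro k l; ring
  have e3 : ∑ k, ∑ l, ((H.chr G x k k l + S (G x) (fun i => H.pd i f x) (grd G f x) k k l) *
      (H.chr G x l i j + S (G x) (fun i => H.pd i f x) (grd G f x) l i j) -
      (H.chr G x k j l + S (G x) (fun i => H.pd i f x) (grd G f x) k j l) *
      (H.chr G x l i k + S (G x) (fun i => H.pd i f x) (grd G f x) l i k)) =
      ∑ k, ∑ l, (H.chr G x k k l * H.chr G x l i j - H.chr G x k j l * H.chr G x l i k) +
      (∑ k, ∑ l, (H.chr G x k k l * S (G x) (fun i => H.pd i f x) (grd G f x) l i j +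
        S (G x) (fun i => H.pd i f x) (grd G f x) k k l * H.chr G x l i j -
        H.chr G x k j l * S (G x) (fun i => H.pd i f x) (grd G f x) l i k -
        S (G x) (fun i => H.pd i f x) (grd G f x) k j l * H.chr G x l i k) +
      ∑ k, ∑ l, (S (G x) (fun i => H.pd i f x) (grd G f x) k k l *
        S (G x) (fun i => H.pd i f x) (grd G f x) l i j -
        S (G x) (fun i => H.pd i f x) (grd G f x) k j l *
        S (G x) (fun i => H.pd i f x) (grd G f x) l i k)) := by
    rw [← Finset.sum_add_distrib, ← Finset.sum_add_distrib]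
    refine Finset.sum_congr rfl fun k _ => ?_
    rw [← Finset.sum_add_distrib, ← Finset.sum_add_distrib]
    exact Finset.sum_congr rfl fun l _ => e2 k l
  rw [e3, t3, t4, ← t6]
  ring

end cal

theorem main : SpecConfScal := by
  intro n G hs hp f hf x
  unfold H.scal
  simp only [ric_confm hs hp hf, confm_inv hp, Matrix.smul_apply, smul_eq_mul]
  have hexp : Real.exp (2 * f x) * Real.exp (-(2 * f x)) = 1 := by
    rw [← Real.exp_add, add_neg_cancel, Real.exp_zero]
  have hgrad : ∑ l, H.pd l f x * grd G f x l = gradSq G f x := by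
    unfold gradSq gradIp grd
    refine Finset.sum_congr rfl fun i _ => ?_
    rw [Finset.mul_sum]
    exact Finset.sum_congr rfl fun j _ => by ring
  have htr : ∑ i, ∑ j, (G x)⁻¹ i j * G x i j = n := by
    have : ∀ i, ∑ j, (G x)⁻¹ i j * G x i j = 1 := by
      intro i
      have h := gi_g hp x i i
      rw [if_pos rfl] at h
      rw [← h]
      exact Finset.sum_congr rfl fun j _ => by rw [g_symm hp x i j]
    simp [this]
  have hsq : ∑ i, ∑ j, (G x)⁻¹ i j * (H.pd i f x * H.pd j f x) = gradSq G f x := by
    unfold gradSq gradIp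
    exact Finset.sum_congr rfl fun i _ => Finset.sum_congr rfl fun j _ => by ring
  have e : ∀ i j, Real.exp (-(2 * f x)) * (G x)⁻¹ i j * (H.ric G x i j -
      ((n : ℝ) - 2) * (H.pd i (fun y => H.pd j f y) x - ∑ k, H.chr G x k i j * H.pd k f x -
      H.pd i f x * H.pd j f x) -
      (lap G f x + ((n : ℝ) - 2) * ∑ l, H.pd l f x * grd G f x l) * G x i j) =
      Real.exp (-(2 * f x)) * ((G x)⁻¹ i j * H.ric G x i j -
        ((n : ℝ) - 2) * ((G x)⁻¹ i j * (H.pd i (fun y => H.pd j f y) x -
          ∑ k, H.chr G x k i j * H.pd k f x)) +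
        ((n : ℝ) - 2) * ((G x)⁻¹ i j * (H.pd i f x * H.pd j f x)) -
        (lap G f x + ((n : ℝ) - 2) * ∑ l, H.pd l f x * grd G f x l) *
          ((G x)⁻¹ i j * G x i j)) := by
    intro i j; ring
  simp only [e, ← Finset.mul_sum, Finset.sum_sub_distrib, Finset.sum_add_distrib]
  rw [← mul_assoc, hexp, one_mul, htr, hsq, hgrad]
  unfold lap
  simp only [mul_sub, Finset.sum_sub_distrib]
  ring


end Vale.Agent.P223.H.ConfScal
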