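import Vale.Agent.P223.H.SpecT
import Vale.Agent.P223.H.Bridge
import Vale.Agent.P223.H.ConfScal

/-! Block 25a: the Ricci tensor is symmetric; contracted Bianchi identity. -/

namespace Vale.Agent.P223.H.B25a

open scoped ContDiff Matrix
open Finset

variable {n : ℕ}

/-! ### calculus for matrix valued functions -/

/-- matrices -/
abbrev Mn (n : ℕ) := Matrix (Fin n) (Fin n) ℝ

/-- entrywise derivative -/
noncomputable def D (i : Fin n) (M : E n → Mn n) (x : E n) : Mn n :=
  Matrix.of fun a b => H.pd i (fun y => M y a b) x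

theorem D_apply (i : Fin n) (M : E n → Mn n) (x : E n) (a b : Fin n) :
    D i M x a b = H.pd i (fun y => M y a b) x := rfl

/-- smoothness -/
def SmM (M : E n → Mn n) : Prop := ∀ a b, ContDiff ℝ ∞ (fun y => M y a b)

theorem SmM.diff {M : E n → Mn n} (h : SmM M) (a b : Fin n) (x : E n) :
    DifferentiableAt ℝ (fun y => M y a b) x := (h a b).differentiable (by simp) x

theorem SmM.mul {M N : E n → Mn n} (hM : SmM M) (hN : SmM N) : SmM (fun y => M y * N y) := by
  intro a b
  simp only [Matrix.mul_apply]
  exact ContDiff.sum fun c _ => (hM a c).mul (hN c b)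

theorem SmM.add {M N : E n → Mn n} (hM : SmM M) (hN : SmM N) : SmM (fun y => M y + N y) := by
  intro a b
  simp only [Matrix.add_apply]
  exact (hM a b).add (hN a b)

theorem SmM.sub {M N : E n → Mn n} (hM : SmM M) (hN : SmM N) : SmM (fun y => M y - N y) := by
  intro a b
  simp only [Matrix.sub_apply]
  exact (hM a b).sub (hN a b)

theorem SmM.transpose {M : E n → Mn n} (hM : SmM M) : SmM (fun y => (M y)ᵀ) := by
  intro a b
  simp only [Matrix.transpose_apply]
  exact hM b a

theorem SmM.D {M : E n → Mn n} (hM : SmM M) (i : Fin n) : SmM (fun y => D i M y) := by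
  intro a b
  simp only [D_apply]
  exact Bridge.contDiff_pd (hM a b) (by simp) i

theorem D_mul {M N : E n → Mn n} (hM : SmM M) (hN : SmM N) (i : Fin n) (x : E n) :
    D i (fun y => M y * N y) x = D i M x * N x + M x * D i N x := by
  ext a b
  rw [D_apply, Matrix.add_apply, Matrix.mul_apply, Matrix.mul_apply, ← Finset.sum_add_distrib]
  simp only [Matrix.mul_apply]
  rw [Bridge.pd_sum fun c _ => (hM.diff a c x).fun_mul (hN.diff c b x)]
  exact Finset.sum_congr rfl fun c _ => Bridge.pd_mul (hM.diff a c x) (hN.diff c b x)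

theorem D_add {M N : E n → Mn n} (hM : SmM M) (hN : SmM N) (i : Fin n) (x : E n) :
    D i (fun y => M y + N y) x = D i M x + D i N x := by
  ext a b
  exact Bridge.pd_add (hM.diff a b x) (hN.diff a b x)

theorem D_sub {M N : E n → Mn n} (hM : SmM M) (hN : SmM N) (i : Fin n) (x : E n) :
    D i (fun y => M y - N y) x = D i M x - D i N x := by
  ext a b
  exact Bridge.pd_sub (hM.diff a b x) (hN.diff a b x)

theorem D_transpose (M : E n → Mn n) (i : Fin n) (x : E n) :
    D i (fun y => (M y)ᵀ) x = (D i M x)ᵀ := rfl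

theorem D_comm {M : E n → Mn n} (hM : SmM M) (i j : Fin n) (x : E n) :
    D i (fun y => D j M y) x = D j (fun y => D i M y) x := by
  ext a b
  exact Bridge.pd_comm (contDiff_infty.1 (hM a b) 2) i j

theorem D_congr {M N : E n → Mn n} (h : ∀ y, M y = N y) (i : Fin n) (x : E n) :
    D i M x = D i N x := by
  rw [funext h]

/-! ### curvature -/

section curv

variable {G : E n → Mn n} (hs : ∀ i j, ContDiff ℝ ∞ (fun x => G x i j))
  (hp : ∀ x, (G x).PosDef)

variable (G) in
/-- connection matrices -/
noncomputable def A (i : Fin n) (y : E n) : Mn n := Matrix.of fun a b => H.chr G y a i b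

variable (G) in
/-- curvature matrices -/
noncomputable def F (i j : Fin n) (y : E n) : Mn n :=
  D i (A G j) y - D j (A G i) y + A G i y * A G j y - A G j y * A G i y

variable (G) in
/-- curvature with raised second index -/
noncomputable def R (i j : Fin n) (y : E n) : Mn n := F G i j y * (G y)⁻¹

include hs hp in
theorem chr_symm (x : E n) (k i j : Fin n) : H.chr G x k i j = H.chr G x k j i :=
  (Bridge.metricOn hs hp).christoffel_symm isOpen_univ (Set.mem_univ x) k i j

include hs in
theorem smG : SmM G := hs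

include hs hp in
theorem smInv : SmM (fun y => (G y)⁻¹) := fun a b => contDiff_iff_contDiffAt.2 fun x =>
  (Bridge.metricOn hs hp).sm_inv isOpen_univ (Set.mem_univ x) a b

include hs hp in
theorem smA (i : Fin n) : SmM (A G i) := fun a b => contDiff_iff_contDiffAt.2 fun x =>
  (Bridge.metricOn hs hp).sm_christoffel isOpen_univ (Set.mem_univ x) a i b

include hs hp in
theorem smF (i j : Fin n) : SmM (F G i j) :=
  ((((smA hs hp j).D i).sub ((smA hs hp i).D j)).add ((smA hs hp i).mul (smA hs hp j))).sub
    ((smA hs hp j).mul (smA hs hp i))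

include hs hp in
theorem smR (i j : Fin n) : SmM (R G i j) := (smF hs hp i j).mul (smInv hs hp)

include hp in
theorem G_t (x : E n) : (G x)ᵀ = G x := by
  ext i j; exact ConfScal.g_symm hp x j i

include hp in
theorem Gi_t (x : E n) : ((G x)⁻¹)ᵀ = (G x)⁻¹ := by
  ext i j; exact ConfScal.gi_symm hp x j i

include hp in
theorem D_G (i : Fin n) (x : E n) : D i G x = (A G i x)ᵀ * G x + G x * A G i x := by
  ext a b
  rw [D_apply, ConfScal.compat hp, Matrix.add_apply, Matrix.mul_apply, Matrix.mul_apply, add_comm]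
  congr 1
  refine Finset.sum_congr rfl fun k _ => ?_
  rw [ConfScal.g_symm hp x b k, mul_comm]; rfl

include hs hp in
theorem D_Gi (i : Fin n) (x : E n) : D i (fun y => (G y)⁻¹) x =
    -(A G i x * (G x)⁻¹ + (G x)⁻¹ * (A G i x)ᵀ) := by
  ext a b
  rw [D_apply]
  have h := (Bridge.metricOn hs hp).pd_inv isOpen_univ (Set.mem_univ x) i a b
  rw [Bridge.pd_eq, h, Matrix.neg_apply, Matrix.add_apply, Matrix.mul_apply, Matrix.mul_apply,
    ← Finset.sum_add_distrib]
  congr 1
  refine Finset.sum_congr rfl fun k _ => ?_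
  rw [mul_comm (christoffel G x b i k)]
  rfl

include hs hp in
/-- the curvature is skew with respect to the metric -/
theorem F_skew (i j : Fin n) (x : E n) : (F G i j x)ᵀ * G x + G x * F G i j x = 0 := by
  have key : ∀ i j, D i (fun y => D j G y) x = (D i (A G j) x)ᵀ * G x +
      (A G j x)ᵀ * ((A G i x)ᵀ * G x + G x * A G i x) +
      (((A G i x)ᵀ * G x + G x * A G i x) * A G j x + G x * D i (A G j) x) := by
    intro i j
    rw [D_congr (D_G hp j) i x, D_add ((smA hs hp j).transpose.mul (smG hs))
      ((smG hs).mul (smA hs hp j)), D_mul (smA hs hp j).transpose (smG hs),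
      D_mul (smG hs) (smA hs hp j), D_transpose, D_G hp]
  have h := D_comm (smG hs) i j x
  rw [key i j, key j i] at h
  have h2 := sub_eq_zero.2 h
  unfold F
  rw [← h2]
  simp only [Matrix.transpose_sub, Matrix.transpose_add, Matrix.transpose_mul]
  noncomm_ring

include hs hp in
theorem R_skew (i j : Fin n) (x : E n) : (R G i j x)ᵀ = -R G i j x := by
  have h := F_skew hs hp i j x
  have h1 : G x * (G x)⁻¹ = 1 := Matrix.mul_nonsing_inv _ (hp x).det_pos.ne'.isUnit
  have h2 : (G x)⁻¹ * G x = 1 := Matrix.nonsing_inv_mul _ (hp x).det_pos.ne'.isUnit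
  unfold R
  rw [Matrix.transpose_mul, Gi_t hp]
  have h3 : (G x)⁻¹ * ((F G i j x)ᵀ * G x + G x * F G i j x) * (G x)⁻¹ = 0 := by
    rw [h]; simp
  have h4 : (G x)⁻¹ * ((F G i j x)ᵀ * G x + G x * F G i j x) * (G x)⁻¹ =
      (G x)⁻¹ * (F G i j x)ᵀ * (G x * (G x)⁻¹) + ((G x)⁻¹ * G x) * F G i j x * (G x)⁻¹ := by
    noncomm_ring
  rw [h4, h1, h2, mul_one, one_mul] at h3
  exact eq_neg_of_add_eq_zero_left h3

theorem F_anti (i j : Fin n) (x : E n) : F G i j x = -F G j i x := by
  unfold F; noncomm_ring

theorem R_anti (i j : Fin n) (x : E n) : R G i j x = -R G j i x := by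
  unfold R; rw [F_anti, Matrix.neg_mul]

include hs hp in
/-- second Bianchi identity -/
theorem bianchi (i j k : Fin n) (x : E n) :
    (D i (F G j k) x + A G i x * F G j k x - F G j k x * A G i x) +
    (D j (F G k i) x + A G j x * F G k i x - F G k i x * A G j x) +
    (D k (F G i j) x + A G k x * F G i j x - F G i j x * A G k x) = 0 := by
  have key : ∀ i j k, D i (F G j k) x = D i (fun y => D j (A G k) y) x -
      D i (fun y => D k (A G j) y) x + (D i (A G j) x * A G k x + A G j x * D i (A G k) x) -
      (D i (A G k) x * A G j x + A G k x * D i (A G j) x) := by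
    intro i j k
    have a := fun l => smA hs hp l
    show D i (fun y => D j (A G k) y - D k (A G j) y + A G j y * A G k y - A G k y * A G j y) x = _
    rw [D_sub ((((a k).D j).sub ((a j).D k)).add ((a j).mul (a k))) ((a k).mul (a j)),
      D_add (((a k).D j).sub ((a j).D k)) ((a j).mul (a k)), D_sub ((a k).D j) ((a j).D k),
      D_mul (a j) (a k), D_mul (a k) (a j)]
  rw [key, key, key, D_comm (smA hs hp k) i j, D_comm (smA hs hp j) i k,
    D_comm (smA hs hp i) j k]
  unfold F
  noncomm_ring

include hs hp in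
theorem bianchi' (i j k : Fin n) (x : E n) :
    (D i (R G j k) x + A G i x * R G j k x + R G j k x * (A G i x)ᵀ) +
    (D j (R G k i) x + A G j x * R G k i x + R G k i x * (A G j x)ᵀ) +
    (D k (R G i j) x + A G k x * R G i j x + R G i j x * (A G k x)ᵀ) = 0 := by
  have key : ∀ i j k, D i (R G j k) x + A G i x * R G j k x + R G j k x * (A G i x)ᵀ =
      (D i (F G j k) x + A G i x * F G j k x - F G j k x * A G i x) * (G x)⁻¹ := by
    intro i j k
    show D i (fun y => F G j k y * (G y)⁻¹) x + _ + _ = _
    rw [D_mul (smF hs hp j k) (smInv hs hp), D_Gi hs hp]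
    unfold R
    noncomm_ring
  rw [key, key, key, ← add_mul, ← add_mul, bianchi hs hp, zero_mul]

include hs hp in
theorem ric_eq (x : E n) (b j : Fin n) : H.ric G x b j = ∑ a, F G a j x a b := by
  unfold H.ric F
  simp only [Matrix.add_apply, Matrix.sub_apply, Matrix.mul_apply, D_apply]
  rw [← Finset.sum_add_distrib]
  refine Finset.sum_congr rfl fun k _ => ?_
  rw [Finset.sum_sub_distrib]
  have e1 : H.pd k (fun y => A G j y k b) x = H.pd k (fun y => H.chr G y k b j) x := by
    congr 1; funext y; exact chr_symm hs hp y k j b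
  have e2 : H.pd j (fun y => A G k y k b) x = H.pd j (fun y => H.chr G y k b k) x := by
    congr 1; funext y; exact chr_symm hs hp y k k b
  have e3 : ∀ l, A G k x k l * A G j x l b = H.chr G x k k l * H.chr G x l b j := fun l => by
    rw [chr_symm hs hp x l b j]; rfl
  have e4 : ∀ l, A G j x k l * A G k x l b = H.chr G x k j l * H.chr G x l b k := fun l => by
    rw [chr_symm hs hp x l b k]; rfl
  simp only [e3, e4]
  rw [e1, e2]
  ring

variable (G) in
/-- raised Ricci tensor -/
noncomputable def Q (y : E n) : Mn n := (G y)⁻¹ * Matrix.of (H.ric G y)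

include hs hp in
theorem sum_R (x : E n) (i k : Fin n) : ∑ j, R G j k x i j = -Q G x i k := by
  have e1 : ∀ j, R G j k x i j = -R G j k x j i := fun j => by
    have := congrFun (congrFun (R_skew hs hp j k x) j) i
    rwa [Matrix.transpose_apply, Matrix.neg_apply] at this
  simp only [e1, Finset.sum_neg_distrib]
  congr 1
  unfold R Q
  simp only [Matrix.mul_apply, Matrix.of_apply, ric_eq hs hp]
  rw [Finset.sum_comm]
  refine Finset.sum_congr rfl fun c _ => ?_
  rw [← Finset.sum_mul, mul_comm, ConfScal.gi_symm hp x c i]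

include hs hp in
theorem smQ : SmM (Q G) := by
  have : ∀ y, Q G y = Q G y := fun _ => rfl
  intro i k
  have e : (fun y => Q G y i k) = fun y => -∑ j, R G j k y i j := by
    funext y; rw [sum_R hs hp, neg_neg]
  rw [e]
  exact (ContDiff.sum fun j _ => smR hs hp j k i j).neg

include hs hp in
theorem sum_R' (x : E n) (m i : Fin n) : ∑ j, R G i j x m j = Q G x m i := by
  have e1 : ∀ j, R G i j x m j = -R G j i x m j := fun j => by
    rw [R_anti i j x]; rfl
  simp only [e1, Finset.sum_neg_distrib, sum_R hs hp, neg_neg]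

include hs hp in
theorem scal_eq (x : E n) : H.scal G x = ∑ i, ∑ j, R G i j x i j := by
  simp only [sum_R' hs hp]
  unfold H.scal Q
  simp only [Matrix.mul_apply, Matrix.of_apply]
  rw [Finset.sum_comm]
  refine Finset.sum_congr rfl fun i _ => Finset.sum_congr rfl fun j _ => ?_
  rw [ConfScal.gi_symm hp x j i]

theorem sym_anti {s t : Fin n → Fin n → ℝ} (hs : ∀ i j, s i j = s j i)
    (ht : ∀ i j, t i j = -t j i) : ∑ i, ∑ j, s i j * t i j = 0 := by
  have h : ∑ i, ∑ j, s i j * t i j = -∑ i, ∑ j, s i j * t i j := by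
    conv_lhs => rw [Finset.sum_comm]
    rw [← Finset.sum_neg_distrib]
    refine Finset.sum_congr rfl fun i _ => ?_
    rw [← Finset.sum_neg_distrib]
    refine Finset.sum_congr rfl fun j _ => ?_
    rw [hs j i, ht j i]; ring
  linarith

include hs hp in
theorem contracted (x : E n) (k : Fin n) : H.pd k (fun y => H.scal G y) x =
    2 * (∑ i, H.pd i (fun y => Q G y i k) x + ∑ i, ∑ m, H.chr G x i i m * Q G x m k -
      ∑ i, ∑ m, H.chr G x i k m * Q G x m i) := by
  have hR : ∀ i j a b, R G i j x a b = -R G i j x b a := fun i j a b => by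
    have := congrFun (congrFun (R_skew hs hp i j x) b) a
    rwa [Matrix.transpose_apply, Matrix.neg_apply] at this
  have hR' : ∀ (i j a b : Fin n) (y : E n), R G i j y a b = -R G j i y a b := fun i j a b y => by
    rw [R_anti i j y]; rfl
  have hRR : ∀ (i j a b : Fin n) (y : E n), R G i j y a b = R G j i y b a := fun i j a b y => by
    have := congrFun (congrFun (R_skew hs hp i j y) b) a
    rw [Matrix.transpose_apply, Matrix.neg_apply] at this
    rw [this, hR' i j b a y, neg_neg]
  have hsum : ∑ i, ∑ j, ((D i (R G j k) x i j + (A G i x * R G j k x) i j +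
      (R G j k x * (A G i x)ᵀ) i j) + (D j (R G k i) x i j + (A G j x * R G k i x) i j +
      (R G k i x * (A G j x)ᵀ) i j) + (D k (R G i j) x i j + (A G k x * R G i j x) i j +
      (R G i j x * (A G k x)ᵀ) i j)) = 0 := by
    refine Finset.sum_eq_zero fun i _ => Finset.sum_eq_zero fun j _ => ?_
    exact congrFun (congrFun (bianchi' hs hp i j k x) i) j
  simp only [Finset.sum_add_distrib] at hsum
  have t1 : ∑ i, ∑ j, D i (R G j k) x i j = -∑ i, H.pd i (fun y => Q G y i k) x := by
    rw [← Finset.sum_neg_distrib]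
    refine Finset.sum_congr rfl fun i _ => ?_
    have e : (fun y => Q G y i k) = fun y => ∑ j, (fun y => R G k j y i j) y := by
      funext y; rw [sum_R' hs hp]
    rw [e, Bridge.pd_sum fun j _ => (smR hs hp k j).diff i j x, ← Finset.sum_neg_distrib]
    refine Finset.sum_congr rfl fun j _ => ?_
    rw [D_apply]
    have e2 : (fun y => R G k j y i j) = fun y => (-1) * R G j k y i j := by
      funext y; rw [hR' k j i j y]; ring
    rw [e2, Bridge.pd_mul (differentiableAt_const _) ((smR hs hp j k).diff i j x),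
      Bridge.pd_const]
    ring
  have t4 : ∑ i, ∑ j, D j (R G k i) x i j = -∑ i, H.pd i (fun y => Q G y i k) x := by
    rw [← t1, Finset.sum_comm]
    refine Finset.sum_congr rfl fun j _ => Finset.sum_congr rfl fun i _ => ?_
    rw [D_apply, D_apply]
    congr 1
    funext y
    exact hRR k i i j y
  have t7 : ∑ i, ∑ j, D k (R G i j) x i j = H.pd k (fun y => H.scal G y) x := by
    have e : (fun y => H.scal G y) = fun y => ∑ i, (fun y => ∑ j, R G i j y i j) y := by
      funext y; rw [scal_eq hs hp]
    rw [e, Bridge.pd_sum fun i _ => DifferentiableAt.fun_sum fun j _ => (smR hs hp i j).diff i j x]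
    refine Finset.sum_congr rfl fun i _ => ?_
    rw [Bridge.pd_sum fun j _ => (smR hs hp i j).diff i j x]
    rfl
  have t2 : ∑ i, ∑ j, (A G i x * R G j k x) i j =
      -∑ i, ∑ m, H.chr G x i i m * Q G x m k := by
    rw [← Finset.sum_neg_distrib]
    refine Finset.sum_congr rfl fun i _ => ?_
    simp only [Matrix.mul_apply]
    rw [Finset.sum_comm, ← Finset.sum_neg_distrib]
    refine Finset.sum_congr rfl fun m _ => ?_
    rw [← Finset.mul_sum, sum_R hs hp, mul_neg]
    rfl
  have t3 : ∑ i, ∑ j, (R G j k x * (A G i x)ᵀ) i j = 0 := by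
    rw [Finset.sum_comm]
    refine Finset.sum_eq_zero fun j _ => ?_
    simp only [Matrix.mul_apply, Matrix.transpose_apply]
    have := sym_anti (s := fun i m => A G i x j m) (t := fun i m => R G j k x i m)
      (fun i m => chr_symm hs hp x j i m) (fun i m => hR j k i m)
    rw [← this]
    exact Finset.sum_congr rfl fun i _ => Finset.sum_congr rfl fun m _ => mul_comm _ _
  have t5 : ∑ i, ∑ j, (A G j x * R G k i x) i j = 0 := by
    refine Finset.sum_eq_zero fun i _ => ?_
    simp only [Matrix.mul_apply]
    exact sym_anti (s := fun j m => A G j x i m) (t := fun j m => R G k i x m j)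
      (fun j m => chr_symm hs hp x i j m) (fun j m => hR k i m j)
  have t6 : ∑ i, ∑ j, (R G k i x * (A G j x)ᵀ) i j =
      -∑ i, ∑ m, H.chr G x i i m * Q G x m k := by
    rw [← t2, Finset.sum_comm]
    refine Finset.sum_congr rfl fun j _ => Finset.sum_congr rfl fun i _ => ?_
    simp only [Matrix.mul_apply, Matrix.transpose_apply]
    refine Finset.sum_congr rfl fun m _ => ?_
    rw [mul_comm, hRR k i i m x]
  have t8 : ∑ i, ∑ j, (A G k x * R G i j x) i j =
      ∑ i, ∑ m, H.chr G x i k m * Q G x m i := by
    refine Finset.sum_congr rfl fun i _ => ?_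
    simp only [Matrix.mul_apply]
    rw [Finset.sum_comm]
    refine Finset.sum_congr rfl fun m _ => ?_
    rw [← Finset.mul_sum, sum_R' hs hp]
    rfl
  have t9 : ∑ i, ∑ j, (R G i j x * (A G k x)ᵀ) i j =
      ∑ i, ∑ m, H.chr G x i k m * Q G x m i := by
    rw [← t8, Finset.sum_comm]
    refine Finset.sum_congr rfl fun j _ => Finset.sum_congr rfl fun i _ => ?_
    simp only [Matrix.mul_apply, Matrix.transpose_apply]
    refine Finset.sum_congr rfl fun m _ => ?_
    rw [mul_comm, hRR i j i m x]
  rw [t1, t2, t3, t4, t5, t6, t7, t8, t9] at hsum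
  linarith

end curv

theorem main : SpecBianchi := by
  intro n G hs hp x
  have hM := Bridge.metricOn hs hp
  constructor
  · intro i j
    unfold H.ric
    have hchr : ∀ k i j, H.chr G x k i j = H.chr G x k j i := fun k i j => chr_symm hs hp x k i j
    have e1 : ∀ k, H.pd k (fun y => H.chr G y k i j) x = H.pd k (fun y => H.chr G y k j i) x := by
      intro k; congr 1; funext y; exact chr_symm hs hp y k i j
    have hd : ∀ k i j, DifferentiableAt ℝ (fun y => H.chr G y k i j) x := fun k i j =>
      (hM.sm_christoffel isOpen_univ (Set.mem_univ x) k i j).diff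
    have hl : ContDiff ℝ ∞ (fun y => Real.log (H.dens G y)) := contDiff_iff_contDiffAt.2 fun y =>
      hM.sm_logdens isOpen_univ (Set.mem_univ y)
    have e2 : ∀ (c : Fin n) (y : E n), H.pd c (fun z => Real.log (H.dens G z)) y =
        ∑ k, H.chr G y k c k := by
      intro c y
      have hdp : 0 < H.dens G y := hM.dens_pos (Set.mem_univ y)
      have h1 : DifferentiableAt ℝ (H.dens G) y :=
        (hM.sm_dens isOpen_univ (Set.mem_univ y)).diff
      have h2 := Grad.pd_comp_real (f := H.dens G) (Real.hasDerivAt_log hdp.ne') h1 c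
      have h3 : H.pd c (H.dens G) y = H.dens G y * ∑ a, H.chr G y a a c :=
        hM.pd_dens isOpen_univ (Set.mem_univ y) c
      rw [h2, h3, ← mul_assoc, inv_mul_cancel₀ hdp.ne', one_mul]
      exact Finset.sum_congr rfl fun a _ => chr_symm hs hp y a a c
    have e3 : ∀ i j : Fin n, ∑ k, H.pd j (fun y => H.chr G y k i k) x =
        H.pd j (fun y => H.pd i (fun z => Real.log (H.dens G z)) y) x := by
      intro i j
      rw [show (fun y => H.pd i (fun z => Real.log (H.dens G z)) y) =
        fun y => ∑ k, (fun y => H.chr G y k i k) y from funext fun y => e2 i y,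
        Bridge.pd_sum fun k _ => hd k i k]
    have e4 : ∑ k, H.pd j (fun y => H.chr G y k i k) x = ∑ k, H.pd i (fun y => H.chr G y k j k) x := by
      rw [e3, e3, Bridge.pd_comm (contDiff_infty.1 hl 2) j i]
    have e5 : ∑ k, ∑ l, H.chr G x k j l * H.chr G x l i k =
        ∑ k, ∑ l, H.chr G x k i l * H.chr G x l j k := by
      rw [Finset.sum_comm]
      exact Finset.sum_congr rfl fun k _ => Finset.sum_congr rfl fun l _ => mul_comm _ _
    simp only [Finset.sum_sub_distrib]
    rw [Finset.sum_congr rfl fun k _ => e1 k, e4, e5]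
    simp only [hchr _ i j]
  · intro k
    rw [contracted hs hp x k]
    congr 1
    have hGi : ∀ a b, DifferentiableAt ℝ (fun y => (G y)⁻¹ a b) x := fun a b =>
      (hM.sm_inv isOpen_univ (Set.mem_univ x) a b).diff
    have hric : ∀ a b, DifferentiableAt ℝ (fun y => H.ric G y a b) x := fun a b => by
      rw [show (fun y => H.ric G y a b) = fun y => ∑ c, F G c b y c a from
        funext fun y => ric_eq hs hp y a b]
      exact DifferentiableAt.fun_sum fun c _ => (smF hs hp c b).diff c a x
    have e1 : ∀ i, H.pd i (fun y => Q G y i k) x = ∑ c,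
        (-∑ d, (H.chr G x i i d * (G x)⁻¹ d c + H.chr G x c i d * (G x)⁻¹ i d)) * H.ric G x c k +
        ∑ c, (G x)⁻¹ i c * H.pd i (fun y => H.ric G y c k) x := by
      intro i
      unfold Q
      simp only [Matrix.mul_apply, Matrix.of_apply]
      rw [Bridge.pd_sum fun c _ => (hGi i c).fun_mul (hric c k), ← Finset.sum_add_distrib]
      refine Finset.sum_congr rfl fun c _ => ?_
      rw [Bridge.pd_mul (hGi i c) (hric c k)]
      congr 2
      exact hM.pd_inv isOpen_univ (Set.mem_univ x) i i c
    simp only [e1]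
    unfold dric Q
    simp only [Matrix.mul_apply, Matrix.of_apply, neg_mul, Finset.sum_mul, Finset.mul_sum,
      Finset.sum_add_distrib, Finset.sum_neg_distrib, mul_sub, add_mul, mul_add,
      Finset.sum_sub_distrib]
    have f1 : ∑ i, ∑ c, ∑ d, H.chr G x i i d * (G x)⁻¹ d c * H.ric G x c k =
        ∑ i, ∑ m, ∑ j, H.chr G x i i m * ((G x)⁻¹ m j * H.ric G x j k) := by
      refine Finset.sum_congr rfl fun i _ => ?_
      rw [Finset.sum_comm]
      exact Finset.sum_congr rfl fun m _ => Finset.sum_congr rfl fun j _ => by ring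
    have f2 : ∑ i, ∑ c, ∑ d, H.chr G x c i d * (G x)⁻¹ i d * H.ric G x c k =
        ∑ i, ∑ j, ∑ l, (G x)⁻¹ i j * (H.chr G x l i j * H.ric G x l k) := by
      refine Finset.sum_congr rfl fun i _ => ?_
      rw [Finset.sum_comm]
      exact Finset.sum_congr rfl fun m _ => Finset.sum_congr rfl fun j _ => by ring
    have f3 : ∑ i, ∑ m, ∑ j, H.chr G x i k m * ((G x)⁻¹ m j * H.ric G x j i) =
        ∑ i, ∑ j, ∑ l, (G x)⁻¹ i j * (H.chr G x l i k * H.ric G x j l) := by
      rw [Finset.sum_comm]
      refine Finset.sum_congr rfl fun m _ => ?_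
      rw [Finset.sum_comm]
      refine Finset.sum_congr rfl fun j _ => Finset.sum_congr rfl fun i _ => ?_
      rw [chr_symm hs hp x i k m]; ring
    rw [f1, f2, f3]
    ring

end Vale.Agent.P223.H.B25a
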