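import Vale.Agent.P223.H.LapInt
import Vale.Agent.P223.H.ConfScal

/-! Block 4: the pointwise Bochner inequality (core). -/

namespace Vale.Agent.P223.H.Bochner

open scoped ContDiff Matrix Topology
open Finset Common

section alg

variable {n : ℕ}

/-- algebra of the Ricci identity -/
theorem ricci_alg (C : Fin n → Fin n → Fin n → ℝ) (dC : Fin n → Fin n → Fin n → Fin n → ℝ)
    (D2 : Fin n → Fin n → Fin n → ℝ) (D1 : Fin n → Fin n → ℝ) (F : Fin n → ℝ)
    (hC : ∀ k i j, C k i j = C k j i) (hdC : ∀ a k i j, dC a k i j = dC a k j i)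
    (hD2 : ∀ i j k, D2 i j k = D2 j i k) (j : Fin n) :
    ∑ i, ((D2 i j i + ∑ k, (dC i i j k * F k + C i j k * D1 i k)) +
        ∑ k, C i i k * (D1 j k + ∑ l, C k j l * F l) -
        ∑ k, C k i j * (D1 k i + ∑ l, C i k l * F l)) -
      ∑ i, (D2 j i i + ∑ k, (dC j i i k * F k + C i i k * D1 j k)) =
    ∑ l, (∑ k, (dC k k l j - dC j k l k) +
      ∑ k, ∑ m, (C k k m * C m l j - C k j m * C m l k)) * F l := by
  have s0 : ∑ i, D2 i j i = ∑ i, D2 j i i := Finset.sum_congr rfl fun i _ => hD2 i j i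
  have s1 : ∑ i, ∑ k, dC i i j k * F k - ∑ i, ∑ k, dC j i i k * F k =
      ∑ l, (∑ k, (dC k k l j - dC j k l k)) * F l := by
    rw [Finset.sum_comm, Finset.sum_comm (f := fun i k => dC j i i k * F k),
      ← Finset.sum_sub_distrib]
    refine Finset.sum_congr rfl fun l _ => ?_
    rw [Finset.sum_mul, ← Finset.sum_sub_distrib]
    refine Finset.sum_congr rfl fun k _ => ?_
    rw [hdC k k l j, hdC j k l k]; ring
  have s2 : ∑ i, ∑ k, C i j k * D1 i k = ∑ i, ∑ k, C k i j * D1 k i := by
    rw [Finset.sum_comm]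
    refine Finset.sum_congr rfl fun i _ => Finset.sum_congr rfl fun k _ => ?_
    rw [hC k j i]
  have s4 : ∑ i, ∑ k, C i i k * ∑ l, C k j l * F l =
      ∑ l, (∑ k, ∑ m, C k k m * C m l j) * F l := by
    simp only [Finset.mul_sum, Finset.sum_mul]
    calc ∑ i, ∑ k, ∑ l, C i i k * (C k j l * F l)
        = ∑ i, ∑ l, ∑ k, C i i k * (C k j l * F l) :=
          Finset.sum_congr rfl fun i _ => Finset.sum_comm
      _ = ∑ l, ∑ i, ∑ k, C i i k * (C k j l * F l) := Finset.sum_comm
      _ = _ := by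
          refine Finset.sum_congr rfl fun l _ => Finset.sum_congr rfl fun i _ =>
            Finset.sum_congr rfl fun k _ => ?_
          rw [hC k j l]; ring
  have s5 : ∑ i, ∑ k, C k i j * ∑ l, C i k l * F l =
      ∑ l, (∑ k, ∑ m, C k j m * C m l k) * F l := by
    simp only [Finset.mul_sum, Finset.sum_mul]
    calc ∑ i, ∑ k, ∑ l, C k i j * (C i k l * F l)
        = ∑ k, ∑ i, ∑ l, C k i j * (C i k l * F l) := Finset.sum_comm
      _ = ∑ k, ∑ l, ∑ i, C k i j * (C i k l * F l) :=
          Finset.sum_congr rfl fun i _ => Finset.sum_comm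
      _ = ∑ l, ∑ k, ∑ i, C k i j * (C i k l * F l) := Finset.sum_comm
      _ = _ := by
          refine Finset.sum_congr rfl fun l _ => Finset.sum_congr rfl fun i _ =>
            Finset.sum_congr rfl fun k _ => ?_
          rw [hC i k j, hC k i l]; ring
  simp only [mul_add, Finset.sum_add_distrib, Finset.sum_sub_distrib, add_mul, sub_mul] at *
  linarith

/-- algebra of the Bochner formula -/
theorem bochner_alg (C : Fin n → Fin n → Fin n → ℝ) (dA : Fin n → Fin n → Fin n → ℝ)
    (A D1 : Fin n → Fin n → ℝ) (F : Fin n → ℝ)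
    (hA : ∀ i j, A i j = D1 j i + ∑ k, C i j k * F k) :
    ∑ i, (2 * ∑ l, (dA i i l * F l + A i l * D1 i l) +
        ∑ k, C i i k * (2 * ∑ l, A k l * F l)) =
    2 * ∑ l, (∑ i, (dA i i l + ∑ k, C i i k * A k l - ∑ k, C k i l * A i k)) * F l +
      2 * ∑ i, ∑ l, A i l * A l i := by
  have s1 : ∑ i, ∑ l, A i l * A l i = ∑ i, ∑ l, A i l * D1 i l +
      ∑ l, (∑ i, ∑ k, C k i l * A i k) * F l := by
    have : ∀ i l, A i l * A l i = A i l * D1 i l + ∑ k, A i l * (C l i k * F k) := by
      intro i l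
      conv_lhs => rw [hA l i]
      rw [mul_add, Finset.mul_sum]
    simp only [this, Finset.sum_add_distrib]
    congr 1
    simp only [Finset.sum_mul]
    calc ∑ i, ∑ l, ∑ k, A i l * (C l i k * F k)
        = ∑ i, ∑ k, ∑ l, A i l * (C l i k * F k) :=
          Finset.sum_congr rfl fun i _ => Finset.sum_comm
      _ = ∑ k, ∑ i, ∑ l, A i l * (C l i k * F k) := Finset.sum_comm
      _ = _ := by
          refine Finset.sum_congr rfl fun l _ => Finset.sum_congr rfl fun i _ =>
            Finset.sum_congr rfl fun k _ => ?_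
          ring
  have s2 : ∑ i, ∑ k, C i i k * (2 * ∑ l, A k l * F l) =
      2 * ∑ l, (∑ i, ∑ k, C i i k * A k l) * F l := by
    simp only [Finset.mul_sum, Finset.sum_mul]
    calc ∑ i, ∑ k, ∑ l, C i i k * (2 * (A k l * F l))
        = ∑ i, ∑ l, ∑ k, C i i k * (2 * (A k l * F l)) :=
          Finset.sum_congr rfl fun i _ => Finset.sum_comm
      _ = ∑ l, ∑ i, ∑ k, C i i k * (2 * (A k l * F l)) := Finset.sum_comm
      _ = _ := by
          refine Finset.sum_congr rfl fun l _ => Finset.sum_congr rfl fun i _ =>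
            Finset.sum_congr rfl fun k _ => ?_
          ring
  have s3 : ∑ i, ∑ l, dA i i l * F l = ∑ l, (∑ i, dA i i l) * F l := by
    rw [Finset.sum_comm]
    exact Finset.sum_congr rfl fun l _ => by rw [Finset.sum_mul]
  simp only [Finset.sum_add_distrib, Finset.sum_sub_distrib, add_mul, sub_mul, mul_add, mul_sub,
    ← Finset.mul_sum] at *
  rw [s2, s1, s3]
  ring

/-- Cauchy-Schwarz for the trace -/
theorem trace_sq_le (K : Matrix (Fin n) (Fin n) ℝ) :
    K.trace ^ 2 ≤ n * ∑ i, ∑ j, K i j ^ 2 := by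
  have h1 : K.trace ^ 2 ≤ n * ∑ i, K i i ^ 2 := by
    have := Finset.sum_mul_sq_le_sq_mul_sq (Finset.univ : Finset (Fin n)) (fun i => K i i)
      (fun _ => (1 : ℝ))
    simp only [mul_one, one_pow, Finset.sum_const, Finset.card_univ, Fintype.card_fin,
      nsmul_eq_mul] at this
    rw [mul_comm]
    simpa [Matrix.trace] using this
  refine h1.trans ?_
  gcongr with i _
  exact Finset.single_le_sum (f := fun j => K i j ^ 2) (fun j _ => sq_nonneg _) (Finset.mem_univ i)

/-- Cauchy-Schwarz for a quadratic form -/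
theorem quad_sq_le (K : Matrix (Fin n) (Fin n) ℝ) (ξ : Fin n → ℝ) :
    (∑ i, ∑ j, K i j * (ξ i * ξ j)) ^ 2 ≤ (∑ i, ∑ j, K i j ^ 2) * (∑ i, ξ i ^ 2) ^ 2 := by
  have h := Finset.sum_mul_sq_le_sq_mul_sq (Finset.univ : Finset (Fin n × Fin n))
    (fun p => K p.1 p.2) (fun p => ξ p.1 * ξ p.2)
  simp only [← Finset.univ_product_univ, Finset.sum_product] at h
  refine h.trans (le_of_eq ?_)
  congr 1
  rw [sq (∑ i, ξ i ^ 2), Finset.sum_mul_sum]
  exact Finset.sum_congr rfl fun i _ => Finset.sum_congr rfl fun j _ => by ring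

/-- the two inequalities for the Hessian, in matrix form -/
theorem hess_ineq (Gi H : Matrix (Fin n) (Fin n) ℝ) (hGi : ∃ B : Matrix (Fin n) (Fin n) ℝ,
    Gi = Bᵀ * B) (hH : Hᵀ = H) (p : Fin n → ℝ) :
    0 ≤ ((Gi * H) * (Gi * H)).trace ∧
    (Gi * H).trace ^ 2 ≤ n * ((Gi * H) * (Gi * H)).trace ∧
    ((Gi *ᵥ p) ⬝ᵥ (H *ᵥ (Gi *ᵥ p))) ^ 2 ≤ ((Gi * H) * (Gi * H)).trace * (p ⬝ᵥ (Gi *ᵥ p)) ^ 2 := by
  obtain ⟨B, hB⟩ := hGi
  set K : Matrix (Fin n) (Fin n) ℝ := B * H * Bᵀ with hK
  have hKs : Kᵀ = K := by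
    rw [hK, Matrix.transpose_mul, Matrix.transpose_mul, hH, Matrix.transpose_transpose,
      Matrix.mul_assoc]
  have e1 : (Gi * H).trace = K.trace := by
    rw [hB, hK, Matrix.mul_assoc, Matrix.trace_mul_comm]
  have e2 : ((Gi * H) * (Gi * H)).trace = (K * K).trace := by
    rw [hB, hK]
    rw [show Bᵀ * B * H * (Bᵀ * B * H) = Bᵀ * (B * H * Bᵀ * (B * H)) by
      simp only [Matrix.mul_assoc], Matrix.trace_mul_comm]
    simp only [Matrix.mul_assoc]
  have e3 : (K * K).trace = ∑ i, ∑ j, K i j ^ 2 := by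
    simp only [Matrix.trace, Matrix.diag_apply, Matrix.mul_apply]
    refine Finset.sum_congr rfl fun i _ => Finset.sum_congr rfl fun j _ => ?_
    have : K j i = K i j := congrFun (congrFun hKs i) j
    rw [this, sq]
  have e4 : (Gi *ᵥ p) ⬝ᵥ (H *ᵥ (Gi *ᵥ p)) = ∑ i, ∑ j, K i j * ((B *ᵥ p) i * (B *ᵥ p) j) := by
    have h1 : (Gi *ᵥ p) = Bᵀ *ᵥ (B *ᵥ p) := by rw [hB, Matrix.mulVec_mulVec]
    have h2 : (Gi *ᵥ p) ⬝ᵥ (H *ᵥ (Gi *ᵥ p)) = (B *ᵥ p) ⬝ᵥ (K *ᵥ (B *ᵥ p)) := by
      rw [h1, Matrix.mulVec_transpose, ← Matrix.dotProduct_mulVec, hK]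
      simp only [Matrix.mulVec_mulVec, Matrix.mul_assoc, ← Matrix.mulVec_transpose]
    rw [h2]
    simp only [dotProduct, Matrix.mulVec, Finset.mul_sum]
    refine Finset.sum_congr rfl fun i _ => Finset.sum_congr rfl fun j _ => ?_
    simp only [← Finset.mul_sum]
    ring
  have e5 : p ⬝ᵥ (Gi *ᵥ p) = ∑ i, (B *ᵥ p) i ^ 2 := by
    rw [hB, ← Matrix.mulVec_mulVec, Matrix.dotProduct_mulVec, Matrix.vecMul_transpose]
    simp only [dotProduct, sq]
  rw [e2, e3, e1, e4, e5]
  exact ⟨Finset.sum_nonneg fun i _ => Finset.sum_nonneg fun j _ => sq_nonneg _, trace_sq_le K,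
    quad_sq_le K _⟩

/-- final scalar inequality -/
theorem scalar_ineq {a η s T D P κ N : ℝ} (ha : 1 ≤ a) (hη : 0 < η) (hs : 0 ≤ s) (hT : 0 ≤ T)
    (hN : 0 ≤ N) (hκ : κ = √N + 2 * a) (hD : D ^ 2 ≤ N * T) (hP : P ^ 2 ≤ 4 * T * s ^ 2) :
    2 * a / κ ^ 2 * (s ^ 2 - η ^ 2) ≤
      4 * a / κ ^ 2 * ((s + η) * (s + D)) + 4 * a / κ ^ 2 * (a * P) + 2 * a * T := by
  have hκ0 : 0 < κ := by rw [hκ]; positivity
  set t := √T with ht
  have ht0 : 0 ≤ t := Real.sqrt_nonneg _
  have hTt : T = t ^ 2 := (Real.sq_sqrt hT).symm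
  have h1 : |D| ≤ √N * t := by
    rw [ht, ← Real.sqrt_mul hN]; exact Real.abs_le_sqrt hD
  have h2 : |P| ≤ 2 * t * s := by
    refine abs_le_of_sq_le_sq ?_ (by positivity)
    rw [hTt] at hP; nlinarith
  have h3 := (abs_le.1 h1).1
  have h4 := (abs_le.1 h2).1
  have h5 : (s + η) * (s + D) + a * P ≥ (s + η) * s - (s + η) * κ * t := by
    have h6 : (s + η) * D ≥ -((s + η) * (√N * t)) := by nlinarith
    have h7 : a * P ≥ -(2 * a * t * (s + η)) := by nlinarith [mul_nonneg (mul_nonneg (by linarith : (0:ℝ) ≤ 2 * a) ht0) hη.le]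
    rw [hκ]; nlinarith
  have h8 : 4 * a / κ ^ 2 * ((s + η) * (s + D)) + 4 * a / κ ^ 2 * (a * P) ≥
      4 * a / κ ^ 2 * ((s + η) * s - (s + η) * κ * t) := by
    rw [← mul_add]
    exact mul_le_mul_of_nonneg_left h5 (by positivity)
  have h9 : 4 * a / κ ^ 2 * ((s + η) * s - (s + η) * κ * t) + 2 * a * t ^ 2 -
      2 * a / κ ^ 2 * (s ^ 2 - η ^ 2) = 2 * a * (t - (s + η) / κ) ^ 2 := by
    field_simp
    ring
  have h10 : 0 ≤ 2 * a * (t - (s + η) / κ) ^ 2 := by positivity
  rw [hTt]
  linarith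

end alg

section cal

variable {n : ℕ} {G : E n → Matrix (Fin n) (Fin n) ℝ}
  (hs : ∀ i j, ContDiff ℝ ∞ (fun x => G x i j)) (hp : ∀ x, (G x).PosDef)

/-- covariant derivative of a vector field: `∇_j F^i` -/
noncomputable def nab (G : E n → Matrix (Fin n) (Fin n) ℝ) (F : E n → E n) (x : E n)
    (i j : Fin n) : ℝ := H.pd j (fun y => F y i) x + ∑ k, H.chr G x i j k * F x k

include hs hp in
theorem cd_inv {m : ℕ∞} (i j : Fin n) : ContDiff ℝ m fun x => (G x)⁻¹ i j := by
  have hM := Bridge.metricOn hs hp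
  exact contDiff_iff_contDiffAt.2 fun x =>
    (hM.sm_inv isOpen_univ (Set.mem_univ x) i j).of_le (mod_cast le_top)

include hs hp in
theorem cd_chr {m : ℕ∞} (k i j : Fin n) : ContDiff ℝ m fun x => H.chr G x k i j := by
  have hM := Bridge.metricOn hs hp
  exact contDiff_iff_contDiffAt.2 fun x =>
    (hM.sm_christoffel isOpen_univ (Set.mem_univ x) k i j).of_le (mod_cast le_top)

include hs hp in
theorem chr_symm (x : E n) (k i j : Fin n) : H.chr G x k i j = H.chr G x k j i :=
  (Bridge.metricOn hs hp).christoffel_symm isOpen_univ (Set.mem_univ x) k i j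

include hs hp in
theorem cd_grd {m : ℕ∞} {k : WithTop ℕ∞} {f : E n → ℝ} (hf : ContDiff ℝ k f)
    (h : (m : WithTop ℕ∞) + 1 ≤ k) (i : Fin n) : ContDiff ℝ m fun x => grd G f x i := by
  unfold grd
  exact ContDiff.sum fun j _ => (cd_inv hs hp i j).mul (Bridge.contDiff_pd hf h j)

include hs hp in
theorem cd_nab {m : ℕ∞} {k : WithTop ℕ∞} {F : E n → E n} (hF : ∀ i, ContDiff ℝ k fun x => F x i)
    (h : (m : WithTop ℕ∞) + 1 ≤ k) (i j : Fin n) : ContDiff ℝ m fun x => nab G F x i j := by
  unfold nab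
  refine (Bridge.contDiff_pd (hF i) h j).add (ContDiff.sum fun l _ => (cd_chr hs hp i j l).mul
    ((hF l).of_le (le_trans (by simp) h)))

include hs hp in
/-- the divergence is the trace of the covariant derivative -/
theorem divg_eq {F : E n → E n} (x : E n) (hF : ∀ i, DifferentiableAt ℝ (fun y => F y i) x) :
    divg G F x = ∑ i, nab G F x i i := by
  have hM := Bridge.metricOn hs hp
  have hdpos : 0 < dens G x := Real.sqrt_pos.2 (hp x).det_pos
  have hdens : DifferentiableAt ℝ (dens G) x := (hM.sm_dens isOpen_univ (Set.mem_univ x)).diff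
  have e1 : ∀ i, H.pd i (fun y => dens G y * F y i) x =
      dens G x * ((∑ a, H.chr G x a a i) * F x i + H.pd i (fun y => F y i) x) := by
    intro i
    have hd : H.pd i (dens G) x = dens G x * ∑ a, H.chr G x a a i :=
      hM.pd_dens isOpen_univ (Set.mem_univ x) i
    have h3 : H.pd i (fun y => dens G y * F y i) x =
        H.pd i (dens G) x * F x i + dens G x * H.pd i (fun y => F y i) x :=
      Bridge.pd_mul hdens (hF i)
    rw [h3, hd]; ring
  unfold divg
  simp only [e1]
  rw [← Finset.mul_sum, ← mul_assoc, inv_mul_cancel₀ hdpos.ne', one_mul]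
  unfold nab
  simp only [Finset.sum_add_distrib, Finset.sum_mul]
  rw [add_comm, Finset.sum_comm (f := fun i a => H.chr G x a a i * F x i)]

include hs hp in
/-- Ricci identity -/
theorem ricci_id {F : E n → E n} (hF : ∀ i, ContDiff ℝ 2 fun x => F x i) (x : E n) (j : Fin n) :
    ∑ i, (H.pd i (fun y => nab G F y i j) x + ∑ k, H.chr G x i i k * nab G F x k j -
        ∑ k, H.chr G x k i j * nab G F x i k) - H.pd j (fun y => ∑ i, nab G F y i i) x =
      ∑ l, H.ric G x l j * F x l := by
  have dF : ∀ i, DifferentiableAt ℝ (fun y => F y i) x := fun i =>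
    (hF i).differentiable (by simp) x
  have dpF : ∀ j i, DifferentiableAt ℝ (fun y => H.pd j (fun z => F z i) y) x := fun j i =>
    (Bridge.contDiff_pd (hF i) (k := 1) (by norm_num) j).differentiable (by simp) x
  have dC : ∀ k i j, DifferentiableAt ℝ (fun y => H.chr G y k i j) x := fun k i j =>
    (cd_chr hs hp (m := 1) k i j).differentiable (by simp) x
  have dnab : ∀ i j, DifferentiableAt ℝ (fun y => nab G F y i j) x := fun i j =>
    (cd_nab hs hp (m := 1) hF (by norm_num) i j).differentiable (by simp) x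
  have e1 : ∀ a i j, H.pd a (fun y => nab G F y i j) x =
      H.pd a (fun y => H.pd j (fun z => F z i) y) x + ∑ k, (H.pd a (fun y => H.chr G y i j k) x *
        F x k + H.chr G x i j k * H.pd a (fun y => F y k) x) := by
    intro a i j
    unfold nab
    rw [Bridge.pd_add (dpF j i) (DifferentiableAt.fun_sum fun k _ => (dC i j k).fun_mul (dF k)),
      Bridge.pd_sum fun k _ => (dC i j k).fun_mul (dF k)]
    congr 1
    exact Finset.sum_congr rfl fun k _ => Bridge.pd_mul (dC i j k) (dF k)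
  rw [Bridge.pd_sum fun i _ => dnab i i]
  have hdC : ∀ a k i j, H.pd a (fun y => H.chr G y k i j) x =
      H.pd a (fun y => H.chr G y k j i) x := fun a k i j => by
    congr 1; funext y; exact chr_symm hs hp y k i j
  have key := ricci_alg (fun k i j => H.chr G x k i j)
    (fun a k i j => H.pd a (fun y => H.chr G y k i j) x)
    (fun a j i => H.pd a (fun y => H.pd j (fun z => F z i) y) x)
    (fun a k => H.pd a (fun y => F y k) x) (F x) (chr_symm hs hp x) hdC
    (fun i j k => Bridge.pd_comm (hF k) i j) j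
  simp only [e1]
  exact key

include hs hp in
/-- the lowered covariant Hessian -/
theorem low_eq {f : E n → ℝ} (hf : ContDiff ℝ 2 f) (x : E n) (a b : Fin n) :
    ∑ i, G x a i * nab G (grd G f) x i b =
      H.pd b (fun y => H.pd a f y) x - ∑ k, H.chr G x k b a * H.pd k f x := by
  have dG : ∀ i j, DifferentiableAt ℝ (fun y => G y i j) x := fun i j =>
    (hs i j).differentiable (by simp) x
  have dF : ∀ i, DifferentiableAt ℝ (fun y => grd G f y i) x := fun i =>
    (cd_grd hs hp (m := 1) hf (by norm_num) i).differentiable (by simp) x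
  have e1 : H.pd b (fun y => ∑ k, G y a k * grd G f y k) x =
      ∑ k, (H.pd b (fun y => G y a k) x * grd G f x k +
        G x a k * H.pd b (fun y => grd G f y k) x) := by
    rw [Bridge.pd_sum fun k _ => (dG a k).fun_mul (dF k)]
    exact Finset.sum_congr rfl fun k _ => Bridge.pd_mul (dG a k) (dF k)
  have e2 : (fun y => ∑ k, G y a k * grd G f y k) = fun y => H.pd a f y := by
    funext y; exact ConfScal.g_grd hp f y a
  rw [e2] at e1
  have e3 : ∀ k, H.pd b (fun y => G y a k) x =
      ∑ m, G x a m * H.chr G x m b k + ∑ m, G x k m * H.chr G x m b a := fun k =>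
    ConfScal.compat hp x b a k
  have e4 : ∑ k, (∑ m, G x k m * H.chr G x m b a) * grd G f x k =
      ∑ m, H.chr G x m b a * H.pd m f x := by
    simp only [Finset.sum_mul]
    rw [Finset.sum_comm]
    refine Finset.sum_congr rfl fun m _ => ?_
    rw [← ConfScal.g_grd hp f x m, Finset.mul_sum]
    refine Finset.sum_congr rfl fun k _ => ?_
    rw [ConfScal.g_symm hp x k m]; ring
  have e5 : ∑ k, (∑ m, G x a m * H.chr G x m b k) * grd G f x k =
      ∑ i, G x a i * ∑ k, H.chr G x i b k * grd G f x k := by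
    simp only [Finset.sum_mul, Finset.mul_sum]
    rw [Finset.sum_comm]
    exact Finset.sum_congr rfl fun m _ => Finset.sum_congr rfl fun k _ => by ring
  simp only [e3, add_mul, Finset.sum_add_distrib] at e1
  unfold nab
  simp only [mul_add, Finset.sum_add_distrib]
  rw [e4, e5] at e1
  linarith

include hs hp in
theorem low_symm {f : E n → ℝ} (hf : ContDiff ℝ 2 f) (x : E n) (a b : Fin n) :
    ∑ i, G x a i * nab G (grd G f) x i b = ∑ i, G x b i * nab G (grd G f) x i a := by
  rw [low_eq hs hp hf, low_eq hs hp hf, Bridge.pd_comm hf b a]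
  congr 1
  exact Finset.sum_congr rfl fun k _ => by rw [chr_symm hs hp x k b a]

theorem gradSq_eq_sum (f : E n → ℝ) (y : E n) :
    gradSq G f y = ∑ i, H.pd i f y * grd G f y i := by
  unfold gradSq gradIp grd
  refine Finset.sum_congr rfl fun i _ => ?_
  rw [Finset.mul_sum]
  exact Finset.sum_congr rfl fun j _ => by ring

include hs hp in
theorem pd_gradSq {f : E n → ℝ} (hf : ContDiff ℝ 2 f) (x : E n) (k : Fin n) :
    H.pd k (fun y => gradSq G f y) x =
      2 * ∑ j, grd G f x j * ∑ i, G x j i * nab G (grd G f) x i k := by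
  have dF : ∀ i, DifferentiableAt ℝ (fun y => grd G f y i) x := fun i =>
    (cd_grd hs hp (m := 1) hf (by norm_num) i).differentiable (by simp) x
  have dp : ∀ i, DifferentiableAt ℝ (fun y => H.pd i f y) x := fun i =>
    (Bridge.contDiff_pd hf (k := 1) (by norm_num) i).differentiable (by simp) x
  have e0 : (fun y => gradSq G f y) = fun y => ∑ i, H.pd i f y * grd G f y i := by
    funext y; exact gradSq_eq_sum f y
  rw [e0, Bridge.pd_sum fun i _ => (dp i).fun_mul (dF i)]
  have e1 : ∀ i, H.pd k (fun y => H.pd i f y * grd G f y i) x =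
      (∑ j, G x i j * nab G (grd G f) x j k + ∑ m, H.chr G x m k i * H.pd m f x) *
        grd G f x i + H.pd i f x * (nab G (grd G f) x i k -
        ∑ l, H.chr G x i k l * grd G f x l) := by
    intro i
    rw [Bridge.pd_mul (dp i) (dF i), low_eq hs hp hf x i k]
    unfold nab
    ring
  simp only [e1, add_mul, mul_sub, Finset.sum_add_distrib, Finset.sum_sub_distrib]
  have e2 : ∑ i, (∑ m, H.chr G x m k i * H.pd m f x) * grd G f x i =
      ∑ i, H.pd i f x * ∑ l, H.chr G x i k l * grd G f x l := by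
    simp only [Finset.sum_mul, Finset.mul_sum]
    rw [Finset.sum_comm]
    exact Finset.sum_congr rfl fun m _ => Finset.sum_congr rfl fun l _ => by ring
  have e3 : ∑ i, H.pd i f x * nab G (grd G f) x i k =
      ∑ j, grd G f x j * ∑ i, G x j i * nab G (grd G f) x i k := by
    simp only [← ConfScal.g_grd hp f x, Finset.sum_mul, Finset.mul_sum]
    rw [Finset.sum_comm]
    refine Finset.sum_congr rfl fun j _ => Finset.sum_congr rfl fun i _ => ?_
    rw [ConfScal.g_symm hp x i j]; ring
  have e4 : ∑ i, (∑ j, G x i j * nab G (grd G f) x j k) * grd G f x i =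
      ∑ j, grd G f x j * ∑ i, G x j i * nab G (grd G f) x i k :=
    Finset.sum_congr rfl fun i _ => by rw [mul_comm]
  rw [e2, e3, e4]
  ring

include hs hp in
/-- the gradient of `|∇f|²` -/
theorem grd_gradSq {f : E n → ℝ} (hf : ContDiff ℝ 2 f) (x : E n) (i : Fin n) :
    grd G (fun y => gradSq G f y) x i = 2 * ∑ l, nab G (grd G f) x i l * grd G f x l := by
  have e1 : ∀ k, H.pd k (fun y => gradSq G f y) x =
      2 * ∑ j, grd G f x j * ∑ m, G x k m * nab G (grd G f) x m j := by
    intro k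
    rw [pd_gradSq hs hp hf x k]
    congr 1
    exact Finset.sum_congr rfl fun j _ => by rw [low_symm hs hp hf x j k]
  have e2 : ∀ j, ∑ k, (G x)⁻¹ i k * ∑ m, G x k m * nab G (grd G f) x m j =
      nab G (grd G f) x i j := by
    intro j
    simp only [Finset.mul_sum]
    rw [Finset.sum_comm]
    have : ∀ m, ∑ k, (G x)⁻¹ i k * (G x k m * nab G (grd G f) x m j) =
        (if i = m then 1 else 0) * nab G (grd G f) x m j := by
      intro m
      rw [← ConfScal.gi_g hp x i m, Finset.sum_mul]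
      exact Finset.sum_congr rfl fun k _ => by ring
    simp only [this]
    simp
  have e3 : grd G (fun y => gradSq G f y) x i =
      ∑ k, (G x)⁻¹ i k * H.pd k (fun y => gradSq G f y) x := rfl
  rw [e3]
  simp only [e1]
  calc ∑ k, (G x)⁻¹ i k * (2 * ∑ j, grd G f x j * ∑ m, G x k m * nab G (grd G f) x m j)
      = 2 * ∑ k, ∑ j, grd G f x j * ((G x)⁻¹ i k * ∑ m, G x k m * nab G (grd G f) x m j) := by
        simp only [Finset.mul_sum]
        exact Finset.sum_congr rfl fun k _ => Finset.sum_congr rfl fun j _ =>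
          Finset.sum_congr rfl fun m _ => by ring
    _ = 2 * ∑ j, grd G f x j * ∑ k, (G x)⁻¹ i k * ∑ m, G x k m * nab G (grd G f) x m j := by
        rw [Finset.sum_comm]
        congr 1
        exact Finset.sum_congr rfl fun j _ => by rw [Finset.mul_sum]
    _ = _ := by
        simp only [e2]
        congr 1
        exact Finset.sum_congr rfl fun j _ => mul_comm _ _

include hs hp in
theorem lap_eq_tr {f : E n → ℝ} (hf : ContDiff ℝ 2 f) (x : E n) :
    lap G f x = ∑ i, nab G (grd G f) x i i := by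
  rw [LapInt.lap_eq_divg hs hp hf x]
  exact divg_eq hs hp x fun i =>
    (cd_grd hs hp (m := 1) hf (by norm_num) i).differentiable (by simp) x

include hs hp in
/-- **Bochner formula** -/
theorem bochner {f : E n → ℝ} (hf : ContDiff ℝ 3 f) (x : E n) :
    lap G (fun y => gradSq G f y) x =
      2 * (∑ i, ∑ l, nab G (grd G f) x i l * nab G (grd G f) x l i) +
      2 * (∑ l, H.pd l (fun y => lap G f y) x * grd G f x l) +
      2 * ∑ i, ∑ j, H.ric G x i j * grd G f x i * grd G f x j := by
  have hf2 : ContDiff ℝ 2 f := hf.of_le (by norm_num)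
  have cF : ∀ i, ContDiff ℝ 2 fun y => grd G f y i := fun i =>
    cd_grd hs hp (m := 2) hf (by norm_num) i
  have dF : ∀ i, DifferentiableAt ℝ (fun y => grd G f y i) x := fun i =>
    (cF i).differentiable (by simp) x
  have cN : ∀ i j, ContDiff ℝ 1 fun y => nab G (grd G f) y i j := fun i j =>
    cd_nab hs hp (m := 1) cF (by norm_num) i j
  have dN : ∀ i j, DifferentiableAt ℝ (fun y => nab G (grd G f) y i j) x := fun i j =>
    (cN i j).differentiable (by simp) x
  have cS : ContDiff ℝ 2 fun y => gradSq G f y := by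
    unfold gradSq gradIp
    refine ContDiff.sum fun i _ => ContDiff.sum fun j _ => ?_
    exact ((cd_inv hs hp (m := 2) i j).mul (Bridge.contDiff_pd hf (by norm_num) i)).mul
      (Bridge.contDiff_pd hf (by norm_num) j)
  rw [lap_eq_tr hs hp cS]
  have e0 : grd G (fun y => gradSq G f y) =
      fun y i => 2 * ∑ l, nab G (grd G f) y i l * grd G f y l := by
    funext y i; exact grd_gradSq hs hp hf2 y i
  have e1 : ∀ i, nab G (grd G (fun y => gradSq G f y)) x i i =
      2 * ∑ l, (H.pd i (fun y => nab G (grd G f) y i l) x * grd G f x l +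
        nab G (grd G f) x i l * H.pd i (fun y => grd G f y l) x) +
      ∑ k, H.chr G x i i k * (2 * ∑ l, nab G (grd G f) x k l * grd G f x l) := by
    intro i
    rw [e0]
    have h1 : H.pd i (fun y => 2 * ∑ l, nab G (grd G f) y i l * grd G f y l) x =
        2 * ∑ l, (H.pd i (fun y => nab G (grd G f) y i l) x * grd G f x l +
        nab G (grd G f) x i l * H.pd i (fun y => grd G f y l) x) := by
      rw [Bridge.pd_mul (differentiableAt_const _) (DifferentiableAt.fun_sum fun l _ =>
        (dN i l).fun_mul (dF l)), Bridge.pd_const, Bridge.pd_sum fun l _ =>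
        (dN i l).fun_mul (dF l)]
      rw [zero_mul, zero_add]
      congr 1
      exact Finset.sum_congr rfl fun l _ => Bridge.pd_mul (dN i l) (dF l)
    show H.pd i (fun y => 2 * ∑ l, nab G (grd G f) y i l * grd G f y l) x + _ = _
    rw [h1]
  simp only [e1]
  have key := bochner_alg (fun k i j => H.chr G x k i j)
    (fun a i l => H.pd a (fun y => nab G (grd G f) y i l) x)
    (fun i j => nab G (grd G f) x i j) (fun a k => H.pd a (fun y => grd G f y k) x)
    (grd G f x) (fun i j => rfl)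
  rw [key]
  have e2 : ∀ l, ∑ i, (H.pd i (fun y => nab G (grd G f) y i l) x +
      ∑ k, H.chr G x i i k * nab G (grd G f) x k l -
      ∑ k, H.chr G x k i l * nab G (grd G f) x i k) =
      H.pd l (fun y => lap G f y) x + ∑ m, H.ric G x m l * grd G f x m := by
    intro l
    have := ricci_id hs hp cF x l
    have e3 : (fun y => ∑ i, nab G (grd G f) y i i) = fun y => lap G f y := by
      funext y; exact (lap_eq_tr hs hp hf2 y).symm
    rw [e3] at this
    linarith
  simp only [e2, add_mul, Finset.sum_add_distrib]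
  have e4 : ∑ l, (∑ m, H.ric G x m l * grd G f x m) * grd G f x l =
      ∑ i, ∑ j, H.ric G x i j * grd G f x i * grd G f x j := by
    simp only [Finset.sum_mul]
    rw [Finset.sum_comm]
  rw [e4]
  ring

include hs hp in
/-- the inequalities for the Hessian -/
theorem hess_bounds {f : E n → ℝ} (hf : ContDiff ℝ 2 f) (x : E n) :
    0 ≤ ∑ i, ∑ l, nab G (grd G f) x i l * nab G (grd G f) x l i ∧
    lap G f x ^ 2 ≤ n * ∑ i, ∑ l, nab G (grd G f) x i l * nab G (grd G f) x l i ∧
    (∑ k, H.pd k (fun y => gradSq G f y) x * grd G f x k) ^ 2 ≤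
      4 * (∑ i, ∑ l, nab G (grd G f) x i l * nab G (grd G f) x l i) * gradSq G f x ^ 2 := by
  set L : Matrix (Fin n) (Fin n) ℝ := Matrix.of fun a b =>
    ∑ i, G x a i * nab G (grd G f) x i b with hL
  set A : Matrix (Fin n) (Fin n) ℝ := Matrix.of fun i j => nab G (grd G f) x i j with hA
  have hLs : Lᵀ = L := by
    ext a b
    exact low_symm hs hp hf x b a
  have hLA : L = G x * A := by
    ext a b
    simp only [hL, hA, Matrix.mul_apply, Matrix.of_apply]
  have hGA : (G x)⁻¹ * L = A := by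
    rw [hLA, ← Matrix.mul_assoc, Matrix.nonsing_inv_mul _ (hp x).det_pos.ne'.isUnit,
      Matrix.one_mul]
  obtain ⟨B, hB, -⟩ := exists_factor ((G x)⁻¹) (hp x).inv
  obtain ⟨h1, h2, h3⟩ := hess_ineq ((G x)⁻¹) L ⟨B, hB⟩ hLs (fun i => H.pd i f x)
  rw [hGA] at h1 h2 h3
  have e1 : (A * A).trace = ∑ i, ∑ l, nab G (grd G f) x i l * nab G (grd G f) x l i := by
    simp only [Matrix.trace, Matrix.diag_apply, Matrix.mul_apply, hA, Matrix.of_apply]
  have e2 : A.trace = lap G f x := by
    rw [lap_eq_tr hs hp hf x]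
    simp only [Matrix.trace, Matrix.diag_apply, hA, Matrix.of_apply]
  have e3 : (G x)⁻¹ *ᵥ (fun i => H.pd i f x) = grd G f x := by
    funext i; simp only [grd, Matrix.mulVec, dotProduct]
  have e4 : (fun i => H.pd i f x) ⬝ᵥ grd G f x = gradSq G f x := by
    rw [gradSq_eq_sum]; rfl
  have e5 : ∑ k, H.pd k (fun y => gradSq G f y) x * grd G f x k =
      2 * (grd G f x ⬝ᵥ (L *ᵥ grd G f x)) := by
    simp only [pd_gradSq hs hp hf x, dotProduct, Matrix.mulVec, hL, Matrix.of_apply]
    simp only [Finset.mul_sum, Finset.sum_mul]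
    rw [Finset.sum_comm]
    exact Finset.sum_congr rfl fun j _ => Finset.sum_congr rfl fun k _ =>
      Finset.sum_congr rfl fun i _ => by ring
  rw [e1] at h1 h2 h3
  rw [e2] at h2
  rw [e3, e4] at h3
  refine ⟨h1, h2, ?_⟩
  rw [e5]
  nlinarith

include hp in
theorem gradIp_eq_sum (h k : E n → ℝ) (x : E n) :
    gradIp G h k x = ∑ j, H.pd j k x * grd G h x j := by
  unfold gradIp grd
  rw [Finset.sum_comm]
  refine Finset.sum_congr rfl fun j _ => ?_
  rw [Finset.mul_sum]
  refine Finset.sum_congr rfl fun i _ => ?_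
  rw [ConfScal.gi_symm hp x j i]; ring

include hs hp in
theorem divg_add {X Y : E n → E n} (x : E n) (hX : ∀ i, DifferentiableAt ℝ (fun y => X y i) x)
    (hY : ∀ i, DifferentiableAt ℝ (fun y => Y y i) x) :
    divg G (fun y i => X y i + Y y i) x = divg G X x + divg G Y x := by
  rw [divg_eq hs hp x hX, divg_eq hs hp x hY,
    divg_eq hs hp (F := fun y i => X y i + Y y i) x fun i => (hX i).fun_add (hY i),
    ← Finset.sum_add_distrib]
  refine Finset.sum_congr rfl fun i _ => ?_
  unfold nab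
  rw [Bridge.pd_add (hX i) (hY i)]
  simp only [mul_add, Finset.sum_add_distrib]
  ring

include hs hp in
theorem divg_smul {φ : E n → ℝ} {X : E n → E n} (x : E n) (hφ : DifferentiableAt ℝ φ x)
    (hX : ∀ i, DifferentiableAt ℝ (fun y => X y i) x) :
    divg G (fun y i => φ y * X y i) x = ∑ i, H.pd i φ x * X x i + φ x * divg G X x := by
  rw [divg_eq hs hp x hX,
    divg_eq hs hp (F := fun y i => φ y * X y i) x fun i => hφ.fun_mul (hX i),
    Finset.mul_sum, ← Finset.sum_add_distrib]
  refine Finset.sum_congr rfl fun i _ => ?_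
  unfold nab
  rw [Bridge.pd_mul hφ (hX i), mul_add, Finset.mul_sum, add_assoc]
  congr 2
  exact Finset.sum_congr rfl fun k _ => by ring

/-- the core of block 4 -/
theorem core (n : ℕ) (G : E n → Matrix (Fin n) (Fin n) ℝ)
    (hs : ∀ i j, ContDiff ℝ ∞ (fun x => G x i j)) (hp : ∀ x, (G x).PosDef)
    (a η : ℝ) (ha : 1 ≤ a) (hη : 0 < η) (v : E n → ℝ) (hv : ContDiff ℝ 4 v)
    (hv0 : ∀ x, 0 < v x) (κ : ℝ) (hκ : κ = √n + 2 * a) (x : E n) :
    2 * a / κ ^ 2 * (v x * ((gradSq G v x / v x ^ 2 + η) ^ (a - 1) *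
        ((gradSq G v x / v x ^ 2) ^ 2 - η ^ 2))) ≤
      - dE G a η v (fun y => lap G v y) x -
      2 * a * (v x * (gradSq G v x / v x ^ 2 + η) ^ (a - 1)) *
        (∑ i, ∑ j, H.ric G x i j * grd G v x i * grd G v x j) / v x ^ 2 +
      divg G (ZZ G a η κ v) x := by
  set f : E n → ℝ := fun y => Real.log (v y) with hf_def
  have hf : ContDiff ℝ 4 f := hv.log fun y => (hv0 y).ne'
  have hf3 : ContDiff ℝ 3 f := hf.of_le (by norm_num)
  have hf2 : ContDiff ℝ 2 f := hf.of_le (by norm_num)
  have dv : ∀ y, DifferentiableAt ℝ v y := fun y => hv.differentiable (by simp) y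
  -- first order relations
  have p1 : ∀ y i, H.pd i v y = v y * H.pd i f y := by
    intro y i
    have h := Grad.pd_comp_real (φ := Real.log) (f := v) (Real.hasDerivAt_log (hv0 y).ne')
      (dv y) i
    rw [hf_def, h, ← mul_assoc, mul_inv_cancel₀ (hv0 y).ne', one_mul]
  have p2 : ∀ y i, grd G v y i = v y * grd G f y i := by
    intro y i
    unfold grd
    rw [Finset.mul_sum]
    refine Finset.sum_congr rfl fun j _ => ?_
    rw [p1]; ring
  have p3 : ∀ y, gradSq G v y / v y ^ 2 = gradSq G f y := by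
    intro y
    have : gradSq G v y = v y ^ 2 * gradSq G f y := by
      rw [gradSq_eq_sum, gradSq_eq_sum, Finset.mul_sum]
      refine Finset.sum_congr rfl fun i _ => ?_
      rw [p1, p2]; ring
    rw [this, mul_div_cancel_left₀ _ (pow_pos (hv0 y) 2).ne']
  set S : E n → ℝ := fun y => gradSq G f y with hS_def
  have hS0 : ∀ y, 0 ≤ S y := fun y => Grad.gradSq_nonneg' (hp y) f
  have hμ0 : ∀ y, 0 < S y + η := fun y => add_pos_of_nonneg_of_pos (hS0 y) hη
  have cS : ContDiff ℝ 3 S := by
    rw [hS_def]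
    unfold gradSq gradIp
    refine ContDiff.sum fun i _ => ContDiff.sum fun j _ => ?_
    exact ((cd_inv hs hp (m := 3) i j).mul (Bridge.contDiff_pd hf (by norm_num) i)).mul
      (Bridge.contDiff_pd hf (by norm_num) j)
  have dS : ∀ y, DifferentiableAt ℝ S y := fun y => cS.differentiable (by simp) y
  have dSη : ∀ y, DifferentiableAt ℝ (fun z => S z + η) y := fun y => (dS y).add_const η
  have dF : ∀ y i, DifferentiableAt ℝ (fun z => grd G f z i) y := fun y i =>
    (cd_grd hs hp (m := 3) hf (by norm_num) i).differentiable (by simp) y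
  have dGS : ∀ y i, DifferentiableAt ℝ (fun z => grd G S z i) y := fun y i =>
    (cd_grd hs hp (m := 2) cS (by norm_num) i).differentiable (by simp) y
  -- powers
  have dpow : ∀ (b : ℝ) y, DifferentiableAt ℝ (fun z => (S z + η) ^ b) y := fun b y =>
    (dSη y).rpow_const (Or.inl (hμ0 y).ne')
  have pS : ∀ y i, H.pd i (fun z => S z + η) y = H.pd i S y := by
    intro y i
    rw [Bridge.pd_add (dS y) (differentiableAt_const _), Bridge.pd_const, add_zero]
  have ppow : ∀ (b : ℝ) y i, H.pd i (fun z => (S z + η) ^ b) y =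
      b * (S y + η) ^ (b - 1) * H.pd i S y := by
    intro b y i
    have h := Grad.pd_comp_real (φ := fun t : ℝ => t ^ b) (f := fun z => S z + η)
      (Real.hasDerivAt_rpow_const (Or.inl (hμ0 y).ne')) (dSη y) i
    rw [h, pS]
  -- `v * μ ^ b`
  have dvp : ∀ (b : ℝ) y, DifferentiableAt ℝ (fun z => v z * (S z + η) ^ b) y := fun b y =>
    (dv y).fun_mul (dpow b y)
  have pvp : ∀ (b : ℝ) y i, H.pd i (fun z => v z * (S z + η) ^ b) y =
      v y * (S y + η) ^ b * H.pd i f y + v y * (b * (S y + η) ^ (b - 1)) * H.pd i S y := by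
    intro b y i
    rw [Bridge.pd_mul (dv y) (dpow b y), ppow, p1]; ring
  -- Laplacian
  have hlapv : ∀ y, lap G v y = v y * (lap G f y + S y) := by
    intro y
    rw [LapInt.lap_eq_divg hs hp (hv.of_le (by norm_num)) y,
      LapInt.lap_eq_divg hs hp hf2 y]
    have e : grd G v = fun z i => v z * grd G f z i := by
      funext z i; exact p2 z i
    rw [e, divg_smul hs hp y (dv y) (dF y)]
    have : ∑ i, H.pd i v y * grd G f y i = v y * S y := by
      rw [hS_def]
      simp only [gradSq_eq_sum, Finset.mul_sum]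
      exact Finset.sum_congr rfl fun i _ => by rw [p1]; ring
    rw [this]; ring
  have dL : DifferentiableAt ℝ (fun y => lap G f y) x := by
    have : (fun y => lap G f y) = fun y => ∑ i, nab G (grd G f) y i i := by
      funext y; exact lap_eq_tr hs hp hf2 y
    rw [this]
    exact DifferentiableAt.fun_sum fun i _ => (cd_nab hs hp (m := 2) (k := 3)
      (fun i => cd_grd hs hp (m := 3) hf (by norm_num) i) (by norm_num) i i).differentiable
      (by simp) x
  -- the quantities at `x`
  set V := v x with hV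
  set s := S x with hs_def
  set D := lap G f x with hD
  set T := ∑ i, ∑ l, nab G (grd G f) x i l * nab G (grd G f) x l i with hT
  set P := ∑ k, H.pd k S x * grd G f x k with hP
  set R := ∑ i, ∑ j, H.ric G x i j * grd G f x i * grd G f x j with hR
  set Lf := ∑ l, H.pd l (fun y => lap G f y) x * grd G f x l with hLf
  set Q := gradSq G S x with hQ
  have hQ0 : 0 ≤ Q := Grad.gradSq_nonneg' (hp x) S
  obtain ⟨hT0, hDT, hPT⟩ := hess_bounds hs hp hf2 x
  have hboch : lap G S x = 2 * T + 2 * Lf + 2 * R := bochner hs hp hf3 x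
  -- first variation
  have hw : (fun y => lap G v y) = fun y => v y * (lap G f y + S y) := by
    funext y; exact hlapv y
  have hdE : dE G a η v (fun y => lap G v y) x =
      V * ((s + η) ^ a * (D + s) + 2 * a * (s + η) ^ (a - 1) * (Lf + P)) := by
    have h1 : gradIp G v (fun y => v y * (lap G f y + S y)) x =
        V * (V * (s * (D + s)) + V * (Lf + P)) := by
      rw [gradIp_eq_sum hp]
      have h2 : ∀ j, H.pd j (fun y => v y * (lap G f y + S y)) x * grd G v x j =
          V * (V * ((H.pd j f x * grd G f x j) * (D + s)) +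
            V * (H.pd j (fun y => lap G f y) x * grd G f x j + H.pd j S x * grd G f x j)) := by
        intro j
        rw [Bridge.pd_mul (dv x) (dL.fun_add (dS x)), Bridge.pd_add dL (dS x), p1, p2]
        ring
      simp only [h2]
      rw [← Finset.mul_sum, Finset.sum_add_distrib, ← Finset.mul_sum, ← Finset.mul_sum,
        ← Finset.sum_mul, Finset.sum_add_distrib, ← gradSq_eq_sum]
    have h3 : gradSq G v x / v x ^ 2 = s := p3 x
    unfold dE
    rw [h3, hw, h1]
    show (s + η) ^ a * (V * (D + s)) + 2 * a * (s + η) ^ (a - 1) *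
      (V * (V * (s * (D + s)) + V * (Lf + P)) / V - s * (V * (D + s))) = _
    rw [mul_div_cancel_left₀ _ (hv0 x).ne']
    ring
  -- the curvature term
  have hRic : (∑ i, ∑ j, H.ric G x i j * grd G v x i * grd G v x j) / v x ^ 2 = R := by
    have : ∑ i, ∑ j, H.ric G x i j * grd G v x i * grd G v x j = v x ^ 2 * R := by
      rw [hR]
      simp only [p2, Finset.mul_sum]
      exact Finset.sum_congr rfl fun i _ => Finset.sum_congr rfl fun j _ => by ring
    rw [this, mul_div_cancel_left₀ _ (pow_pos (hv0 x) 2).ne']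
  -- the vector field
  have hZ : ZZ G a η κ v = fun y i =>
      (1 + 4 * a / κ ^ 2) * (v y * (S y + η) ^ a) * grd G f y i +
        a * (v y * (S y + η) ^ (a - 1)) * grd G S y i := by
    funext y i
    have h1 : (fun z => eD G a η v z) = fun z => v z * (S z + η) ^ a := by
      funext z; unfold eD; rw [p3]
    have h2 : grd G (fun z => v z * (S z + η) ^ a) y i =
        v y * (S y + η) ^ a * grd G f y i +
        v y * (a * (S y + η) ^ (a - 1)) * grd G S y i := by
      unfold grd
      simp only [pvp, Finset.mul_sum, ← Finset.sum_add_distrib]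
      exact Finset.sum_congr rfl fun j _ => by ring
    unfold ZZ
    rw [h1, h2, p3, p2]
    show _ + 4 * a / κ ^ 2 * (S y + η) ^ a * (v y * grd G f y i) = _
    ring
  have hdiv : divg G (ZZ G a η κ v) x =
      (1 + 4 * a / κ ^ 2) * (V * (s + η) ^ a * s + V * (a * (s + η) ^ (a - 1)) * P) +
      (1 + 4 * a / κ ^ 2) * (V * (s + η) ^ a) * D +
      (a * (V * (s + η) ^ (a - 1) * P + V * ((a - 1) * (s + η) ^ (a - 1 - 1)) * Q) +
      a * (V * (s + η) ^ (a - 1)) * lap G S x) := by
    have d1 : DifferentiableAt ℝ (fun y => (1 + 4 * a / κ ^ 2) * (v y * (S y + η) ^ a)) x :=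
      (differentiableAt_const _).fun_mul (dvp a x)
    have d2 : DifferentiableAt ℝ (fun y => a * (v y * (S y + η) ^ (a - 1))) x :=
      (differentiableAt_const _).fun_mul (dvp (a - 1) x)
    rw [hZ, divg_add hs hp (X := fun y i =>
      (1 + 4 * a / κ ^ 2) * (v y * (S y + η) ^ a) * grd G f y i)
      (Y := fun y i => a * (v y * (S y + η) ^ (a - 1)) * grd G S y i) x
      (fun i => d1.fun_mul (dF x i)) (fun i => d2.fun_mul (dGS x i)),
      divg_smul hs hp x d1 (dF x), divg_smul hs hp x d2 (dGS x),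
      ← LapInt.lap_eq_divg hs hp hf2 x, ← LapInt.lap_eq_divg hs hp (cS.of_le (by norm_num)) x]
    have h1 : ∑ i, H.pd i (fun y => (1 + 4 * a / κ ^ 2) * (v y * (S y + η) ^ a)) x *
        grd G f x i =
        (1 + 4 * a / κ ^ 2) * (V * (s + η) ^ a * s + V * (a * (s + η) ^ (a - 1)) * P) := by
      have h2 : ∀ i, H.pd i (fun y => (1 + 4 * a / κ ^ 2) * (v y * (S y + η) ^ a)) x *
          grd G f x i = (1 + 4 * a / κ ^ 2) * (V * (s + η) ^ a * (H.pd i f x * grd G f x i) +
            V * (a * (s + η) ^ (a - 1)) * (H.pd i S x * grd G f x i)) := by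
        intro i
        rw [Bridge.pd_mul (differentiableAt_const _) (dvp a x), Bridge.pd_const, pvp]
        ring
      simp only [h2]
      rw [← Finset.mul_sum, Finset.sum_add_distrib, ← Finset.mul_sum, ← Finset.mul_sum,
        ← gradSq_eq_sum]
    have h3 : ∑ i, H.pd i (fun y => a * (v y * (S y + η) ^ (a - 1))) x * grd G S x i =
        a * (V * (s + η) ^ (a - 1) * P + V * ((a - 1) * (s + η) ^ (a - 1 - 1)) * Q) := by
      have h2 : ∀ i, H.pd i (fun y => a * (v y * (S y + η) ^ (a - 1))) x * grd G S x i =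
          a * (V * (s + η) ^ (a - 1) * (H.pd i f x * grd G S x i) +
            V * ((a - 1) * (s + η) ^ (a - 1 - 1)) * (H.pd i S x * grd G S x i)) := by
        intro i
        rw [Bridge.pd_mul (differentiableAt_const _) (dvp (a - 1) x), Bridge.pd_const, pvp]
        ring
      simp only [h2]
      rw [← Finset.mul_sum, Finset.sum_add_distrib, ← Finset.mul_sum, ← Finset.mul_sum,
        ← gradSq_eq_sum, ← gradIp_eq_sum hp S f x, Grad.gradIp_comm (hp x) (f := S) (k := f),
        gradIp_eq_sum hp f S x]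
    rw [h1, h3]
  -- conclusion
  have hfin := scalar_ineq (N := n) ha hη (hS0 x) hT0 (Nat.cast_nonneg n) hκ hDT hPT
  have hμ : (s + η) ^ a = (s + η) ^ (a - 1) * (s + η) := by
    have := Real.rpow_add_one (hμ0 x).ne' (a - 1)
    rwa [sub_add_cancel] at this
  have hM1 : 0 ≤ (s + η) ^ (a - 1) := Real.rpow_nonneg (hμ0 x).le _
  have hM2 : 0 ≤ (s + η) ^ (a - 1 - 1) := Real.rpow_nonneg (hμ0 x).le _
  have hV0 : 0 < V := hv0 x
  have h1 := mul_le_mul_of_nonneg_left hfin (mul_nonneg hV0.le hM1)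
  have h2 : 0 ≤ a * (a - 1) * (V * ((s + η) ^ (a - 1 - 1) * Q)) := by
    have : 0 ≤ a - 1 := by linarith
    positivity
  have hRic' : ∀ c : ℝ, c * (∑ i, ∑ j, H.ric G x i j * grd G v x i * grd G v x j) / V ^ 2 =
      c * R := fun c => by rw [mul_div_assoc]; exact congrArg _ hRic
  have hp3 : gradSq G v x / V ^ 2 = s := p3 x
  rw [hRic', hdE, hdiv, hboch, hp3, hμ]
  show 2 * a / κ ^ 2 * (V * ((s + η) ^ (a - 1) * (s ^ 2 - η ^ 2))) ≤ _
  calc 2 * a / κ ^ 2 * (V * ((s + η) ^ (a - 1) * (s ^ 2 - η ^ 2)))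
      = V * (s + η) ^ (a - 1) * (2 * a / κ ^ 2 * (s ^ 2 - η ^ 2)) := by ring
    _ ≤ V * (s + η) ^ (a - 1) * (4 * a / κ ^ 2 * ((s + η) * (s + D)) +
        4 * a / κ ^ 2 * (a * P) + 2 * a * T) := h1
    _ ≤ V * (s + η) ^ (a - 1) * (4 * a / κ ^ 2 * ((s + η) * (s + D)) +
        4 * a / κ ^ 2 * (a * P) + 2 * a * T) +
        a * (a - 1) * (V * ((s + η) ^ (a - 1 - 1) * Q)) := le_add_of_nonneg_right h2
    _ = _ := by ring

end cal

end Vale.Agent.P223.H.Bochner
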