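import Vale.Agent.P223.H.Equiv

/-! Block 23: Taylor estimate in the time variable for the energy density. -/

namespace Vale.Agent.P223.H.TT

open scoped ContDiff Matrix Topology
open Common Vale.Agent.P223.H.Equiv

section matrix

variable {n : ℕ} {M : ℝ → Matrix (Fin n) (Fin n) ℝ} {M' : Fin n → Fin n → ℝ} {t : ℝ}

/-- Jacobi's formula -/
theorem hasDerivAt_det (h : ∀ i j, HasDerivAt (fun s => M s i j) (M' i j) t) :
    HasDerivAt (fun s => (M s).det) (∑ i, ∑ a, (M t).adjugate i a * M' a i) t := by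
  have h1 : ∀ i, (∑ a, (M t).adjugate i a * M' a i) =
      ((M t).updateCol i (fun a => M' a i)).det := by
    intro i
    rw [← Matrix.cramer_apply, Matrix.cramer_eq_adjugate_mulVec]
    rfl
  simp only [h1, Matrix.det_apply']
  rw [Finset.sum_comm]
  refine HasDerivAt.fun_sum fun σ _ => ?_
  have h2 := (HasDerivAt.fun_finsetProd (u := Finset.univ) (f := fun i s => M s (σ i) i)
    (f' := fun i => M' (σ i) i) (x := t) fun i _ => h (σ i) i).const_mul
      ((Equiv.Perm.sign σ : ℤ) : ℝ)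
  refine h2.congr_deriv ?_
  rw [Finset.mul_sum]
  refine Finset.sum_congr rfl fun i _ => ?_
  rw [← Finset.mul_prod_erase Finset.univ _ (Finset.mem_univ i), Matrix.updateCol_self,
    smul_eq_mul, mul_comm (M' (σ i) i)]
  congr 2
  refine Finset.prod_congr rfl fun j hj => ?_
  rw [Matrix.updateCol_ne (Finset.ne_of_mem_erase hj)]

/-- derivative of the inverse matrix -/
theorem hasDerivAt_inv (hM : ∀ s, IsUnit (M s).det)
    (h : ∀ i j, HasDerivAt (fun s => M s i j) (M' i j) t)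
    (hc : ∀ i j, ContinuousAt (fun s => (M s)⁻¹ i j) t) (i j : Fin n) :
    HasDerivAt (fun s => (M s)⁻¹ i j) (-∑ k, ∑ l, (M t)⁻¹ i k * M' k l * (M t)⁻¹ l j) t := by
  rw [hasDerivAt_iff_tendsto_slope]
  have e : ∀ s, slope (fun s => (M s)⁻¹ i j) t s =
      -∑ k, ∑ l, (M s)⁻¹ i k * slope (fun s => M s k l) t s * (M t)⁻¹ l j := by
    intro s
    have h1 : (M s)⁻¹ - (M t)⁻¹ = -((M s)⁻¹ * (M s - M t) * (M t)⁻¹) := by
      rw [Matrix.mul_sub, Matrix.sub_mul, Matrix.nonsing_inv_mul _ (hM s), Matrix.one_mul,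
        Matrix.mul_assoc, Matrix.mul_nonsing_inv _ (hM t), Matrix.mul_one, neg_sub]
    have h2 : (M s)⁻¹ i j - (M t)⁻¹ i j =
        -∑ k, ∑ l, (M s)⁻¹ i k * (M s k l - M t k l) * (M t)⁻¹ l j := by
      have := congrFun (congrFun h1 i) j
      rw [Matrix.sub_apply, Matrix.neg_apply] at this
      rw [this, Matrix.mul_apply]
      simp only [Matrix.mul_apply, Matrix.sub_apply, Finset.sum_mul]
      rw [Finset.sum_comm]
    simp only [slope, vsub_eq_sub, smul_eq_mul]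
    rw [h2, mul_neg, Finset.mul_sum]
    simp only [Finset.mul_sum]
    congr 1
    refine Finset.sum_congr rfl fun k _ => Finset.sum_congr rfl fun l _ => by ring
  refine Filter.Tendsto.congr (fun s => (e s).symm) ?_
  refine Filter.Tendsto.neg (tendsto_finsetSum _ fun k _ => tendsto_finsetSum _ fun l _ => ?_)
  refine Filter.Tendsto.mul (Filter.Tendsto.mul ?_ ?_) tendsto_const_nhds
  · exact (hc i k).tendsto.mono_left nhdsWithin_le_nhds
  · exact hasDerivAt_iff_tendsto_slope.1 (h k l)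

end matrix

variable {n : ℕ} {Γ : Type} [Group Γ] [MulAction Γ (E n)]
  {G : ℝ → E n → Matrix (Fin n) (Fin n) ℝ}

theorem hasDerivAt_G (hG : Fam n Γ G) (t : ℝ) (x : E n) (i j : Fin n) :
    HasDerivAt (fun s => G s x i j) (dtG G t x i j) t := by
  have h1 : DifferentiableAt ℝ (fun p : ℝ × E n => G p.1 p.2 i j) (t, x) :=
    (hG.smooth i j).differentiable (by simp) _
  have h2 : HasDerivAt (fun s : ℝ => (s, x)) ((1 : ℝ), (0 : E n)) t :=
    (hasDerivAt_id t).prodMk (hasDerivAt_const t x)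
  have h3 := h1.hasFDerivAt.comp_hasDerivAt t h2
  have h4 : DifferentiableAt ℝ (fun s => G s x i j) t := h3.differentiableAt
  exact h4.hasDerivAt

theorem dtG_eq (hG : Fam n Γ G) (t : ℝ) (x : E n) (i j : Fin n) :
    dtG G t x i j = fderiv ℝ (fun p : ℝ × E n => G p.1 p.2 i j) (t, x) (1, 0) := by
  have h1 : DifferentiableAt ℝ (fun p : ℝ × E n => G p.1 p.2 i j) (t, x) :=
    (hG.smooth i j).differentiable (by simp) _
  have h2 : HasDerivAt (fun s : ℝ => (s, x)) ((1 : ℝ), (0 : E n)) t :=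
    (hasDerivAt_id t).prodMk (hasDerivAt_const t x)
  have h3 := h1.hasFDerivAt.comp_hasDerivAt t h2
  exact h3.deriv

theorem contDiff_dtG (hG : Fam n Γ G) (i j : Fin n) :
    ContDiff ℝ ∞ (fun p : ℝ × E n => dtG G p.1 p.2 i j) := by
  have : (fun p : ℝ × E n => dtG G p.1 p.2 i j) =
      fun p => fderiv ℝ (fun p : ℝ × E n => G p.1 p.2 i j) p (1, 0) := by
    funext p; exact dtG_eq hG p.1 p.2 i j
  rw [this]
  exact ((hG.smooth i j).fderiv_right (m := ∞) (by simp)).clm_apply contDiff_const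

theorem contDiff_trh (hG : Fam n Γ G) : ContDiff ℝ ∞ (fun p : ℝ × E n => trh G p.1 p.2) := by
  unfold trh
  exact contDiff_const.mul (ContDiff.sum fun i _ => ContDiff.sum fun j _ =>
    (contDiff_inv hG i j).mul (contDiff_dtG hG i j))

theorem inv_symm (hG : Fam n Γ G) (t : ℝ) (x : E n) (i j : Fin n) :
    (G t x)⁻¹ i j = (G t x)⁻¹ j i := by
  have := ((hG.met t).pos x).inv.isHermitian
  have h := congrFun (congrFun this j) i
  simpa using h

theorem hasDerivAt_Ginv (hG : Fam n Γ G) (t : ℝ) (x : E n) (i j : Fin n) :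
    HasDerivAt (fun s => (G s x)⁻¹ i j)
      (-∑ k, ∑ l, (G t x)⁻¹ i k * dtG G t x k l * (G t x)⁻¹ l j) t := by
  refine hasDerivAt_inv (fun s => G_unit (hG.met s) x) (fun i j => hasDerivAt_G hG t x i j)
    (fun i j => ?_) i j
  have h2 : Continuous (fun s : ℝ => (s, x)) := by fun_prop
  exact ((contDiff_inv hG i j).continuous.comp h2).continuousAt

theorem hasDerivAt_dens (hG : Fam n Γ G) (t : ℝ) (x : E n) :
    HasDerivAt (fun s => dens (G s) x) (trh G t x * dens (G t) x) t := by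
  have h1 := hasDerivAt_det (fun i j => hasDerivAt_G hG t x i j)
  have hd : 0 < (G t x).det := ((hG.met t).pos x).det_pos
  have h2 := h1.sqrt hd.ne'
  unfold dens
  convert h2 using 1
  have h3 : ∀ i a, (G t x).adjugate i a = (G t x).det * (G t x)⁻¹ i a := by
    intro i a
    rw [Matrix.inv_def, Matrix.smul_apply, Ring.inverse_eq_inv', smul_eq_mul]
    field_simp
  have h4 : (∑ i, ∑ a, (G t x).adjugate i a * dtG G t x a i) =
      (G t x).det * ∑ i, ∑ j, (G t x)⁻¹ i j * dtG G t x i j := by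
    rw [Finset.sum_comm, Finset.mul_sum]
    refine Finset.sum_congr rfl fun i _ => ?_
    rw [Finset.mul_sum]
    refine Finset.sum_congr rfl fun j _ => ?_
    rw [h3, inv_symm hG t x j i]; ring
  rw [h4]
  unfold trh
  have h5 : Real.sqrt (G t x).det * Real.sqrt (G t x).det = (G t x).det := Real.mul_self_sqrt hd.le
  have h6 : 0 < Real.sqrt (G t x).det := Real.sqrt_pos.mpr hd
  field_simp
  rw [sq, h5]

/-- the inverse form -/
noncomputable def Q (G : ℝ → E n → Matrix (Fin n) (Fin n) ℝ) (t : ℝ) (x p : E n) : ℝ :=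
  ∑ i, ∑ j, (G t x)⁻¹ i j * p i * p j

noncomputable def R (G : ℝ → E n → Matrix (Fin n) (Fin n) ℝ) (t : ℝ) (x p : E n) : ℝ :=
  ∑ i, ∑ j, dtG G t x i j * (∑ k, (G t x)⁻¹ i k * p k) * (∑ k, (G t x)⁻¹ j k * p k)

/-- energy density -/
noncomputable def F (G : ℝ → E n → Matrix (Fin n) (Fin n) ℝ) (a η t : ℝ) (x : E n) (u : ℝ)
    (p : E n) : ℝ := u * (Q G t x p / u ^ 2 + η) ^ a * dens (G t) x

/-- its time derivative -/
noncomputable def h (G : ℝ → E n → Matrix (Fin n) (Fin n) ℝ) (a η t : ℝ) (x : E n) (u : ℝ)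
    (p : E n) : ℝ := (trh G t x * (u * (Q G t x p / u ^ 2 + η) ^ a) -
  a * (u * (Q G t x p / u ^ 2 + η) ^ (a - 1)) * R G t x p / u ^ 2) * dens (G t) x

theorem eD_eq (a η t : ℝ) (v : E n → ℝ) (x : E n) :
    eD (G t) a η v x * dens (G t) x = F G a η t x (v x) (fun i => pd i v x) := rfl

theorem tE_eq (a η t : ℝ) (v : E n → ℝ) (x : E n) :
    tE G a η t v x * dens (G t) x = h G a η t x (v x) (fun i => pd i v x) := rfl

theorem Q_nonneg (hG : Fam n Γ G) (t : ℝ) (x p : E n) : 0 ≤ Q G t x p :=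
  quad_nonneg ((hG.met t).pos x).inv p

theorem hasDerivAt_Q (hG : Fam n Γ G) (t : ℝ) (x p : E n) :
    HasDerivAt (fun s => Q G s x p) (-R G t x p) t := by
  have h1 : HasDerivAt (fun s => Q G s x p) (∑ i, ∑ j,
      (-∑ k, ∑ l, (G t x)⁻¹ i k * dtG G t x k l * (G t x)⁻¹ l j) * p i * p j) t := by
    unfold Q
    exact HasDerivAt.fun_sum fun i _ => HasDerivAt.fun_sum fun j _ =>
      ((hasDerivAt_Ginv hG t x i j).mul_const _).mul_const _
  refine h1.congr_deriv ?_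
  set D := fun k l => dtG G t x k l with hD
  set B := fun i k => (G t x)⁻¹ i k with hB
  have hB' : ∀ i k, B i k = B k i := fun i k => inv_symm hG t x i k
  have e1 : ∀ i j, (-∑ k, ∑ l, B i k * D k l * B l j) * p i * p j =
      ∑ k, ∑ l, -(D k l * (B k i * p i) * (B l j * p j)) := by
    intro i j
    simp only [neg_mul, Finset.sum_mul, Finset.sum_neg_distrib]
    congr 1
    refine Finset.sum_congr rfl fun k _ => Finset.sum_congr rfl fun l _ => ?_
    rw [hB' i k]; ring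
  have e2 : ∀ k l, -(D k l * (∑ i, B k i * p i) * (∑ j, B l j * p j)) =
      ∑ i, ∑ j, -(D k l * (B k i * p i) * (B l j * p j)) := by
    intro k l
    rw [mul_assoc, Finset.sum_mul_sum, Finset.mul_sum, ← Finset.sum_neg_distrib]
    refine Finset.sum_congr rfl fun i _ => ?_
    rw [Finset.mul_sum, ← Finset.sum_neg_distrib]
    refine Finset.sum_congr rfl fun j _ => ?_
    ring
  have e3 : -R G t x p = ∑ k, ∑ l, ∑ i, ∑ j, -(D k l * (B k i * p i) * (B l j * p j)) := by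
    show -(∑ k, ∑ l, D k l * (∑ i, B k i * p i) * (∑ j, B l j * p j)) = _
    rw [← Finset.sum_neg_distrib]
    refine Finset.sum_congr rfl fun k _ => ?_
    rw [← Finset.sum_neg_distrib]
    exact Finset.sum_congr rfl fun l _ => e2 k l
  have e4 : ∑ i, ∑ j, (-∑ k, ∑ l, B i k * D k l * B l j) * p i * p j =
      ∑ i, ∑ j, ∑ k, ∑ l, -(D k l * (B k i * p i) * (B l j * p j)) :=
    Finset.sum_congr rfl fun i _ => Finset.sum_congr rfl fun j _ => e1 i j
  rw [e3]
  refine Eq.trans e4 ?_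
  symm
  calc ∑ k, ∑ l, ∑ i, ∑ j, -(D k l * (B k i * p i) * (B l j * p j))
      = ∑ k, ∑ i, ∑ l, ∑ j, -(D k l * (B k i * p i) * (B l j * p j)) :=
        Finset.sum_congr rfl fun k _ => Finset.sum_comm
    _ = ∑ i, ∑ k, ∑ l, ∑ j, -(D k l * (B k i * p i) * (B l j * p j)) :=
        Finset.sum_comm
    _ = ∑ i, ∑ k, ∑ j, ∑ l, -(D k l * (B k i * p i) * (B l j * p j)) :=
        Finset.sum_congr rfl fun i _ => Finset.sum_congr rfl fun k _ => Finset.sum_comm
    _ = ∑ i, ∑ j, ∑ k, ∑ l, -(D k l * (B k i * p i) * (B l j * p j)) :=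
        Finset.sum_congr rfl fun i _ => Finset.sum_comm

theorem hasDerivAt_F (hG : Fam n Γ G) {a η : ℝ} (hη : 0 < η) (t : ℝ) (x : E n) {u : ℝ}
    (hu : 0 < u) (p : E n) :
    HasDerivAt (fun s => F G a η s x u p) (h G a η t x u p) t := by
  have h0 : 0 < Q G t x p / u ^ 2 + η := by
    have := Q_nonneg hG t x p; positivity
  have h1 : HasDerivAt (fun s => Q G s x p / u ^ 2 + η) (-R G t x p / u ^ 2) t :=
    ((hasDerivAt_Q hG t x p).div_const _).add_const _
  have h2 := (h1.rpow_const (p := a) (Or.inl h0.ne')).const_mul u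
  have h3 := h2.mul (hasDerivAt_dens hG t x)
  refine h3.congr_deriv ?_
  unfold h
  ring

/-- homogeneity -/
theorem Q_smul (t : ℝ) (x p : E n) (c : ℝ) : Q G t x (c • p) = c ^ 2 * Q G t x p := by
  unfold Q
  simp only [Finset.mul_sum, Pi.smul_apply, smul_eq_mul]
  refine Finset.sum_congr rfl fun i _ => Finset.sum_congr rfl fun j _ => by ring

theorem R_smul (t : ℝ) (x p : E n) (c : ℝ) : R G t x (c • p) = c ^ 2 * R G t x p := by
  unfold R
  have e : ∀ i, ∑ k, (G t x)⁻¹ i k * (c • p) k = c * ∑ k, (G t x)⁻¹ i k * p k := by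
    intro i
    rw [Finset.mul_sum]
    refine Finset.sum_congr rfl fun k _ => ?_
    rw [Pi.smul_apply, smul_eq_mul]; ring
  rw [Finset.mul_sum]
  refine Finset.sum_congr rfl fun i _ => ?_
  rw [Finset.mul_sum]
  refine Finset.sum_congr rfl fun j _ => ?_
  rw [e i, e j]
  ring

theorem F_smul (a η t : ℝ) (x : E n) {u : ℝ} (p : E n) {c : ℝ} (hc : 0 < c) :
    F G a η t x (c * u) (c • p) = c * F G a η t x u p := by
  unfold F
  have e : Q G t x (c • p) / (c * u) ^ 2 = Q G t x p / u ^ 2 := by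
    rw [Q_smul, mul_pow, mul_div_mul_left _ _ (by positivity)]
  rw [e]; ring

theorem h_smul (a η t : ℝ) (x : E n) {u : ℝ} (p : E n) {c : ℝ} (hc : 0 < c) :
    h G a η t x (c * u) (c • p) = c * h G a η t x u p := by
  unfold h
  have e : Q G t x (c • p) / (c * u) ^ 2 = Q G t x p / u ^ 2 := by
    rw [Q_smul, mul_pow, mul_div_mul_left _ _ (by positivity)]
  have e' : R G t x (c • p) / (c * u) ^ 2 = R G t x p / u ^ 2 := by
    rw [R_smul, mul_pow, mul_div_mul_left _ _ (by positivity)]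
  rw [mul_div_assoc, mul_div_assoc, e, e']; ring

/-- the variables `(t, x, u, p)` -/
abbrev Y (n : ℕ) := ℝ × E n × ℝ × E n

/-- `h` as a function of all variables -/
noncomputable def hY (G : ℝ → E n → Matrix (Fin n) (Fin n) ℝ) (a η : ℝ) (z : Y n) : ℝ :=
  h G a η z.1 z.2.1 z.2.2.1 z.2.2.2

theorem contDiff_pair (f : ℝ × E n → ℝ) (hf : ContDiff ℝ ∞ f) :
    ContDiff ℝ ∞ (fun z : Y n => f (z.1, z.2.1)) :=
  hf.comp (contDiff_fst.prodMk (contDiff_fst.comp contDiff_snd))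

theorem contDiffAt_hY (hG : Fam n Γ G) {a η : ℝ} (hη : 0 < η) (z : Y n) (hz : 0 < z.2.2.1) :
    ContDiffAt ℝ ∞ (hY G a η) z := by
  have hu : ContDiff ℝ ∞ (fun z : Y n => z.2.2.1) :=
    contDiff_fst.comp (contDiff_snd.comp contDiff_snd)
  have hp : ∀ i, ContDiff ℝ ∞ (fun z : Y n => z.2.2.2 i) := fun i =>
    (contDiff_apply ℝ ℝ i).comp (contDiff_snd.comp (contDiff_snd.comp contDiff_snd))
  have hi : ∀ i j, ContDiff ℝ ∞ (fun z : Y n => (G z.1 z.2.1)⁻¹ i j) := fun i j =>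
    contDiff_pair _ (contDiff_inv hG i j)
  have hd : ∀ i j, ContDiff ℝ ∞ (fun z : Y n => dtG G z.1 z.2.1 i j) := fun i j =>
    contDiff_pair _ (contDiff_dtG hG i j)
  have ht : ContDiff ℝ ∞ (fun z : Y n => trh G z.1 z.2.1) := contDiff_pair _ (contDiff_trh hG)
  have hde : ContDiff ℝ ∞ (fun z : Y n => dens (G z.1) z.2.1) :=
    contDiff_pair (fun p => dens (G p.1) p.2) (contDiff_dens hG)
  have hQ : ContDiff ℝ ∞ (fun z : Y n => Q G z.1 z.2.1 z.2.2.2) := by
    unfold Q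
    exact ContDiff.sum fun i _ => ContDiff.sum fun j _ => ((hi i j).mul (hp i)).mul (hp j)
  have hs : ∀ i, ContDiff ℝ ∞ (fun z : Y n => ∑ k, (G z.1 z.2.1)⁻¹ i k * z.2.2.2 k) := fun i =>
    ContDiff.sum fun k _ => (hi i k).mul (hp k)
  have hR : ContDiff ℝ ∞ (fun z : Y n => R G z.1 z.2.1 z.2.2.2) := by
    unfold R
    exact ContDiff.sum fun i _ => ContDiff.sum fun j _ => ((hd i j).mul (hs i)).mul (hs j)
  have h0 : 0 < Q G z.1 z.2.1 z.2.2.2 / z.2.2.1 ^ 2 + η := by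
    have := Q_nonneg hG z.1 z.2.1 z.2.2.2; positivity
  have hm : ContDiffAt ℝ ∞ (fun z : Y n => Q G z.1 z.2.1 z.2.2.2 / z.2.2.1 ^ 2 + η) z :=
    (hQ.contDiffAt.div (hu.pow 2).contDiffAt (by positivity)).add contDiffAt_const
  have hma : ∀ b : ℝ, ContDiffAt ℝ ∞
      (fun z : Y n => (Q G z.1 z.2.1 z.2.2.2 / z.2.2.1 ^ 2 + η) ^ b) z := fun b =>
    hm.rpow_const_of_ne h0.ne'
  unfold hY h
  refine ContDiffAt.mul ((ht.contDiffAt.mul (hu.contDiffAt.mul (hma a))).sub ?_) hde.contDiffAt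
  exact ((contDiffAt_const.mul (hu.contDiffAt.mul (hma (a - 1)))).mul hR.contDiffAt).div
    (hu.pow 2).contDiffAt (by positivity)

/-- Lipschitz estimate -/
theorem exists_lip (hG : Fam n Γ G) {a η : ℝ} (hη : 0 < η) (T r A B : ℝ) (hA : 0 < A) :
    ∃ C : ℝ, 0 < C ∧ ∀ t s : ℝ, 0 ≤ t → t ≤ T → 0 ≤ s → s ≤ T → ∀ x : E n, ‖x‖ ≤ r →
    ∀ (u u' : ℝ) (p p' : E n), A⁻¹ ≤ u → u ≤ A → A⁻¹ ≤ u' → u' ≤ A → ‖p‖ ≤ B → ‖p'‖ ≤ B →
    h G a η s x u' p' ≤ h G a η t x u p + C * (|s - t| + |u' - u| + ‖p' - p‖) := by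
  set S : Set (Y n) := Set.Icc 0 T ×ˢ Metric.closedBall 0 r ×ˢ Set.Icc A⁻¹ A ×ˢ
    Metric.closedBall 0 B with hS
  have hSc : IsCompact S := isCompact_Icc.prod ((isCompact_closedBall _ _).prod
    (isCompact_Icc.prod (isCompact_closedBall _ _)))
  have hSv : Convex ℝ S := (convex_Icc _ _).prod ((convex_closedBall _ _).prod
    ((convex_Icc _ _).prod (convex_closedBall _ _)))
  have hpos : ∀ z ∈ S, 0 < z.2.2.1 := fun z hz => (inv_pos.2 hA).trans_le hz.2.2.1.1
  have hcd : ∀ z ∈ S, ContDiffAt ℝ ∞ (hY G a η) z := fun z hz => contDiffAt_hY hG hη z (hpos z hz)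
  have hcont : ContinuousOn (fderiv ℝ (hY G a η)) S := fun z hz =>
    ((hcd z hz).fderiv_right (m := 0) (by simp)).continuousAt.continuousWithinAt
  obtain ⟨C, hC⟩ := hSc.exists_bound_of_continuousOn hcont
  refine ⟨max C 1, by positivity, ?_⟩
  intro t s ht ht' hs hs' x hx u u' p p' h1 h2 h3 h4 h5 h6
  have hz : ((t, x, u, p) : Y n) ∈ S := ⟨⟨ht, ht'⟩, by simpa using hx, ⟨h1, h2⟩, by simpa using h5⟩
  have hz' : ((s, x, u', p') : Y n) ∈ S :=
    ⟨⟨hs, hs'⟩, by simpa using hx, ⟨h3, h4⟩, by simpa using h6⟩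
  have hl := hSv.norm_image_sub_le_of_norm_fderiv_le (𝕜 := ℝ)
    (fun z hz => (hcd z hz).differentiableAt (by simp)) hC hz hz'
  have e1 : ‖((s, x, u', p') : Y n) - (t, x, u, p)‖ ≤ |s - t| + |u' - u| + ‖p' - p‖ := by
    have a1 := abs_nonneg (s - t)
    have a2 := abs_nonneg (u' - u)
    have a3 := norm_nonneg (p' - p)
    simp only [Prod.mk_sub_mk, sub_self, Prod.norm_mk, norm_zero, Real.norm_eq_abs]
    refine max_le (by linarith) (max_le (by linarith) (max_le (by linarith) (by linarith)))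
  have e2 : hY G a η (s, x, u', p') - hY G a η (t, x, u, p) ≤
      max C 1 * (|s - t| + |u' - u| + ‖p' - p‖) := by
    refine (le_abs_self _).trans (hl.trans ?_)
    exact mul_le_mul (le_max_left _ _) e1 (norm_nonneg _) (by positivity)
  have e3 : h G a η s x u' p' - h G a η t x u p ≤
      max C 1 * (|s - t| + |u' - u| + ‖p' - p‖) := e2
  linarith

/-- the estimate for normalised data -/
theorem est (hG : Fam n Γ G) {a η : ℝ} (hη : 0 < η) (T r A B : ℝ) (hA : 0 < A) :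
    ∃ C : ℝ, 0 < C ∧ ∀ t s : ℝ, 0 ≤ t → t ≤ s → s ≤ T → ∀ x : E n, ‖x‖ ≤ r →
    ∀ (u u' : ℝ) (p p' : E n), A⁻¹ ≤ u → u ≤ A → A⁻¹ ≤ u' → u' ≤ A → ‖p‖ ≤ B → ‖p'‖ ≤ B →
    F G a η s x u' p' - F G a η t x u' p' ≤
      (s - t) * (h G a η t x u p + C * ((s - t) + |u' - u| + ‖p' - p‖)) := by
  obtain ⟨C, hC, hl⟩ := exists_lip hG (a := a) hη T r A B hA
  refine ⟨C, hC, ?_⟩
  intro t s ht hts hs x hx u u' p p' h1 h2 h3 h4 h5 h6
  rcases hts.eq_or_lt with rfl | hlt
  · simp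
  have hu' : 0 < u' := (inv_pos.2 hA).trans_le h3
  have hd : ∀ τ : ℝ, HasDerivAt (fun s => F G a η s x u' p') (h G a η τ x u' p') τ := fun τ =>
    hasDerivAt_F hG hη τ x hu' p'
  obtain ⟨τ, hτ, hτ'⟩ := exists_hasDerivAt_eq_slope (fun s => F G a η s x u' p')
    (fun τ => h G a η τ x u' p') hlt
    (fun τ _ => (hd τ).continuousAt.continuousWithinAt) fun τ _ => hd τ
  have hst : 0 < s - t := sub_pos.2 hlt
  have e1 : F G a η s x u' p' - F G a η t x u' p' = (s - t) * h G a η τ x u' p' := by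
    rw [hτ']; field_simp
  rw [e1]
  refine mul_le_mul_of_nonneg_left ?_ hst.le
  refine (hl t τ ht (hts.trans hs) (ht.trans hτ.1.le) (hτ.2.le.trans hs) x hx u u' p p'
    h1 h2 h3 h4 h5 h6).trans ?_
  have e2 : |τ - t| ≤ s - t := by
    rw [abs_of_pos (sub_pos.2 hτ.1)]; linarith [hτ.2]
  have := mul_le_mul_of_nonneg_left e2 hC.le
  linarith

/-- the estimate on a ball -/
theorem ball (hG : Fam n Γ G) {a η : ℝ} (hη : 0 < η) (T r A : ℝ) (hA : 0 < A) :
    ∃ C : ℝ, 0 < C ∧ ∀ t s : ℝ, 0 ≤ t → t ≤ s → s ≤ T → ∀ x : E n, ‖x‖ ≤ r →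
    ∀ (W v v' : ℝ) (p p' : E n), 0 < W → W ≤ A * v → v ≤ A * W → W ≤ A * v' → v' ≤ A * W →
    Q G t x p ≤ (A * W) ^ 2 → Q G t x p' ≤ (A * W) ^ 2 →
    F G a η s x v' p' - F G a η t x v' p' ≤
      (s - t) * h G a η t x v p + C * (s - t) * ((s - t) * W + |v' - v| +
        √(Q G t x (p' - p))) * dens (G t) x := by
  have hK : IsCompact (Metric.closedBall (0 : E n) r) := isCompact_closedBall _ _
  have c1 : Continuous fun p : ℝ × E n => ∑ i, ∑ j, |G p.1 p.2 i j| :=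
    continuous_finsetSum _ fun i _ => continuous_finsetSum _ fun j _ =>
      (hG.smooth i j).continuous.abs
  have c3 : Continuous fun p : ℝ × E n => dens (G p.1) p.2 := (contDiff_dens hG).continuous
  have c4 : Continuous fun p : ℝ × E n => (dens (G p.1) p.2)⁻¹ :=
    c3.inv₀ fun p => (dens_pos (hG.met p.1) p.2).ne'
  obtain ⟨C1, p1, h1⟩ := exists_bound hK T _ c1
  obtain ⟨C4, p4, h4⟩ := exists_bound hK T _ c4
  obtain ⟨C, hC, hest⟩ := est hG (a := a) hη T r A (√(C1 * A ^ 2)) hA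
  refine ⟨C * (1 + √C1) * C4, by positivity, ?_⟩
  intro t s ht hts hs x hx W v v' p p' hW a1 a2 a3 a4 a5 a6
  have hxK : x ∈ Metric.closedBall (0 : E n) r := by simpa using hx
  have b1 : ∑ i, ∑ j, |G t x i j| ≤ C1 :=
    (le_abs_self _).trans (h1 t ht (hts.trans hs) x hxK)
  have b4 : (dens (G t) x)⁻¹ ≤ C4 := (le_abs_self _).trans (h4 t ht (hts.trans hs) x hxK)
  have dp := dens_pos (hG.met t) x
  have b4' : 1 ≤ C4 * dens (G t) x := by
    rw [inv_eq_one_div, div_le_iff₀ dp] at b4; exact b4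
  have hn : ∀ w : E n, ‖w‖ ^ 2 ≤ C1 * Q G t x w := fun w =>
    norm_le_form' ((hG.met t).pos x) b1 w
  have hWi : 0 < W⁻¹ := inv_pos.2 hW
  -- normalised data
  have ev : ∀ y : ℝ, y = W * (W⁻¹ * y) := fun y => by field_simp
  have ep : ∀ q : E n, q = W • (W⁻¹ • q) := fun q => by
    rw [smul_smul, mul_inv_cancel₀ hW.ne', one_smul]
  have lo : ∀ y : ℝ, W ≤ A * y → A⁻¹ ≤ W⁻¹ * y := by
    intro y hy
    rw [inv_mul_eq_div, le_div_iff₀ hW, inv_mul_eq_div, div_le_iff₀ hA]; linarith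
  have hi : ∀ y : ℝ, y ≤ A * W → W⁻¹ * y ≤ A := by
    intro y hy
    rw [inv_mul_eq_div, div_le_iff₀ hW]; exact hy
  have hq : ∀ q : E n, Q G t x q ≤ (A * W) ^ 2 → ‖W⁻¹ • q‖ ≤ √(C1 * A ^ 2) := by
    intro q hq
    refine Real.le_sqrt_of_sq_le ?_
    refine (hn _).trans ?_
    rw [Q_smul]
    refine mul_le_mul_of_nonneg_left ?_ p1.le
    calc W⁻¹ ^ 2 * Q G t x q ≤ W⁻¹ ^ 2 * (A * W) ^ 2 := mul_le_mul_of_nonneg_left hq (by positivity)
      _ = A ^ 2 := by field_simp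
  have key := hest t s ht hts hs x hx (W⁻¹ * v) (W⁻¹ * v') (W⁻¹ • p) (W⁻¹ • p')
    (lo v a1) (hi v a2) (lo v' a3) (hi v' a4) (hq p a5) (hq p' a6)
  have f1 : F G a η s x v' p' = W * F G a η s x (W⁻¹ * v') (W⁻¹ • p') := by
    rw [← F_smul a η s x _ hW, ← ev, ← ep]
  have f2 : F G a η t x v' p' = W * F G a η t x (W⁻¹ * v') (W⁻¹ • p') := by
    rw [← F_smul a η t x _ hW, ← ev, ← ep]
  have f3 : h G a η t x v p = W * h G a η t x (W⁻¹ * v) (W⁻¹ • p) := by
    rw [← h_smul a η t x _ hW, ← ev, ← ep]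
  have g1 : |W⁻¹ * v' - W⁻¹ * v| = W⁻¹ * |v' - v| := by
    rw [← mul_sub, abs_mul, abs_of_pos hWi]
  have g2 : ‖W⁻¹ • p' - W⁻¹ • p‖ = W⁻¹ * ‖p' - p‖ := by
    rw [← smul_sub, norm_smul, Real.norm_eq_abs, abs_of_pos hWi]
  rw [g1, g2] at key
  have key2 := mul_le_mul_of_nonneg_left key hW.le
  have g3 : ‖p' - p‖ ≤ √C1 * √(Q G t x (p' - p)) := by
    rw [← Real.sqrt_mul p1.le]
    exact Real.le_sqrt_of_sq_le (hn _)
  set q := √(Q G t x (p' - p)) with hqd
  have hq0 : 0 ≤ q := Real.sqrt_nonneg _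
  have hst : 0 ≤ s - t := sub_nonneg.2 hts
  have hv0 : 0 ≤ |v' - v| := abs_nonneg _
  rw [f1, f2, f3]
  have step1 : W * ((s - t) * (h G a η t x (W⁻¹ * v) (W⁻¹ • p) +
      C * (s - t + W⁻¹ * |v' - v| + W⁻¹ * ‖p' - p‖))) =
      (s - t) * (W * h G a η t x (W⁻¹ * v) (W⁻¹ • p)) +
        C * (s - t) * ((s - t) * W + |v' - v| + ‖p' - p‖) := by
    field_simp
  have step2 : C * (s - t) * ((s - t) * W + |v' - v| + ‖p' - p‖) ≤
      C * (s - t) * ((1 + √C1) * ((s - t) * W + |v' - v| + q)) := by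
    refine mul_le_mul_of_nonneg_left ?_ (by positivity)
    have m1 : 0 ≤ √C1 := Real.sqrt_nonneg _
    have m2 : 0 ≤ (s - t) * W := by positivity
    nlinarith [mul_nonneg m1 m2, mul_nonneg m1 hv0]
  have step3 : C * (s - t) * ((1 + √C1) * ((s - t) * W + |v' - v| + q)) ≤
      C * (1 + √C1) * C4 * (s - t) * ((s - t) * W + |v' - v| + q) * dens (G t) x := by
    have m3 : 0 ≤ C * (s - t) * ((1 + √C1) * ((s - t) * W + |v' - v| + q)) := by positivity
    calc C * (s - t) * ((1 + √C1) * ((s - t) * W + |v' - v| + q))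
        = C * (s - t) * ((1 + √C1) * ((s - t) * W + |v' - v| + q)) * 1 := by ring
      _ ≤ C * (s - t) * ((1 + √C1) * ((s - t) * W + |v' - v| + q)) * (C4 * dens (G t) x) :=
        mul_le_mul_of_nonneg_left b4' m3
      _ = _ := by ring
  calc W * F G a η s x (W⁻¹ * v') (W⁻¹ • p') - W * F G a η t x (W⁻¹ * v') (W⁻¹ • p')
      = W * (F G a η s x (W⁻¹ * v') (W⁻¹ • p') - F G a η t x (W⁻¹ * v') (W⁻¹ • p')) := by ring
    _ ≤ _ := key2
    _ = _ := step1
    _ ≤ _ := by linarith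

theorem main : SpecTT := by
  intro n Γ _ _ G hΓ hG T a η A hT ha hη hA
  obtain ⟨K, hK, hK'⟩ := hΓ.cocompact
  obtain ⟨r, hr⟩ := hK.isBounded.subset_closedBall 0
  obtain ⟨C, hC, hb⟩ := ball hG (a := a) hη T r A hA
  refine ⟨C, hC, ?_⟩
  intro t s ht hts hs x W v v' hW d d' a1 a2 a3 a4 a5 a6
  obtain ⟨γ, hγ⟩ := hK' x
  have hv : 0 < v x := by
    by_contra hneg
    have : A * v x ≤ 0 := mul_nonpos_of_nonneg_of_nonpos hA.le (not_lt.1 hneg)
    linarith
  have hv' : 0 < v' x := by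
    by_contra hneg
    have : A * v' x ≤ 0 := mul_nonpos_of_nonneg_of_nonpos hA.le (not_lt.1 hneg)
    linarith
  have hx : ‖γ • x‖ ≤ r := by simpa using hr hγ
  -- transported functions
  set w : E n → ℝ := fun y => v (γ⁻¹ • y) with hw
  set w' : E n → ℝ := fun y => v' (γ⁻¹ • y) with hw'
  have hback : γ⁻¹ • γ • x = x := inv_smul_smul γ x
  have dw : DifferentiableAt ℝ w (γ • x) := by
    refine DifferentiableAt.comp (γ • x) (g := v) ?_ (diff hΓ γ⁻¹ (γ • x))
    rw [hback]; exact d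
  have dw' : DifferentiableAt ℝ w' (γ • x) := by
    refine DifferentiableAt.comp (γ • x) (g := v') ?_ (diff hΓ γ⁻¹ (γ • x))
    rw [hback]; exact d'
  have ew : (fun y => w (γ • y)) = v := by funext y; simp [hw]
  have ew' : (fun y => w' (γ • y)) = v' := by funext y; simp [hw']
  have ewx : w (γ • x) = v x := by simp [hw]
  have ewx' : w' (γ • x) = v' x := by simp [hw']
  have gs : ∀ τ, gradSq (G τ) v x = gradSq (G τ) w (γ • x) := fun τ => by
    rw [← gradSq_comp hΓ (hG.met τ) γ w x dw, ew]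
  have gs' : ∀ τ, gradSq (G τ) v' x = gradSq (G τ) w' (γ • x) := fun τ => by
    rw [← gradSq_comp hΓ (hG.met τ) γ w' x dw', ew']
  have dsub : DifferentiableAt ℝ (fun y => w' y - w y) (γ • x) := dw'.sub dw
  have gsub : gradSq (G t) (fun y => v' y - v y) x = gradSq (G t) (fun y => w' y - w y) (γ • x) := by
    rw [← gradSq_comp hΓ (hG.met t) γ (fun y => w' y - w y) x dsub]
    congr 1
    funext y; simp [hw, hw']
  have hdet := det_pos hΓ γ x
  have den : ∀ τ, dens (G τ) x = dens (G τ) (γ • x) * (Dm γ x).det := fun τ =>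
    (dens_trans hΓ (hG.met τ) γ x).symm
  -- energy densities
  have fe : ∀ τ, F G a η τ x (v x) (fun i => pd i v x) =
      F G a η τ (γ • x) (w (γ • x)) (fun i => pd i w (γ • x)) * (Dm γ x).det := by
    intro τ
    rw [← eD_eq, ← eD_eq]
    unfold eD
    rw [gs τ, den τ, ewx]; ring
  have fe' : ∀ τ, F G a η τ x (v' x) (fun i => pd i v' x) =
      F G a η τ (γ • x) (w' (γ • x)) (fun i => pd i w' (γ • x)) * (Dm γ x).det := by
    intro τ
    rw [← eD_eq, ← eD_eq]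
    unfold eD
    rw [gs' τ, den τ, ewx']; ring
  have he : h G a η t x (v x) (fun i => pd i v x) =
      h G a η t (γ • x) (w (γ • x)) (fun i => pd i w (γ • x)) * (Dm γ x).det := by
    have e1 := hasDerivAt_F hG (a := a) hη t x hv (fun i => pd i v x)
    have e2 := (hasDerivAt_F hG (a := a) hη t (γ • x) (u := w (γ • x)) (by rw [ewx]; exact hv)
      (fun i => pd i w (γ • x))).mul_const (Dm γ x).det
    have e3 : (fun τ => F G a η τ x (v x) (fun i => pd i v x)) = fun τ =>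
      F G a η τ (γ • x) (w (γ • x)) (fun i => pd i w (γ • x)) * (Dm γ x).det := funext fe
    rw [e3] at e1
    exact e1.unique e2
  have key := hb t s ht hts hs (γ • x) hx W (w (γ • x)) (w' (γ • x)) (fun i => pd i w (γ • x))
    (fun i => pd i w' (γ • x)) hW (by rw [ewx]; exact a1) (by rw [ewx]; exact a3)
    (by rw [ewx']; exact a2) (by rw [ewx']; exact a4)
    (by rw [gs t] at a5; exact a5) (by rw [gs' t] at a6; exact a6)
  have key2 := mul_le_mul_of_nonneg_right key hdet.le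
  have eQ : Q G t (γ • x) ((fun i => pd i w' (γ • x)) - fun i => pd i w (γ • x)) =
      gradSq (G t) (fun y => v' y - v y) x := by
    rw [gsub]
    unfold gradSq gradIp Q
    refine Finset.sum_congr rfl fun i _ => Finset.sum_congr rfl fun j _ => ?_
    rw [Bridge.pd_sub dw' dw, Bridge.pd_sub dw' dw]; rfl
  rw [eQ, ewx, ewx'] at key2
  rw [eD_eq, eD_eq, fe' s, fe' t, ewx']
  have rhs : ((s - t) * tE G a η t v x + C * (s - t) * ((s - t) * W + |v' x - v x| +
      √(gradSq (G t) (fun y => v' y - v y) x))) * dens (G t) x =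
      (s - t) * (tE G a η t v x * dens (G t) x) + C * (s - t) * ((s - t) * W + |v' x - v x| +
      √(gradSq (G t) (fun y => v' y - v y) x)) * dens (G t) x := by ring
  rw [rhs, tE_eq, he, den t, ewx]
  linarith

end Vale.Agent.P223.H.TT
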