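import Vale.Agent.P223.H.B25c
import Vale.Agent.P223.H.TT
import Vale.Agent.P223.H.B4a

/-! Block 25b: evolution of the scalar curvature under the Ricci flow. -/

namespace Vale.Agent.P223.H.B25b

open scoped ContDiff Matrix Topology
open Finset

variable {n : ℕ}

/-! ### algebra -/

section alg

/-- trace of the covariant derivative of a symmetric 2-tensor -/
theorem tr_alg (gi : Fin n → Fin n → ℝ) (C : Fin n → Fin n → Fin n → ℝ) (R dR dgi : Fin n → Fin n → ℝ)
    (l : Fin n)
    (hdgi : ∀ i j, dgi i j = -∑ d, (C i l d * gi d j + C j l d * gi i d)) :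
    ∑ i, ∑ j, gi i j * (dR i j - ∑ d, (C d l i * R d j + C d l j * R i d)) =
      ∑ i, ∑ j, (dgi i j * R i j + gi i j * dR i j) := by
  have e1 : ∑ i, ∑ j, ∑ d, gi i j * (C d l i * R d j) =
      ∑ i, ∑ j, ∑ d, C i l d * gi d j * R i j := by
    calc ∑ i, ∑ j, ∑ d, gi i j * (C d l i * R d j)
        = ∑ i, ∑ d, ∑ j, gi i j * (C d l i * R d j) :=
          Finset.sum_congr rfl fun i _ => Finset.sum_comm
      _ = ∑ d, ∑ i, ∑ j, gi i j * (C d l i * R d j) := Finset.sum_comm
      _ = ∑ d, ∑ j, ∑ i, gi i j * (C d l i * R d j) :=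
          Finset.sum_congr rfl fun i _ => Finset.sum_comm
      _ = _ := Finset.sum_congr rfl fun i _ => Finset.sum_congr rfl fun j _ =>
          Finset.sum_congr rfl fun d _ => by ring
  have e2 : ∑ i, ∑ j, ∑ d, gi i j * (C d l j * R i d) =
      ∑ i, ∑ j, ∑ d, C j l d * gi i d * R i j := by
    refine Finset.sum_congr rfl fun i _ => ?_
    rw [Finset.sum_comm]
    exact Finset.sum_congr rfl fun j _ => Finset.sum_congr rfl fun d _ => by ring
  have e3 : ∀ i j, gi i j * (dR i j - ∑ d, (C d l i * R d j + C d l j * R i d)) =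
      gi i j * dR i j - ∑ d, gi i j * (C d l i * R d j) - ∑ d, gi i j * (C d l j * R i d) := by
    intro i j
    simp only [Finset.sum_add_distrib, mul_sub, mul_add, Finset.mul_sum]
    ring
  have e4 : ∀ i j, dgi i j * R i j + gi i j * dR i j =
      gi i j * dR i j - ∑ d, C i l d * gi d j * R i j - ∑ d, C j l d * gi i d * R i j := by
    intro i j
    rw [hdgi]
    simp only [Finset.sum_add_distrib, neg_mul, add_mul, Finset.sum_mul]
    ring
  simp only [e3, e4, Finset.sum_sub_distrib]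
  rw [e1, e2]

/-- variation of the Ricci tensor, contracted, is a divergence -/
theorem var_alg (gi : Fin n → Fin n → ℝ) (C γ : Fin n → Fin n → Fin n → ℝ)
    (dγ : Fin n → Fin n → Fin n → Fin n → ℝ) (dgi : Fin n → Fin n → Fin n → ℝ)
    (hC : ∀ k i j, C k i j = C k j i)
    (hγ : ∀ k i j, γ k i j = γ k j i)
    (hdgi : ∀ a i j, dgi a i j = -∑ d, (C i a d * gi d j + C j a d * gi i d)) :
    ∑ i, ∑ j, gi i j * (∑ k, (dγ k k i j - dγ j k i k) +
      ∑ k, ∑ l, (γ k k l * C l i j + C k k l * γ l i j - γ k j l * C l i k - C k j l * γ l i k)) =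
    ∑ k, (∑ i, ∑ j, (dgi k i j * γ k i j + gi i j * dγ k k i j) +
        ∑ l, C k k l * ∑ i, ∑ j, gi i j * γ l i j) -
      ∑ j, (∑ i, ∑ k, (dgi j i j * γ k i k + gi i j * dγ j k i k) +
        ∑ l, C j j l * ∑ i, ∑ k, gi i l * γ k i k) := by
  -- the parts with derivatives of `γ`
  have a1 : ∑ k, ∑ i, ∑ j, gi i j * dγ k k i j = ∑ i, ∑ j, ∑ k, gi i j * dγ k k i j := by
    rw [Finset.sum_comm]
    exact Finset.sum_congr rfl fun i _ => Finset.sum_comm
  have a2 : ∑ j, ∑ i, ∑ k, gi i j * dγ j k i k = ∑ i, ∑ j, ∑ k, gi i j * dγ j k i k :=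
    Finset.sum_comm
  -- `Γ^k_{kl} γ^l_{ij}`
  have a3 : ∑ k, ∑ l, C k k l * ∑ i, ∑ j, gi i j * γ l i j =
      ∑ i, ∑ j, ∑ k, ∑ l, gi i j * (C k k l * γ l i j) := by
    simp only [Finset.mul_sum]
    calc ∑ k, ∑ l, ∑ i, ∑ j, C k k l * (gi i j * γ l i j)
        = ∑ k, ∑ i, ∑ l, ∑ j, C k k l * (gi i j * γ l i j) :=
          Finset.sum_congr rfl fun _ _ => Finset.sum_comm
      _ = ∑ i, ∑ k, ∑ l, ∑ j, C k k l * (gi i j * γ l i j) := Finset.sum_comm
      _ = ∑ i, ∑ k, ∑ j, ∑ l, C k k l * (gi i j * γ l i j) :=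
          Finset.sum_congr rfl fun _ _ => Finset.sum_congr rfl fun _ _ => Finset.sum_comm
      _ = ∑ i, ∑ j, ∑ k, ∑ l, C k k l * (gi i j * γ l i j) :=
          Finset.sum_congr rfl fun _ _ => Finset.sum_comm
      _ = _ := Finset.sum_congr rfl fun _ _ => Finset.sum_congr rfl fun _ _ =>
          Finset.sum_congr rfl fun _ _ => Finset.sum_congr rfl fun _ _ => by ring
  -- derivative of the inverse metric in the first divergence
  have a4 : ∑ k, ∑ i, ∑ j, dgi k i j * γ k i j =
      -∑ i, ∑ j, ∑ k, ∑ l, gi i j * (γ k j l * C l i k) -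
      ∑ i, ∑ j, ∑ k, ∑ l, gi i j * (C k j l * γ l i k) := by
    have b1 : ∑ k, ∑ i, ∑ j, ∑ d, C i k d * gi d j * γ k i j =
        ∑ i, ∑ j, ∑ k, ∑ l, gi i j * (γ k j l * C l i k) := by
      calc ∑ k, ∑ i, ∑ j, ∑ d, C i k d * gi d j * γ k i j
          = ∑ k, ∑ i, ∑ d, ∑ j, C i k d * gi d j * γ k i j :=
            Finset.sum_congr rfl fun _ _ => Finset.sum_congr rfl fun _ _ => Finset.sum_comm
        _ = ∑ k, ∑ d, ∑ i, ∑ j, C i k d * gi d j * γ k i j :=
            Finset.sum_congr rfl fun _ _ => Finset.sum_comm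
        _ = ∑ d, ∑ k, ∑ i, ∑ j, C i k d * gi d j * γ k i j := Finset.sum_comm
        _ = ∑ d, ∑ k, ∑ j, ∑ i, C i k d * gi d j * γ k i j :=
            Finset.sum_congr rfl fun _ _ => Finset.sum_congr rfl fun _ _ => Finset.sum_comm
        _ = ∑ d, ∑ j, ∑ k, ∑ i, C i k d * gi d j * γ k i j :=
            Finset.sum_congr rfl fun _ _ => Finset.sum_comm
        _ = _ := Finset.sum_congr rfl fun d _ => Finset.sum_congr rfl fun j _ =>
            Finset.sum_congr rfl fun k _ => Finset.sum_congr rfl fun l _ => by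
              rw [hC l k d, hγ k l j]; ring
    have b2 : ∑ k, ∑ i, ∑ j, ∑ d, C j k d * gi i d * γ k i j =
        ∑ i, ∑ j, ∑ k, ∑ l, gi i j * (C k j l * γ l i k) := by
      calc ∑ k, ∑ i, ∑ j, ∑ d, C j k d * gi i d * γ k i j
          = ∑ i, ∑ k, ∑ j, ∑ d, C j k d * gi i d * γ k i j := Finset.sum_comm
        _ = ∑ i, ∑ k, ∑ d, ∑ j, C j k d * gi i d * γ k i j :=
            Finset.sum_congr rfl fun _ _ => Finset.sum_congr rfl fun _ _ => Finset.sum_comm
        _ = ∑ i, ∑ d, ∑ k, ∑ j, C j k d * gi i d * γ k i j :=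
            Finset.sum_congr rfl fun _ _ => Finset.sum_comm
        _ = ∑ i, ∑ d, ∑ j, ∑ k, C j k d * gi i d * γ k i j :=
            Finset.sum_congr rfl fun _ _ => Finset.sum_congr rfl fun _ _ => Finset.sum_comm
        _ = _ := Finset.sum_congr rfl fun i _ => Finset.sum_congr rfl fun d _ =>
            Finset.sum_congr rfl fun j _ => Finset.sum_congr rfl fun k _ => by
              rw [hC j k d]; ring
    rw [← b1, ← b2]
    simp only [hdgi, neg_mul, Finset.sum_neg_distrib, Finset.sum_mul, add_mul,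
      Finset.sum_add_distrib]
    ring
  -- second divergence
  have a5 : ∑ j, (∑ i, ∑ k, dgi j i j * γ k i k + ∑ l, C j j l * ∑ i, ∑ k, gi i l * γ k i k) =
      -∑ i, ∑ j, ∑ k, ∑ l, gi i j * (γ k k l * C l i j) := by
    have b0 : ∀ i, ∑ k, γ k i k = ∑ k, γ k k i := fun i =>
      Finset.sum_congr rfl fun k _ => hγ k i k
    have b1 : ∑ j, ∑ i, ∑ k, dgi j i j * γ k i k =
        -∑ j, ∑ i, (∑ d, C i j d * gi d j) * (∑ k, γ k k i) -
        ∑ j, ∑ i, (∑ d, C j j d * gi i d) * (∑ k, γ k k i) := by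
      simp only [← Finset.mul_sum, b0, hdgi, Finset.sum_add_distrib, neg_mul, add_mul,
        Finset.sum_neg_distrib]
      ring
    have b2 : ∑ j, ∑ l, C j j l * ∑ i, ∑ k, gi i l * γ k i k =
        ∑ j, ∑ i, (∑ d, C j j d * gi i d) * (∑ k, γ k k i) := by
      refine Finset.sum_congr rfl fun j _ => ?_
      simp only [← Finset.mul_sum, b0]
      simp only [Finset.mul_sum, Finset.sum_mul]
      rw [Finset.sum_comm]
      refine Finset.sum_congr rfl fun i _ => ?_
      rw [Finset.sum_comm]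
      exact Finset.sum_congr rfl fun _ _ => Finset.sum_congr rfl fun _ _ => by ring
    have b3 : ∑ j, ∑ i, (∑ d, C i j d * gi d j) * (∑ k, γ k k i) =
        ∑ i, ∑ j, ∑ k, ∑ l, gi i j * (γ k k l * C l i j) := by
      simp only [Finset.mul_sum, Finset.sum_mul]
      calc ∑ j, ∑ l, ∑ k, ∑ d, C l j d * gi d j * γ k k l
          = ∑ j, ∑ l, ∑ d, ∑ k, C l j d * gi d j * γ k k l :=
            Finset.sum_congr rfl fun _ _ => Finset.sum_congr rfl fun _ _ => Finset.sum_comm
        _ = ∑ j, ∑ d, ∑ l, ∑ k, C l j d * gi d j * γ k k l :=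
            Finset.sum_congr rfl fun _ _ => Finset.sum_comm
        _ = ∑ d, ∑ j, ∑ l, ∑ k, C l j d * gi d j * γ k k l := Finset.sum_comm
        _ = ∑ d, ∑ j, ∑ k, ∑ l, C l j d * gi d j * γ k k l :=
            Finset.sum_congr rfl fun _ _ => Finset.sum_congr rfl fun _ _ => Finset.sum_comm
        _ = _ := Finset.sum_congr rfl fun d _ => Finset.sum_congr rfl fun j _ =>
            Finset.sum_congr rfl fun k _ => Finset.sum_congr rfl fun l _ => by
              rw [hC l j d]; ring
    rw [Finset.sum_add_distrib, b1, b2, b3]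
    ring
  have a6 : ∀ i j, gi i j * (∑ k, (dγ k k i j - dγ j k i k) +
      ∑ k, ∑ l, (γ k k l * C l i j + C k k l * γ l i j - γ k j l * C l i k - C k j l * γ l i k)) =
      ∑ k, gi i j * dγ k k i j - ∑ k, gi i j * dγ j k i k +
      (∑ k, ∑ l, gi i j * (γ k k l * C l i j) + ∑ k, ∑ l, gi i j * (C k k l * γ l i j) -
        ∑ k, ∑ l, gi i j * (γ k j l * C l i k) - ∑ k, ∑ l, gi i j * (C k j l * γ l i k)) := by
    intro i j
    simp only [Finset.sum_add_distrib, Finset.sum_sub_distrib, mul_add, mul_sub, Finset.mul_sum]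
  simp only [a6]
  simp only [Finset.sum_add_distrib, Finset.sum_sub_distrib] at a5 ⊢
  linarith

/-- the variation of the Christoffel symbols -/
theorem chr_alg (gi : Fin n → Fin n → ℝ) (C : Fin n → Fin n → Fin n → ℝ)
    (R : Fin n → Fin n → ℝ) (dR : Fin n → Fin n → Fin n → ℝ) (X : Fin n → Fin n → Fin n → ℝ)
    (hC : ∀ k i j, C k i j = C k j i)
    (hR : ∀ i j, R i j = R j i) (k i j : Fin n)
    (hCX : ∀ b, C b i j = 1 / 2 * ∑ l, gi b l * X i j l) :
    1 / 2 * ∑ l, ((-∑ a, ∑ b, gi k a * (-2 * R a b) * gi b l) * X i j l +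
      gi k l * (-2 * dR i j l + -2 * dR j i l - -2 * dR l i j)) =
    -∑ l, gi k l * ((dR i j l - ∑ m, (C m i j * R m l + C m i l * R j m)) +
      (dR j i l - ∑ m, (C m j i * R m l + C m j l * R i m)) -
      (dR l i j - ∑ m, (C m l i * R m j + C m l j * R i m))) := by
  have e1 : ∀ l, (dR i j l - ∑ m, (C m i j * R m l + C m i l * R j m)) +
      (dR j i l - ∑ m, (C m j i * R m l + C m j l * R i m)) -
      (dR l i j - ∑ m, (C m l i * R m j + C m l j * R i m)) =
      dR i j l + dR j i l - dR l i j - 2 * ∑ m, R l m * C m i j := by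
    intro l
    have : ∑ m, (C m i j * R m l + C m i l * R j m) + ∑ m, (C m j i * R m l + C m j l * R i m) -
        ∑ m, (C m l i * R m j + C m l j * R i m) = 2 * ∑ m, R l m * C m i j := by
      rw [← Finset.sum_add_distrib, ← Finset.sum_sub_distrib, Finset.mul_sum]
      refine Finset.sum_congr rfl fun m _ => ?_
      rw [hC m j i, hC m l i, hC m l j, hR j m, hR l m]; ring
    linarith
  have e2 : ∑ l, (-∑ a, ∑ b, gi k a * (-2 * R a b) * gi b l) * X i j l =
      4 * ∑ l, gi k l * ∑ m, R l m * C m i j := by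
    have : ∀ l, ∑ m, R l m * C m i j = ∑ m, ∑ p, 1 / 2 * (R l m * (gi m p * X i j p)) := by
      intro l
      refine Finset.sum_congr rfl fun m _ => ?_
      rw [hCX, Finset.mul_sum, Finset.mul_sum]
      exact Finset.sum_congr rfl fun p _ => by ring
    simp only [this, Finset.mul_sum, Finset.sum_mul, ← Finset.sum_neg_distrib]
    rw [Finset.sum_comm]
    refine Finset.sum_congr rfl fun a _ => ?_
    rw [Finset.sum_comm]
    exact Finset.sum_congr rfl fun _ _ => Finset.sum_congr rfl fun _ _ => by ring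
  simp only [e1]
  rw [Finset.sum_add_distrib, e2]
  simp only [mul_sub, Finset.sum_sub_distrib, mul_add, Finset.sum_add_distrib]
  have e3 : ∑ l, gi k l * (2 * ∑ m, R l m * C m i j) = 2 * ∑ l, gi k l * ∑ m, R l m * C m i j := by
    rw [Finset.mul_sum]; exact Finset.sum_congr rfl fun _ _ => by ring
  have e4 : ∀ f : Fin n → ℝ, ∑ l, gi k l * (-2 * f l) = -2 * ∑ l, gi k l * f l := by
    intro f
    rw [Finset.mul_sum]; exact Finset.sum_congr rfl fun _ _ => by ring
  rw [e3, e4, e4, e4]
  ring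

end alg

/-! ### commuting derivatives -/

theorem hasDerivAt_pd {f : ℝ → E n → ℝ} (hf : ContDiff ℝ ∞ (fun p : ℝ × E n => f p.1 p.2))
    {g : E n → ℝ} {t : ℝ} (hg : ∀ y, HasDerivAt (fun s => f s y) (g y) t) (i : Fin n) (x : E n) :
    HasDerivAt (fun s => pd i (f s) x) (pd i g x) t := by
  set F : ℝ × E n → ℝ := fun p => f p.1 p.2 with hF
  set D : ℝ × E n → (ℝ × E n →L[ℝ] ℝ) := fderiv ℝ F with hD
  have hFd : Differentiable ℝ F := hf.differentiable (by simp)
  have cD : ContDiff ℝ ∞ D := hf.fderiv_right (m := ∞) (by simp)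
  have hDd : Differentiable ℝ D := cD.differentiable (by simp)
  have e1 : ∀ s, pd i (f s) x = D (s, x) (0, Pi.single i 1) := by
    intro s
    have h1 : HasFDerivAt F (D (s, x)) (s, x) := (hFd _).hasFDerivAt
    have h2 : HasFDerivAt (fun y : E n => (s, y)) (ContinuousLinearMap.inr ℝ ℝ (E n)) x :=
      hasFDerivAt_prodMk_right s x
    have h4 : fderiv ℝ (f s) x = (D (s, x)).comp (ContinuousLinearMap.inr ℝ ℝ (E n)) :=
      (h1.comp x h2).fderiv
    unfold pd
    rw [h4]
    simp
  have e2 : g = fun y => D (t, y) (1, 0) := by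
    funext y
    have h1 : HasFDerivAt F (D (t, y)) (t, y) := (hFd _).hasFDerivAt
    have h2 : HasDerivAt (fun s : ℝ => (s, y)) ((1 : ℝ), (0 : E n)) t :=
      (hasDerivAt_id t).prodMk (hasDerivAt_const t y)
    have h3 : HasDerivAt (F ∘ fun s : ℝ => (s, y)) (D (t, y) (1, 0)) t :=
      h1.comp_hasDerivAt t h2
    exact (hg y).unique h3
  have h3 : HasDerivAt (fun s => D (s, x) (0, Pi.single i 1))
      ((fderiv ℝ D (t, x) (1, 0)) (0, Pi.single i 1)) t := by
    have h2 : HasDerivAt (fun s : ℝ => (s, x)) ((1 : ℝ), (0 : E n)) t :=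
      (hasDerivAt_id t).prodMk (hasDerivAt_const t x)
    have h1 : HasDerivAt (fun s => D (s, x)) (fderiv ℝ D (t, x) (1, 0)) t :=
      ((hDd (t, x)).hasFDerivAt).comp_hasDerivAt t h2
    have h4 := h1.clm_apply (hasDerivAt_const t ((0 : ℝ), (Pi.single i (1 : ℝ) : E n)))
    simpa using h4
  have h5 : pd i g x = (fderiv ℝ D (t, x) (0, Pi.single i 1)) (1, 0) := by
    have h2 : HasFDerivAt (fun y : E n => (t, y)) (ContinuousLinearMap.inr ℝ ℝ (E n)) x :=
      hasFDerivAt_prodMk_right t x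
    have h1 : HasFDerivAt (fun y : E n => D (t, y))
        ((fderiv ℝ D (t, x)).comp (ContinuousLinearMap.inr ℝ ℝ (E n))) x :=
      ((hDd (t, x)).hasFDerivAt).comp x h2
    have h4 := h1.clm_apply (hasFDerivAt_const ((1 : ℝ), (0 : E n)) x)
    unfold pd
    rw [e2, h4.fderiv]
    simp
  have hsymm : IsSymmSndFDerivAt ℝ F (t, x) :=
    (contDiff_infty.1 hf 2).contDiffAt.isSymmSndFDerivAt (by simp)
  have h6 : fderiv ℝ D (t, x) (1, 0) (0, Pi.single i 1) =
      fderiv ℝ D (t, x) (0, Pi.single i 1) (1, 0) := hsymm _ _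
  rw [h5, ← h6]
  simp only [e1]
  exact h3

/-! ### local geometry at a fixed time -/

section loc

variable {G : E n → Matrix (Fin n) (Fin n) ℝ}
  (hs : ∀ i j, ContDiff ℝ ∞ (fun x => G x i j)) (hp : ∀ x, (G x).PosDef)

/-- the variation of the Christoffel symbols for `h = -2 Ric` -/
noncomputable def gam (G : E n → Matrix (Fin n) (Fin n) ℝ) (y : E n) (k i j : Fin n) : ℝ :=
  -∑ l, (G y)⁻¹ k l * (dric G y i j l + dric G y j i l - dric G y l i j)

include hs hp in
theorem cd_inv' (i j : Fin n) : ContDiff ℝ ∞ fun x => (G x)⁻¹ i j :=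
  B25c.cd_inv hs (fun x => (hp x).det_pos.ne') i j

theorem cd_pd' {f : E n → ℝ} (hf : ContDiff ℝ ∞ f) (i : Fin n) :
    ContDiff ℝ ∞ fun y => pd i f y := Bridge.contDiff_pd hf (by simp) i

include hs hp in
theorem cd_chr' (k i j : Fin n) : ContDiff ℝ ∞ fun x => chr G x k i j := by
  unfold chr
  refine contDiff_const.mul (ContDiff.sum fun l _ => (cd_inv' hs hp k l).mul ?_)
  exact ((cd_pd' (hs j l) i).add (cd_pd' (hs i l) j)).sub (cd_pd' (hs i j) l)

include hs hp in
theorem cd_ric' (i j : Fin n) : ContDiff ℝ ∞ fun x => ric G x i j := by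
  unfold ric
  refine (ContDiff.sum fun k _ => ?_).add (ContDiff.sum fun k _ => ContDiff.sum fun l _ => ?_)
  · exact (cd_pd' (cd_chr' hs hp k i j) k).sub (cd_pd' (cd_chr' hs hp k i k) j)
  · exact ((cd_chr' hs hp k k l).mul (cd_chr' hs hp l i j)).sub
      ((cd_chr' hs hp k j l).mul (cd_chr' hs hp l i k))

include hs hp in
theorem cd_dric (k i j : Fin n) : ContDiff ℝ ∞ fun x => dric G x k i j := by
  unfold dric
  exact (cd_pd' (cd_ric' hs hp i j) k).sub (ContDiff.sum fun l _ =>
    ((cd_chr' hs hp l k i).mul (cd_ric' hs hp l j)).add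
      ((cd_chr' hs hp l k j).mul (cd_ric' hs hp i l)))

include hs hp in
theorem cd_gam (k i j : Fin n) : ContDiff ℝ ∞ fun x => gam G x k i j := by
  unfold gam
  exact (ContDiff.sum fun l _ => (cd_inv' hs hp k l).mul
    (((cd_dric hs hp i j l).add (cd_dric hs hp j i l)).sub (cd_dric hs hp l i j))).neg

include hs hp in
theorem pd_gi (x : E n) (c a b : Fin n) : pd c (fun y => (G y)⁻¹ a b) x =
    -∑ d, (chr G x a c d * (G x)⁻¹ d b + chr G x b c d * (G x)⁻¹ a d) :=
  (Bridge.metricOn hs hp).pd_inv isOpen_univ (Set.mem_univ x) c a b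

include hs hp in
/-- trace of the covariant derivative of the Ricci tensor -/
theorem tr_dric (x : E n) (l : Fin n) :
    ∑ i, ∑ j, (G x)⁻¹ i j * dric G x l i j = pd l (fun y => scal G y) x := by
  have dgi : ∀ i j, DifferentiableAt ℝ (fun y => (G y)⁻¹ i j) x := fun i j =>
    (cd_inv' hs hp i j).differentiable (by simp) x
  have dR : ∀ i j, DifferentiableAt ℝ (fun y => ric G y i j) x := fun i j =>
    (cd_ric' hs hp i j).differentiable (by simp) x
  have e : pd l (fun y => scal G y) x = ∑ i, ∑ j, (pd l (fun y => (G y)⁻¹ i j) x * ric G x i j +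
      (G x)⁻¹ i j * pd l (fun y => ric G y i j) x) := by
    unfold scal
    rw [Bridge.pd_sum fun i _ => DifferentiableAt.fun_sum fun j _ => (dgi i j).fun_mul (dR i j)]
    refine Finset.sum_congr rfl fun i _ => ?_
    rw [Bridge.pd_sum fun j _ => (dgi i j).fun_mul (dR i j)]
    exact Finset.sum_congr rfl fun j _ => Bridge.pd_mul (dgi i j) (dR i j)
  rw [e]
  exact tr_alg (fun i j => (G x)⁻¹ i j) (fun k i j => chr G x k i j) (fun i j => ric G x i j)
    (fun i j => pd l (fun y => ric G y i j) x) (fun i j => pd l (fun y => (G y)⁻¹ i j) x) l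
    (fun i j => pd_gi hs hp x l i j)

include hs hp in
/-- the first contraction of `gam` vanishes -/
theorem contr_gam (hB : SpecBianchi) (x : E n) (k : Fin n) :
    ∑ i, ∑ j, (G x)⁻¹ i j * gam G x k i j = 0 := by
  obtain ⟨-, hB2⟩ := hB n G hs hp x
  have e1 : ∀ l, ∑ i, ∑ j, (G x)⁻¹ i j * (dric G x i j l + dric G x j i l - dric G x l i j) =
      0 := by
    intro l
    have h1 := hB2 l
    have h2 := tr_dric hs hp x l
    have h3 : ∑ i, ∑ j, (G x)⁻¹ i j * dric G x j i l = ∑ i, ∑ j, (G x)⁻¹ i j * dric G x i j l := by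
      rw [Finset.sum_comm]
      exact Finset.sum_congr rfl fun i _ => Finset.sum_congr rfl fun j _ => by
        rw [ConfScal.gi_symm hp x j i]
    simp only [mul_sub, mul_add, Finset.sum_sub_distrib, Finset.sum_add_distrib]
    rw [h3, h2, ← h1]
    ring
  unfold gam
  have e2 : ∑ i, ∑ j, (G x)⁻¹ i j * -∑ l, (G x)⁻¹ k l *
      (dric G x i j l + dric G x j i l - dric G x l i j) =
      -∑ l, (G x)⁻¹ k l * ∑ i, ∑ j, (G x)⁻¹ i j *
        (dric G x i j l + dric G x j i l - dric G x l i j) := by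
    simp only [mul_neg, Finset.mul_sum, Finset.sum_neg_distrib]
    congr 1
    calc _ = ∑ i, ∑ l, ∑ j, (G x)⁻¹ i j * ((G x)⁻¹ k l *
          (dric G x i j l + dric G x j i l - dric G x l i j)) :=
          Finset.sum_congr rfl fun _ _ => Finset.sum_comm
      _ = ∑ l, ∑ i, ∑ j, (G x)⁻¹ i j * ((G x)⁻¹ k l *
          (dric G x i j l + dric G x j i l - dric G x l i j)) := Finset.sum_comm
      _ = _ := Finset.sum_congr rfl fun _ _ => Finset.sum_congr rfl fun _ _ =>
          Finset.sum_congr rfl fun _ _ => by ring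
  rw [e2]
  simp only [e1, mul_zero, Finset.sum_const_zero, neg_zero]

include hs hp in
/-- the second contraction of `gam` -/
theorem contr_gam' (x : E n) (i : Fin n) :
    ∑ k, gam G x k i k = -pd i (fun y => scal G y) x := by
  rw [← tr_dric hs hp x i]
  unfold gam
  simp only [mul_sub, mul_add, Finset.sum_sub_distrib, Finset.sum_add_distrib, neg_sub]
  have h1 : ∑ k, ∑ l, (G x)⁻¹ k l * dric G x k i l = ∑ k, ∑ l, (G x)⁻¹ k l * dric G x l i k := by
    rw [Finset.sum_comm]
    exact Finset.sum_congr rfl fun k _ => Finset.sum_congr rfl fun l _ => by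
      rw [ConfScal.gi_symm hp x l k]
  simp only [h1]
  ring

theorem gam_symm (x : E n) (hR : ∀ y i j, ric G y i j = ric G y j i) (k i j : Fin n) :
    gam G x k i j = gam G x k j i := by
  have h : ∀ l, dric G x l i j = dric G x l j i := by
    intro l
    unfold dric
    have e : (fun y => ric G y i j) = fun y => ric G y j i := by funext y; exact hR y i j
    rw [e]
    congr 1
    refine Finset.sum_congr rfl fun m _ => ?_
    rw [hR x m j, hR x i m]; ring
  unfold gam
  congr 1
  refine Finset.sum_congr rfl fun l _ => ?_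
  rw [h l]; ring

include hs hp in
/-- the contraction of the variation of the Ricci tensor is the Laplacian of the scalar
curvature -/
theorem contr_var (hB : SpecBianchi) (x : E n) :
    ∑ i, ∑ j, (G x)⁻¹ i j * (∑ k, (pd k (fun y => gam G y k i j) x -
        pd j (fun y => gam G y k i k) x) +
      ∑ k, ∑ l, (gam G x k k l * chr G x l i j + chr G x k k l * gam G x l i j -
        gam G x k j l * chr G x l i k - chr G x k j l * gam G x l i k)) =
    lap G (fun y => scal G y) x := by
  have hR : ∀ y i j, ric G y i j = ric G y j i := fun y => (hB n G hs hp y).1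
  have dgi : ∀ i j, DifferentiableAt ℝ (fun y => (G y)⁻¹ i j) x := fun i j =>
    (cd_inv' hs hp i j).differentiable (by simp) x
  have dga : ∀ k i j, DifferentiableAt ℝ (fun y => gam G y k i j) x := fun k i j =>
    (cd_gam hs hp k i j).differentiable (by simp) x
  have cS : ContDiff ℝ ∞ fun y => scal G y := by
    unfold scal
    exact ContDiff.sum fun i _ => ContDiff.sum fun j _ => (cd_inv' hs hp i j).mul
      (cd_ric' hs hp i j)
  rw [var_alg (fun i j => (G x)⁻¹ i j) (fun k i j => chr G x k i j) (fun k i j => gam G x k i j)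
    (fun a k i j => pd a (fun y => gam G y k i j) x) (fun a i j => pd a (fun y => (G y)⁻¹ i j) x)
    (Bochner.chr_symm hs hp x) (gam_symm x hR) (fun a i j => pd_gi hs hp x a i j)]
  have e1 : ∀ k, ∑ i, ∑ j, (pd k (fun y => (G y)⁻¹ i j) x * gam G x k i j +
      (G x)⁻¹ i j * pd k (fun y => gam G y k i j) x) = 0 := by
    intro k
    have h1 : pd k (fun y => ∑ i, ∑ j, (G y)⁻¹ i j * gam G y k i j) x =
        ∑ i, ∑ j, (pd k (fun y => (G y)⁻¹ i j) x * gam G x k i j +
      (G x)⁻¹ i j * pd k (fun y => gam G y k i j) x) := by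
      rw [Bridge.pd_sum fun i _ => DifferentiableAt.fun_sum fun j _ =>
        (dgi i j).fun_mul (dga k i j)]
      refine Finset.sum_congr rfl fun i _ => ?_
      rw [Bridge.pd_sum fun j _ => (dgi i j).fun_mul (dga k i j)]
      exact Finset.sum_congr rfl fun j _ => Bridge.pd_mul (dgi i j) (dga k i j)
    rw [← h1]
    have h2 : (fun y => ∑ i, ∑ j, (G y)⁻¹ i j * gam G y k i j) = fun _ => (0 : ℝ) := by
      funext y; exact contr_gam hs hp hB y k
    rw [h2, Bridge.pd_const]
  have e2 : ∀ j, ∑ i, ∑ k, (pd j (fun y => (G y)⁻¹ i j) x * gam G x k i k +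
      (G x)⁻¹ i j * pd j (fun y => gam G y k i k) x) =
      -pd j (fun y => grd G (fun z => scal G z) y j) x := by
    intro j
    have h1 : pd j (fun y => ∑ i, ∑ k, (G y)⁻¹ i j * gam G y k i k) x =
        ∑ i, ∑ k, (pd j (fun y => (G y)⁻¹ i j) x * gam G x k i k +
      (G x)⁻¹ i j * pd j (fun y => gam G y k i k) x) := by
      rw [Bridge.pd_sum fun i _ => DifferentiableAt.fun_sum fun k _ =>
        (dgi i j).fun_mul (dga k i k)]
      refine Finset.sum_congr rfl fun i _ => ?_
      rw [Bridge.pd_sum fun k _ => (dgi i j).fun_mul (dga k i k)]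
      exact Finset.sum_congr rfl fun k _ => Bridge.pd_mul (dgi i j) (dga k i k)
    rw [← h1]
    have h2 : (fun y => ∑ i, ∑ k, (G y)⁻¹ i j * gam G y k i k) =
        fun y => (-1 : ℝ) * grd G (fun z => scal G z) y j := by
      funext y
      simp only [← Finset.mul_sum, contr_gam' hs hp y]
      unfold grd
      rw [Finset.mul_sum]
      refine Finset.sum_congr rfl fun i _ => ?_
      rw [ConfScal.gi_symm hp y i j]; ring
    have d3 : DifferentiableAt ℝ (fun y => grd G (fun z => scal G z) y j) x :=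
      (Bochner.cd_grd hs hp (m := 1) (contDiff_infty.1 cS 2) (by norm_num) j).differentiable
        (by simp) x
    rw [h2, Bridge.pd_mul (differentiableAt_const _) d3, Bridge.pd_const]
    ring
  have e3 : ∀ l, ∑ i, ∑ k, (G x)⁻¹ i l * gam G x k i k = -grd G (fun z => scal G z) x l := by
    intro l
    simp only [← Finset.mul_sum, contr_gam' hs hp x]
    unfold grd
    rw [← Finset.sum_neg_distrib]
    refine Finset.sum_congr rfl fun i _ => ?_
    rw [ConfScal.gi_symm hp x i l]; ring
  simp only [e1, contr_gam hs hp hB x, e2, e3]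
  rw [Bochner.lap_eq_tr hs hp (contDiff_infty.1 cS 2) x]
  unfold Bochner.nab
  simp only [mul_zero, Finset.sum_const_zero, add_zero, zero_sub, ← Finset.sum_neg_distrib]
  refine Finset.sum_congr rfl fun j _ => ?_
  simp only [mul_neg, Finset.sum_neg_distrib]
  ring

end loc

/-! ### the evolution -/

section evol

variable {G : ℝ → E n → Matrix (Fin n) (Fin n) ℝ}
  (hs : ∀ i j, ContDiff ℝ ∞ (fun p : ℝ × E n => G p.1 p.2 i j)) (hp : ∀ t x, (G t x).PosDef)
  (t : ℝ) (hflow : ∀ x i j, dtG G t x i j = -2 * ric (G t) x i j)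

include hs hflow in
theorem hasDerivAt_G (y : E n) (i j : Fin n) :
    HasDerivAt (fun s => G s y i j) (-2 * ric (G t) y i j) t := by
  have h1 : DifferentiableAt ℝ (fun p : ℝ × E n => G p.1 p.2 i j) (t, y) :=
    (hs i j).differentiable (by simp) _
  have h2 : HasDerivAt (fun s : ℝ => (s, y)) ((1 : ℝ), (0 : E n)) t :=
    (hasDerivAt_id t).prodMk (hasDerivAt_const t y)
  have h3 := h1.hasFDerivAt.comp_hasDerivAt t h2
  have h4 : DifferentiableAt ℝ (fun s => G s y i j) t := h3.differentiableAt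
  have h5 := h4.hasDerivAt
  rw [← hflow y i j]
  exact h5

include hs hp hflow in
theorem hasDerivAt_inv (y : E n) (i j : Fin n) :
    HasDerivAt (fun s => (G s y)⁻¹ i j)
      (-∑ a, ∑ b, (G t y)⁻¹ i a * (-2 * ric (G t) y a b) * (G t y)⁻¹ b j) t := by
  refine TT.hasDerivAt_inv (M := fun s => G s y) (M' := fun a b => -2 * ric (G t) y a b)
    (fun s => (hp s y).det_pos.ne'.isUnit) (fun i j => hasDerivAt_G hs t hflow y i j)
    (fun i j => ?_) i j
  have h2 : Continuous (fun s : ℝ => (s, y)) := by fun_prop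
  exact ((B25c.cd_G_inv hs hp i j).continuous.comp h2).continuousAt

include hs hp hflow in
theorem hasDerivAt_dG (y : E n) (a i j : Fin n) :
    HasDerivAt (fun s => pd a (fun z => G s z i j) y)
      (-2 * pd a (fun z => ric (G t) z i j) y) t := by
  have h := hasDerivAt_pd (f := fun s z => G s z i j) (hs i j)
    (fun y => hasDerivAt_G hs t hflow y i j) a y
  have hd : DifferentiableAt ℝ (fun z => ric (G t) z i j) y :=
    (B25c.cd_at (f := fun s z => ric (G s) z i j) (B25c.cd_ric hs hp i j) t).differentiable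
      (by simp) y
  rw [Bridge.pd_mul (differentiableAt_const _) hd, Bridge.pd_const, zero_mul, zero_add] at h
  exact h

include hs hp hflow in
theorem hasDerivAt_chr (hB : SpecBianchi) (y : E n) (k i j : Fin n) :
    HasDerivAt (fun s => chr (G s) y k i j) (gam (G t) y k i j) t := by
  have hst : ∀ i j, ContDiff ℝ ∞ (fun x => G t x i j) := fun i j =>
    B25c.cd_at (f := fun s x => G s x i j) (hs i j) t
  have h1 : HasDerivAt (fun s => chr (G s) y k i j) (1 / 2 * ∑ l,
      ((-∑ a, ∑ b, (G t y)⁻¹ k a * (-2 * ric (G t) y a b) * (G t y)⁻¹ b l) *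
        (pd i (fun z => G t z j l) y + pd j (fun z => G t z i l) y - pd l (fun z => G t z i j) y) +
      (G t y)⁻¹ k l * (-2 * pd i (fun z => ric (G t) z j l) y +
        -2 * pd j (fun z => ric (G t) z i l) y - -2 * pd l (fun z => ric (G t) z i j) y))) t := by
    unfold chr
    refine HasDerivAt.const_mul _ (HasDerivAt.fun_sum fun l _ => ?_)
    exact (hasDerivAt_inv hs hp t hflow y k l).fun_mul
      (((hasDerivAt_dG hs hp t hflow y i j l).fun_add (hasDerivAt_dG hs hp t hflow y j i l)).fun_sub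
        (hasDerivAt_dG hs hp t hflow y l i j))
  convert h1 using 1
  unfold gam dric
  exact (chr_alg (fun a b => (G t y)⁻¹ a b) (fun k i j => chr (G t) y k i j)
    (fun i j => ric (G t) y i j) (fun a i j => pd a (fun z => ric (G t) z i j) y)
    (fun i j l => pd i (fun z => G t z j l) y + pd j (fun z => G t z i l) y -
      pd l (fun z => G t z i j) y) (Bochner.chr_symm hst (hp t) y)
    (hB n (G t) hst (hp t) y).1 k i j (fun b => rfl)).symm

include hs hp hflow in
theorem hasDerivAt_ric (hB : SpecBianchi) (x : E n) (i j : Fin n) :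
    HasDerivAt (fun s => ric (G s) x i j) (∑ k, (pd k (fun y => gam (G t) y k i j) x -
        pd j (fun y => gam (G t) y k i k) x) +
      ∑ k, ∑ l, (gam (G t) x k k l * chr (G t) x l i j + chr (G t) x k k l * gam (G t) x l i j -
        gam (G t) x k j l * chr (G t) x l i k - chr (G t) x k j l * gam (G t) x l i k)) t := by
  have hc : ∀ k i j y, HasDerivAt (fun s => chr (G s) y k i j) (gam (G t) y k i j) t :=
    fun k i j y => hasDerivAt_chr hs hp t hflow hB y k i j
  have hdc : ∀ a k i j, HasDerivAt (fun s => pd a (fun y => chr (G s) y k i j) x)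
      (pd a (fun y => gam (G t) y k i j) x) t := fun a k i j =>
    hasDerivAt_pd (f := fun s y => chr (G s) y k i j) (B25c.cd_chr hs hp k i j)
      (hc k i j) a x
  unfold ric
  refine (HasDerivAt.fun_sum fun k _ => (hdc k k i j).fun_sub (hdc j k i k)).fun_add
    (HasDerivAt.fun_sum fun k _ => HasDerivAt.fun_sum fun l _ => ?_)
  have h := ((hc k k l x).fun_mul (hc l i j x)).fun_sub ((hc k j l x).fun_mul (hc l i k x))
  convert h using 1
  ring

end evol

theorem sum_scal_aux (gi R : Fin n → Fin n → ℝ) (hgi : ∀ i j, gi i j = gi j i)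
    (V : Fin n → Fin n → ℝ) :
    ∑ i, ∑ j, ((-∑ a, ∑ b, gi i a * (-2 * R a b) * gi b j) * R i j + gi i j * V i j) =
      ∑ i, ∑ j, gi i j * V i j +
        2 * ∑ i, ∑ j, ∑ k, ∑ l, gi i k * gi j l * R i j * R k l := by
  simp only [Finset.sum_add_distrib]
  rw [add_comm]
  congr 1
  simp only [Finset.mul_sum, Finset.sum_mul, ← Finset.sum_neg_distrib]
  exact Finset.sum_congr rfl fun i _ => Finset.sum_congr rfl fun j _ =>
    Finset.sum_congr rfl fun k _ => Finset.sum_congr rfl fun l _ => by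
      rw [hgi l j]; ring

theorem scal_sq_le (gi B R : Matrix (Fin n) (Fin n) ℝ) (hB : gi = Bᵀ * B) :
    (∑ i, ∑ j, gi i j * R i j) ^ 2 ≤
      n * ∑ i, ∑ j, ∑ k, ∑ l, gi i k * gi j l * R i j * R k l := by
  have hgi : ∀ i j, gi i j = ∑ p, B p i * B p j := by
    intro i j
    rw [hB, Matrix.mul_apply]
    rfl
  have h := Bochner.trace_sq_le (B * R * Bᵀ)
  have hK : ∀ p q, (B * R * Bᵀ) p q = ∑ i, ∑ j, B p i * B q j * R i j := by
    intro p q
    simp only [Matrix.mul_apply, Matrix.transpose_apply, Finset.sum_mul]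
    rw [Finset.sum_comm]
    exact Finset.sum_congr rfl fun i _ => Finset.sum_congr rfl fun j _ => by ring
  have e1 : (B * R * Bᵀ).trace = ∑ i, ∑ j, gi i j * R i j := by
    simp only [Matrix.trace, Matrix.diag_apply, hK, hgi, Finset.sum_mul]
    rw [Finset.sum_comm]
    refine Finset.sum_congr rfl fun i _ => ?_
    rw [Finset.sum_comm]
  have e2 : ∑ p, ∑ q, (B * R * Bᵀ) p q ^ 2 =
      ∑ i, ∑ j, ∑ k, ∑ l, gi i k * gi j l * R i j * R k l := by
    have h1 : ∀ p q, (B * R * Bᵀ) p q ^ 2 = ∑ i, ∑ j, ∑ k, ∑ l,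
        (B p i * B p k) * (B q j * B q l) * R i j * R k l := by
      intro p q
      rw [hK, sq]
      simp only [Finset.sum_mul, Finset.mul_sum]
      exact Finset.sum_congr rfl fun i _ => Finset.sum_congr rfl fun j _ =>
        Finset.sum_congr rfl fun k _ => Finset.sum_congr rfl fun l _ => by ring
    simp only [h1]
    calc ∑ p, ∑ q, ∑ i, ∑ j, ∑ k, ∑ l, (B p i * B p k) * (B q j * B q l) * R i j * R k l
        = ∑ p, ∑ i, ∑ q, ∑ j, ∑ k, ∑ l, (B p i * B p k) * (B q j * B q l) * R i j * R k l :=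
          Finset.sum_congr rfl fun _ _ => Finset.sum_comm
      _ = ∑ i, ∑ p, ∑ q, ∑ j, ∑ k, ∑ l, (B p i * B p k) * (B q j * B q l) * R i j * R k l :=
          Finset.sum_comm
      _ = ∑ i, ∑ p, ∑ j, ∑ q, ∑ k, ∑ l, (B p i * B p k) * (B q j * B q l) * R i j * R k l :=
          Finset.sum_congr rfl fun _ _ => Finset.sum_congr rfl fun _ _ => Finset.sum_comm
      _ = ∑ i, ∑ j, ∑ p, ∑ q, ∑ k, ∑ l, (B p i * B p k) * (B q j * B q l) * R i j * R k l :=
          Finset.sum_congr rfl fun _ _ => Finset.sum_comm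
      _ = ∑ i, ∑ j, ∑ p, ∑ k, ∑ q, ∑ l, (B p i * B p k) * (B q j * B q l) * R i j * R k l :=
          Finset.sum_congr rfl fun _ _ => Finset.sum_congr rfl fun _ _ =>
            Finset.sum_congr rfl fun _ _ => Finset.sum_comm
      _ = ∑ i, ∑ j, ∑ k, ∑ p, ∑ q, ∑ l, (B p i * B p k) * (B q j * B q l) * R i j * R k l :=
          Finset.sum_congr rfl fun _ _ => Finset.sum_congr rfl fun _ _ => Finset.sum_comm
      _ = ∑ i, ∑ j, ∑ k, ∑ p, ∑ l, ∑ q, (B p i * B p k) * (B q j * B q l) * R i j * R k l :=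
          Finset.sum_congr rfl fun _ _ => Finset.sum_congr rfl fun _ _ =>
            Finset.sum_congr rfl fun _ _ => Finset.sum_congr rfl fun _ _ => Finset.sum_comm
      _ = ∑ i, ∑ j, ∑ k, ∑ l, ∑ p, ∑ q, (B p i * B p k) * (B q j * B q l) * R i j * R k l :=
          Finset.sum_congr rfl fun _ _ => Finset.sum_congr rfl fun _ _ =>
            Finset.sum_congr rfl fun _ _ => Finset.sum_comm
      _ = _ := by
          refine Finset.sum_congr rfl fun i _ => Finset.sum_congr rfl fun j _ =>
            Finset.sum_congr rfl fun k _ => Finset.sum_congr rfl fun l _ => ?_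
          rw [hgi i k, hgi j l, Finset.sum_mul_sum, Finset.sum_mul, Finset.sum_mul]
          refine Finset.sum_congr rfl fun p _ => ?_
          rw [Finset.sum_mul, Finset.sum_mul]
  rw [e1, e2] at h
  exact h

theorem main (hB : SpecBianchi) : SpecEvol := by
  intro n G hs hp t hflow x
  have hst : ∀ i j, ContDiff ℝ ∞ (fun x => G t x i j) := fun i j =>
    B25c.cd_at (f := fun s x => G s x i j) (hs i j) t
  refine ⟨?_, ?_, ?_⟩
  · have h1 : HasDerivAt (fun s => scal (G s) x) (∑ i, ∑ j,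
        ((-∑ a, ∑ b, (G t x)⁻¹ i a * (-2 * ric (G t) x a b) * (G t x)⁻¹ b j) * ric (G t) x i j +
        (G t x)⁻¹ i j * (∑ k, (pd k (fun y => gam (G t) y k i j) x -
        pd j (fun y => gam (G t) y k i k) x) +
      ∑ k, ∑ l, (gam (G t) x k k l * chr (G t) x l i j + chr (G t) x k k l * gam (G t) x l i j -
        gam (G t) x k j l * chr (G t) x l i k - chr (G t) x k j l * gam (G t) x l i k)))) t := by
      unfold scal
      exact HasDerivAt.fun_sum fun i _ => HasDerivAt.fun_sum fun j _ =>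
        (hasDerivAt_inv hs hp t hflow x i j).fun_mul (hasDerivAt_ric hs hp t hflow hB x i j)
    convert h1 using 1
    rw [← contr_var hst (hp t) hB x]
    exact (sum_scal_aux (fun i j => (G t x)⁻¹ i j) (fun i j => ric (G t) x i j)
      (ConfScal.gi_symm (hp t) x) _).symm
  · let _ : MulAction PUnit (E n) :=
      { smul := fun _ x => x, one_smul := fun _ => rfl, mul_smul := fun _ _ _ => rfl }
    have hfam : Fam n PUnit G := ⟨hs, fun s => ⟨fun i j =>
      B25c.cd_at (f := fun s x => G s x i j) (hs i j) s, hp s, fun γ x v w => by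
        have e : (fun y : E n => γ • y) = fun y => y := rfl
        rw [e]
        simp⟩⟩
    have h1 := TT.hasDerivAt_dens hfam t x
    have h2 : trh G t x = -scal (G t) x := by
      unfold trh scal
      simp only [hflow, Finset.mul_sum, ← Finset.sum_neg_distrib]
      exact Finset.sum_congr rfl fun i _ => Finset.sum_congr rfl fun j _ => by ring
    rw [h2] at h1
    exact h1
  · obtain ⟨B, hB', -⟩ := exists_factor ((G t x)⁻¹) (hp t x).inv
    exact scal_sq_le (G t x)⁻¹ B (Matrix.of fun i j => ric (G t) x i j) hB'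

end Vale.Agent.P223.H.B25b
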