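import Vale.Agent.P223.H.Bridge

/-! Calculus of `gradIp`, `gradSq`. -/

namespace Vale.Agent.P223.H.Grad

open scoped ContDiff Matrix
open Finset Common

variable {n : ℕ} {G : E n → Matrix (Fin n) (Fin n) ℝ} {x : E n} {f k h : E n → ℝ}

/-- Cauchy-Schwarz for positive semidefinite matrices. -/
theorem posSemidef_cs {M : Matrix (Fin n) (Fin n) ℝ} (hM : M.PosSemidef) (u v : E n) :
    (u ⬝ᵥ M *ᵥ v) ^ 2 ≤ (u ⬝ᵥ M *ᵥ u) * (v ⬝ᵥ M *ᵥ v) := by
  have hs : Mᵀ = M := by
    have := hM.isHermitian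
    simpa [Matrix.IsHermitian, Matrix.conjTranspose_eq_transpose_of_trivial] using this
  have hsym : v ⬝ᵥ M *ᵥ u = u ⬝ᵥ M *ᵥ v := by
    rw [Matrix.dotProduct_mulVec, ← Matrix.mulVec_transpose, hs, dotProduct_comm]
  have h1 : ∀ t : ℝ, 0 ≤ (v ⬝ᵥ M *ᵥ v) * (t * t) + (2 * (u ⬝ᵥ M *ᵥ v)) * t + u ⬝ᵥ M *ᵥ u := by
    intro t
    have := hM.dotProduct_mulVec_nonneg (u + t • v)
    simp only [star_trivial, Matrix.mulVec_add, Matrix.mulVec_smul, dotProduct_add, add_dotProduct,
      dotProduct_smul, smul_dotProduct, smul_eq_mul, hsym] at this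
    linarith
  have h2 := discrim_le_zero h1
  unfold discrim at h2
  nlinarith

theorem gradIp_comm (hG : (G x).PosDef) : gradIp G f k x = gradIp G k f x := by
  have hs : ((G x)⁻¹)ᵀ = (G x)⁻¹ := by
    have := hG.inv.isHermitian
    simpa [Matrix.IsHermitian, Matrix.conjTranspose_eq_transpose_of_trivial] using this
  have hs' : ∀ i j, (G x)⁻¹ i j = (G x)⁻¹ j i := fun i j => by
    conv_lhs => rw [← hs]
    rfl
  unfold gradIp
  rw [Finset.sum_comm]
  refine Finset.sum_congr rfl fun i _ => Finset.sum_congr rfl fun j _ => ?_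
  rw [hs' j i]; ring

theorem gradIp_add_right (hf : DifferentiableAt ℝ f x) (hk : DifferentiableAt ℝ k x) :
    gradIp G h (fun y => f y + k y) x = gradIp G h f x + gradIp G h k x := by
  unfold gradIp
  simp only [Bridge.pd_add hf hk, mul_add, Finset.sum_add_distrib]

theorem gradIp_sub_right (hf : DifferentiableAt ℝ f x) (hk : DifferentiableAt ℝ k x) :
    gradIp G h (fun y => f y - k y) x = gradIp G h f x - gradIp G h k x := by
  unfold gradIp
  simp only [Bridge.pd_sub hf hk, mul_sub, Finset.sum_sub_distrib]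

theorem gradIp_mul_right (hf : DifferentiableAt ℝ f x) (hk : DifferentiableAt ℝ k x) :
    gradIp G h (fun y => f y * k y) x = k x * gradIp G h f x + f x * gradIp G h k x := by
  unfold gradIp
  simp only [Bridge.pd_mul hf hk, mul_add, Finset.sum_add_distrib, Finset.mul_sum]
  congr 1
  · refine Finset.sum_congr rfl fun i _ => Finset.sum_congr rfl fun j _ => by ring
  · refine Finset.sum_congr rfl fun i _ => Finset.sum_congr rfl fun j _ => by ring

theorem gradIp_const_right (c : ℝ) : gradIp G h (fun _ => c) x = 0 := by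
  unfold gradIp
  simp [Bridge.pd_const]

theorem gradIp_smul_right (c : ℝ) (hf : DifferentiableAt ℝ f x) :
    gradIp G h (fun y => c * f y) x = c * gradIp G h f x := by
  rw [gradIp_mul_right (differentiableAt_const c) hf, gradIp_const_right]; ring

/-- chain rule -/
theorem pd_comp_real {φ : ℝ → ℝ} {φ' : ℝ} (hφ : HasDerivAt φ φ' (f x))
    (hf : DifferentiableAt ℝ f x) (i : Fin n) :
    H.pd i (fun y => φ (f y)) x = φ' * H.pd i f x := by
  unfold H.pd
  have : HasFDerivAt (fun y => φ (f y)) (φ' • fderiv ℝ f x) x :=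
    hφ.comp_hasFDerivAt x hf.hasFDerivAt
  rw [this.fderiv]; rfl

theorem gradIp_comp_right {φ : ℝ → ℝ} {φ' : ℝ} (hφ : HasDerivAt φ φ' (f x))
    (hf : DifferentiableAt ℝ f x) :
    gradIp G h (fun y => φ (f y)) x = φ' * gradIp G h f x := by
  unfold gradIp
  simp only [pd_comp_real hφ hf, Finset.mul_sum]
  refine Finset.sum_congr rfl fun i _ => Finset.sum_congr rfl fun j _ => by ring

theorem gradSq_comp_real {φ : ℝ → ℝ} {φ' : ℝ} (hφ : HasDerivAt φ φ' (f x))
    (hf : DifferentiableAt ℝ f x) :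
    gradSq G (fun y => φ (f y)) x = φ' ^ 2 * gradSq G f x := by
  unfold gradSq gradIp
  simp only [pd_comp_real hφ hf, Finset.mul_sum]
  refine Finset.sum_congr rfl fun i _ => Finset.sum_congr rfl fun j _ => by ring

theorem gradSq_nonneg' (hG : (G x).PosDef) (f : E n → ℝ) : 0 ≤ gradSq G f x := by
  have := hG.inv.posSemidef.dotProduct_mulVec_nonneg (fun i => H.pd i f x)
  rw [gradSq, gradIp_eq]
  simpa using this

/-- Cauchy-Schwarz -/
theorem cs (hG : (G x).PosDef) (f k : E n → ℝ) :
    gradIp G f k x ^ 2 ≤ gradSq G f x * gradSq G k x := by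
  unfold gradSq
  simp only [gradIp_eq]
  exact posSemidef_cs hG.inv.posSemidef _ _

theorem abs_gradIp_le (hG : (G x).PosDef) (f k : E n → ℝ) :
    |gradIp G f k x| ≤ √(gradSq G f x) * √(gradSq G k x) := by
  rw [← Real.sqrt_mul (gradSq_nonneg' hG f)]
  exact Real.abs_le_sqrt (cs hG f k)

theorem gradSq_add (hG : (G x).PosDef) (hf : DifferentiableAt ℝ f x)
    (hk : DifferentiableAt ℝ k x) :
    gradSq G (fun y => f y + k y) x = gradSq G f x + 2 * gradIp G f k x + gradSq G k x := by
  have e : gradSq G (fun y => f y + k y) x = gradIp G (fun y => f y + k y) f x +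
      gradIp G (fun y => f y + k y) k x := gradIp_add_right hf hk
  rw [e, gradIp_comm hG, gradIp_comm hG (f := fun y => f y + k y), gradIp_add_right hf hk,
    gradIp_add_right hf hk, gradIp_comm hG (f := k) (k := f)]
  unfold gradSq
  ring

theorem sqrt_gradSq_add_le (hG : (G x).PosDef) (hf : DifferentiableAt ℝ f x)
    (hk : DifferentiableAt ℝ k x) :
    √(gradSq G (fun y => f y + k y) x) ≤ √(gradSq G f x) + √(gradSq G k x) := by
  refine Real.sqrt_le_iff.2 ⟨by positivity, ?_⟩
  rw [gradSq_add hG hf hk]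
  have h1 := (abs_le.1 (abs_gradIp_le hG f k)).2
  have h2 := Real.sq_sqrt (gradSq_nonneg' hG f)
  have h3 := Real.sq_sqrt (gradSq_nonneg' hG k)
  nlinarith

theorem sqrt_gradSq_mul (c : ℝ) (hf : DifferentiableAt ℝ f x) :
    √(gradSq G (fun y => c * f y) x) = |c| * √(gradSq G f x) := by
  have : gradSq G (fun y => c * f y) x = c ^ 2 * gradSq G f x := by
    unfold gradSq gradIp
    have : ∀ i, H.pd i (fun y => c * f y) x = c * H.pd i f x := fun i => by
      rw [Bridge.pd_mul (differentiableAt_const c) hf, Bridge.pd_const]; ring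
    simp only [this, Finset.mul_sum]
    refine Finset.sum_congr rfl fun i _ => Finset.sum_congr rfl fun j _ => by ring
  rw [this, Real.sqrt_mul (by positivity), Real.sqrt_sq_eq_abs]

theorem gradSq_congr (e : f =ᶠ[nhds x] k) : gradSq G f x = gradSq G k x := by
  unfold gradSq gradIp H.pd
  rw [e.fderiv_eq]

/-- Leibniz -/
theorem sqrt_gradSq_mul_le (hG : (G x).PosDef) (hf : DifferentiableAt ℝ f x)
    (hk : DifferentiableAt ℝ k x) :
    √(gradSq G (fun y => f y * k y) x) ≤
      |f x| * √(gradSq G k x) + |k x| * √(gradSq G f x) := by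
  have e : ∀ i, H.pd i (fun y => f y * k y) x =
      H.pd i (fun y => f x * k y + k x * f y) x := by
    intro i
    rw [Bridge.pd_mul hf hk, Bridge.pd_add ((differentiableAt_const _).fun_mul hk)
      ((differentiableAt_const _).fun_mul hf), Bridge.pd_mul (differentiableAt_const _) hk,
      Bridge.pd_mul (differentiableAt_const _) hf, Bridge.pd_const, Bridge.pd_const]
    ring
  have e2 : gradSq G (fun y => f y * k y) x = gradSq G (fun y => f x * k y + k x * f y) x := by
    unfold gradSq gradIp; simp only [e]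
  rw [e2, ← sqrt_gradSq_mul (f x) hk, ← sqrt_gradSq_mul (k x) hf]
  exact sqrt_gradSq_add_le hG ((differentiableAt_const _).fun_mul hk)
    ((differentiableAt_const _).fun_mul hf)

theorem sqrt_gradSq_sum_le {ι : Type} (hG : (G x).PosDef) (s : Finset ι) (F : ι → E n → ℝ)
    (hF : ∀ i ∈ s, DifferentiableAt ℝ (F i) x) :
    √(gradSq G (fun y => ∑ i ∈ s, F i y) x) ≤ ∑ i ∈ s, √(gradSq G (F i) x) := by
  classical
  induction s using Finset.induction_on with
  | empty =>
    simp only [Finset.sum_empty]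
    have : gradSq G (fun _ => (0 : ℝ)) x = 0 := by
      unfold gradSq; exact gradIp_const_right 0
    rw [this]; simp
  | insert a s ha ih =>
    simp only [Finset.sum_insert ha]
    refine (sqrt_gradSq_add_le hG (hF a (Finset.mem_insert_self a s)) ?_).trans ?_
    · exact DifferentiableAt.fun_sum fun i hi => hF i (Finset.mem_insert_of_mem hi)
    · exact add_le_add le_rfl (ih fun i hi => hF i (Finset.mem_insert_of_mem hi))

/-- coordinates of the differential are controlled by the gradient -/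
theorem pd_sq_le (hG : (G x).PosDef) (f : E n → ℝ) (i : Fin n) :
    H.pd i f x ^ 2 ≤ G x i i * gradSq G f x := by
  have hu : IsUnit (G x).det := hG.det_pos.ne'.isUnit
  have hs : (G x)ᵀ = G x := by
    have := hG.isHermitian
    simpa [Matrix.IsHermitian, Matrix.conjTranspose_eq_transpose_of_trivial] using this
  set p : E n := fun j => H.pd j f x with hp
  have e1 : (Pi.single i (1 : ℝ) : E n) ⬝ᵥ (G x) *ᵥ ((G x)⁻¹ *ᵥ p) = p i := by
    rw [Matrix.mulVec_mulVec, Matrix.mul_nonsing_inv _ hu, Matrix.one_mulVec]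
    simp
  have e2 : ((G x)⁻¹ *ᵥ p) ⬝ᵥ (G x) *ᵥ ((G x)⁻¹ *ᵥ p) = gradSq G f x := by
    rw [Matrix.mulVec_mulVec, Matrix.mul_nonsing_inv _ hu, Matrix.one_mulVec, dotProduct_comm,
      gradSq, gradIp_eq]
  have e3 : (Pi.single i (1 : ℝ) : E n) ⬝ᵥ (G x) *ᵥ (Pi.single i (1 : ℝ) : E n) = G x i i := by
    simp
  have := posSemidef_cs hG.posSemidef (Pi.single i (1 : ℝ) : E n) ((G x)⁻¹ *ᵥ p)
  rw [e1, e2, e3] at this
  exact this

theorem abs_pd_le (f : E n → ℝ) (x : E n) (i : Fin n) : |H.pd i f x| ≤ ‖fderiv ℝ f x‖ := by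
  unfold H.pd
  refine ((fderiv ℝ f x).le_opNorm _).trans ?_
  rw [Pi.norm_single]
  simp

/-- the gradient is controlled by the differential -/
theorem gradSq_le (f : E n → ℝ) (x : E n) :
    gradSq G f x ≤ (∑ i, ∑ j, |(G x)⁻¹ i j|) * ‖fderiv ℝ f x‖ ^ 2 := by
  unfold gradSq gradIp
  rw [Finset.sum_mul]
  refine Finset.sum_le_sum fun i _ => ?_
  rw [Finset.sum_mul]
  refine Finset.sum_le_sum fun j _ => ?_
  refine (le_abs_self _).trans ?_
  rw [abs_mul, abs_mul, mul_assoc, sq]
  exact mul_le_mul_of_nonneg_left (mul_le_mul (abs_pd_le f x i) (abs_pd_le f x j) (abs_nonneg _)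
    (norm_nonneg _)) (abs_nonneg _)

/-- the differential is controlled by its coordinates -/
theorem norm_fderiv_le (f : E n → ℝ) (x : E n) : ‖fderiv ℝ f x‖ ≤ ∑ i, |H.pd i f x| := by
  refine ContinuousLinearMap.opNorm_le_bound _ (Finset.sum_nonneg fun i _ => abs_nonneg _)
    fun v => ?_
  have : fderiv ℝ f x v = ∑ i, v i * H.pd i f x := by
    conv_lhs => rw [← Finset.univ_sum_single v]
    rw [map_sum]
    refine Finset.sum_congr rfl fun i _ => ?_
    have : (Pi.single i (v i) : E n) = v i • Pi.single i (1 : ℝ) := by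
      rw [← Pi.single_smul]; simp
    rw [this, map_smul]; rfl
  rw [this, Finset.sum_mul]
  refine (norm_sum_le _ _).trans (Finset.sum_le_sum fun i _ => ?_)
  rw [norm_mul, Real.norm_eq_abs (H.pd i f x), mul_comm]
  exact mul_le_mul_of_nonneg_left (norm_le_pi_norm v i) (abs_nonneg _)

theorem norm_fderiv_le_sqrt (hG : (G x).PosDef) (f : E n → ℝ) :
    ‖fderiv ℝ f x‖ ≤ (∑ i, √(G x i i)) * √(gradSq G f x) := by
  refine (norm_fderiv_le f x).trans ?_
  rw [Finset.sum_mul]
  refine Finset.sum_le_sum fun i _ => ?_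
  have hii : 0 ≤ G x i i := by
    have := hG.posSemidef.dotProduct_mulVec_nonneg (Pi.single i (1 : ℝ))
    simpa using this
  rw [← Real.sqrt_mul hii]
  exact Real.abs_le_sqrt (pd_sq_le hG f i)

end Vale.Agent.P223.H.Grad
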