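import Vale.Agent.P223.H.SpecT
import Vale.Agent.P223.H.Grad

/-! Block 25c : monotonicity of the integral of `(Scal⁻)^{n/2}` under the Ricci flow. -/

namespace Vale.Agent.P223.H.B25c

open scoped ContDiff Topology
open MeasureTheory Set

variable {n : ℕ}

/-! ### joint smoothness -/

section smooth

theorem cd_pd {f : ℝ → E n → ℝ} (hf : ContDiff ℝ ∞ (fun p : ℝ × E n => f p.1 p.2)) (i : Fin n) :
    ContDiff ℝ ∞ (fun p : ℝ × E n => pd i (f p.1) p.2) := by
  have e : (fun p : ℝ × E n => pd i (f p.1) p.2) = fun p : ℝ × E n =>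
      fderiv ℝ (fun q : ℝ × E n => f q.1 q.2) p (0, Pi.single i 1) := by
    funext p
    unfold pd
    have h1 : HasFDerivAt (fun q : ℝ × E n => f q.1 q.2)
        (fderiv ℝ (fun q : ℝ × E n => f q.1 q.2) (p.1, p.2)) (p.1, p.2) :=
      (hf.differentiable (by simp) _).hasFDerivAt
    have h2 : HasFDerivAt (fun y : E n => (p.1, y)) (ContinuousLinearMap.inr ℝ ℝ (E n)) p.2 :=
      hasFDerivAt_prodMk_right p.1 p.2
    have h3 := h1.comp p.2 h2
    have h4 : fderiv ℝ (f p.1) p.2 = (fderiv ℝ (fun q : ℝ × E n => f q.1 q.2) (p.1, p.2)).comp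
        (ContinuousLinearMap.inr ℝ ℝ (E n)) := h3.fderiv
    rw [h4]
    simp
  rw [e]
  exact (hf.fderiv_right (m := ∞) (by simp)).clm_apply contDiff_const

theorem cd_det {X : Type} [NormedAddCommGroup X] [NormedSpace ℝ X]
    {M : X → Matrix (Fin n) (Fin n) ℝ}
    (h : ∀ i j, ContDiff ℝ ∞ fun x => M x i j) : ContDiff ℝ ∞ fun x => (M x).det := by
  simp only [Matrix.det_apply']
  exact ContDiff.sum fun σ _ => contDiff_const.mul (contDiff_prod fun i _ => h _ _)

theorem cd_inv {X : Type} [NormedAddCommGroup X] [NormedSpace ℝ X]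
    {M : X → Matrix (Fin n) (Fin n) ℝ}
    (h : ∀ i j, ContDiff ℝ ∞ fun x => M x i j) (h0 : ∀ x, (M x).det ≠ 0) (i j : Fin n) :
    ContDiff ℝ ∞ fun x => (M x)⁻¹ i j := by
  have e : (fun x => (M x)⁻¹ i j) = fun x => ((M x).det)⁻¹ * (M x).adjugate i j := by
    funext x
    rw [Matrix.inv_def, Ring.inverse_eq_inv', Matrix.smul_apply, smul_eq_mul]
  rw [e]
  refine (ContDiff.inv (cd_det h) h0).mul ?_
  simp only [Matrix.adjugate_apply]
  refine cd_det fun k l => ?_
  by_cases hk : k = j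
  · subst hk
    simp only [Matrix.updateRow_self]
    exact contDiff_const
  · simp only [Matrix.updateRow_ne hk]
    exact h k l

variable {G : ℝ → E n → Matrix (Fin n) (Fin n) ℝ}
  (hs : ∀ i j, ContDiff ℝ ∞ (fun p : ℝ × E n => G p.1 p.2 i j))
  (hp : ∀ t x, (G t x).PosDef)
include hs hp

theorem cd_G_inv (i j : Fin n) : ContDiff ℝ ∞ (fun p : ℝ × E n => (G p.1 p.2)⁻¹ i j) :=
  cd_inv (M := fun p : ℝ × E n => G p.1 p.2) hs (fun p => (hp p.1 p.2).det_pos.ne') i j

theorem cd_dens : ContDiff ℝ ∞ (fun p : ℝ × E n => dens (G p.1) p.2) := by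
  unfold dens
  exact (cd_det (M := fun p : ℝ × E n => G p.1 p.2) hs).sqrt
    fun p => (hp p.1 p.2).det_pos.ne'

theorem cd_chr (k i j : Fin n) : ContDiff ℝ ∞ (fun p : ℝ × E n => chr (G p.1) p.2 k i j) := by
  unfold chr
  refine contDiff_const.mul (ContDiff.sum fun l _ => (cd_G_inv hs hp k l).mul ?_)
  exact ((cd_pd (f := fun t y => G t y j l) (hs j l) i).add
    (cd_pd (f := fun t y => G t y i l) (hs i l) j)).sub
    (cd_pd (f := fun t y => G t y i j) (hs i j) l)

theorem cd_ric (i j : Fin n) : ContDiff ℝ ∞ (fun p : ℝ × E n => ric (G p.1) p.2 i j) := by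
  unfold ric
  refine (ContDiff.sum fun k _ => ?_).add (ContDiff.sum fun k _ => ContDiff.sum fun l _ => ?_)
  · exact (cd_pd (f := fun t y => chr (G t) y k i j) (cd_chr hs hp k i j) k).sub
      (cd_pd (f := fun t y => chr (G t) y k i k) (cd_chr hs hp k i k) j)
  · exact ((cd_chr hs hp k k l).mul (cd_chr hs hp l i j)).sub
      ((cd_chr hs hp k j l).mul (cd_chr hs hp l i k))

theorem cd_scal : ContDiff ℝ ∞ (fun p : ℝ × E n => scal (G p.1) p.2) := by
  unfold scal
  exact ContDiff.sum fun i _ => ContDiff.sum fun j _ => (cd_G_inv hs hp i j).mul (cd_ric hs hp i j)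

omit hs hp in
theorem cd_at {f : ℝ → E n → ℝ} (hf : ContDiff ℝ ∞ (fun p : ℝ × E n => f p.1 p.2)) (t : ℝ) :
    ContDiff ℝ ∞ (f t) := by
  have h1 : ContDiff ℝ ∞ (fun x : E n => ((t, x) : ℝ × E n)) :=
    ContDiff.prodMk contDiff_const contDiff_id
  exact hf.comp h1

end smooth

/-! ### the regularised power -/

section power

/-- `√(u² + η²)` -/
noncomputable def rr (η u : ℝ) : ℝ := √(u ^ 2 + η ^ 2)

/-- smooth version of the negative part -/
noncomputable def hh (η u : ℝ) : ℝ := (rr η u - u) / 2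

/-- smooth version of `(u⁻)^p` -/
noncomputable def FF (p η u : ℝ) : ℝ := hh η u ^ p

noncomputable def F1 (p η u : ℝ) : ℝ := -(p * FF p η u / rr η u)

noncomputable def F2 (p η u : ℝ) : ℝ := p * FF p η u * (p * rr η u + u) / rr η u ^ 3

variable {p η : ℝ}

theorem rr_sq (u : ℝ) : rr η u ^ 2 = u ^ 2 + η ^ 2 := Real.sq_sqrt (by positivity)

theorem rr_pos (hη : 0 < η) (u : ℝ) : 0 < rr η u := Real.sqrt_pos.2 (by positivity)

theorem abs_lt_rr (hη : 0 < η) (u : ℝ) : |u| < rr η u := by
  refine abs_lt_of_sq_lt_sq ?_ (rr_pos hη u).le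
  rw [rr_sq]
  have : 0 < η ^ 2 := by positivity
  linarith

theorem eta_le_rr (hη : 0 < η) (u : ℝ) : η ≤ rr η u := by
  refine le_of_sq_le_sq ?_ (rr_pos hη u).le
  rw [rr_sq]
  have : 0 ≤ u ^ 2 := sq_nonneg u
  linarith

theorem rr_le (hη : 0 < η) (u : ℝ) : rr η u ≤ |u| + η := by
  refine le_of_sq_le_sq ?_ (by positivity)
  rw [rr_sq]
  have h1 : 0 ≤ |u| * η := by positivity
  have h2 : |u| ^ 2 = u ^ 2 := sq_abs u
  nlinarith

theorem hh_pos (hη : 0 < η) (u : ℝ) : 0 < hh η u := by
  have := abs_lt_rr hη u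
  have := le_abs_self u
  unfold hh; linarith

theorem le_hh (hη : 0 < η) (u : ℝ) : max 0 (-u) ≤ hh η u := by
  have h1 := abs_lt_rr hη u
  have h2 := neg_le_abs u
  refine max_le (hh_pos hη u).le ?_
  unfold hh; linarith

theorem hh_le (hη : 0 < η) (u : ℝ) : hh η u ≤ max 0 (-u) + η := by
  have h1 := rr_le hη u
  unfold hh
  rcases le_total 0 u with h | h
  · rw [abs_of_nonneg h] at h1
    have := le_max_left 0 (-u)
    linarith
  · rw [abs_of_nonpos h] at h1
    have := le_max_right 0 (-u)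
    linarith

theorem FF_nonneg (hη : 0 < η) (u : ℝ) : 0 ≤ FF p η u := Real.rpow_nonneg (hh_pos hη u).le p

theorem rr_cd (hη : 0 < η) : ContDiff ℝ ∞ (rr η) := by
  unfold rr
  refine ContDiff.sqrt (by fun_prop) fun u => ?_
  positivity

theorem hh_cd (hη : 0 < η) : ContDiff ℝ ∞ (hh η) := by
  unfold hh
  exact ((rr_cd hη).sub contDiff_id).div_const 2

theorem FF_cd (hη : 0 < η) : ContDiff ℝ ∞ (FF p η) := by
  unfold FF
  exact (hh_cd hη).rpow_const_of_ne fun u => (hh_pos hη u).ne'

theorem rr_deriv (hη : 0 < η) (u : ℝ) : HasDerivAt (rr η) (u / rr η u) u := by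
  unfold rr
  have h1 : HasDerivAt (fun u : ℝ => u ^ 2 + η ^ 2) (2 * u) u := by
    simpa using ((hasDerivAt_id u).pow 2).add_const (η ^ 2)
  have h2 := h1.sqrt (by positivity)
  have e : 2 * u / (2 * √(u ^ 2 + η ^ 2)) = u / √(u ^ 2 + η ^ 2) := by
    rw [mul_div_mul_left _ _ two_ne_zero]
  rw [e] at h2
  exact h2

theorem hh_deriv (hη : 0 < η) (u : ℝ) : HasDerivAt (hh η) (-(hh η u / rr η u)) u := by
  have h1 := ((rr_deriv hη u).sub (hasDerivAt_id u)).div_const 2
  have e : (u / rr η u - 1) / 2 = -(hh η u / rr η u) := by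
    have := (rr_pos hη u).ne'
    unfold hh
    field_simp
    ring
  rw [e] at h1
  exact h1

theorem FF_deriv (hη : 0 < η) (u : ℝ) : HasDerivAt (FF p η) (F1 p η u) u := by
  have h1 := (hh_deriv hη u).rpow_const (p := p) (Or.inl (hh_pos hη u).ne')
  have e : -(hh η u / rr η u) * p * hh η u ^ (p - 1) = F1 p η u := by
    unfold F1 FF
    rw [Real.rpow_sub (hh_pos hη u), Real.rpow_one]
    have h2 := (rr_pos hη u).ne'
    have h3 := (hh_pos hη u).ne'
    field_simp
  rw [e] at h1
  exact h1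

theorem F1_deriv (hη : 0 < η) (u : ℝ) : HasDerivAt (F1 p η) (F2 p η u) u := by
  have h1 := (((FF_deriv (p := p) hη u).const_mul p).div (rr_deriv hη u) (rr_pos hη u).ne').neg
  have e : -((p * F1 p η u * rr η u - p * FF p η u * (u / rr η u)) / rr η u ^ 2) = F2 p η u := by
    unfold F1 F2
    have h2 := (rr_pos hη u).ne'
    field_simp
    ring
  rw [e] at h1
  exact h1

theorem F1_nonpos (hη : 0 < η) (hp : 0 ≤ p) (u : ℝ) : F1 p η u ≤ 0 := by
  unfold F1
  have := FF_nonneg (p := p) hη u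
  have := rr_pos hη u
  have : 0 ≤ p * FF p η u / rr η u := by positivity
  linarith

theorem F2_nonneg (hη : 0 < η) (hp : 1 ≤ p) (u : ℝ) : 0 ≤ F2 p η u := by
  unfold F2
  have h1 := FF_nonneg (p := p) hη u
  have h2 := rr_pos hη u
  have h3 := abs_lt_rr hη u
  have h4 := neg_abs_le u
  have h5 : rr η u ≤ p * rr η u := by nlinarith
  have h6 : 0 ≤ p * rr η u + u := by linarith
  have h7 : 0 ≤ p := by linarith
  positivity

/-- the algebraic heart -/
theorem key (hη : 0 < η) {N : ℝ} (hN : 0 < N) (hp : p = N / 2) (u L S g : ℝ)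
    (hp1 : 1 ≤ p) (hS : u ^ 2 ≤ N * S) (hg : 0 ≤ g) :
    F1 p η u * (L + 2 * S) + FF p η u * (-u) ≤
      (F1 p η u * L + F2 p η u * g) + η * FF p η u := by
  have h1 := FF_nonneg (p := p) hη u
  have h2 := rr_pos hη u
  have h3 := mul_nonneg (F2_nonneg (p := p) hη hp1 u) hg
  have h4 : F1 p η u * (2 * S) ≤ -(FF p η u * (u ^ 2 / rr η u)) := by
    have h5 : F1 p η u * (2 * S) = -(FF p η u * ((N * S) / rr η u)) := by
      unfold F1; rw [hp]; field_simp
    rw [h5]
    refine neg_le_neg (mul_le_mul_of_nonneg_left ?_ h1)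
    gcongr
  have h6 : -(FF p η u * (u ^ 2 / rr η u)) + FF p η u * (-u) ≤ η * FF p η u := by
    have h7 : -(u ^ 2 / rr η u) - u ≤ η := by
      have h8 : -(u ^ 2 / rr η u) - u = -(u * (u + rr η u)) / rr η u := by
        field_simp; ring
      rw [h8, div_le_iff₀ h2]
      have h9 := abs_lt_rr hη u
      have h10 := neg_abs_le u
      have h11 := le_abs_self u
      have h12 := rr_sq (η := η) u
      have h13 := eta_le_rr hη u
      rcases le_total 0 u with h | h
      · have : 0 ≤ u * (u + rr η u) := by positivity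
        have : 0 ≤ η * rr η u := by positivity
        linarith
      · -- (r+u)(r-u) = η², r - u ≥ r
        have h14 : (rr η u + u) * (rr η u - u) = η ^ 2 := by nlinarith
        have h15 : 0 ≤ rr η u + u := by linarith
        have h16 : (rr η u + u) * rr η u ≤ η ^ 2 := by nlinarith
        have h17 : (rr η u + u) * rr η u ≤ η * rr η u := by nlinarith
        have h18 : rr η u + u ≤ η := le_of_mul_le_mul_right h17 h2
        have h19 : -u ≤ rr η u := by linarith
        nlinarith
    nlinarith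
  linarith

end power

/-! ### chain rule for the Laplacian -/

theorem lap_comp {G : E n → Matrix (Fin n) (Fin n) ℝ} {u : E n → ℝ} (hu : ContDiff ℝ 2 u)
    {φ φ' φ'' : ℝ → ℝ} (h1 : ∀ s, HasDerivAt φ (φ' s) s) (h2 : ∀ s, HasDerivAt φ' (φ'' s) s)
    (x : E n) : lap G (fun y => φ (u y)) x = φ' (u x) * lap G u x + φ'' (u x) * gradSq G u x := by
  have hd : Differentiable ℝ u := hu.differentiable (by simp)
  have hpd : ∀ j, DifferentiableAt ℝ (fun y => pd j u y) x := fun j =>
    (Bridge.contDiff_pd hu (k := 1) (by norm_num) j).differentiable one_ne_zero x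
  have e1 : ∀ j y, pd j (fun y => φ (u y)) y = φ' (u y) * pd j u y := fun j y =>
    Grad.pd_comp_real (h1 (u y)) (hd y) j
  have e2 : ∀ i j, pd i (fun y => φ' (u y) * pd j u y) x =
      φ'' (u x) * pd i u x * pd j u x + φ' (u x) * pd i (fun y => pd j u y) x := by
    intro i j
    have h3 : DifferentiableAt ℝ (fun y => φ' (u y)) x :=
      (h2 (u x)).differentiableAt.comp x (hd x)
    rw [show pd i (fun y => φ' (u y) * pd j u y) x = pd i (fun y => φ' (u y)) x * pd j u x +
      φ' (u x) * pd i (fun y => pd j u y) x from Bridge.pd_mul h3 (hpd j)]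
    rw [show pd i (fun y => φ' (u y)) x = φ'' (u x) * pd i u x from
      Grad.pd_comp_real (h2 (u x)) (hd x) i]
  unfold lap gradSq gradIp
  simp only [e1, e2, Finset.mul_sum, ← Finset.sum_add_distrib, mul_sub, mul_add]
  refine Finset.sum_congr rfl fun i _ => Finset.sum_congr rfl fun j _ => ?_
  have e3 : ∑ k, (G x)⁻¹ i j * (chr G x k i j * (φ' (u x) * pd k u x)) =
      ∑ k, φ' (u x) * ((G x)⁻¹ i j * (chr G x k i j * pd k u x)) :=
    Finset.sum_congr rfl fun k _ => by ring
  rw [e3]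
  ring

/-! ### differentiation of an integral over a bounded set -/

theorem intOn {D : Set (E n)} (hDb : Bornology.IsBounded D) {f : E n → ℝ} (hf : Continuous f) :
    IntegrableOn f D := by
  obtain ⟨R, hR⟩ := hDb.subset_closedBall (0 : E n)
  have h1 : IntegrableOn f (Metric.closedBall (0 : E n) R) :=
    hf.continuousOn.integrableOn_compact (isCompact_closedBall 0 R)
  exact h1.mono_set hR

theorem integral_deriv {K : ℝ → E n → ℝ} (hK : ContDiff ℝ ∞ (fun p : ℝ × E n => K p.1 p.2))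
    {D : Set (E n)} (hDb : Bornology.IsBounded D) (t : ℝ) :
    IntegrableOn (K t) D ∧ IntegrableOn (fun x => deriv (fun s => K s x) t) D ∧
    HasDerivAt (fun s => ∫ x in D, K s x) (∫ x in D, deriv (fun s => K s x) t) t := by
  have hKd : ∀ s x, HasDerivAt (fun s => K s x)
      (fderiv ℝ (fun q : ℝ × E n => K q.1 q.2) (s, x) (1, 0)) s := by
    intro s x
    have h1 : HasFDerivAt (fun q : ℝ × E n => K q.1 q.2)
        (fderiv ℝ (fun q : ℝ × E n => K q.1 q.2) (s, x)) (s, x) :=
      (hK.differentiable (by simp) _).hasFDerivAt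
    have h2 : HasDerivAt (fun s : ℝ => (s, x)) ((1 : ℝ), (0 : E n)) s :=
      (hasDerivAt_id s).prodMk (hasDerivAt_const s x)
    exact h1.comp_hasDerivAt s h2
  have hde : ∀ s x, deriv (fun s => K s x) s =
      fderiv ℝ (fun q : ℝ × E n => K q.1 q.2) (s, x) (1, 0) := fun s x => (hKd s x).deriv
  have hcont : Continuous (fun p : ℝ × E n => deriv (fun s => K s p.2) p.1) := by
    have : (fun p : ℝ × E n => deriv (fun s => K s p.2) p.1) = fun p : ℝ × E n =>
        fderiv ℝ (fun q : ℝ × E n => K q.1 q.2) p (1, 0) := by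
      funext p; exact hde p.1 p.2
    rw [this]
    exact (hK.continuous_fderiv (by simp)).clm_apply continuous_const
  obtain ⟨R, hR⟩ := hDb.subset_closedBall (0 : E n)
  have hcpt : IsCompact (Icc (t - 1) (t + 1) ×ˢ Metric.closedBall (0 : E n) R) :=
    isCompact_Icc.prod (isCompact_closedBall 0 R)
  obtain ⟨C, hC⟩ := hcpt.exists_bound_of_continuousOn hcont.continuousOn
  have hfin : volume D < ⊤ := hDb.measure_lt_top
  have : IsFiniteMeasure (volume.restrict D) := ⟨by simpa using hfin⟩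
  have hint : ∀ {f : E n → ℝ}, Continuous f → IntegrableOn f D := fun hf => intOn hDb hf
  have hKc : ∀ s, Continuous (K s) := fun s =>
    hK.continuous.comp (Continuous.prodMk (continuous_const (y := s)) continuous_id)
  have hdc : Continuous (fun x => deriv (fun s => K s x) t) :=
    hcont.comp (Continuous.prodMk (continuous_const (y := t)) continuous_id)
  refine ⟨hint (hKc t), hint hdc, ?_⟩
  have hmem : Icc (t - 1) (t + 1) ∈ 𝓝 t := Icc_mem_nhds (by linarith) (by linarith)
  have := hasDerivAt_integral_of_dominated_loc_of_deriv_le (μ := volume.restrict D)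
    (F := K) (F' := fun s x => deriv (fun s => K s x) s) (x₀ := t) (bound := fun _ => C) hmem
    (Filter.Eventually.of_forall fun s => (hKc s).aestronglyMeasurable) (hint (hKc t))
    (hdc.aestronglyMeasurable) ?_ (integrable_const C) ?_
  · exact this.2
  · have hae : ∀ᵐ x ∂(volume.restrict D), x ∈ Metric.closedBall (0 : E n) R := by
      have h1 : volume.restrict D ≤ volume.restrict (Metric.closedBall (0 : E n) R) :=
        Measure.restrict_mono hR le_rfl
      exact ae_mono h1 (ae_restrict_mem measurableSet_closedBall)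
    filter_upwards [hae] with x hx s hs
    exact hC (s, x) ⟨hs, hx⟩
  · refine Filter.Eventually.of_forall fun x s _ => ?_
    show HasDerivAt (fun s => K s x) (deriv (fun s => K s x) s) s
    rw [hde s x]
    exact hKd s x

/-! ### the monotonicity -/

section mono

variable {G : ℝ → E n → Matrix (Fin n) (Fin n) ℝ}

/-- pointwise inequality -/
theorem pt_le (hs : ∀ i j, ContDiff ℝ ∞ (fun p : ℝ × E n => G p.1 p.2 i j))
    (hp : ∀ t x, (G t x).PosDef) {p η τ : ℝ} (hη : 0 < η) (hn0 : (0 : ℝ) < n)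
    (hpn : p = (n : ℝ) / 2) (hp1 : 1 ≤ p) (x : E n)
    (d1 : HasDerivAt (fun s => scal (G s) x)
      (lap (G τ) (fun y => scal (G τ) y) x + 2 * ricSq (G τ) x) τ)
    (d2 : HasDerivAt (fun s => dens (G s) x) (-scal (G τ) x * dens (G τ) x) τ)
    (d3 : scal (G τ) x ^ 2 ≤ n * ricSq (G τ) x) :
    deriv (fun s => FF p η (scal (G s) x) * dens (G s) x) τ ≤
      lap (G τ) (fun x => FF p η (scal (G τ) x)) x * dens (G τ) x +
        η * (FF p η (scal (G τ) x) * dens (G τ) x) := by
  have hcs : ContDiff ℝ ∞ (fun x => scal (G τ) x) :=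
    cd_at (f := fun t x => scal (G t) x) (cd_scal hs hp) τ
  have hdpos : 0 < dens (G τ) x := Real.sqrt_pos.2 (hp τ x).det_pos
  have d4 : HasDerivAt (fun s => FF p η (scal (G s) x))
      (F1 p η (scal (G τ) x) * (lap (G τ) (fun y => scal (G τ) y) x + 2 * ricSq (G τ) x)) τ :=
    HasDerivAt.comp (h₂ := FF p η) (h := fun s => scal (G s) x) τ
      (FF_deriv hη (scal (G τ) x)) d1
  have d5 : HasDerivAt (fun s => FF p η (scal (G s) x) * dens (G s) x)
      (F1 p η (scal (G τ) x) * (lap (G τ) (fun y => scal (G τ) y) x + 2 * ricSq (G τ) x) *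
        dens (G τ) x + FF p η (scal (G τ) x) * (-scal (G τ) x * dens (G τ) x)) τ := d4.mul d2
  rw [d5.deriv]
  rw [lap_comp (contDiff_infty.1 hcs 2) (fun s => FF_deriv hη s) (fun s => F1_deriv hη s) x]
  have hk := key hη hn0 hpn (scal (G τ) x) (lap (G τ) (fun y => scal (G τ) y) x)
    (ricSq (G τ) x) (gradSq (G τ) (fun y => scal (G τ) y) x) hp1 d3
    (Grad.gradSq_nonneg' (hp τ x) _)
  have hk2 := mul_le_mul_of_nonneg_right hk hdpos.le
  calc _ = (F1 p η (scal (G τ) x) *
        (lap (G τ) (fun y => scal (G τ) y) x + 2 * ricSq (G τ) x) +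
        FF p η (scal (G τ) x) * (-scal (G τ) x)) * dens (G τ) x := by ring
    _ ≤ _ := hk2
    _ = _ := by ring

theorem cd_K (hs : ∀ i j, ContDiff ℝ ∞ (fun p : ℝ × E n => G p.1 p.2 i j))
    (hp : ∀ t x, (G t x).PosDef) {p η : ℝ} (hη : 0 < η) :
    ContDiff ℝ ∞ (fun q : ℝ × E n => FF p η (scal (G q.1) q.2) * dens (G q.1) q.2) :=
  ((FF_cd hη).comp (cd_scal hs hp)).mul (cd_dens hs hp)

theorem cd_L (hs : ∀ i j, ContDiff ℝ ∞ (fun p : ℝ × E n => G p.1 p.2 i j))
    (hp : ∀ t x, (G t x).PosDef) {p η : ℝ} (hη : 0 < η) :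
    ContDiff ℝ ∞ (fun q : ℝ × E n =>
      lap (G q.1) (fun x => FF p η (scal (G q.1) x)) q.2 * dens (G q.1) q.2) := by
  have hf : ContDiff ℝ ∞ (fun q : ℝ × E n =>
    (fun t x => FF p η (scal (G t) x)) q.1 q.2) := (FF_cd hη).comp (cd_scal hs hp)
  refine ContDiff.mul ?_ (cd_dens hs hp)
  unfold lap
  refine ContDiff.sum fun i _ => ContDiff.sum fun j _ => (cd_G_inv hs hp i j).mul ?_
  refine (cd_pd (f := fun t y => pd j (fun x => FF p η (scal (G t) x)) y)
    (cd_pd (f := fun t x => FF p η (scal (G t) x)) hf j) i).sub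
    (ContDiff.sum fun k _ => (cd_chr hs hp k i j).mul
      (cd_pd (f := fun t x => FF p η (scal (G t) x)) hf k))

/-- integrated inequality -/
theorem der_le (hs : ∀ i j, ContDiff ℝ ∞ (fun p : ℝ × E n => G p.1 p.2 i j))
    (hp : ∀ t x, (G t x).PosDef) {p η τ : ℝ} (hη : 0 < η) {D : Set (E n)}
    (hDb : Bornology.IsBounded D)
    (hpt : ∀ x, deriv (fun s => FF p η (scal (G s) x) * dens (G s) x) τ ≤
      lap (G τ) (fun x => FF p η (scal (G τ) x)) x * dens (G τ) x +
        η * (FF p η (scal (G τ) x) * dens (G τ) x))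
    (hL0 : ∫ x in D, lap (G τ) (fun x => FF p η (scal (G τ) x)) x * dens (G τ) x = 0) :
    ∫ x in D, deriv (fun s => FF p η (scal (G s) x) * dens (G s) x) τ ≤
      η * ∫ x in D, FF p η (scal (G τ) x) * dens (G τ) x := by
  obtain ⟨i1, i2, -⟩ := integral_deriv
    (K := fun t x => FF p η (scal (G t) x) * dens (G t) x) (cd_K hs hp hη) hDb τ
  have i3 : IntegrableOn (fun x => lap (G τ) (fun x => FF p η (scal (G τ) x)) x *
      dens (G τ) x) D :=
    (integral_deriv (K := fun t x => lap (G t) (fun x => FF p η (scal (G t) x)) x *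
      dens (G t) x) (cd_L hs hp hη) hDb τ).1
  have i4 : IntegrableOn (fun x => η * (FF p η (scal (G τ) x) * dens (G τ) x)) D :=
    i1.const_mul η
  have h1 : ∫ x in D, deriv (fun s => FF p η (scal (G s) x) * dens (G s) x) τ ≤
      ∫ x in D, (lap (G τ) (fun x => FF p η (scal (G τ) x)) x * dens (G τ) x +
        η * (FF p η (scal (G τ) x) * dens (G τ) x)) :=
    integral_mono i2 (i3.add i4) hpt
  refine h1.trans (le_of_eq ?_)
  rw [integral_add i3 i4, hL0, zero_add, integral_const_mul]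

/-- Gronwall -/
theorem gronwall {I I' : ℝ → ℝ} {η s t : ℝ} (hI : ∀ τ, HasDerivAt I (I' τ) τ)
    (h : ∀ τ, s < τ → I' τ ≤ η * I τ) (hst : s ≤ t) :
    I t ≤ Real.exp (η * (t - s)) * I s := by
  have hJ : ∀ τ, HasDerivAt (fun τ => Real.exp (-η * τ) * I τ)
      (Real.exp (-η * τ) * (-η) * I τ + Real.exp (-η * τ) * I' τ) τ := by
    intro τ
    have h1 : HasDerivAt (fun τ => Real.exp (-η * τ)) (Real.exp (-η * τ) * (-η)) τ := by
      have := ((hasDerivAt_id τ).const_mul (-η)).exp
      simpa using this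
    exact h1.mul (hI τ)
  have hanti : AntitoneOn (fun τ => Real.exp (-η * τ) * I τ) (Icc s t) := by
    refine antitoneOn_of_deriv_nonpos (convex_Icc s t)
      (fun τ _ => (hJ τ).continuousAt.continuousWithinAt)
      (fun τ _ => (hJ τ).differentiableAt.differentiableWithinAt) ?_
    intro τ hτ
    rw [interior_Icc] at hτ
    rw [(hJ τ).deriv]
    have h2 := h τ hτ.1
    have h3 := Real.exp_pos (-η * τ)
    nlinarith
  have h4 := hanti (left_mem_Icc.2 hst) (right_mem_Icc.2 hst) hst
  have h5 : Real.exp (-η * t) * I t ≤ Real.exp (-η * s) * I s := h4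
  have h6 := mul_le_mul_of_nonneg_left h5 (Real.exp_pos (η * t)).le
  rw [← mul_assoc, ← mul_assoc, ← Real.exp_add, ← Real.exp_add] at h6
  have e1 : η * t + -η * t = 0 := by ring
  have e2 : η * t + -η * s = η * (t - s) := by ring
  rw [e1, e2, Real.exp_zero, one_mul] at h6
  exact h6

/-- the limit `η → 0` -/
theorem lim {S d : E n → ℝ} (hcs : Continuous S) (hcd : Continuous d) (hd : ∀ x, 0 < d x)
    {D : Set (E n)} (hDb : Bornology.IsBounded D) {p : ℝ} (hp0 : 0 < p) :
    Filter.Tendsto (fun k : ℕ => ∫ x in D, FF p (1 / ((k : ℝ) + 1)) (S x) * d x) Filter.atTop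
      (𝓝 (∫ x in D, max 0 (-S x) ^ p * d x)) := by
  have hca : Continuous (fun x => max 0 (-S x)) := continuous_const.max hcs.neg
  have hηk : ∀ k : ℕ, (0 : ℝ) < 1 / ((k : ℝ) + 1) := fun k => by positivity
  refine tendsto_integral_of_dominated_convergence
    (fun x => (max 0 (-S x) + 1) ^ p * d x) ?_ ?_ ?_ ?_
  · intro k
    exact (((FF_cd (hηk k)).continuous.comp hcs).mul hcd).aestronglyMeasurable
  · refine intOn hDb (Continuous.mul ?_ hcd)
    exact (hca.add continuous_const).rpow_const fun x => Or.inr hp0.le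
  · intro k
    refine Filter.Eventually.of_forall fun x => ?_
    have h1 := FF_nonneg (p := p) (hηk k) (S x)
    have h2 := hd x
    rw [Real.norm_of_nonneg (by positivity)]
    refine mul_le_mul_of_nonneg_right ?_ h2.le
    refine Real.rpow_le_rpow (hh_pos (hηk k) _).le ?_ hp0.le
    refine (hh_le (hηk k) _).trans ?_
    have h3 : 1 / ((k : ℝ) + 1) ≤ 1 := by
      rw [div_le_one (by positivity)]
      have : (0 : ℝ) ≤ k := Nat.cast_nonneg k
      linarith
    linarith
  · refine Filter.Eventually.of_forall fun x => ?_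
    refine Filter.Tendsto.mul ?_ tendsto_const_nhds
    have h1 : Filter.Tendsto (fun k : ℕ => hh (1 / ((k : ℝ) + 1)) (S x)) Filter.atTop
        (𝓝 (max 0 (-S x))) := by
      refine tendsto_of_tendsto_of_tendsto_of_le_of_le tendsto_const_nhds ?_
        (fun k => le_hh (hηk k) _) (fun k => hh_le (hηk k) _)
      have := (tendsto_one_div_add_atTop_nhds_zero_nat (𝕜 := ℝ)).const_add (max 0 (-S x))
      simpa using this
    exact h1.rpow_const (Or.inr hp0.le)

end mono

theorem int_eq {G : E n → Matrix (Fin n) (Fin n) ℝ} (hcs : Continuous (scal G))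
    (hcd : Continuous (dens G)) (hd : ∀ x, 0 < dens G x) {D : Set (E n)}
    (hDb : Bornology.IsBounded D) {p : ℝ} (hp0 : 0 < p) :
    int G D (fun x => max 0 (-scal G x) ^ p) =
      ENNReal.ofReal (∫ x in D, max 0 (-scal G x) ^ p * dens G x) := by
  unfold int
  rw [ofReal_integral_eq_lintegral_ofReal]
  · refine intOn hDb (Continuous.mul ?_ hcd)
    exact (continuous_const.max hcs.neg).rpow_const fun x => Or.inr hp0.le
  · refine Filter.Eventually.of_forall fun x => ?_
    have h1 := hd x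
    show (0 : ℝ) ≤ max 0 (-scal G x) ^ p * dens G x
    positivity

theorem int_le {G : E n → Matrix (Fin n) (Fin n) ℝ} (hcs : Continuous (scal G))
    (hcd : Continuous (dens G)) (hd : ∀ x, 0 < dens G x) {D : Set (E n)}
    (hDb : Bornology.IsBounded D) {p : ℝ} (hp0 : 0 < p) {η : ℝ} (hη : 0 < η) :
    int G D (fun x => max 0 (-scal G x) ^ p) ≤
      ENNReal.ofReal (∫ x in D, FF p η (scal G x) * dens G x) := by
  rw [ofReal_integral_eq_lintegral_ofReal]
  · unfold int
    refine lintegral_mono fun x => ENNReal.ofReal_le_ofReal ?_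
    refine mul_le_mul_of_nonneg_right ?_ (hd x).le
    exact Real.rpow_le_rpow (le_max_left _ _) (le_hh hη _) hp0.le
  · exact intOn hDb (((FF_cd hη).continuous.comp hcs).mul hcd)
  · refine Filter.Eventually.of_forall fun x => ?_
    have h2 := FF_nonneg (p := p) hη (scal G x)
    have h3 := hd x
    show (0 : ℝ) ≤ FF p η (scal G x) * dens G x
    positivity

/-- Block 25c -/
theorem main (hE : SpecEvol) (hL : SpecLapInt) : SpecMono := by
  intro n Γ _ _ G hn h hF t₀ hflow D hD hDb hD' s t hs₀ hst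
  have hs := hF.smooth
  have hpos : ∀ t x, (G t x).PosDef := fun t x => (hF.met t).pos x
  have hn3 : (3 : ℝ) ≤ n := by exact_mod_cast hn
  have hn0 : (0 : ℝ) < n := by linarith
  obtain ⟨p, hp⟩ : ∃ p : ℝ, p = (n : ℝ) / 2 := ⟨_, rfl⟩
  rw [← hp]
  have hp1 : 1 ≤ p := by rw [hp]; linarith
  have hp0 : 0 < p := by linarith
  have hsc := cd_scal hs hpos
  have hde := cd_dens hs hpos
  have hdpos : ∀ t x, 0 < dens (G t) x := fun t x => Real.sqrt_pos.2 (hpos t x).det_pos
  have hcs : ∀ t, ContDiff ℝ ∞ (scal (G t)) := fun t =>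
    cd_at (f := fun t x => scal (G t) x) hsc t
  have hcd : ∀ t, ContDiff ℝ ∞ (dens (G t)) := fun t =>
    cd_at (f := fun t x => dens (G t) x) hde t
  -- derivative inequality
  have hder : ∀ η : ℝ, 0 < η → ∀ τ : ℝ, s < τ →
      ∫ x in D, deriv (fun s => FF p η (scal (G s) x) * dens (G s) x) τ ≤
        η * ∫ x in D, FF p η (scal (G τ) x) * dens (G τ) x := by
    intro η hη τ hτ
    have hcf : ContDiff ℝ ∞ (fun x => FF p η (scal (G τ) x)) := (FF_cd hη).comp (hcs τ)
    have hL0 := hL n Γ (G τ) h (hF.met τ) (fun x => FF p η (scal (G τ) x)) hcf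
      (fun γ x => by
        show FF p η (scal (G τ) (γ • x)) = FF p η (scal (G τ) x)
        rw [Bridge.scal_inv h (hF.met τ) γ x]) D hD hDb hD'
    refine der_le hs hpos hη hDb (fun x => ?_) hL0
    obtain ⟨d1, d2, d3⟩ := hE n G hs hpos τ (hflow τ (lt_of_le_of_lt hs₀ hτ)) x
    exact pt_le hs hpos hη hn0 hp hp1 x d1 d2 d3
  have hmono : ∀ η : ℝ, 0 < η → ∫ x in D, FF p η (scal (G t) x) * dens (G t) x ≤
      Real.exp (η * (t - s)) * ∫ x in D, FF p η (scal (G s) x) * dens (G s) x := fun η hη =>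
    gronwall (fun τ => (integral_deriv (K := fun t x => FF p η (scal (G t) x) * dens (G t) x)
      (cd_K hs hpos hη) hDb τ).2.2) (hder η hη) hst
  -- the limit
  have hlim := lim (hcs s).continuous (hcd s).continuous (hdpos s) hDb hp0
  have hexp : Filter.Tendsto (fun k : ℕ => Real.exp (1 / ((k : ℝ) + 1) * (t - s)))
      Filter.atTop (𝓝 1) := by
    have h1 := ((tendsto_one_div_add_atTop_nhds_zero_nat (𝕜 := ℝ)).mul_const (t - s))
    rw [zero_mul] at h1
    have h2 := (Real.continuous_exp.tendsto 0).comp h1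
    rw [Real.exp_zero] at h2
    exact h2
  have hprod := hexp.mul hlim
  rw [one_mul] at hprod
  have hofr := (ENNReal.continuous_ofReal.tendsto _).comp hprod
  rw [int_eq (hcs s).continuous (hcd s).continuous (hdpos s) hDb hp0]
  refine ge_of_tendsto' hofr fun k => ?_
  have hη : (0 : ℝ) < 1 / ((k : ℝ) + 1) := by positivity
  exact (int_le (hcs t).continuous (hcd t).continuous (hdpos t) hDb hp0 hη).trans
    (ENNReal.ofReal_le_ofReal (hmono _ hη))

end Vale.Agent.P223.H.B25c
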