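import Vale.Agent.P223.H.Grad

/-! Block 3c: the jet norm controls the Riemannian quantities. -/

namespace Vale.Agent.P223.H.B3c

open scoped ContDiff
open Common

variable {n : ℕ} {Γ : Type} [Group Γ] [MulAction Γ (E n)] {J : Type} [Fintype J]

/-! ### Words of frame derivatives -/

/-- `V_j f` -/
noncomputable def Vd (Fr : Frame n Γ J) (j : J) (f : E n → ℝ) : E n → ℝ :=
  fun y => fderiv ℝ f y (Fr.V j y)

/-- Iterated frame derivatives, the head of the word acts first. -/
noncomputable def DV (Fr : Frame n Γ J) : List J → (E n → ℝ) → (E n → ℝ)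
  | [], f => f
  | j :: w, f => DV Fr w (Vd Fr j f)

theorem DV_append (Fr : Frame n Γ J) (w : List J) (j : J) (f : E n → ℝ) :
    DV Fr (w ++ [j]) f = Vd Fr j (DV Fr w f) := by
  induction w generalizing f with
  | nil => rfl
  | cons a w ih => exact ih _

theorem DV_le (Fr : Frame n Γ J) (m : ℕ) : ∀ (ι : Type) [Fintype ι] (u : E n → ι → ℝ) (i : ι)
    (w : List J), w.length ≤ m → ∀ x, DV Fr w (fun y => u y i) x ^ 2 ≤ NN Fr m ι u x := by
  induction m with
  | zero =>
    intro ι _ u i w hw x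
    have : w = [] := List.length_eq_zero_iff.1 (Nat.le_zero.1 hw)
    subst this
    exact Finset.single_le_sum (f := fun i => u x i ^ 2) (fun _ _ => sq_nonneg _)
      (Finset.mem_univ i)
  | succ m ih =>
    intro ι _ u i w hw x
    cases w with
    | nil => exact ih (Option J × ι) (prol Fr u) (none, i) [] (Nat.zero_le _) x
    | cons j w => exact ih (Option J × ι) (prol Fr u) (some j, i) w (by simpa using hw) x

theorem contDiff_Vd (Fr : Frame n Γ J) (j : J) (k : ℕ) {f : E n → ℝ}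
    (hf : ContDiff ℝ ((k + 1 : ℕ) : WithTop ℕ∞) f) : ContDiff ℝ (k : WithTop ℕ∞) (Vd Fr j f) := by
  have h1 : ContDiff ℝ (k : WithTop ℕ∞) (fderiv ℝ f) := hf.fderiv_right (by norm_cast)
  exact h1.clm_apply ((Fr.V_smooth j).of_le (mod_cast le_top))

theorem contDiff_DV (Fr : Frame n Γ J) (w : List J) (k : ℕ) {f : E n → ℝ}
    (hf : ContDiff ℝ ((k + w.length : ℕ) : WithTop ℕ∞) f) :
    ContDiff ℝ (k : WithTop ℕ∞) (DV Fr w f) := by
  induction w generalizing f with
  | nil => exact hf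
  | cons j w ih => exact ih (contDiff_Vd Fr j _ hf)

/-! ### Linear differential operators with smooth coefficients -/

inductive Op (Fr : Frame n Γ J) : ℕ → ((E n → ℝ) → E n → ℝ) → Prop
  | word (w : List J) (m : ℕ) (hw : w.length ≤ m) (c : E n → ℝ) (hc : ContDiff ℝ ∞ c) :
      Op Fr m (fun f x => c x * DV Fr w f x)
  | zero (m : ℕ) : Op Fr m (fun _ _ => 0)
  | add {m : ℕ} {L L' : (E n → ℝ) → E n → ℝ} : Op Fr m L → Op Fr m L' →
      Op Fr m (fun f x => L f x + L' f x)
  | congr {m : ℕ} {L L' : (E n → ℝ) → E n → ℝ} : Op Fr m L →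
      (∀ f : E n → ℝ, ContDiff ℝ 4 f → L f = L' f) → Op Fr m L'

variable {Fr : Frame n Γ J} {m : ℕ} {L L' : (E n → ℝ) → E n → ℝ}

theorem Op.mono (h : Op Fr m L) {m' : ℕ} (hm : m ≤ m') : Op Fr m' L := by
  induction h with
  | word w m hw c hc => exact Op.word w m' (hw.trans hm) c hc
  | zero m => exact Op.zero m'
  | add _ _ h1 h2 => exact Op.add (h1 hm) (h2 hm)
  | congr _ e h1 => exact Op.congr (h1 hm) e

theorem Op.smul (h : Op Fr m L) {c : E n → ℝ} (hc : ContDiff ℝ ∞ c) :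
    Op Fr m (fun f x => c x * L f x) := by
  induction h with
  | word w m hw d hd =>
    refine Op.congr (Op.word w m hw (fun x => c x * d x) (hc.mul hd)) fun f _ => ?_
    funext x; ring
  | zero m => exact Op.congr (Op.zero m) fun f _ => by funext x; ring
  | add _ _ h1 h2 =>
    refine Op.congr (Op.add h1 h2) fun f _ => ?_
    funext x; ring
  | congr _ e h1 =>
    refine Op.congr h1 fun f hf => ?_
    funext x; rw [e f hf]

theorem Op.sum {κ : Type} (s : Finset κ) {L : κ → (E n → ℝ) → E n → ℝ}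
    (h : ∀ i ∈ s, Op Fr m (L i)) : Op Fr m (fun f x => ∑ i ∈ s, L i f x) := by
  classical
  induction s using Finset.induction_on with
  | empty => exact Op.congr (Op.zero m) fun f _ => by simp
  | insert a s ha ih =>
    refine Op.congr (Op.add (h a (Finset.mem_insert_self a s))
      (ih fun i hi => h i (Finset.mem_insert_of_mem hi))) fun f _ => ?_
    funext x
    rw [Finset.sum_insert ha]

theorem Op.contDiff (h : Op Fr m L) (k : ℕ) (hm : k + m ≤ 4) {f : E n → ℝ}
    (hf : ContDiff ℝ 4 f) : ContDiff ℝ (k : WithTop ℕ∞) (L f) := by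
  induction h with
  | word w m hw c hc =>
    refine (hc.of_le (mod_cast le_top)).mul (contDiff_DV Fr w k (hf.of_le ?_))
    have : k + w.length ≤ 4 := by omega
    exact_mod_cast this
  | zero m => exact contDiff_const
  | add _ _ h1 h2 => exact (h1 hm).add (h2 hm)
  | congr _ e h1 => rw [← e f hf]; exact h1 hm

theorem Op.diff (h : Op Fr m L) (hm : m ≤ 3) {f : E n → ℝ} (hf : ContDiff ℝ 4 f) :
    Differentiable ℝ (L f) :=
  (h.contDiff 1 (by omega) hf).differentiable (by simp)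

theorem pd_eq_sum (Fr : Frame n Γ J) (i : Fin n) (f : E n → ℝ) (x : E n) :
    pd i f x = ∑ j, Fr.th j x (Pi.single i 1) * Vd Fr j f x := by
  have h := Fr.dual x (Pi.single i 1)
  unfold pd Vd
  conv_lhs => rw [← h]
  rw [map_sum]
  refine Finset.sum_congr rfl fun j _ => ?_
  rw [map_smul, smul_eq_mul]

theorem smooth_th (Fr : Frame n Γ J) (j : J) (v : E n) : ContDiff ℝ ∞ (fun x => Fr.th j x v) :=
  (Fr.th_smooth j).clm_apply contDiff_const

theorem smooth_pd {c : E n → ℝ} (hc : ContDiff ℝ ∞ c) (i : Fin n) :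
    ContDiff ℝ ∞ (fun x => pd i c x) := Bridge.contDiff_pd hc (by simp) i

theorem Op.pd (h : Op Fr m L) (hm : m ≤ 3) (i : Fin n) :
    Op Fr (m + 1) (fun f x => H.pd i (L f) x) := by
  induction h with
  | word w m hw c hc =>
    have h1 : Op Fr (m + 1) (fun f x => H.pd i c x * DV Fr w f x +
        ∑ j : J, (c x * Fr.th j x (Pi.single i 1)) * DV Fr (w ++ [j]) f x) := by
      refine Op.add (Op.word w (m + 1) (by omega) _ (smooth_pd hc i)) (Op.sum _ fun j _ => ?_)
      exact Op.word (w ++ [j]) (m + 1) (by simpa using hw) _ (hc.mul (smooth_th Fr j _))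
    refine Op.congr h1 fun f hf => ?_
    funext x
    have hd1 : DifferentiableAt ℝ c x := hc.differentiable (by simp) x
    have hd2 : DifferentiableAt ℝ (DV Fr w f) x := by
      have : ContDiff ℝ ((1 : ℕ) : WithTop ℕ∞) (DV Fr w f) := contDiff_DV Fr w 1 (hf.of_le (by
        have : 1 + w.length ≤ 4 := by omega
        exact_mod_cast this))
      exact this.differentiable (by simp) x
    rw [Bridge.pd_mul hd1 hd2, pd_eq_sum Fr i (DV Fr w f), Finset.mul_sum]
    congr 1
    refine Finset.sum_congr rfl fun j _ => ?_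
    rw [DV_append]; ring
  | zero m => exact Op.congr (Op.zero (m + 1)) fun f _ => by funext x; rw [Bridge.pd_const]
  | add a b h1 h2 =>
    refine Op.congr (Op.add (h1 hm) (h2 hm)) fun f hf => ?_
    funext x
    rw [Bridge.pd_add (a.diff hm hf x) (b.diff hm hf x)]
  | congr _ e h1 =>
    refine Op.congr (h1 hm) fun f hf => ?_
    funext x; rw [e f hf]

theorem Op.id (Fr : Frame n Γ J) : Op Fr 0 (fun f => f) :=
  Op.congr (Op.word [] 0 le_rfl (fun _ => 1) contDiff_const) fun f _ => by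
    funext x; rw [one_mul]; rfl

theorem Op.bound (h : Op Fr m L) (hm : m ≤ 4) (K : Set (E n)) (hK : IsCompact K) :
    ∃ C : ℝ, 0 ≤ C ∧ ∀ f : E n → ℝ, ContDiff ℝ 4 f → ∀ x ∈ K, |L f x| ≤ C * √(jet Fr f x) := by
  induction h with
  | word w m hw c hc =>
    obtain ⟨C, hC⟩ := hK.exists_bound_of_continuousOn hc.continuous.continuousOn
    refine ⟨max C 0, le_max_right _ _, fun f _ x hx => ?_⟩
    rw [abs_mul]
    refine mul_le_mul ((hC x hx).trans (le_max_left _ _)) ?_ (abs_nonneg _) (le_max_right _ _)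
    exact Real.abs_le_sqrt (DV_le Fr 4 Unit (fun y _ => f y) () w (hw.trans hm) x)
  | zero m => exact ⟨0, le_rfl, fun f _ x _ => by simp⟩
  | add _ _ h1 h2 =>
    obtain ⟨C1, hC1, h1⟩ := h1 hm
    obtain ⟨C2, hC2, h2⟩ := h2 hm
    refine ⟨C1 + C2, by positivity, fun f hf x hx => ?_⟩
    rw [add_mul]
    exact (abs_add_le _ _).trans (add_le_add (h1 f hf x hx) (h2 f hf x hx))
  | congr _ e h1 =>
    obtain ⟨C1, hC1, h1⟩ := h1 hm
    exact ⟨C1, hC1, fun f hf x hx => by rw [← e f hf]; exact h1 f hf x hx⟩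

/-! ### Invariance of the jet norm -/

theorem prol_comp (h : Act n Γ) (Fr : Frame n Γ J) {ι : Type} (u : E n → ι → ℝ)
    (hu : ∀ i, Differentiable ℝ fun y => u y i) (γ : Γ) :
    prol Fr (fun y => u (γ • y)) = fun y => prol Fr u (γ • y) := by
  funext x p
  obtain ⟨o, i⟩ := p
  cases o with
  | none => rfl
  | some j =>
    show fderiv ℝ (fun y => u (γ • y) i) x (Fr.V j x) =
      fderiv ℝ (fun y => u y i) (γ • x) (Fr.V j (γ • x))
    rw [Fr.V_inv, show fderiv ℝ (fun y => u (γ • y) i) x =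
      (fderiv ℝ (fun y => u y i) (γ • x)).comp (fderiv ℝ (fun y : E n => γ • y) x) from
        fderiv_comp x (hu i _) (Common.diff h γ x)]
    rfl

theorem contDiff_prol (Fr : Frame n Γ J) {ι : Type} (k : ℕ) (u : E n → ι → ℝ)
    (hu : ∀ i, ContDiff ℝ ((k + 1 : ℕ) : WithTop ℕ∞) fun y => u y i) (p : Option J × ι) :
    ContDiff ℝ (k : WithTop ℕ∞) fun y => prol Fr u y p := by
  obtain ⟨o, i⟩ := p
  cases o with
  | none => exact (hu i).of_le (by norm_cast; omega)
  | some j => exact contDiff_Vd Fr j k (hu i)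

theorem NN_comp (h : Act n Γ) (Fr : Frame n Γ J) (γ : Γ) (m : ℕ) : ∀ (ι : Type) [Fintype ι]
    (u : E n → ι → ℝ), (∀ i, ContDiff ℝ (m : WithTop ℕ∞) fun y => u y i) → ∀ x,
    NN Fr m ι (fun y => u (γ • y)) x = NN Fr m ι u (γ • x) := by
  induction m with
  | zero => intro ι _ u _ x; rfl
  | succ m ih =>
    intro ι _ u hu x
    show NN Fr m _ (prol Fr fun y => u (γ • y)) x = NN Fr m _ (prol Fr u) (γ • x)
    rw [prol_comp h Fr u (fun i => (hu i).differentiable (by simp)) γ]
    exact ih _ (prol Fr u) (contDiff_prol Fr m u hu) x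

/-- the jet norm is invariant -/
theorem jet_comp (h : Act n Γ) (Fr : Frame n Γ J) (γ : Γ) (f : E n → ℝ) (hf : ContDiff ℝ 4 f)
    (x : E n) : jet Fr (fun y => f (γ • y)) x = jet Fr f (γ • x) :=
  NN_comp h Fr γ 4 Unit (fun y _ => f y) (fun _ => hf) x

theorem NN_nonneg (Fr : Frame n Γ J) (m : ℕ) : ∀ (ι : Type) [Fintype ι] (u : E n → ι → ℝ)
    (x : E n), 0 ≤ NN Fr m ι u x := by
  induction m with
  | zero => intro ι _ u x; exact Finset.sum_nonneg fun _ _ => sq_nonneg _
  | succ m ih => intro ι _ u x; exact ih _ _ x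

theorem jet_nonneg (Fr : Frame n Γ J) (f : E n → ℝ) (x : E n) : 0 ≤ jet Fr f x :=
  NN_nonneg Fr 4 Unit _ x

theorem sq_le_jet (Fr : Frame n Γ J) (f : E n → ℝ) (x : E n) : f x ^ 2 ≤ jet Fr f x :=
  DV_le Fr 4 Unit (fun y _ => f y) () [] (by simp) x

/-! ### Local bounds -/

variable {G : E n → Matrix (Fin n) (Fin n) ℝ}

theorem smooth_inv (hG : Met n Γ G) (i j : Fin n) : ContDiff ℝ ∞ (fun x => (G x)⁻¹ i j) :=
  contDiff_iff_contDiffAt.2 fun x =>
    (Bridge.metricOn hG.smooth hG.pos).sm_inv isOpen_univ (Set.mem_univ x) i j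

theorem smooth_chr (hG : Met n Γ G) (k i j : Fin n) : ContDiff ℝ ∞ (fun x => chr G x k i j) :=
  contDiff_iff_contDiffAt.2 fun x =>
    (Bridge.metricOn hG.smooth hG.pos).sm_christoffel isOpen_univ (Set.mem_univ x) k i j

theorem Op.grad (Fr : Frame n Γ J) (i : Fin n) : Op Fr 1 (fun f x => H.pd i f x) :=
  (Op.id Fr).pd (by norm_num) i

theorem Op.hess (Fr : Frame n Γ J) (i j : Fin n) :
    Op Fr 2 (fun f x => H.pd i (fun y => H.pd j f y) x) :=
  (Op.grad Fr j).pd (by norm_num) i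

theorem Op.lap (hG : Met n Γ G) (Fr : Frame n Γ J) : Op Fr 2 (fun f x => H.lap G f x) := by
  have h1 : Op Fr 2 (fun f x => ∑ i, ∑ j, (G x)⁻¹ i j * (H.pd i (fun y => H.pd j f y) x +
      ∑ k, -chr G x k i j * H.pd k f x)) := by
    refine Op.sum _ fun i _ => Op.sum _ fun j _ => Op.smul ?_ (smooth_inv hG i j)
    refine Op.add (Op.hess Fr i j) (Op.sum _ fun k _ => ?_)
    exact Op.smul ((Op.grad Fr k).mono (by norm_num)) (smooth_chr hG k i j).neg
  refine Op.congr h1 fun f _ => ?_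
  funext x
  unfold H.lap
  refine Finset.sum_congr rfl fun i _ => Finset.sum_congr rfl fun j _ => ?_
  rw [sub_eq_add_neg, ← Finset.sum_neg_distrib]
  simp only [neg_mul]

/-- bounds for the gradient of `F` from bounds for the partial derivatives -/
theorem gradSq_bd (hG : Met n Γ G) (K : Set (E n)) (hK : IsCompact K) :
    ∃ D : Fin n → Fin n → ℝ, (∀ i j, 0 ≤ D i j) ∧ ∀ x ∈ K, ∀ (F : E n → ℝ) (c : Fin n → ℝ)
      (t : ℝ), (∀ l, 0 ≤ c l) → 0 ≤ t → (∀ l, |H.pd l F x| ≤ c l * t) →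
      gradSq G F x ≤ (∑ i, ∑ j, D i j * c i * c j) * t ^ 2 := by
  have hb : ∀ i j, ∃ D : ℝ, 0 ≤ D ∧ ∀ x ∈ K, |(G x)⁻¹ i j| ≤ D := by
    intro i j
    obtain ⟨C, hC⟩ := hK.exists_bound_of_continuousOn (smooth_inv hG i j).continuous.continuousOn
    exact ⟨max C 0, le_max_right _ _, fun x hx => (hC x hx).trans (le_max_left _ _)⟩
  choose D hD0 hD using hb
  refine ⟨D, hD0, fun x hx F c t hc ht hF => ?_⟩
  unfold gradSq gradIp
  rw [Finset.sum_mul]
  refine Finset.sum_le_sum fun i _ => ?_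
  rw [Finset.sum_mul]
  refine Finset.sum_le_sum fun j _ => ?_
  calc (G x)⁻¹ i j * H.pd i F x * H.pd j F x
      ≤ |(G x)⁻¹ i j * H.pd i F x * H.pd j F x| := le_abs_self _
    _ = |(G x)⁻¹ i j| * |H.pd i F x| * |H.pd j F x| := by rw [abs_mul, abs_mul]
    _ ≤ D i j * (c i * t) * (c j * t) := by
        have h1 := hF i
        have h2 := hF j
        have h3 := hD i j x hx
        have h4 := mul_nonneg (hc i) ht
        have h5 := mul_nonneg (hc j) ht
        exact mul_le_mul (mul_le_mul h3 h1 (abs_nonneg _) (hD0 i j)) h2 (abs_nonneg _)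
          (mul_nonneg (hD0 i j) h4)
    _ = _ := by ring

theorem local_bound (hG : Met n Γ G) (Fr : Frame n Γ J) (K : Set (E n)) (hK : IsCompact K) :
    ∃ C : ℝ, 0 < C ∧ ∀ f : E n → ℝ, ContDiff ℝ 4 f → ∀ x ∈ K,
    gradSq G f x ≤ C * jet Fr f x ∧
    gradSq G (fun y => gradSq G f y) x ≤ C * jet Fr f x ^ 2 ∧
    H.lap G f x ^ 2 ≤ C * jet Fr f x ∧ gradSq G (fun y => H.lap G f y) x ≤ C * jet Fr f x := by
  obtain ⟨D, hD0, hD⟩ := gradSq_bd hG K hK
  choose cA hcA0 hcA using fun i => (Op.grad Fr i).bound (by norm_num) K hK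
  choose cB hcB0 hcB using fun i => fun j => (Op.hess Fr i j).bound (by norm_num) K hK
  have hop : ∀ i j, Op Fr 1 (fun f x => (G x)⁻¹ i j * H.pd i f x) := fun i j =>
    Op.smul (Op.grad Fr i) (smooth_inv hG i j)
  choose cL hcL0 hcL using fun i => fun j => (hop i j).bound (by norm_num) K hK
  choose cM hcM0 hcM using fun l => fun i => fun j =>
    ((hop i j).pd (by norm_num) l).bound (by norm_num) K hK
  obtain ⟨cP, hcP0, hcP⟩ := (Op.lap hG Fr).bound (by norm_num) K hK
  choose cQ hcQ0 hcQ using fun l => ((Op.lap hG Fr).pd (by norm_num) l).bound (by norm_num) K hK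
  set cR : Fin n → ℝ := fun l => ∑ i, ∑ j, (cM l i j * cA j + cL i j * cB l j) with hcR
  have hcR0 : ∀ l, 0 ≤ cR l := fun l => Finset.sum_nonneg fun i _ => Finset.sum_nonneg fun j _ =>
    add_nonneg (mul_nonneg (hcM0 l i j) (hcA0 j)) (mul_nonneg (hcL0 i j) (hcB0 l j))
  set C1 := ∑ i, ∑ j, D i j * cA i * cA j with hC1
  set C2 := ∑ i, ∑ j, D i j * cR i * cR j with hC2
  set C4 := ∑ i, ∑ j, D i j * cQ i * cQ j with hC4
  have h1 : 0 ≤ C1 := Finset.sum_nonneg fun i _ => Finset.sum_nonneg fun j _ =>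
    mul_nonneg (mul_nonneg (hD0 i j) (hcA0 i)) (hcA0 j)
  have h2 : 0 ≤ C2 := Finset.sum_nonneg fun i _ => Finset.sum_nonneg fun j _ =>
    mul_nonneg (mul_nonneg (hD0 i j) (hcR0 i)) (hcR0 j)
  have h4 : 0 ≤ C4 := Finset.sum_nonneg fun i _ => Finset.sum_nonneg fun j _ =>
    mul_nonneg (mul_nonneg (hD0 i j) (hcQ0 i)) (hcQ0 j)
  have h3 : 0 ≤ cP ^ 2 := sq_nonneg _
  refine ⟨1 + C1 + C2 + cP ^ 2 + C4, by positivity, fun f hf x hx => ?_⟩
  have hj := jet_nonneg Fr f x
  have hs0 : 0 ≤ √(jet Fr f x) := Real.sqrt_nonneg _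
  have hss : √(jet Fr f x) ^ 2 = jet Fr f x := Real.sq_sqrt hj
  refine ⟨?_, ?_, ?_, ?_⟩
  · have := hD x hx f cA (√(jet Fr f x)) hcA0 hs0 fun l => hcA l f hf x hx
    rw [hss] at this
    refine this.trans (mul_le_mul_of_nonneg_right ?_ hj)
    linarith
  · have := hD x hx (fun y => gradSq G f y) cR (jet Fr f x) hcR0 hj fun l => ?_
    · refine this.trans (mul_le_mul_of_nonneg_right ?_ (sq_nonneg _))
      linarith
    · have e : H.pd l (fun y => gradSq G f y) x = ∑ i, ∑ j,
          (H.pd l (fun y => (G y)⁻¹ i j * H.pd i f y) x * H.pd j f x +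
            ((G x)⁻¹ i j * H.pd i f x) * H.pd l (fun y => H.pd j f y) x) := by
        unfold gradSq gradIp
        have d1 : ∀ i j, DifferentiableAt ℝ (fun y => (G y)⁻¹ i j * H.pd i f y) x := fun i j =>
          (hop i j).diff (by norm_num) hf x
        have d2 : ∀ j, DifferentiableAt ℝ (fun y => H.pd j f y) x := fun j =>
          (Op.grad Fr j).diff (by norm_num) hf x
        rw [Bridge.pd_sum fun i _ => DifferentiableAt.fun_sum fun j _ => (d1 i j).fun_mul (d2 j)]
        refine Finset.sum_congr rfl fun i _ => ?_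
        rw [Bridge.pd_sum fun j _ => (d1 i j).fun_mul (d2 j)]
        refine Finset.sum_congr rfl fun j _ => ?_
        rw [Bridge.pd_mul (d1 i j) (d2 j)]
      rw [e, hcR]
      simp only [Finset.sum_mul]
      refine (Finset.abs_sum_le_sum_abs _ _).trans (Finset.sum_le_sum fun i _ => ?_)
      refine (Finset.abs_sum_le_sum_abs _ _).trans (Finset.sum_le_sum fun j _ => ?_)
      refine (abs_add_le _ _).trans ?_
      rw [abs_mul, abs_mul ((G x)⁻¹ i j * H.pd i f x), add_mul, ← hss]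
      have a1 := hcM l i j f hf x hx
      have a2 := hcA j f hf x hx
      have a3 := hcL i j f hf x hx
      have a4 := hcB l j f hf x hx
      refine add_le_add ?_ ?_
      · calc _ ≤ (cM l i j * √(jet Fr f x)) * (cA j * √(jet Fr f x)) :=
              mul_le_mul a1 a2 (abs_nonneg _) (mul_nonneg (hcM0 l i j) hs0)
          _ = _ := by ring
      · calc _ ≤ (cL i j * √(jet Fr f x)) * (cB l j * √(jet Fr f x)) :=
              mul_le_mul a3 a4 (abs_nonneg _) (mul_nonneg (hcL0 i j) hs0)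
          _ = _ := by ring
  · have h := hcP f hf x hx
    calc H.lap G f x ^ 2 = |H.lap G f x| ^ 2 := (sq_abs _).symm
      _ ≤ (cP * √(jet Fr f x)) ^ 2 := pow_le_pow_left₀ (abs_nonneg _) h 2
      _ = cP ^ 2 * jet Fr f x := by rw [mul_pow, hss]
      _ ≤ _ := mul_le_mul_of_nonneg_right (by linarith) hj
  · have := hD x hx (fun y => H.lap G f y) cQ (√(jet Fr f x)) hcQ0 hs0 fun l =>
      hcQ l f hf x hx
    rw [hss] at this
    refine this.trans (mul_le_mul_of_nonneg_right ?_ hj)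
    linarith

theorem main : SpecBdd := by
  intro n Γ _ _ G J _ Fr h hG
  obtain ⟨K, hK, hK'⟩ := h.cocompact
  obtain ⟨C, hC, hb⟩ := local_bound hG Fr K hK
  refine ⟨C, hC, fun f hf x => ⟨sq_le_jet Fr f x, ?_⟩⟩
  obtain ⟨γ, hγ⟩ := hK' x
  set f' : E n → ℝ := fun y => f (γ⁻¹ • y) with hf'
  have hf'c : ContDiff ℝ 4 f' :=
    hf.comp ((h.smooth γ⁻¹).of_le (by norm_cast))
  have hff : f = fun y => f' (γ • y) := by funext y; simp [hf']
  have e1 : jet Fr f x = jet Fr f' (γ • x) := by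
    conv_lhs => rw [hff]
    exact jet_comp h Fr γ f' hf'c x
  have hd : Differentiable ℝ f' := hf'c.differentiable (by simp)
  have hg : ∀ y, gradSq G f y = gradSq G f' (γ • y) := fun y => by
    conv_lhs => rw [hff]
    exact gradSq_comp h hG γ f' y (hd _)
  have hl : ∀ y, H.lap G f y = H.lap G f' (γ • y) := fun y => by
    conv_lhs => rw [hff]
    exact Bridge.lap_comp h hG γ f' (hf'c.of_le (by norm_num)) y
  have hgs : (fun y => gradSq G f y) = fun y => gradSq G f' (γ • y) := funext hg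
  have hls : (fun y => H.lap G f y) = fun y => H.lap G f' (γ • y) := funext hl
  have hdg : Differentiable ℝ (fun y => gradSq G f' y) := by
    unfold gradSq gradIp
    intro y
    refine DifferentiableAt.fun_sum fun i _ => DifferentiableAt.fun_sum fun j _ => ?_
    refine DifferentiableAt.fun_mul ?_ ((Op.grad Fr j).diff (by norm_num) hf'c y)
    exact (Op.smul (Op.grad Fr i) (smooth_inv hG i j)).diff (by norm_num) hf'c y
  have hdl : Differentiable ℝ (fun y => H.lap G f' y) := (Op.lap hG Fr).diff (by norm_num) hf'c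
  obtain ⟨b1, b2, b3, b4⟩ := hb f' hf'c (γ • x) hγ
  rw [e1, hg x, hl x, hgs, hls, gradSq_comp h hG γ (fun y => gradSq G f' y) x (hdg _),
    gradSq_comp h hG γ (fun y => H.lap G f' y) x (hdl _)]
  exact ⟨b1, b2, b3, b4⟩

end Vale.Agent.P223.H.B3c
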