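import Vale.Agent.P223.H.QC
import Vale.Agent.P223.H.B3c

/-! Block 3b: consistency of the averaging operators with the Laplacian. -/

namespace Vale.Agent.P223.H.B3b

open scoped ContDiff
open Common B3c

/-! ### Calculus in several variables -/

section calc1

variable {X : Type*} [NormedAddCommGroup X] [NormedSpace ℝ X]

/-- directional derivative -/
noncomputable def dr (v : X) (F : X → ℝ) : X → ℝ := fun p => fderiv ℝ F p v

theorem dr_comm {F : X → ℝ} (hF : ContDiff ℝ 2 F) (v w : X) :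
    dr v (dr w F) = dr w (dr v F) := by
  funext p
  have hs : IsSymmSndFDerivAt ℝ F p := hF.contDiffAt.isSymmSndFDerivAt (by simp)
  have hd : DifferentiableAt ℝ (fderiv ℝ F) p :=
    ((hF.fderiv_right (m := 1) (by norm_num)).differentiable (by simp)) p
  have h3 : ∀ v w : X, dr v (dr w F) p = fderiv ℝ (fderiv ℝ F) p v w := by
    intro v w
    unfold dr
    rw [fderiv_clm_apply hd (differentiableAt_const w)]
    simp
  rw [h3, h3]
  exact hs _ _

theorem contDiff_dr {F : X → ℝ} (k : ℕ) (hF : ContDiff ℝ ((k + 1 : ℕ) : WithTop ℕ∞) F) (v : X) :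
    ContDiff ℝ (k : WithTop ℕ∞) (dr v F) :=
  (hF.fderiv_right (m := (k : WithTop ℕ∞)) (by norm_cast)).clm_apply contDiff_const

end calc1

/-! ### Even part of the Taylor expansion -/

theorem mvt (g g' : ℝ → ℝ) (hg : ∀ s, HasDerivAt g (g' s) s) (ε c : ℝ) (hc : 0 ≤ c)
    (hb : ∀ s, 0 ≤ s → s ≤ ε → |g' s| ≤ c) (h0 : g 0 = 0) (r : ℝ) (hr : 0 ≤ r) (hrε : r ≤ ε) :
    |g r| ≤ c * ε := by
  have h := (convex_Icc (0 : ℝ) r).norm_image_sub_le_of_norm_hasDerivWithin_le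
    (f := g) (f' := g') (C := c) (fun s _ => (hg s).hasDerivWithinAt)
    (fun s hs => hb s hs.1 (hs.2.trans hrε)) (Set.left_mem_Icc.2 hr) (Set.right_mem_Icc.2 hr)
  rw [h0, sub_zero, sub_zero, Real.norm_eq_abs, Real.norm_eq_abs, abs_of_nonneg hr] at h
  exact h.trans (mul_le_mul_of_nonneg_left hrε hc)

theorem even_taylor (h h1 h2 h3 : ℝ → ℝ) (d0 : ∀ s, HasDerivAt h (h1 s) s)
    (d1 : ∀ s, HasDerivAt h1 (h2 s) s) (d2 : ∀ s, HasDerivAt h2 (h3 s) s) (ε b : ℝ)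
    (hε : 0 < ε) (hb0 : 0 ≤ b) (hb : ∀ s, |s| ≤ ε → |h3 s| ≤ b) :
    |(h ε + h (-ε)) / 2 - h 0 - ε ^ 2 / 2 * h2 0| ≤ b * ε ^ 3 := by
  have neg : ∀ (k k' : ℝ → ℝ), (∀ s, HasDerivAt k (k' s) s) →
      ∀ s, HasDerivAt (fun s => k (-s)) (-k' (-s)) s := by
    intro k k' hk s
    have := (hk (-s)).comp s (hasDerivAt_neg s)
    rw [mul_neg_one] at this
    exact this
  -- bound for the second derivative
  have b2 : ∀ s, |s| ≤ ε → |h2 s - h2 0| ≤ b * ε := by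
    intro s hs
    rcases le_or_gt 0 s with h0 | h0
    · rw [abs_of_nonneg h0] at hs
      exact mvt (fun s => h2 s - h2 0) h3 (fun s => (d2 s).sub_const _) ε b hb0
        (fun t ht ht' => hb t (by rwa [abs_of_nonneg ht])) (by simp) s h0 hs
    · rw [abs_of_neg h0] at hs
      have := mvt (fun s => h2 (-s) - h2 0) (fun s => -h3 (-s))
        (fun s => (neg h2 h3 d2 s).sub_const _) ε b hb0
        (fun t ht ht' => by rw [abs_neg]; exact hb (-t) (by rwa [abs_neg, abs_of_nonneg ht]))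
        (by simp) (-s) (by linarith) hs
      simpa using this
  have b1 : ∀ r, 0 ≤ r → r ≤ ε → |(h1 r - h1 (-r)) / 2 - r * h2 0| ≤ b * ε * ε := by
    intro r hr hrε
    refine mvt (fun r => (h1 r - h1 (-r)) / 2 - r * h2 0)
      (fun r => (h2 r - -h2 (-r)) / 2 - 1 * h2 0) (fun s => ?_) ε (b * ε) (by positivity)
      (fun s hs hs' => ?_) (by simp) r hr hrε
    · exact (((d1 s).sub (neg h1 h2 d1 s)).div_const 2).sub ((hasDerivAt_id s).mul_const _)
    · have e : (h2 s - -h2 (-s)) / 2 - 1 * h2 0 = ((h2 s - h2 0) + (h2 (-s) - h2 0)) / 2 := by ring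
      rw [e, abs_div, abs_two]
      have e1 := b2 s (by rwa [abs_of_nonneg hs])
      have e2 := b2 (-s) (by rwa [abs_neg, abs_of_nonneg hs])
      have e3 := abs_add_le (h2 s - h2 0) (h2 (-s) - h2 0)
      linarith
  have b0 := mvt (fun r => (h r + h (-r)) / 2 - h 0 - r ^ 2 / 2 * h2 0)
      (fun r => (h1 r - h1 (-r)) / 2 - r * h2 0) (fun s => by
        have e1 := (((d0 s).add (neg h h1 d0 s)).div_const 2).sub_const (h 0)
        have e2 : HasDerivAt (fun r : ℝ => r ^ 2 / 2 * h2 0) (s * h2 0) s := by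
          have e3 := (((hasDerivAt_id s).pow 2).div_const 2).mul_const (h2 0)
          refine e3.congr_deriv ?_
          simp only [id]
          ring
        refine (e1.sub e2).congr_deriv ?_
        ring) ε (b * ε * ε) (by positivity) b1 (by simp) ε hε.le le_rfl
  calc |(h ε + h (-ε)) / 2 - h 0 - ε ^ 2 / 2 * h2 0| ≤ b * ε * ε * ε := b0
    _ = b * ε ^ 3 := by ring

/-! ### Differential operators along a map -/

section op

variable {n : ℕ} {Γ : Type} [Group Γ] [MulAction Γ (E n)] {J : Type} [Fintype J]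
variable {X : Type} [NormedAddCommGroup X] [NormedSpace ℝ X]

inductive OpP (Fr : Frame n Γ J) (Φ : X → E n) : ℕ → ((E n → ℝ) → X → ℝ) → Prop
  | word (w : List J) (m : ℕ) (hw : w.length ≤ m) (c : X → ℝ) (hc : ContDiff ℝ ∞ c) :
      OpP Fr Φ m (fun f p => c p * DV Fr w f (Φ p))
  | zero (m : ℕ) : OpP Fr Φ m (fun _ _ => 0)
  | add {m : ℕ} {L L' : (E n → ℝ) → X → ℝ} : OpP Fr Φ m L → OpP Fr Φ m L' →
      OpP Fr Φ m (fun f p => L f p + L' f p)
  | congr {m : ℕ} {L L' : (E n → ℝ) → X → ℝ} : OpP Fr Φ m L →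
      (∀ f : E n → ℝ, ContDiff ℝ 4 f → L f = L' f) → OpP Fr Φ m L'

variable {Fr : Frame n Γ J} {Φ : X → E n} {m : ℕ} {L L' : (E n → ℝ) → X → ℝ}

theorem OpP.sum {κ : Type} (s : Finset κ) {L : κ → (E n → ℝ) → X → ℝ}
    (h : ∀ i ∈ s, OpP Fr Φ m (L i)) : OpP Fr Φ m (fun f x => ∑ i ∈ s, L i f x) := by
  classical
  induction s using Finset.induction_on with
  | empty => exact OpP.congr (OpP.zero m) fun f _ => by simp
  | insert a s ha ih =>
    refine OpP.congr (OpP.add (h a (Finset.mem_insert_self a s))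
      (ih fun i hi => h i (Finset.mem_insert_of_mem hi))) fun f _ => ?_
    funext x
    rw [Finset.sum_insert ha]

theorem OpP.contDiff (hΦ : ContDiff ℝ ∞ Φ) (h : OpP Fr Φ m L) (k : ℕ) (hm : k + m ≤ 4)
    {f : E n → ℝ} (hf : ContDiff ℝ 4 f) : ContDiff ℝ (k : WithTop ℕ∞) (L f) := by
  induction h with
  | word w m hw c hc =>
    have h1 : ContDiff ℝ (k : WithTop ℕ∞) (DV Fr w f) := contDiff_DV Fr w k (hf.of_le (by
      have : k + w.length ≤ 4 := by omega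
      exact_mod_cast this))
    exact (hc.of_le (mod_cast le_top)).mul (h1.comp (hΦ.of_le (mod_cast le_top)))
  | zero m => exact contDiff_const
  | add _ _ h1 h2 => exact (h1 hm).add (h2 hm)
  | congr _ e h1 => rw [← e f hf]; exact h1 hm

theorem OpP.diff (hΦ : ContDiff ℝ ∞ Φ) (h : OpP Fr Φ m L) (hm : m ≤ 3) {f : E n → ℝ}
    (hf : ContDiff ℝ 4 f) : Differentiable ℝ (L f) :=
  (h.contDiff hΦ 1 (by omega) hf).differentiable (by simp)

theorem fderiv_eq_sum (Fr : Frame n Γ J) (f : E n → ℝ) (y v : E n) :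
    fderiv ℝ f y v = ∑ j, Fr.th j y v * Vd Fr j f y := by
  have h := Fr.dual y v
  unfold Vd
  conv_lhs => rw [← h]
  rw [map_sum]
  refine Finset.sum_congr rfl fun j _ => ?_
  rw [map_smul, smul_eq_mul]

theorem OpP.dr (hΦ : ContDiff ℝ ∞ Φ) (h : OpP Fr Φ m L) (hm : m ≤ 3) (v : X) :
    OpP Fr Φ (m + 1) (fun f => B3b.dr v (L f)) := by
  induction h with
  | word w m hw c hc =>
    have hc' : ContDiff ℝ ∞ (B3b.dr v c) :=
      (hc.fderiv_right (m := ∞) (by simp)).clm_apply contDiff_const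
    have hΦ' : ContDiff ℝ ∞ (fun p => fderiv ℝ Φ p v) :=
      (hΦ.fderiv_right (m := ∞) (by simp)).clm_apply contDiff_const
    have hth : ∀ j, ContDiff ℝ ∞ (fun p => Fr.th j (Φ p) (fderiv ℝ Φ p v)) := fun j =>
      ((Fr.th_smooth j).comp hΦ).clm_apply hΦ'
    have h1 : OpP Fr Φ (m + 1) (fun f p => B3b.dr v c p * DV Fr w f (Φ p) +
        ∑ j : J, (c p * Fr.th j (Φ p) (fderiv ℝ Φ p v)) * DV Fr (w ++ [j]) f (Φ p)) := by
      refine OpP.add (OpP.word w (m + 1) (by omega) _ hc') (OpP.sum _ fun j _ => ?_)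
      exact OpP.word (w ++ [j]) (m + 1) (by simpa using hw) _ (hc.mul (hth j))
    refine OpP.congr h1 fun f hf => ?_
    funext p
    have hd1 : DifferentiableAt ℝ c p := hc.differentiable (by simp) p
    have hd2 : DifferentiableAt ℝ (DV Fr w f) (Φ p) := by
      have : ContDiff ℝ ((1 : ℕ) : WithTop ℕ∞) (DV Fr w f) := contDiff_DV Fr w 1 (hf.of_le (by
        have : 1 + w.length ≤ 4 := by omega
        exact_mod_cast this))
      exact this.differentiable (by simp) _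
    have hd3 : DifferentiableAt ℝ Φ p := hΦ.differentiable (by simp) p
    have hd4 : DifferentiableAt ℝ (fun p => DV Fr w f (Φ p)) p := hd2.comp p hd3
    have e1 : fderiv ℝ (fun p => DV Fr w f (Φ p)) p v =
        fderiv ℝ (DV Fr w f) (Φ p) (fderiv ℝ Φ p v) := by
      have := fderiv_comp p hd2 hd3
      exact congrArg (fun T : X →L[ℝ] ℝ => T v) this
    have e2 : B3b.dr v (fun p => c p * DV Fr w f (Φ p)) p =
        B3b.dr v c p * DV Fr w f (Φ p) + c p * fderiv ℝ (fun p => DV Fr w f (Φ p)) p v := by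
      unfold B3b.dr
      rw [fderiv_fun_mul hd1 hd4]
      simp only [add_apply, smul_apply, smul_eq_mul]
      ring
    rw [e2, e1, fderiv_eq_sum Fr, Finset.mul_sum]
    congr 1
    refine Finset.sum_congr rfl fun j _ => ?_
    rw [DV_append]; ring
  | zero m => exact OpP.congr (OpP.zero (m + 1)) fun f _ => by funext x; simp [B3b.dr]
  | add a b h1 h2 =>
    refine OpP.congr (OpP.add (h1 hm) (h2 hm)) fun f hf => ?_
    funext x
    unfold B3b.dr
    rw [fderiv_fun_add (a.diff hΦ hm hf x) (b.diff hΦ hm hf x)]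
    rfl
  | congr _ e h1 =>
    refine OpP.congr (h1 hm) fun f hf => ?_
    rw [e f hf]

theorem OpP.base (Fr : Frame n Γ J) (Φ : X → E n) : OpP Fr Φ 0 (fun f p => f (Φ p)) :=
  OpP.congr (OpP.word [] 0 le_rfl (fun _ => 1) contDiff_const) fun f _ => by
    funext x; rw [one_mul]; rfl

theorem OpP.bound (h : OpP Fr Φ m L) (hm : m ≤ 4) (K : Set X) (hK : IsCompact K) :
    ∃ C : ℝ, 0 ≤ C ∧ ∀ f : E n → ℝ, ContDiff ℝ 4 f → ∀ p ∈ K, ∀ B : ℝ, 0 ≤ B →
      jet Fr f (Φ p) ≤ B ^ 2 → |L f p| ≤ C * B := by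
  induction h with
  | word w m hw c hc =>
    obtain ⟨C, hC⟩ := hK.exists_bound_of_continuousOn hc.continuous.continuousOn
    refine ⟨max C 0, le_max_right _ _, fun f _ p hp B hB hj => ?_⟩
    rw [abs_mul]
    refine mul_le_mul ((hC p hp).trans (le_max_left _ _)) ?_ (abs_nonneg _) (le_max_right _ _)
    refine abs_le_of_sq_le_sq ?_ hB
    exact (DV_le Fr 4 Unit (fun y _ => f y) () w (hw.trans hm) (Φ p)).trans hj
  | zero m => exact ⟨0, le_rfl, fun f _ x _ B _ _ => by simp⟩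
  | add _ _ h1 h2 =>
    obtain ⟨C1, hC1, h1⟩ := h1 hm
    obtain ⟨C2, hC2, h2⟩ := h2 hm
    refine ⟨C1 + C2, by positivity, fun f hf x hx B hB hj => ?_⟩
    rw [add_mul]
    exact (abs_add_le _ _).trans (add_le_add (h1 f hf x hx B hB hj) (h2 f hf x hx B hB hj))
  | congr _ e h1 =>
    obtain ⟨C1, hC1, h1⟩ := h1 hm
    exact ⟨C1, hC1, fun f hf x hx B hB hj => by rw [← e f hf]; exact h1 f hf x hx B hB hj⟩

/-- even part of the Taylor expansion of a differential operator along a map -/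
theorem even_op {Φ : ℝ × E n → E n} (hΦ : ContDiff ℝ ∞ Φ) {L : (E n → ℝ) → ℝ × E n → ℝ}
    (h : OpP Fr Φ m L) (hm : m ≤ 1) (K : Set (E n)) (hK : IsCompact K) :
    ∃ C : ℝ, 0 ≤ C ∧ ∀ f : E n → ℝ, ContDiff ℝ 4 f → ∀ x ∈ K, ∀ ε : ℝ, 0 < ε → ε ≤ 1 →
      ∀ B : ℝ, 0 ≤ B → (∀ r : ℝ, |r| ≤ ε → jet Fr f (Φ (r, x)) ≤ B ^ 2) →
      |(L f (ε, x) + L f (-ε, x)) / 2 - L f (0, x) -
        ε ^ 2 / 2 * B3b.dr (1, 0) (B3b.dr (1, 0) (L f)) (0, x)| ≤ C * (B * ε ^ 3) := by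
  have h1 := h.dr hΦ (by omega) ((1 : ℝ), (0 : E n))
  have h2 := h1.dr hΦ (by omega) ((1 : ℝ), (0 : E n))
  have h3 := h2.dr hΦ (by omega) ((1 : ℝ), (0 : E n))
  obtain ⟨C, hC, hb⟩ := h3.bound (by omega) (Set.Icc (-1 : ℝ) 1 ×ˢ K) (isCompact_Icc.prod hK)
  refine ⟨C, hC, fun f hf x hx ε hε hε1 B hB hj => ?_⟩
  have d : ∀ {L' : (E n → ℝ) → ℝ × E n → ℝ}, Differentiable ℝ (L' f) → ∀ s : ℝ,
      HasDerivAt (fun s => L' f (s, x)) (B3b.dr (1, 0) (L' f) (s, x)) s := fun hd s =>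
    QC.hasDerivAt_slice _ hd x s
  have := even_taylor (fun s => L f (s, x)) (fun s => B3b.dr (1, 0) (L f) (s, x))
    (fun s => B3b.dr (1, 0) (B3b.dr (1, 0) (L f)) (s, x))
    (fun s => B3b.dr (1, 0) (B3b.dr (1, 0) (B3b.dr (1, 0) (L f))) (s, x))
    (QC.hasDerivAt_slice _ (h.diff hΦ (by omega) hf) x)
    (QC.hasDerivAt_slice _ (h1.diff hΦ (by omega) hf) x)
    (QC.hasDerivAt_slice _ (h2.diff hΦ (by omega) hf) x) ε (C * B) hε (by positivity)
    (fun s hs => hb f hf (s, x) ⟨abs_le.1 (hs.trans hε1), hx⟩ B hB (hj s hs))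
  calc _ ≤ C * B * ε ^ 3 := this
    _ = _ := by ring

end op

/-! ### The main estimate -/

section main

variable {n : ℕ} {Γ : Type} [Group Γ] [MulAction Γ (E n)] {J : Type} [Fintype J]
  {G : E n → Matrix (Fin n) (Fin n) ℝ} {N : ℕ}

/-- `f (φ_a (r, x))` -/
def F0 (M : Maps n Γ G N) (a : Fin N) (f : E n → ℝ) : ℝ × E n → ℝ :=
  fun p => f (M.φ a p.1 p.2)

/-- second time derivative -/
noncomputable def F2 (M : Maps n Γ G N) (a : Fin N) (f : E n → ℝ) : ℝ × E n → ℝ :=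
  dr (1, 0) (dr (1, 0) (F0 M a f))

theorem op0 (Fr : Frame n Γ J) (M : Maps n Γ G N) (a : Fin N) :
    OpP Fr (fun p : ℝ × E n => M.φ a p.1 p.2) 0 (F0 M a) :=
  OpP.base Fr _

theorem op2 (Fr : Frame n Γ J) (M : Maps n Γ G N) (a : Fin N) :
    OpP Fr (fun p : ℝ × E n => M.φ a p.1 p.2) 2 (F2 M a) :=
  ((op0 Fr M a).dr (M.smooth a) (by norm_num) (1, 0)).dr (M.smooth a) (by norm_num) (1, 0)

theorem gen_eq (Fr : Frame n Γ J) (M : Maps n Γ G N) (f : E n → ℝ) (hf : ContDiff ℝ 4 f)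
    (y : E n) : ∑ a, F2 M a f (0, y) = 2 * lap G f y := by
  rw [← M.gen f (hf.of_le (by norm_num)) y]
  refine Finset.sum_congr rfl fun a _ => ?_
  have h0 := op0 Fr M a
  have h1 := h0.dr (M.smooth a) (by norm_num) ((1 : ℝ), (0 : E n))
  have e1 : deriv (fun r => f (M.φ a r y)) = fun r => dr (1, 0) (F0 M a f) (r, y) := by
    funext r
    exact (QC.hasDerivAt_slice (F0 M a f) (h0.diff (M.smooth a) (by norm_num) hf) y r).deriv
  rw [show (2 : ℕ) = 1 + 1 from rfl, iteratedDeriv_succ, iteratedDeriv_one, e1]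
  exact (QC.hasDerivAt_slice _ (h1.diff (M.smooth a) (by norm_num) hf) y 0).deriv.symm

/-- the remainder -/
noncomputable def Rm (M : Maps n Γ G N) (a : Fin N) (f : E n → ℝ) (ε : ℝ) (y : E n) : ℝ :=
  (F0 M a f (ε, y) + F0 M a f (-ε, y)) / 2 - F0 M a f (0, y) - ε ^ 2 / 2 * F2 M a f (0, y)

theorem rem_eq (Fr : Frame n Γ J) (M : Maps n Γ G N) (hN : 0 < N) (f : E n → ℝ)
    (hf : ContDiff ℝ 4 f) (ε : ℝ) (y : E n) :
    M.P ε f y - f y - ε ^ 2 * (N : ℝ)⁻¹ * lap G f y = (N : ℝ)⁻¹ * ∑ a, Rm M a f ε y := by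
  have hNp : (N : ℝ) ≠ 0 := by exact_mod_cast hN.ne'
  have e0 : ∀ a, F0 M a f (0, y) = f y := fun a => by unfold F0; rw [M.zero]
  unfold Rm
  simp only [e0]
  rw [Finset.sum_sub_distrib, Finset.sum_sub_distrib, ← Finset.mul_sum, gen_eq Fr M f hf]
  unfold Maps.P F0
  simp only [Finset.sum_const, Finset.card_univ, Fintype.card_fin, nsmul_eq_mul]
  field_simp

theorem diff_slice {F : ℝ × E n → ℝ} (hF : Differentiable ℝ F) (r : ℝ) :
    Differentiable ℝ (fun y => F (r, y)) := by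
  have h : Differentiable ℝ (fun y : E n => ((r, y) : ℝ × E n)) := by fun_prop
  exact hF.comp h

theorem diff_Rm (Fr : Frame n Γ J) (M : Maps n Γ G N) (a : Fin N) (f : E n → ℝ)
    (hf : ContDiff ℝ 4 f) (ε : ℝ) : Differentiable ℝ (Rm M a f ε) := by
  have h0 := (op0 Fr M a).diff (M.smooth a) (by norm_num) hf
  have h2 := (op2 Fr M a).diff (M.smooth a) (by norm_num) hf
  have e2 : Rm M a f ε = fun y => (1 / 2 * (F0 M a f (ε, y) + F0 M a f (-ε, y)) -
      F0 M a f (0, y)) - ε ^ 2 / 2 * F2 M a f (0, y) := by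
    funext y; unfold Rm; ring
  rw [e2]
  exact ((((diff_slice h0 ε).fun_add (diff_slice h0 (-ε))).const_mul _).fun_sub
    (diff_slice h0 0)).fun_sub ((diff_slice h2 0).const_mul _)

theorem pd_slice {F : ℝ × E n → ℝ} (hF : Differentiable ℝ F) (r : ℝ) (i : Fin n) (x : E n) :
    H.pd i (fun y => F (r, y)) x = dr (0, Pi.single i 1) F (r, x) :=
  QC.fderiv_slice F hF r x _

theorem pd_cmul {f : E n → ℝ} {x : E n} (c : ℝ) (i : Fin n) (hf : DifferentiableAt ℝ f x) :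
    H.pd i (fun y => c * f y) x = c * H.pd i f x := by
  rw [Bridge.pd_mul (differentiableAt_const c) hf, Bridge.pd_const, zero_mul, zero_add]

theorem pd_Rm (Fr : Frame n Γ J) (M : Maps n Γ G N) (a : Fin N) (f : E n → ℝ)
    (hf : ContDiff ℝ 4 f) (ε : ℝ) (i : Fin n) (x : E n) :
    H.pd i (Rm M a f ε) x =
      (dr (0, Pi.single i 1) (F0 M a f) (ε, x) + dr (0, Pi.single i 1) (F0 M a f) (-ε, x)) / 2 -
      dr (0, Pi.single i 1) (F0 M a f) (0, x) -
      ε ^ 2 / 2 * dr (1, 0) (dr (1, 0) (dr (0, Pi.single i 1) (F0 M a f))) (0, x) := by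
  have h0 := (op0 Fr M a).diff (M.smooth a) (by norm_num) hf
  have h2 := (op2 Fr M a).diff (M.smooth a) (by norm_num) hf
  have hc0 : ContDiff ℝ ((4 : ℕ) : WithTop ℕ∞) (F0 M a f) :=
    (op0 Fr M a).contDiff (M.smooth a) 4 (by norm_num) hf
  have hc1 : ContDiff ℝ ((3 : ℕ) : WithTop ℕ∞) (dr (1, 0) (F0 M a f)) := contDiff_dr 3 hc0 _
  have e : dr (1, 0) (dr (1, 0) (dr (0, Pi.single i 1) (F0 M a f))) =
      dr (0, Pi.single i 1) (F2 M a f) := by
    unfold F2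
    rw [dr_comm (hc0.of_le (by norm_num)) (1, 0) (0, Pi.single i 1),
      dr_comm (hc1.of_le (by norm_num)) (1, 0) (0, Pi.single i 1)]
  rw [e, ← pd_slice h0 ε, ← pd_slice h0 (-ε), ← pd_slice h0 0, ← pd_slice h2 0]
  have s1 := diff_slice h0 ε x
  have s2 := diff_slice h0 (-ε) x
  have s3 := diff_slice h0 0 x
  have s4 := diff_slice h2 0 x
  have e2 : Rm M a f ε = fun y => (1 / 2 * (F0 M a f (ε, y) + F0 M a f (-ε, y)) -
      F0 M a f (0, y)) - ε ^ 2 / 2 * F2 M a f (0, y) := by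
    funext y; unfold Rm; ring
  rw [e2, Bridge.pd_sub (((s1.fun_add s2).const_mul _).fun_sub s3) (s4.const_mul _),
    Bridge.pd_sub ((s1.fun_add s2).const_mul _) s3, pd_cmul _ _ (s1.fun_add s2), pd_cmul _ _ s4,
    Bridge.pd_add s1 s2]
  ring

theorem local_bound (hG : Met n Γ G) (Fr : Frame n Γ J) (M : Maps n Γ G N) (hN : 0 < N)
    (K : Set (E n)) (hK : IsCompact K) : ∃ C : ℝ, 0 < C ∧ ∀ ε : ℝ, 0 < ε → ε ≤ 1 →
    ∀ f : E n → ℝ, ContDiff ℝ 4 f → ∀ x ∈ K, ∀ B : ℝ, 0 ≤ B →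
    (∀ a (r : ℝ), |r| ≤ ε → jet Fr f (M.φ a r x) ≤ B ^ 2) →
    |(N : ℝ)⁻¹ * ∑ a, Rm M a f ε x| ≤ C * ε ^ 3 * B ∧
    gradSq G (fun y => (N : ℝ)⁻¹ * ∑ a, Rm M a f ε y) x ≤ (C * ε ^ 3 * B) ^ 2 := by
  have hNp : (0 : ℝ) ≤ (N : ℝ)⁻¹ := by positivity
  obtain ⟨D, hD0, hD⟩ := gradSq_bd hG K hK
  choose C0 hC00 hC0 using fun a => even_op (M.smooth a) (op0 Fr M a) (by norm_num) K hK
  choose C1 hC10 hC1 using fun a => fun i => even_op (M.smooth a)
    ((op0 Fr M a).dr (M.smooth a) (by norm_num) ((0 : ℝ), Pi.single i 1)) (by norm_num) K hK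
  set A0 : ℝ := (N : ℝ)⁻¹ * ∑ a, C0 a with hA0
  set A1 : Fin n → ℝ := fun i => (N : ℝ)⁻¹ * ∑ a, C1 a i with hA1
  have hA00 : 0 ≤ A0 := mul_nonneg hNp (Finset.sum_nonneg fun a _ => hC00 a)
  have hA10 : ∀ i, 0 ≤ A1 i := fun i => mul_nonneg hNp (Finset.sum_nonneg fun a _ => hC10 a i)
  set A2 := ∑ i, ∑ j, D i j * A1 i * A1 j with hA2
  have hA20 : 0 ≤ A2 := Finset.sum_nonneg fun i _ => Finset.sum_nonneg fun j _ =>
    mul_nonneg (mul_nonneg (hD0 i j) (hA10 i)) (hA10 j)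
  have avg : ∀ (t : ℝ) (c R : Fin N → ℝ), (∀ a, |R a| ≤ c a * t) →
      |(N : ℝ)⁻¹ * ∑ a, R a| ≤ ((N : ℝ)⁻¹ * ∑ a, c a) * t := by
    intro t c R h
    rw [abs_mul, abs_of_nonneg hNp, mul_assoc, Finset.sum_mul]
    exact mul_le_mul_of_nonneg_left ((Finset.abs_sum_le_sum_abs _ _).trans
      (Finset.sum_le_sum fun a _ => h a)) hNp
  refine ⟨1 + A0 + A2, by positivity, fun ε hε hε1 f hf x hx B hB hj => ?_⟩
  have ht : 0 ≤ B * ε ^ 3 := by positivity
  constructor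
  · have := avg (B * ε ^ 3) C0 (fun a => Rm M a f ε x) fun a =>
      hC0 a f hf x hx ε hε hε1 B hB (hj a)
    refine this.trans ?_
    rw [← hA0]
    calc A0 * (B * ε ^ 3) ≤ (1 + A0 + A2) * (B * ε ^ 3) :=
          mul_le_mul_of_nonneg_right (by linarith) ht
      _ = _ := by ring
  · have := hD x hx (fun y => (N : ℝ)⁻¹ * ∑ a, Rm M a f ε y) A1 (B * ε ^ 3) hA10 ht fun l => by
      have hd : ∀ a, DifferentiableAt ℝ (Rm M a f ε) x := fun a => diff_Rm Fr M a f hf ε x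
      rw [pd_cmul _ _ (DifferentiableAt.fun_sum fun a _ => hd a),
        Bridge.pd_sum fun a _ => hd a]
      refine avg (B * ε ^ 3) (fun a => C1 a l) (fun a => H.pd l (Rm M a f ε) x) fun a => ?_
      rw [pd_Rm Fr M a f hf ε l x]
      exact hC1 a l f hf x hx ε hε hε1 B hB (hj a)
    refine this.trans ?_
    rw [← hA2]
    calc A2 * (B * ε ^ 3) ^ 2 ≤ (1 + A0 + A2) ^ 2 * (B * ε ^ 3) ^ 2 :=
          mul_le_mul_of_nonneg_right (by nlinarith) (sq_nonneg _)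
      _ = _ := by ring

theorem main : SpecCons := by
  intro n Γ _ _ G J _ Fr N M h hG hN
  obtain ⟨K, hK, hK'⟩ := h.cocompact
  obtain ⟨C, hC, hb⟩ := local_bound hG Fr M hN K hK
  refine ⟨C, hC, fun ε hε hε1 f hf x B hB hj => ?_⟩
  obtain ⟨γ, hγ⟩ := hK' x
  set f' : E n → ℝ := fun y => f (γ⁻¹ • y) with hf'
  have hf'c : ContDiff ℝ 4 f' :=
    hf.comp ((h.smooth γ⁻¹).of_le (by norm_cast))
  have hff : f = fun y => f' (γ • y) := by funext y; simp [hf']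
  have e1 : ∀ y, jet Fr f y = jet Fr f' (γ • y) := fun y => by
    conv_lhs => rw [hff]
    exact jet_comp h Fr γ f' hf'c y
  have hl : ∀ y, H.lap G f y = H.lap G f' (γ • y) := fun y => by
    conv_lhs => rw [hff]
    exact Bridge.lap_comp h hG γ f' (hf'c.of_le (by norm_num)) y
  have hP : ∀ y, M.P ε f y = M.P ε f' (γ • y) := fun y => by
    unfold Maps.P
    simp only [M.equi]
    rw [hff]
  have hfe : ∀ y, f y = f' (γ • y) := fun y => congrFun hff y
  set Hh : E n → ℝ := fun z => M.P ε f' z - f' z - ε ^ 2 * (N : ℝ)⁻¹ * H.lap G f' z with hHh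
  have hHe : Hh = fun z => (N : ℝ)⁻¹ * ∑ a, Rm M a f' ε z := by
    funext z; exact rem_eq Fr M hN f' hf'c ε z
  have hHd : Differentiable ℝ Hh := by
    rw [hHe]
    exact (Differentiable.fun_sum fun a _ => diff_Rm Fr M a f' hf'c ε).const_mul _
  have e2 : ∀ y, M.P ε f y - f y - ε ^ 2 * (N : ℝ)⁻¹ * H.lap G f y = Hh (γ • y) := fun y => by
    rw [hP, hl, hfe]
  have hj' : ∀ a (r : ℝ), |r| ≤ ε → jet Fr f' (M.φ a r (γ • x)) ≤ B ^ 2 := fun a r hr => by
    rw [M.equi, ← e1]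
    exact hj a r hr
  obtain ⟨b1, b2⟩ := hb ε hε hε1 f' hf'c (γ • x) hγ B hB hj'
  simp only [e2]
  rw [gradSq_comp h hG γ Hh x (hHd _)]
  rw [hHe]
  exact ⟨b1, b2⟩

end main

end Vale.Agent.P223.H.B3b
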