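import Vale.Agent.P223.H.SpecT

/-! Block 4, second part: from the pointwise core inequality to the Bochner inequalities
(Young's inequality). -/

namespace Vale.Agent.P223.H.B4b

open scoped ContDiff
open Matrix

/-- The pointwise core inequality. -/
def Core : Prop := ∀ (n : ℕ) (G : E n → Matrix (Fin n) (Fin n) ℝ),
  (∀ i j, ContDiff ℝ ∞ (fun x => G x i j)) → (∀ x, (G x).PosDef) →
  ∀ (a η : ℝ), 1 ≤ a → 0 < η → ∀ v : E n → ℝ, ContDiff ℝ 4 v → (∀ x, 0 < v x) →
  ∀ κ : ℝ, κ = √n + 2 * a → ∀ x,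
    2 * a / κ ^ 2 * (v x * ((gradSq G v x / v x ^ 2 + η) ^ (a - 1) *
      ((gradSq G v x / v x ^ 2) ^ 2 - η ^ 2))) ≤
    -dE G a η v (fun y => lap G v y) x
      - 2 * a * (v x * (gradSq G v x / v x ^ 2 + η) ^ (a - 1)) *
        (∑ i, ∑ j, ric G x i j * grd G v x i * grd G v x j) / v x ^ 2
      + divg G (ZZ G a η κ v) x

variable {n : ℕ}

/-- Young's inequality in the form needed here. -/
theorem young {a μ A : ℝ} (ha : 1 ≤ a) (hμ : 0 < μ) (hA : 0 ≤ A) :
    A * μ ^ a ≤ a / (a + 1) * μ ^ (a + 1) + 1 / (a + 1) * A ^ (a + 1) := by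
  have h1 := Real.geom_mean_le_arith_mean2_weighted (w₁ := a / (a + 1)) (w₂ := 1 / (a + 1))
    (p₁ := μ ^ (a + 1)) (p₂ := A ^ (a + 1)) (by positivity) (by positivity) (by positivity)
    (by positivity) (by field_simp)
  have h2 : (μ ^ (a + 1)) ^ (a / (a + 1)) = μ ^ a := by
    rw [← Real.rpow_mul hμ.le]
    congr 1
    field_simp
  have h3 : (A ^ (a + 1)) ^ (1 / (a + 1)) = A := by
    rw [← Real.rpow_mul hA, mul_one_div_cancel (by positivity : a + 1 ≠ 0), Real.rpow_one]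
  rw [h2, h3] at h1
  linarith

theorem sum_grd {G : E n → Matrix (Fin n) (Fin n) ℝ} {x : E n} (hG : (G x).PosDef)
    (f : E n → ℝ) : ∑ i, ∑ j, grd G f x i * grd G f x j * G x i j = gradSq G f x := by
  have hu : IsUnit (G x).det := hG.det_pos.ne'.isUnit
  have e : (G x) *ᵥ grd G f x = fun i => pd i f x := by
    have : grd G f x = (G x)⁻¹ *ᵥ fun i => pd i f x := by
      funext i; simp only [grd, Matrix.mulVec, dotProduct]
    rw [this, Matrix.mulVec_mulVec, Matrix.mul_nonsing_inv _ hu, Matrix.one_mulVec]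
  have e1 : ∑ i, ∑ j, grd G f x i * grd G f x j * G x i j =
      ∑ i, grd G f x i * pd i f x := by
    refine Finset.sum_congr rfl fun i _ => ?_
    have := congrFun e i
    simp only [Matrix.mulVec, dotProduct] at this
    rw [← this, Finset.mul_sum]
    exact Finset.sum_congr rfl fun j _ => by ring
  rw [e1]
  simp only [grd, gradSq, gradIp, Finset.sum_mul]
  refine Finset.sum_congr rfl fun i _ => Finset.sum_congr rfl fun j _ => by ring

theorem gradSq_nonneg {G : E n → Matrix (Fin n) (Fin n) ℝ} {x : E n} (hG : (G x).PosDef)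
    (f : E n → ℝ) : 0 ≤ gradSq G f x := by
  have h1 := hG.inv.posSemidef.dotProduct_mulVec_nonneg (fun i => pd i f x)
  have e : star (fun i => pd i f x) ⬝ᵥ ((G x)⁻¹ *ᵥ fun i => pd i f x) = gradSq G f x := by
    simp only [gradSq, gradIp, dotProduct, Matrix.mulVec, Finset.mul_sum, Pi.star_apply,
      star_trivial]
    exact Finset.sum_congr rfl fun i _ => Finset.sum_congr rfl fun j _ => by ring
  rwa [e] at h1

/-- The algebraic part. -/
theorem algebra {a η q X ρ σ κ v s r H g dE' Z : ℝ} (ha : 1 ≤ a) (hη : 0 < η)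
    (hX : ρ * s ≤ ρ * (s + η) + X) (hq : 0 ≤ q) (hρσ : ρ + σ / (2 * a) ≤ q) (hκ : 0 < κ)
    (hv : 0 < v)
    (hs : 0 ≤ s) (hg : g = v ^ 2 * s) (hr : -ρ * g ≤ r + 1 / 2 * H)
    (hc : 2 * a / κ ^ 2 * (v * ((s + η) ^ (a - 1) * (s ^ 2 - η ^ 2))) ≤
      -dE' - 2 * a * (v * (s + η) ^ (a - 1)) * r / v ^ 2 + Z) :
    2 * a / (κ ^ 2 * (a + 1)) * (v * (s + η) ^ (a + 1)) ≤
    2 * a / (κ ^ 2 * (a + 1)) * (v * (κ ^ 2 * (q + 2 * η / κ ^ 2)) ^ (a + 1)) +
      2 * a * X * (v * (s + η) ^ (a - 1)) -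
      (dE' + σ * (v * (s + η) ^ a) - a * (v * (s + η) ^ (a - 1)) * H / v ^ 2) + Z := by
  have ha0 : 0 < a := by linarith
  set μ := s + η with hμ
  have hμ0 : 0 < μ := by positivity
  set m := μ ^ (a - 1) with hm
  have hm0 : 0 < m := by positivity
  have e1 : μ ^ a = m * μ := by
    rw [hm, ← Real.rpow_add_one hμ0.ne']
    congr 1
    ring
  have e2 : μ ^ (a + 1) = m * μ ^ 2 := by
    rw [Real.rpow_add_one hμ0.ne', e1]
    ring
  have hy := young ha hμ0 (A := κ ^ 2 * (q + 2 * η / κ ^ 2)) (by positivity)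
  set B := (κ ^ 2 * (q + 2 * η / κ ^ 2)) ^ (a + 1) with hB
  rw [e1, e2] at hy
  rw [e1, e2]
  have e3 : s ^ 2 - η ^ 2 = μ ^ 2 - 2 * η * μ := by rw [hμ]; ring
  rw [e3] at hc
  -- curvature term
  have h1 : -(2 * a * (v * m) * r / v ^ 2) ≤ 2 * a * (v * m) * (ρ * s) +
      a * (v * m) * H / v ^ 2 := by
    have h2 : -r ≤ ρ * g + 1 / 2 * H := by linarith
    have h3 : 0 ≤ 2 * a * (v * m) / v ^ 2 := by positivity
    have h4 := mul_le_mul_of_nonneg_left h2 h3
    calc -(2 * a * (v * m) * r / v ^ 2) = 2 * a * (v * m) / v ^ 2 * -r := by ring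
      _ ≤ 2 * a * (v * m) / v ^ 2 * (ρ * g + 1 / 2 * H) := h4
      _ = _ := by rw [hg]; field_simp
  have h8 : 2 * a * (v * m) * (ρ * s) ≤ 2 * a * (v * m) * (ρ * μ + X) := by
    gcongr
  have h9 : 2 * a * ρ + σ ≤ 2 * a * q := by
    have h10 : 2 * a * (ρ + σ / (2 * a)) ≤ 2 * a * q := by gcongr
    have h11 : 2 * a * (ρ + σ / (2 * a)) = 2 * a * ρ + σ := by field_simp
    linarith
  have h12 : (2 * a * ρ + σ) * (v * (m * μ)) ≤ 2 * a * q * (v * (m * μ)) := by
    gcongr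
  -- Young
  have h13 : 2 * a / κ ^ 2 * v * (κ ^ 2 * (q + 2 * η / κ ^ 2) * (m * μ)) ≤
      2 * a / κ ^ 2 * v * (a / (a + 1) * (m * μ ^ 2) + 1 / (a + 1) * B) := by
    gcongr
  have h14 : 2 * a / κ ^ 2 * v * (κ ^ 2 * (q + 2 * η / κ ^ 2) * (m * μ)) =
      2 * a * q * (v * (m * μ)) + 2 * a / κ ^ 2 * (v * (m * (2 * η * μ))) := by
    field_simp
  have h15 : 2 * a / κ ^ 2 * v * (a / (a + 1) * (m * μ ^ 2) + 1 / (a + 1) * B) =
      2 * a / κ ^ 2 * (v * (m * μ ^ 2)) - 2 * a / (κ ^ 2 * (a + 1)) * (v * (m * μ ^ 2)) +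
      2 * a / (κ ^ 2 * (a + 1)) * (v * B) := by
    field_simp
    ring
  have h16 : 2 * a / κ ^ 2 * (v * (m * (μ ^ 2 - 2 * η * μ))) =
      2 * a / κ ^ 2 * (v * (m * μ ^ 2)) - 2 * a / κ ^ 2 * (v * (m * (2 * η * μ))) := by ring
  rw [h14, h15] at h13
  rw [h16] at hc
  have h17 : 2 * a * (v * m) * (ρ * μ + X) =
      2 * a * ρ * (v * (m * μ)) + 2 * a * X * (v * m) := by ring
  have h18 : (2 * a * ρ + σ) * (v * (m * μ)) = 2 * a * ρ * (v * (m * μ)) +
      σ * (v * (m * μ)) := by ring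
  linarith

theorem mainT (hC : Core) : SpecBochnerT := by
  intro n G hs hp x h ρ σ hρ a η q R ha hη hR hq hρσ v hv hv0 κ hκ
  have hc := hC n G hs hp a η ha hη v hv hv0 κ hκ x
  have hκ0 : 0 < κ := by
    rw [hκ]
    have := Real.sqrt_nonneg (n : ℝ)
    linarith
  have h1 := hv0 x
  have h2 := gradSq_nonneg (hp x) v
  have h3 := hρ (grd G v x)
  rw [sum_grd (hp x)] at h3
  have h4 : ∑ i, ∑ j, grd G v x i * grd G v x j * (ric G x i j + 1 / 2 * h i j) =
      ∑ i, ∑ j, ric G x i j * grd G v x i * grd G v x j +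
      1 / 2 * ∑ i, ∑ j, h i j * grd G v x i * grd G v x j := by
    simp only [Finset.mul_sum, ← Finset.sum_add_distrib]
    exact Finset.sum_congr rfl fun i _ => Finset.sum_congr rfl fun j _ => by ring
  rw [h4] at h3
  have h5 : ρ * (gradSq G v x / v x ^ 2) ≤ ρ * (gradSq G v x / v x ^ 2 + η) + R * η := by
    have h6 := mul_le_mul_of_nonneg_right ((neg_le_abs ρ).trans hR) hη.le
    linarith
  have h7 := algebra (g := gradSq G v x) ha hη h5 hq hρσ hκ0 h1 (by positivity) (by field_simp)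
    h3 hc
  rwa [← mul_assoc (2 * a) R η] at h7

theorem main (hC : Core) : SpecBochner := by
  intro n G hs hp ρ hρ0 hρ a η ha hη v hv hv0 κ hκ x
  have hc := hC n G hs hp a η ha hη v hv hv0 κ hκ x
  have hκ0 : 0 < κ := by
    rw [hκ]
    have := Real.sqrt_nonneg (n : ℝ)
    linarith
  have h1 := hv0 x
  have h2 := gradSq_nonneg (hp x) v
  have h3 := hρ x (grd G v x)
  rw [sum_grd (hp x)] at h3
  have h4 : ∑ i, ∑ j, grd G v x i * grd G v x j * ric G x i j =
      ∑ i, ∑ j, ric G x i j * grd G v x i * grd G v x j :=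
    Finset.sum_congr rfl fun i _ => Finset.sum_congr rfl fun j _ => by ring
  rw [h4] at h3
  have h5 : ρ x * (gradSq G v x / v x ^ 2) ≤ ρ x * (gradSq G v x / v x ^ 2 + η) + 0 := by
    have h6 := mul_nonneg (hρ0 x) hη.le
    linarith
  have h7 := algebra (g := gradSq G v x) (H := 0) (σ := 0) ha hη h5 (hρ0 x) (by simp) hκ0 h1
    (by positivity) (by field_simp) (by simpa using h3) hc
  simp only [mul_zero, zero_mul, zero_div, add_zero, sub_zero] at h7
  exact h7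

end Vale.Agent.P223.H.B4b

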