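import Vale.Agent.P223.H.B4a
import Vale.Agent.P223.H.B4b

/-! Block 4: the pointwise Bochner inequalities. -/

namespace Vale.Agent.P223.H.Bochner

theorem Core : B4b.Core := core

theorem main : SpecBochner := B4b.main Core

theorem mainT : SpecBochnerT := B4b.mainT Core

end Vale.Agent.P223.H.Bochner
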