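import Vale.Agent.P223.H.Common

/-! Block 5b : second order Taylor estimate of the energy density. -/

namespace Vale.Agent.P223.H.B5a

open Matrix

variable {n : ℕ}

/-- bilinear form of a matrix -/
def bl (H : Matrix (Fin n) (Fin n) ℝ) (p q : Fin n → ℝ) : ℝ := ∑ i, ∑ j, H i j * p i * q j

theorem bl_eq (H : Matrix (Fin n) (Fin n) ℝ) (p q : Fin n → ℝ) : bl H p q = p ⬝ᵥ (H *ᵥ q) := by
  simp only [bl, dotProduct, Matrix.mulVec, Finset.mul_sum]
  exact Finset.sum_congr rfl fun i _ => Finset.sum_congr rfl fun j _ => by ring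

theorem bl_add_left (H : Matrix (Fin n) (Fin n) ℝ) (p p' q : Fin n → ℝ) :
    bl H (fun i => p i + p' i) q = bl H p q + bl H p' q := by
  simp only [bl, ← Finset.sum_add_distrib]
  exact Finset.sum_congr rfl fun i _ => Finset.sum_congr rfl fun j _ => by ring

theorem bl_add_right (H : Matrix (Fin n) (Fin n) ℝ) (p q q' : Fin n → ℝ) :
    bl H p (fun i => q i + q' i) = bl H p q + bl H p q' := by
  simp only [bl, ← Finset.sum_add_distrib]
  exact Finset.sum_congr rfl fun i _ => Finset.sum_congr rfl fun j _ => by ring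

theorem bl_smul_left (H : Matrix (Fin n) (Fin n) ℝ) (c : ℝ) (p q : Fin n → ℝ) :
    bl H (fun i => c * p i) q = c * bl H p q := by
  simp only [bl, Finset.mul_sum]
  exact Finset.sum_congr rfl fun i _ => Finset.sum_congr rfl fun j _ => by ring

theorem bl_smul_right (H : Matrix (Fin n) (Fin n) ℝ) (c : ℝ) (p q : Fin n → ℝ) :
    bl H p (fun i => c * q i) = c * bl H p q := by
  simp only [bl, Finset.mul_sum]
  exact Finset.sum_congr rfl fun i _ => Finset.sum_congr rfl fun j _ => by ring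

section
variable {H : Matrix (Fin n) (Fin n) ℝ} (hH : H.PosDef)
include hH

theorem bl_comm (p q : Fin n → ℝ) : bl H p q = bl H q p := by
  have hs : ∀ i j, H i j = H j i := fun i j => by
    have := hH.isHermitian.apply j i
    simpa using this
  simp only [bl]
  rw [Finset.sum_comm]
  exact Finset.sum_congr rfl fun i _ => Finset.sum_congr rfl fun j _ => by rw [hs]; ring

theorem bl_nonneg (p : Fin n → ℝ) : 0 ≤ bl H p p := by
  rw [bl_eq]
  have := hH.posSemidef.dotProduct_mulVec_nonneg p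
  simpa using this

theorem bl_sq_add (p q : Fin n → ℝ) (c d : ℝ) : bl H (fun i => c * p i + d * q i)
    (fun i => c * p i + d * q i) = c ^ 2 * bl H p p + 2 * c * d * bl H p q + d ^ 2 * bl H q q := by
  rw [bl_add_left H (fun i => c * p i) (fun i => d * q i),
    bl_add_right H _ (fun i => c * p i) (fun i => d * q i),
    bl_add_right H _ (fun i => c * p i) (fun i => d * q i)]
  simp only [bl_smul_left, bl_smul_right]
  rw [bl_comm hH q p]
  ring

/-- Cauchy–Schwarz -/
theorem bl_cs (p q : Fin n → ℝ) : bl H p q ^ 2 ≤ bl H p p * bl H q q := by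
  have h1 : discrim (bl H q q) (2 * bl H p q) (bl H p p) ≤ 0 := by
    refine discrim_le_zero fun t => ?_
    have := bl_nonneg hH (fun i => 1 * p i + t * q i)
    rw [bl_sq_add hH] at this
    linarith
  rw [discrim] at h1
  linarith

theorem bl_sub_add (p q : Fin n → ℝ) : bl H (fun i => p i - q i) (fun i => p i + q i) =
    bl H p p - bl H q q := by
  have e : (fun i => p i - q i) = fun i => p i + (-1) * q i := by funext i; ring
  rw [e, bl_add_left H p (fun i => (-1) * q i), bl_smul_left, bl_add_right, bl_add_right,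
    bl_comm hH q p]
  ring

theorem bl_add_sq_le (p q : Fin n → ℝ) : bl H (fun i => p i + q i) (fun i => p i + q i) ≤
    2 * bl H p p + 2 * bl H q q := by
  have h1 := bl_nonneg hH (fun i => 1 * p i + (-1) * q i)
  have h2 := bl_sq_add hH p q 1 1
  rw [bl_sq_add hH] at h1
  simp only [one_mul] at h2
  rw [h2]
  nlinarith

end

/-- one-variable Taylor estimate -/
theorem rpow_taylor (a η M : ℝ) (ha : 1 ≤ a) (hη : 0 < η) :
    ∃ L : ℝ, 0 ≤ L ∧ ∀ s s' : ℝ, η ≤ s → s ≤ M → η ≤ s' → s' ≤ M →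
      s' ^ a - s ^ a - a * s ^ (a - 1) * (s' - s) ≤ L * (s' - s) ^ 2 := by
  obtain ⟨L, hL⟩ := (isCompact_Icc (a := η) (b := M)).exists_bound_of_continuousOn
    (f := fun x : ℝ => (a - 1) * x ^ (a - 1 - 1)) (by
      refine ContinuousOn.mul continuousOn_const ?_
      exact ContinuousOn.rpow_const continuousOn_id fun x hx => Or.inl
        (lt_of_lt_of_le hη hx.1).ne')
  refine ⟨a * max L 0, by positivity, fun s s' h1 h2 h3 h4 => ?_⟩
  have hs : 0 < s := by linarith
  have hs' : 0 < s' := by linarith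
  have hc : s' ^ a - s ^ a ≤ a * s' ^ (a - 1) * (s' - s) := by
    have hb := one_add_mul_self_le_rpow_one_add (s := s / s' - 1) (by
      have : 0 ≤ s / s' := by positivity
      linarith) ha
    rw [show (1 : ℝ) + (s / s' - 1) = s / s' by ring, Real.div_rpow hs.le hs'.le] at hb
    have hp : 0 < s' ^ a := Real.rpow_pos_of_pos hs' a
    have h5 : (1 + a * (s / s' - 1)) * s' ^ a ≤ s ^ a := by
      rw [le_div_iff₀ hp] at hb; exact hb
    have h6 : s' ^ (a - 1) = s' ^ a / s' := by
      rw [Real.rpow_sub hs', Real.rpow_one]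
    have h7 : (1 + a * (s / s' - 1)) * s' ^ a = s' ^ a - a * s' ^ (a - 1) * (s' - s) := by
      rw [h6]; field_simp; ring
    linarith
  have hl : ‖s' ^ (a - 1) - s ^ (a - 1)‖ ≤ max L 0 * ‖s' - s‖ := by
    refine (convex_Icc η M).norm_image_sub_le_of_norm_hasDerivWithin_le
      (f := fun x : ℝ => x ^ (a - 1)) (f' := fun x : ℝ => (a - 1) * x ^ (a - 1 - 1)) ?_ ?_
      ⟨h1, h2⟩ ⟨h3, h4⟩
    · intro x hx
      exact (Real.hasDerivAt_rpow_const (Or.inl (by have := hx.1; linarith))).hasDerivWithinAt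
    · intro x hx
      exact (hL x hx).trans (le_max_left _ _)
  have h8 : (s' ^ (a - 1) - s ^ (a - 1)) * (s' - s) ≤ max L 0 * (s' - s) ^ 2 := by
    calc (s' ^ (a - 1) - s ^ (a - 1)) * (s' - s) ≤ |(s' ^ (a - 1) - s ^ (a - 1)) * (s' - s)| :=
          le_abs_self _
      _ = ‖s' ^ (a - 1) - s ^ (a - 1)‖ * ‖s' - s‖ := by
          rw [abs_mul, Real.norm_eq_abs, Real.norm_eq_abs]
      _ ≤ max L 0 * ‖s' - s‖ * ‖s' - s‖ := by gcongr
      _ = max L 0 * (s' - s) ^ 2 := by
          rw [mul_assoc, Real.norm_eq_abs, abs_mul_abs_self]; ring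
  have ha0 : 0 ≤ a := by linarith
  nlinarith [mul_le_mul_of_nonneg_left h8 ha0]

/-- The algebraic core. -/
theorem core (a η A : ℝ) (ha : 1 ≤ a) (hη : 0 < η) (hA : 0 < A) : ∃ C : ℝ, 0 < C ∧
    ∀ (n : ℕ) (H : Matrix (Fin n) (Fin n) ℝ) (p p' : Fin n → ℝ) (v v' W : ℝ), H.PosDef → 0 < W →
      W ≤ A * v → W ≤ A * v' → v ≤ A * W → v' ≤ A * W →
      bl H p p ≤ (A * W) ^ 2 → bl H p' p' ≤ (A * W) ^ 2 →
      v' * (bl H p' p' / v' ^ 2 + η) ^ a - v * (bl H p p / v ^ 2 + η) ^ a -
        ((bl H p p / v ^ 2 + η) ^ a * (v' - v) + 2 * a * (bl H p p / v ^ 2 + η) ^ (a - 1) *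
          (bl H p (fun i => p' i - p i) / v - bl H p p / v ^ 2 * (v' - v))) ≤
      C * ((v' - v) ^ 2 + bl H (fun i => p' i - p i) (fun i => p' i - p i)) / W := by
  obtain ⟨L, hL0, hL⟩ := rpow_taylor a η (A ^ 4 + η) ha hη
  set M : ℝ := A ^ 4 + η with hM
  have hM0 : 0 < M := by positivity
  set C₀ : ℝ := 4 * L * A ^ 4 + a * M ^ (a - 1) with hC₀
  have hC₀0 : 0 ≤ C₀ := by
    have : 0 < M ^ (a - 1) := Real.rpow_pos_of_pos hM0 _
    have ha0 : 0 ≤ a := by linarith
    positivity
  refine ⟨C₀ * (2 * (1 + A ^ 4) * A) + 1, by positivity, ?_⟩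
  intro n H p p' v v' W hH hW h1 h2 h3 h4 h5 h6
  have hv : 0 < v := by
    by_contra hcon
    have : A * v ≤ 0 := mul_nonpos_of_nonneg_of_nonpos hA.le (not_lt.1 hcon)
    linarith
  have hv' : 0 < v' := by
    by_contra hcon
    have : A * v' ≤ 0 := mul_nonpos_of_nonneg_of_nonpos hA.le (not_lt.1 hcon)
    linarith
  -- normalised vectors
  set u : Fin n → ℝ := fun i => v⁻¹ * p i with hu
  set u' : Fin n → ℝ := fun i => v'⁻¹ * p' i with hu'
  have e1 : bl H p p / v ^ 2 = bl H u u := by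
    rw [hu, bl_smul_left, bl_smul_right]; field_simp
  have e2 : bl H p' p' / v' ^ 2 = bl H u' u' := by
    rw [hu', bl_smul_left, bl_smul_right]; field_simp
  have bu : bl H u u ≤ A ^ 4 := by
    rw [← e1, div_le_iff₀ (by positivity)]
    have : W ^ 2 ≤ (A * v) ^ 2 := by gcongr
    calc bl H p p ≤ (A * W) ^ 2 := h5
      _ = A ^ 2 * W ^ 2 := by ring
      _ ≤ A ^ 2 * (A * v) ^ 2 := by gcongr
      _ = A ^ 4 * v ^ 2 := by ring
  have bu' : bl H u' u' ≤ A ^ 4 := by
    rw [← e2, div_le_iff₀ (by positivity)]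
    have : W ^ 2 ≤ (A * v') ^ 2 := by gcongr
    calc bl H p' p' ≤ (A * W) ^ 2 := h6
      _ = A ^ 2 * W ^ 2 := by ring
      _ ≤ A ^ 2 * (A * v') ^ 2 := by gcongr
      _ = A ^ 4 * v' ^ 2 := by ring
  have nu := bl_nonneg hH u
  have nu' := bl_nonneg hH u'
  set s : ℝ := bl H u u + η with hs
  set s' : ℝ := bl H u' u' + η with hs'
  set d : Fin n → ℝ := fun i => u' i - u i with hd
  set R : ℝ := bl H d d with hR
  have hR0 : 0 ≤ R := bl_nonneg hH d
  have hRe : R = bl H u' u' - 2 * bl H u u' + bl H u u := by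
    have := bl_sq_add hH u' u 1 (-1)
    have e : (fun i => 1 * u' i + -1 * u i) = d := by funext i; simp only [hd]; ring
    rw [e] at this
    rw [hR, this, bl_comm hH u' u]; ring
  -- the difference of `s`
  have hss : (s' - s) ^ 2 ≤ 4 * A ^ 4 * R := by
    set t : Fin n → ℝ := fun i => u' i + u i with ht
    have h7 : s' - s = bl H d t := by
      have := bl_sub_add hH u' u
      rw [← hd, ← ht] at this
      rw [this, hs, hs']
      ring
    have h8 : bl H t t ≤ 4 * A ^ 4 := by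
      have := bl_add_sq_le hH u' u
      rw [← ht] at this
      linarith
    rw [h7]
    refine (bl_cs hH d t).trans ?_
    rw [← hR]
    nlinarith
  have t1 := hL s s' (by linarith) (by rw [hs, hM]; linarith) (by linarith) (by rw [hs', hM]; linarith)
  have hsa : s ^ (a - 1) ≤ M ^ (a - 1) :=
    Real.rpow_le_rpow (by positivity) (by rw [hs, hM]; linarith) (by linarith)
  have hsa0 : 0 < s ^ (a - 1) := Real.rpow_pos_of_pos (by positivity) _
  -- the first order term
  have e3 : bl H p (fun i => p' i - p i) / v - bl H p p / v ^ 2 * (v' - v) =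
      v' * (bl H u u' - bl H u u) := by
    have ep : p = fun i => v * u i := by funext i; simp only [hu]; field_simp
    have ep' : (fun i => p' i - p i) = fun i => v' * u' i + (-v) * u i := by
      funext i; simp only [hu, hu']; field_simp; ring
    rw [e1, ep', bl_add_right H p (fun i => v' * u' i) (fun i => (-v) * u i), ep]
    simp only [bl_smul_left, bl_smul_right]
    field_simp
    ring
  have e4 : v' * s' ^ a - v * s ^ a - (s ^ a * (v' - v) + 2 * a * s ^ (a - 1) *
      (v' * (bl H u u' - bl H u u))) =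
      v' * (s' ^ a - s ^ a - a * s ^ (a - 1) * (s' - s) + a * s ^ (a - 1) * R) := by
    rw [hRe, hs, hs']; ring
  have e5 : v' * (s' ^ a - s ^ a - a * s ^ (a - 1) * (s' - s) + a * s ^ (a - 1) * R) ≤
      v' * (C₀ * R) := by
    refine mul_le_mul_of_nonneg_left ?_ hv'.le
    have h9 : L * (s' - s) ^ 2 ≤ L * (4 * A ^ 4 * R) := by gcongr
    have h10 : a * s ^ (a - 1) * R ≤ a * M ^ (a - 1) * R := by gcongr
    rw [hC₀]; nlinarith
  -- bound for `R`
  have e6 : v' * R ≤ 2 * (1 + A ^ 4) * A *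
      ((v' - v) ^ 2 + bl H (fun i => p' i - p i) (fun i => p' i - p i)) / W := by
    have ed : (fun i => v' * d i) = fun i => (p' i - p i) + (-(v' - v)) * u i := by
      funext i; simp only [hd, hu, hu']; field_simp; ring
    have h11 := bl_add_sq_le hH (fun i => p' i - p i) (fun i => (-(v' - v)) * u i)
    rw [← ed] at h11
    simp only [bl_smul_left, bl_smul_right] at h11
    rw [← hR] at h11
    set Q := bl H (fun i => p' i - p i) (fun i => p' i - p i) with hQ
    have hQ0 : 0 ≤ Q := bl_nonneg hH _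
    have h12 : v' * (v' * R) ≤ 2 * (1 + A ^ 4) * ((v' - v) ^ 2 + Q) := by
      have h13 : (v' - v) ^ 2 * bl H u u ≤ (v' - v) ^ 2 * A ^ 4 := by gcongr
      have h14 : 0 ≤ A ^ 4 * Q := by positivity
      have h15 : -(v' - v) * (-(v' - v) * bl H u u) = (v' - v) ^ 2 * bl H u u := by ring
      have h16 : 2 * (1 + A ^ 4) * ((v' - v) ^ 2 + Q) =
        2 * Q + 2 * ((v' - v) ^ 2 * A ^ 4) + (2 * (v' - v) ^ 2 + 2 * (A ^ 4 * Q)) := by ring
      have h17 := sq_nonneg (v' - v)
      rw [h15] at h11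
      rw [h16]
      linarith
    rw [le_div_iff₀ hW]
    calc v' * R * W ≤ v' * R * (A * v') := by gcongr
      _ = A * (v' * (v' * R)) := by ring
      _ ≤ A * (2 * (1 + A ^ 4) * ((v' - v) ^ 2 + Q)) := by gcongr
      _ = _ := by ring
  rw [e1, e2] at *
  rw [e3, ← hs, ← hs', e4]
  refine e5.trans ?_
  set Q := bl H (fun i => p' i - p i) (fun i => p' i - p i) with hQ
  have hQ0 : 0 ≤ Q := bl_nonneg hH _
  calc v' * (C₀ * R) = C₀ * (v' * R) := by ring
    _ ≤ C₀ * (2 * (1 + A ^ 4) * A * ((v' - v) ^ 2 + Q) / W) := by gcongr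
    _ = C₀ * (2 * (1 + A ^ 4) * A) * ((v' - v) ^ 2 + Q) / W := by ring
    _ ≤ (C₀ * (2 * (1 + A ^ 4) * A) + 1) * ((v' - v) ^ 2 + Q) / W := by
        gcongr
        linarith

/-- Block 5b. -/
theorem main : SpecTaylor := by
  intro a η A ha hη hA
  obtain ⟨C, hC, h⟩ := core a η A ha hη hA
  refine ⟨C, hC, ?_⟩
  intro n G x v v' W hG hv hv' hW h1 h2 h3 h4 h5 h6
  have hp : ∀ i, pd i (fun y => v' y - v y) x = pd i v' x - pd i v x := fun i => by
    unfold pd; rw [fderiv_fun_sub hv' hv]; rfl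
  have key := h n (G x)⁻¹ (fun i => pd i v x) (fun i => pd i v' x) (v x) (v' x) W hG.inv hW
    h1 h2 h3 h4 h5 h6
  have e1 : gradIp G v (fun y => v' y - v y) x =
      bl (G x)⁻¹ (fun i => pd i v x) (fun i => pd i v' x - pd i v x) := by
    simp only [gradIp, bl, hp]
  have e2 : gradSq G (fun y => v' y - v y) x =
      bl (G x)⁻¹ (fun i => pd i v' x - pd i v x) (fun i => pd i v' x - pd i v x) := by
    simp only [gradSq, gradIp, bl, hp]
  unfold eD dE
  rw [e1, e2]
  exact key

end Vale.Agent.P223.H.B5a
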