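import Vale.Agent.P223.H.Spec
import Mathlib.MeasureTheory.Function.Jacobian
import Mathlib.Analysis.InnerProductSpace.Orientation

/-! Block 7b. -/

namespace Vale.Agent.P223.H.Norm

open MeasureTheory Set Matrix
open scoped ContDiff ENNReal

/-- Hadamard's inequality. -/
theorem hadamard {n : ℕ} (M : Matrix (Fin n) (Fin n) ℝ) :
    |M.det| ≤ ∏ i, √(∑ j, M i j ^ 2) := by
  classical
  have : Fact (Module.finrank ℝ (EuclideanSpace ℝ (Fin n)) = n) := ⟨by simp⟩
  set b := EuclideanSpace.basisFun (Fin n) ℝ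
  set o := b.toBasis.orientation
  have h := o.abs_volumeForm_apply_le fun i => (WithLp.toLp 2 (M i) : EuclideanSpace ℝ (Fin n))
  rw [o.volumeForm_robust b rfl] at h
  have h1 : b.toBasis.det (fun i => (WithLp.toLp 2 (M i) : EuclideanSpace ℝ (Fin n))) = M.det := by
    rw [Module.Basis.det_apply, ← Matrix.det_transpose]
    congr 1
  rw [h1] at h
  refine h.trans (le_of_eq (Finset.prod_congr rfl fun i _ => ?_))
  rw [EuclideanSpace.norm_eq]
  congr 1
  exact Finset.sum_congr rfl fun j _ => by simp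

theorem exists_factor {n : ℕ} (A : Matrix (Fin n) (Fin n) ℝ) (hA : A.PosDef) :
    ∃ B : Matrix (Fin n) (Fin n) ℝ, A = Bᵀ * B ∧ B.det ≠ 0 := by
  open scoped MatrixOrder in
  have h0 : 0 ≤ A := hA.posSemidef.nonneg
  have h1 : CFC.sqrt A * CFC.sqrt A = A := CFC.sqrt_mul_sqrt_self A h0
  have h2 : (CFC.sqrt A).PosSemidef := Matrix.nonneg_iff_posSemidef.mp (CFC.sqrt_nonneg A)
  have h3 : (CFC.sqrt A)ᵀ = CFC.sqrt A := by
    have := h2.isHermitian
    simpa [Matrix.IsHermitian] using this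
  refine ⟨CFC.sqrt A, by rw [h3, h1], fun h => ?_⟩
  have h4 : A.det = 0 := by rw [← h1, Matrix.det_mul, h, zero_mul]
  exact hA.det_pos.ne' h4

theorem hadamardG {n : ℕ} (G B : Matrix (Fin n) (Fin n) ℝ) (hG : G.PosDef) :
    |B.det| ≤ √G.det * ∏ i, √(∑ j, ∑ k, G⁻¹ j k * B i j * B i k) := by
  obtain ⟨S, hS, hdet⟩ := exists_factor G hG
  have hu : IsUnit S.det := isUnit_iff_ne_zero.2 hdet
  have hGi : G⁻¹ = S⁻¹ * (S⁻¹)ᵀ := by
    rw [hS, Matrix.mul_inv_rev, Matrix.transpose_nonsing_inv]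
  have h1 : B.det = (B * S⁻¹).det * S.det := by
    rw [← Matrix.det_mul, Matrix.mul_assoc, Matrix.nonsing_inv_mul _ hu, Matrix.mul_one]
  have h2 : |S.det| = √G.det := by
    rw [hS, Matrix.det_mul, Matrix.det_transpose, ← pow_two, Real.sqrt_sq_eq_abs]
  have h3 : ∀ i, ∑ j, (B * S⁻¹) i j ^ 2 = ∑ j, ∑ k, G⁻¹ j k * B i j * B i k := by
    intro i
    have e1 : ∑ j, (B * S⁻¹) i j ^ 2 = ((B * S⁻¹) * (B * S⁻¹)ᵀ) i i := by
      rw [Matrix.mul_apply]
      exact Finset.sum_congr rfl fun j _ => by rw [Matrix.transpose_apply]; ring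
    have e2 : (B * S⁻¹) * (B * S⁻¹)ᵀ = B * G⁻¹ * Bᵀ := by
      rw [hGi, Matrix.transpose_mul]
      simp only [Matrix.mul_assoc]
    rw [e1, e2, Matrix.mul_apply]
    simp only [Matrix.mul_apply, Matrix.transpose_apply, Finset.sum_mul]
    rw [Finset.sum_comm]
    exact Finset.sum_congr rfl fun j _ => Finset.sum_congr rfl fun k _ => by ring
  rw [h1, abs_mul, h2, mul_comm]
  refine mul_le_mul_of_nonneg_left ((hadamard _).trans (le_of_eq ?_)) (Real.sqrt_nonneg _)
  exact Finset.prod_congr rfl fun i _ => by rw [h3]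

theorem jdet_le {n : ℕ} (G : E n → Matrix (Fin n) (Fin n) ℝ) (f : Fin n → E n → ℝ) (x : E n)
    (hG : (G x).PosDef) : |jdet f x| ≤ dens G x * ∏ i, √(gradSq G (f i) x) := by
  rw [jdet, dens]
  refine (hadamardG (G x) _ hG).trans (le_of_eq ?_)
  rfl

section
variable {n : ℕ} {Γ : Type} [Group Γ] [MulAction Γ (E n)] {G : E n → Matrix (Fin n) (Fin n) ℝ}

/-- The Jacobian matrix of the action. -/
noncomputable def jm (γ : Γ) (x : E n) : Matrix (Fin n) (Fin n) ℝ :=
  LinearMap.toMatrix' ((fderiv ℝ (fun y : E n => γ • y) x : E n →L[ℝ] E n) : E n →ₗ[ℝ] E n)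

theorem jm_apply (γ : Γ) (x : E n) (i j : Fin n) :
    jm γ x i j = fderiv ℝ (fun y : E n => γ • y) x (Pi.single j 1) i := by
  rw [jm, LinearMap.toMatrix'_apply]
  rfl

theorem det_jm (γ : Γ) (x : E n) :
    (jm γ x).det = (fderiv ℝ (fun y : E n => γ • y) x).det := by
  rw [jm, LinearMap.det_toMatrix']

theorem jm_det_pos (hΓ : Act n Γ) (γ : Γ) (x : E n) : 0 < (jm γ x).det := by
  rw [det_jm]; exact hΓ.orient γ x

theorem conj (hG : Met n Γ G) (γ : Γ) (x : E n) : (jm γ x)ᵀ * G (γ • x) * jm γ x = G x := by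
  ext a b
  have h := hG.inv γ x (Pi.single a 1) (Pi.single b 1)
  have e1 : ∑ i, ∑ j, (Pi.single a (1 : ℝ) : E n) i * (Pi.single b (1 : ℝ) : E n) j * G x i j =
      G x a b := by
    simp [Pi.single_apply]
  rw [e1] at h
  rw [← h]
  simp only [Matrix.mul_apply, Matrix.transpose_apply, jm_apply, Finset.sum_mul]
  rw [Finset.sum_comm]
  exact Finset.sum_congr rfl fun i _ => Finset.sum_congr rfl fun j _ => by ring

theorem inv_conj (hΓ : Act n Γ) (hG : Met n Γ G) (γ : Γ) (x : E n) :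
    (G (γ • x))⁻¹ = jm γ x * (G x)⁻¹ * (jm γ x)ᵀ := by
  have hA : IsUnit (jm γ x).det := isUnit_iff_ne_zero.2 (jm_det_pos hΓ γ x).ne'
  have hA' : IsUnit ((jm γ x)ᵀ).det := by rwa [Matrix.det_transpose]
  rw [← conj hG γ x, Matrix.mul_inv_rev, Matrix.mul_inv_rev]
  simp only [← Matrix.mul_assoc]
  rw [Matrix.mul_nonsing_inv _ hA, Matrix.one_mul, Matrix.mul_assoc,
    Matrix.nonsing_inv_mul _ hA', Matrix.mul_one]

theorem dens_inv (hΓ : Act n Γ) (hG : Met n Γ G) (γ : Γ) (x : E n) :
    dens G x = (jm γ x).det * dens G (γ • x) := by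
  rw [dens, dens, ← conj hG γ x, Matrix.det_mul, Matrix.det_mul, Matrix.det_transpose,
    show (jm γ x).det * (G (γ • x)).det * (jm γ x).det = (jm γ x).det ^ 2 * (G (γ • x)).det by ring,
    Real.sqrt_mul (sq_nonneg _), Real.sqrt_sq (jm_det_pos hΓ γ x).le]

theorem gradSq_eq (G : E n → Matrix (Fin n) (Fin n) ℝ) (f : E n → ℝ) (x : E n) :
    gradSq G f x = (fun k => pd k f x) ⬝ᵥ ((G x)⁻¹ *ᵥ fun k => pd k f x) := by
  simp only [gradSq, gradIp, dotProduct, Matrix.mulVec, Finset.mul_sum]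
  exact Finset.sum_congr rfl fun i _ => Finset.sum_congr rfl fun j _ => by ring

theorem pd_comp (hΓ : Act n Γ) (γ : Γ) {f : E n → ℝ} (hf : ContDiff ℝ 1 f) (x : E n) :
    (fun k => pd k (fun y => f (γ • y)) x) = (jm γ x)ᵀ *ᵥ fun k => pd k f (γ • x) := by
  funext i
  have h1 : HasFDerivAt (fun y : E n => γ • y) (fderiv ℝ (fun y : E n => γ • y) x) x :=
    ((hΓ.smooth γ).differentiable (by simp) x).hasFDerivAt
  have h2 : HasFDerivAt f (fderiv ℝ f (γ • x)) (γ • x) :=
    (hf.differentiable one_ne_zero _).hasFDerivAt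
  have h3 : fderiv ℝ (fun y => f (γ • y)) x =
      (fderiv ℝ f (γ • x)).comp (fderiv ℝ (fun y : E n => γ • y) x) := (h2.comp x h1).fderiv
  simp only [pd, h3, Matrix.mulVec, dotProduct, Matrix.transpose_apply, jm_apply,
    ContinuousLinearMap.comp_apply]
  set w := fderiv ℝ (fun y : E n => γ • y) x (Pi.single i 1)
  have hw : w = ∑ k, w k • (Pi.single k (1 : ℝ) : E n) := by
    ext j
    simp [Finset.sum_apply, Pi.single_apply]
  conv_lhs => rw [hw]
  rw [map_sum]
  simp only [map_smul, smul_eq_mul]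

theorem gradSq_comp (hΓ : Act n Γ) (hG : Met n Γ G) (γ : Γ) {f : E n → ℝ} (hf : ContDiff ℝ 1 f)
    (x : E n) : gradSq G (fun y => f (γ • y)) x = gradSq G f (γ • x) := by
  rw [gradSq_eq, gradSq_eq, pd_comp hΓ γ hf, inv_conj hΓ hG γ x]
  conv_lhs => rw [Matrix.mulVec_transpose, ← Matrix.dotProduct_mulVec, ← Matrix.mulVec_transpose]
  rw [Matrix.mulVec_mulVec, Matrix.mulVec_mulVec]

theorem smul_inj (γ : Γ) : Function.Injective fun x : E n => γ • x :=
  MulAction.injective γ

theorem setLIntegral_smul (hΓ : Act n Γ) (hG : Met n Γ G) (γ : Γ) {s : Set (E n)}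
    (hs : MeasurableSet s) (g : E n → ℝ≥0∞) :
    ∫⁻ x in (fun y => γ • y) '' s, g x * ENNReal.ofReal (dens G x) =
      ∫⁻ x in s, g (γ • x) * ENNReal.ofReal (dens G x) := by
  rw [lintegral_image_eq_lintegral_abs_det_fderiv_mul volume hs
    (f' := fun x => fderiv ℝ (fun y : E n => γ • y) x)
    (fun x _ => ((hΓ.smooth γ).differentiable (by simp) x).hasFDerivAt.hasFDerivWithinAt)
    (smul_inj γ).injOn]
  refine lintegral_congr fun x => ?_
  rw [dens_inv hΓ hG γ x, ENNReal.ofReal_mul (jm_det_pos hΓ γ x).le, ← det_jm,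
    abs_of_pos (jm_det_pos hΓ γ x)]
  ring

theorem countable (hΓ : Act n Γ) : Countable Γ := by
  rw [← Set.countable_univ_iff]
  have h : (Set.univ : Set Γ) ⊆ ⋃ m : ℕ, {γ : Γ | ∃ x ∈ Metric.closedBall (0 : E n) m,
      γ • x ∈ Metric.closedBall (0 : E n) m} := by
    intro γ _
    obtain ⟨m, hm⟩ := exists_nat_ge (dist (γ • (0 : E n)) 0)
    exact mem_iUnion.2 ⟨m, 0, by simp, hm⟩
  exact (countable_iUnion fun m => (hΓ.proper _ (isCompact_closedBall _ _)).countable).mono h

theorem finite_mem (hΓ : Act n Γ) {K : Set (E n)} (hK : IsCompact K) (y : E n) :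
    {γ : Γ | γ • y ∈ K}.Finite := by
  refine (hΓ.proper (K ∪ {y}) (hK.union isCompact_singleton)).subset fun γ hγ => ?_
  exact ⟨y, by simp, Or.inl hγ⟩

theorem continuous_G (hG : Met n Γ G) : Continuous G :=
  continuous_matrix fun i j => (hG.smooth i j).continuous

theorem continuous_inv (hG : Met n Γ G) : Continuous fun x => (G x)⁻¹ := by
  have h : (fun x => (G x)⁻¹) = fun x => ((G x).det)⁻¹ • (G x).adjugate := by
    funext x
    rw [Matrix.inv_def, Ring.inverse_eq_inv']
  rw [h]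
  exact ((continuous_G hG).matrix_det.inv₀ fun x => (hG.pos x).det_pos.ne').smul
    (continuous_G hG).matrix_adjugate

theorem continuous_pd {f : E n → ℝ} (hf : ContDiff ℝ 1 f) (i : Fin n) :
    Continuous fun x => pd i f x :=
  (hf.continuous_fderiv one_ne_zero).clm_apply continuous_const

theorem continuous_gradSq (hG : Met n Γ G) {f : E n → ℝ} (hf : ContDiff ℝ 1 f) :
    Continuous (gradSq G f) := by
  unfold gradSq gradIp
  refine continuous_finsetSum _ fun i _ => continuous_finsetSum _ fun j _ => ?_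
  exact (((continuous_inv hG).matrix_elem i j).mul (continuous_pd hf i)).mul (continuous_pd hf j)

theorem continuous_dens (hG : Met n Γ G) : Continuous (dens G) :=
  Real.continuous_sqrt.comp (continuous_G hG).matrix_det

end

/-- The `ℓ¹`-norm of a sum. -/
theorem l1_add {M : Type} [TopologicalSpace M] {k : ℕ} (z z' : Chain k M) :
    l1 (z + z') ≤ l1 z + l1 z' := by
  classical
  unfold l1
  rw [Finsupp.sum_of_support_subset (s := z.support ∪ z'.support) _ Finsupp.support_add _
    (by simp), Finsupp.sum_of_support_subset z (s := z.support ∪ z'.support)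
    Finset.subset_union_left _ (by simp), Finsupp.sum_of_support_subset z'
    (s := z.support ∪ z'.support) Finset.subset_union_right _ (by simp), ← Finset.sum_add_distrib]
  exact Finset.sum_le_sum fun σ _ => by
    rw [Finsupp.add_apply]; exact abs_add_le _ _

theorem l1_single {M : Type} [TopologicalSpace M] {k : ℕ} (σ : Simp k M) (a : ℝ) :
    l1 (Finsupp.single σ a) = |a| := by
  unfold l1
  rw [Finsupp.sum_single_index (by simp)]

theorem l1_zero {M : Type} [TopologicalSpace M] {k : ℕ} : l1 (0 : Chain k M) = 0 := by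
  unfold l1
  simp

theorem l1_sum {M : Type} [TopologicalSpace M] {k : ℕ} {β : Type} (s : Finset β)
    (z : β → Chain k M) : l1 (∑ b ∈ s, z b) ≤ ∑ b ∈ s, l1 (z b) := by
  classical
  induction s using Finset.induction_on with
  | empty => simp [l1_zero]
  | insert a s ha ih =>
    rw [Finset.sum_insert ha, Finset.sum_insert ha]
    exact (l1_add _ _).trans (by linarith)

section
variable {n : ℕ} {Γ : Type} [Group Γ] [MulAction Γ (E n)] {G : E n → Matrix (Fin n) (Fin n) ℝ}

/-- The length of the differential. -/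
noncomputable def sg (G : E n → Matrix (Fin n) (Fin n) ℝ) (φ : E n → ℝ) (x : E n) : ℝ≥0∞ :=
  ENNReal.ofReal √(gradSq G φ x)

theorem measurable_sg (hG : Met n Γ G) {φ : E n → ℝ} (hφ : ContDiff ℝ 1 φ) :
    Measurable (sg G φ) :=
  (Real.continuous_sqrt.comp (continuous_gradSq hG hφ)).measurable.ennreal_ofReal

theorem wt_le (hΓ : Act n Γ) (hG : Met n Γ G) (P : PU n Γ Unit) (hP : ∀ x, 0 ≤ P.φ () x)
    (l : Fin (n + 1) → Γ × Unit) (hl : (l 0).1 = 1) :
    ENNReal.ofReal |P.wt l| ≤ ∫⁻ x, ENNReal.ofReal (P.φ () x) *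
      (∏ i : Fin n, sg G (P.φ ()) ((l i.succ).1⁻¹ • x)) * ENNReal.ofReal (dens G x) := by
  rw [← Real.enorm_eq_ofReal_abs]
  refine (enorm_integral_le_lintegral_enorm _).trans (lintegral_mono fun x => ?_)
  have e0 : P.fn (l 0) x = P.φ () x := by
    rw [PU.fn, hl]; simp
  have e1 : ∀ i : Fin n, gradSq G (P.fn (l i.succ)) x =
      gradSq G (P.φ ()) ((l i.succ).1⁻¹ • x) := fun i =>
    gradSq_comp hΓ hG (l i.succ).1⁻¹ (P.smooth ()) x
  have h := jdet_le G (fun i => P.fn (l i.succ)) x (hG.pos x)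
  simp only [e1] at h
  rw [Real.enorm_eq_ofReal_abs]
  simp only [sg]
  rw [e0, abs_mul, abs_of_nonneg (hP x)]
  rw [← ENNReal.ofReal_prod_of_nonneg fun i _ => Real.sqrt_nonneg _,
    ← ENNReal.ofReal_mul (hP x), ← ENNReal.ofReal_mul
      (mul_nonneg (hP x) (Finset.prod_nonneg fun i _ => Real.sqrt_nonneg _))]
  refine ENNReal.ofReal_le_ofReal ?_
  rw [mul_assoc]
  refine mul_le_mul_of_nonneg_left ?_ (hP x)
  rw [mul_comm]
  exact h

theorem sum_prod_le {Λ : Type} {m : ℕ} [One Λ] (F : Finset (Fin (m + 1) → Λ × Unit))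
    (hF : ∀ l ∈ F, (l 0).1 = 1) (u : Λ → ℝ≥0∞) :
    ∑ l ∈ F, ∏ i : Fin m, u (l i.succ).1 ≤ (∑' γ, u γ) ^ m := by
  classical
  set T : Finset Λ := F.biUnion fun l => Finset.univ.image fun i : Fin m => (l i.succ).1 with hT
  have hinj : Set.InjOn (fun (l : Fin (m + 1) → Λ × Unit) (i : Fin m) => (l i.succ).1) F := by
    intro l hl l' hl' h
    funext j
    refine Prod.ext ?_ rfl
    induction j using Fin.cases with
    | zero => rw [hF l hl, hF l' hl']
    | succ i => exact congrFun h i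
  calc ∑ l ∈ F, ∏ i : Fin m, u (l i.succ).1
      = ∑ g ∈ F.image (fun (l : Fin (m + 1) → Λ × Unit) (i : Fin m) => (l i.succ).1),
          ∏ i : Fin m, u (g i) := by rw [Finset.sum_image hinj]
    _ ≤ ∑ g ∈ Fintype.piFinset (fun _ : Fin m => T), ∏ i : Fin m, u (g i) := by
        refine Finset.sum_le_sum_of_subset ?_
        intro g hg
        obtain ⟨l, hl, rfl⟩ := Finset.mem_image.1 hg
        rw [Fintype.mem_piFinset]
        intro i
        exact Finset.mem_biUnion.2 ⟨l, hl, Finset.mem_image_of_mem _ (Finset.mem_univ i)⟩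
    _ = (∑ γ ∈ T, u γ) ^ m := by
        rw [← Finset.prod_univ_sum, Finset.prod_const, Finset.card_univ, Fintype.card_fin]
    _ ≤ (∑' γ, u γ) ^ m := by
        gcongr
        exact ENNReal.sum_le_tsum T

/-- Block 7b. -/
theorem main : SpecNorm := by
  classical
  intro n Γ _ _ G hn hΓ hG R P q hP D hD hD'
  have hcount : Countable Γ := countable hΓ
  set φ := P.φ () with hφdef
  have hφ : ContDiff ℝ 1 φ := P.smooth ()
  have hact : ∀ γ : Γ, Continuous fun x : E n => γ • x := fun γ => (hΓ.smooth γ).continuous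
  have hsgm : ∀ γ : Γ, Measurable fun x : E n => sg G φ (γ • x) := fun γ =>
    (measurable_sg hG hφ).comp (hact γ).measurable
  have hφm : ∀ γ : Γ, Measurable fun x : E n => ENNReal.ofReal (φ (γ • x)) := fun γ =>
    (hφ.continuous.comp (hact γ)).measurable.ennreal_ofReal
  have hdm : Measurable fun x : E n => ENNReal.ofReal (dens G x) :=
    (continuous_dens hG).measurable.ennreal_ofReal
  set H : E n → ℝ≥0∞ := fun x => ∑' γ : Γ, sg G φ (γ • x) with hH
  have hHm : Measurable H := Measurable.tsum hsgm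
  have hHinv : ∀ (γ : Γ) x, H (γ • x) = H x := by
    intro γ x
    simp only [hH, smul_smul]
    exact (Equiv.mulRight γ).tsum_eq fun δ : Γ => sg G φ (δ • x)
  have hHi : ∀ x, ∑' γ : Γ, sg G φ (γ⁻¹ • x) = H x := fun x =>
    (Equiv.inv Γ).tsum_eq fun δ : Γ => sg G φ (δ • x)
  -- the sum of the partition of unity
  have hone : ∀ x, ∑' γ : Γ, ENNReal.ofReal (φ (γ • x)) = 1 := by
    intro x
    have h1 : ∑ᶠ γ : Γ, φ (γ⁻¹ • x) = 1 := by
      have := P.sum x
      simpa using this
    have hf : (Function.support fun γ : Γ => φ (γ⁻¹ • x)).Finite := by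
      by_contra hinf
      rw [finsum_of_infinite_support hinf] at h1
      exact zero_ne_one h1
    rw [finsum_eq_sum_of_support_subset _ (s := hf.toFinset) (by simp)] at h1
    rw [← (Equiv.inv Γ).tsum_eq fun δ : Γ => ENNReal.ofReal (φ (δ • x))]
    simp only [Equiv.inv_apply]
    rw [tsum_eq_sum (s := hf.toFinset), ← ENNReal.ofReal_sum_of_nonneg, h1, ENNReal.ofReal_one]
    · exact fun γ _ => hP _
    · intro γ hγ
      have : φ (γ⁻¹ • x) = 0 := by simpa using hγ
      rw [this, ENNReal.ofReal_zero]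
  -- main estimate
  have key : ∫⁻ x, ENNReal.ofReal (φ x) * H x ^ n * ENNReal.ofReal (dens G x) ≤
      int G D (fun x => (∑ᶠ γ : Γ, √(gradSq G φ (γ • x))) ^ n) := by
    have hcov : (Set.univ : Set (E n)) ⊆ ⋃ γ : Γ, (fun y : E n => γ • y) '' D := by
      intro x _
      obtain ⟨γ, hγ⟩ := hD' x
      exact mem_iUnion.2 ⟨γ⁻¹, γ • x, hγ, by simp⟩
    calc ∫⁻ x, ENNReal.ofReal (φ x) * H x ^ n * ENNReal.ofReal (dens G x)
        ≤ ∫⁻ x in ⋃ γ : Γ, (fun y : E n => γ • y) '' D,
            ENNReal.ofReal (φ x) * H x ^ n * ENNReal.ofReal (dens G x) := by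
          rw [← setLIntegral_univ]
          exact lintegral_mono_set hcov
      _ ≤ ∑' γ : Γ, ∫⁻ x in (fun y : E n => γ • y) '' D,
            ENNReal.ofReal (φ x) * H x ^ n * ENNReal.ofReal (dens G x) := lintegral_iUnion_le _ _
      _ = ∑' γ : Γ, ∫⁻ x in D,
            ENNReal.ofReal (φ (γ • x)) * (H x ^ n * ENNReal.ofReal (dens G x)) := by
          congr 1
          funext γ
          rw [setLIntegral_smul hΓ hG γ hD]
          refine lintegral_congr fun x => ?_
          rw [hHinv, mul_assoc]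
      _ = ∫⁻ x in D, ∑' γ : Γ,
            ENNReal.ofReal (φ (γ • x)) * (H x ^ n * ENNReal.ofReal (dens G x)) := by
          rw [lintegral_tsum]
          exact fun γ => ((hφm γ).mul ((hHm.pow_const n).mul hdm)).aemeasurable
      _ = ∫⁻ x in D, H x ^ n * ENNReal.ofReal (dens G x) := by
          refine lintegral_congr fun x => ?_
          rw [ENNReal.tsum_mul_right, hone, one_mul]
      _ = int G D (fun x => (∑ᶠ γ : Γ, √(gradSq G φ (γ • x))) ^ n) := by
          unfold int
          refine lintegral_congr fun x => ?_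
          have hfin : (Function.support fun γ : Γ => √(gradSq G φ (γ • x))).Finite := by
            refine (finite_mem hΓ (P.supp ()) x).subset fun γ hγ => ?_
            by_contra hcon
            apply hγ
            have h0 : fderiv ℝ φ (γ • x) = 0 := by
              by_contra hne
              exact hcon ((support_fderiv_subset ℝ) hne)
            simp [gradSq, gradIp, pd, h0]
          have hs : ∑ᶠ γ : Γ, √(gradSq G φ (γ • x)) =
              ∑ γ ∈ hfin.toFinset, √(gradSq G φ (γ • x)) :=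
            finsum_eq_sum_of_support_subset _ (by simp)
          have hHx : H x = ENNReal.ofReal (∑ᶠ γ : Γ, √(gradSq G φ (γ • x))) := by
            rw [hs, ENNReal.ofReal_sum_of_nonneg fun γ _ => Real.sqrt_nonneg _]
            refine tsum_eq_sum fun γ hγ => ?_
            have : √(gradSq G φ (γ • x)) = 0 := by simpa using hγ
            rw [sg, this, ENNReal.ofReal_zero]
          have hnn : 0 ≤ ∑ᶠ γ : Γ, √(gradSq G φ (γ • x)) := by
            rw [hs]; exact Finset.sum_nonneg fun γ _ => Real.sqrt_nonneg _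
          rw [hHx, ENNReal.ofReal_mul (pow_nonneg hnn n), ENNReal.ofReal_pow hnn]
  refine le_trans ?_ key
  -- the chain
  by_cases hfin : ({l : Fin (n + 1) → Γ × Unit | (l 0).1 = 1} ∩
      Function.support fun l : Fin (n + 1) → Γ × Unit => (Finsupp.single
        ((proj n Γ).comp (R.S n (fun j => ((l j).1, q (l j).2)))) (P.wt l) :
          Chain (n + 1) (Mfd n Γ))).Finite
  · have hF1 : ∀ l ∈ hfin.toFinset, (l 0).1 = 1 := fun l hl =>
      ((Set.Finite.mem_toFinset hfin).1 hl).1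
    rw [cyc, finsum_mem_eq_sum _ hfin]
    calc ENNReal.ofReal (l1 (∑ l ∈ hfin.toFinset, Finsupp.single
        ((proj n Γ).comp (R.S n (fun j => ((l j).1, q (l j).2)))) (P.wt l)))
        ≤ ENNReal.ofReal (∑ l ∈ hfin.toFinset, |P.wt l|) := by
          refine ENNReal.ofReal_le_ofReal ((l1_sum _ _).trans (le_of_eq ?_))
          exact Finset.sum_congr rfl fun l _ => l1_single _ _
      _ = ∑ l ∈ hfin.toFinset, ENNReal.ofReal |P.wt l| :=
          ENNReal.ofReal_sum_of_nonneg fun l _ => abs_nonneg _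
      _ ≤ ∑ l ∈ hfin.toFinset, ∫⁻ x, ENNReal.ofReal (φ x) *
            (∏ i : Fin n, sg G φ ((l i.succ).1⁻¹ • x)) * ENNReal.ofReal (dens G x) :=
          Finset.sum_le_sum fun l hl => wt_le hΓ hG P hP l (hF1 l hl)
      _ = ∫⁻ x, ∑ l ∈ hfin.toFinset, ENNReal.ofReal (φ x) *
            (∏ i : Fin n, sg G φ ((l i.succ).1⁻¹ • x)) * ENNReal.ofReal (dens G x) := by
          rw [lintegral_finsetSum]
          intro l _
          refine (Measurable.mul ?_ ?_).mul hdm
          · exact hφ.continuous.measurable.ennreal_ofReal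
          · exact Finset.measurable_fun_prod _ fun i _ => hsgm _
      _ ≤ ∫⁻ x, ENNReal.ofReal (φ x) * H x ^ n * ENNReal.ofReal (dens G x) := by
          refine lintegral_mono fun x => ?_
          rw [← Finset.sum_mul, ← Finset.mul_sum]
          gcongr
          refine (sum_prod_le hfin.toFinset hF1 fun γ => sg G φ (γ⁻¹ • x)).trans (le_of_eq ?_)
          rw [hHi]
  · rw [cyc, finsum_mem_eq_zero_of_infinite hfin, l1_zero, ENNReal.ofReal_zero]
    exact zero_le

end

end Vale.Agent.P223.H.Norm
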