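import Vale.Agent.P223.H.B5a
import Vale.Agent.P223.H.Norm

/-! Block 5a : integration by parts with cutoff functions. -/

namespace Vale.Agent.P223.H.B5b

open scoped ContDiff Topology Matrix
open MeasureTheory Filter B5a

variable {n : ℕ}

/-- Cauchy–Schwarz for the pairing of covectors and vectors. -/
theorem pair_le {G : Matrix (Fin n) (Fin n) ℝ} (hG : G.PosDef) (p Z : Fin n → ℝ) :
    (∑ i, p i * Z i) ^ 2 ≤ bl G⁻¹ p p * bl G Z Z := by
  have hu : IsUnit G.det := hG.det_pos.ne'.isUnit
  have h1 : bl G⁻¹ p (G *ᵥ Z) = ∑ i, p i * Z i := by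
    rw [bl_eq, Matrix.mulVec_mulVec, Matrix.nonsing_inv_mul _ hu, Matrix.one_mulVec]
    rfl
  have h2 : bl G⁻¹ (G *ᵥ Z) (G *ᵥ Z) = bl G Z Z := by
    rw [bl_eq, Matrix.mulVec_mulVec, Matrix.nonsing_inv_mul _ hu, Matrix.one_mulVec, bl_eq,
      dotProduct_comm]
  rw [← h1, ← h2]
  exact bl_cs hG.inv p _

theorem contDiff_det {m : WithTop ℕ∞} {G : E n → Matrix (Fin n) (Fin n) ℝ}
    (h : ∀ i j, ContDiff ℝ m fun x => G x i j) : ContDiff ℝ m fun x => (G x).det := by
  simp only [Matrix.det_apply']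
  exact ContDiff.sum fun σ _ => contDiff_const.mul (contDiff_prod fun i _ => h _ _)

variable {Γ : Type} [Group Γ] [MulAction Γ (E n)] {G : E n → Matrix (Fin n) (Fin n) ℝ}

theorem contDiff_dens (hG : Met n Γ G) {m : ℕ∞} : ContDiff ℝ m (dens G) := by
  unfold dens
  exact (contDiff_det fun i j => (hG.smooth i j).of_le (mod_cast le_top)).sqrt
    fun x => (hG.pos x).det_pos.ne'

theorem contDiff_inv (hG : Met n Γ G) (i j : Fin n) {m : ℕ∞} :
    ContDiff ℝ m fun x => (G x)⁻¹ i j := by
  have h : (fun x => (G x)⁻¹ i j) = fun x => ((G x).det)⁻¹ * (G x).adjugate i j := by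
    funext x
    rw [Matrix.inv_def, Ring.inverse_eq_inv', Matrix.smul_apply, smul_eq_mul]
  rw [h]
  refine (ContDiff.inv (contDiff_det fun i j => (hG.smooth i j).of_le (mod_cast le_top))
    fun x => (hG.pos x).det_pos.ne').mul ?_
  simp only [Matrix.adjugate_apply]
  refine contDiff_det fun k l => ?_
  by_cases hk : k = j
  · subst hk
    simp only [Matrix.updateRow_self]
    exact contDiff_const
  · simp only [Matrix.updateRow_ne hk]
    exact (hG.smooth k l).of_le (mod_cast le_top)

/-- the cutoff functions -/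
noncomputable def cut (χ : E n → ℝ) (F : Finset Γ) (x : E n) : ℝ := ∑ g ∈ F, χ (g⁻¹ • x)

section
variable (hΓ : Act n Γ) {χ : E n → ℝ} (h1 : ContDiff ℝ ∞ χ) (h2 : HasCompactSupport χ)
  (h3 : ∀ x, 0 ≤ χ x) (h4 : ∀ x, ∑ᶠ γ : Γ, χ (γ⁻¹ • x) = 1)
include hΓ h1

theorem smooth_tr (g : Γ) : ContDiff ℝ ∞ fun x : E n => χ (g⁻¹ • x) :=
  h1.comp (hΓ.smooth g⁻¹)

theorem cut_smooth (F : Finset Γ) : ContDiff ℝ ∞ (cut χ F) := by
  unfold cut
  exact ContDiff.sum fun g _ => smooth_tr hΓ h1 g

include h2

omit h1 in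
theorem tr_supp (g : Γ) : HasCompactSupport fun x : E n => χ (g⁻¹ • x) := by
  have : IsCompact ((fun x : E n => g • x) '' tsupport χ) :=
    h2.isCompact.image (Common.cont hΓ g)
  refine HasCompactSupport.of_support_subset_isCompact this fun x hx => ?_
  exact ⟨g⁻¹ • x, subset_tsupport χ hx, by simp⟩

omit h1 in
theorem cut_supp (F : Finset Γ) : HasCompactSupport (cut χ F) := by
  classical
  unfold cut
  induction F using Finset.induction_on with
  | empty =>
    simp only [Finset.sum_empty]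
    exact HasCompactSupport.zero
  | insert a s ha ih =>
    simp only [Finset.sum_insert ha]
    exact (tr_supp hΓ h2 a).add ih

omit h1 in
/-- finite support at a point, locally uniformly -/
theorem loc (x : E n) : ∃ T : Finset Γ, ∀ᶠ y in 𝓝 x, ∀ g : Γ, g ∉ T → χ (g⁻¹ • y) = 0 := by
  obtain ⟨t, ht, hft⟩ := Common.locallyFinite_support hΓ χ h2 x
  refine ⟨hft.toFinset, ?_⟩
  filter_upwards [ht] with y hy g hg
  by_contra hne
  exact hg (by simpa using ⟨y, hne, hy⟩)

include h4

omit h1 in
theorem cut_eq_one (x : E n) : ∃ T : Finset Γ, ∀ F : Finset Γ, T ⊆ F → cut χ F =ᶠ[𝓝 x] fun _ => 1 := by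
  obtain ⟨T, hT⟩ := loc hΓ h2 x
  refine ⟨T, fun F hF => ?_⟩
  filter_upwards [hT] with y hy
  rw [← h4 y, cut]
  refine (finsum_eq_sum_of_support_subset _ fun g hg => ?_).symm
  by_contra hne
  exact hg (hy g fun h => hne (hF h))

include h3

omit h1 in
theorem cut_mem (F : Finset Γ) (x : E n) : 0 ≤ cut χ F x ∧ cut χ F x ≤ 1 := by
  classical
  refine ⟨Finset.sum_nonneg fun g _ => h3 _, ?_⟩
  obtain ⟨T, hT⟩ := cut_eq_one hΓ h2 h4 x
  have h5 := (hT (T ∪ F) Finset.subset_union_left).self_of_nhds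
  rw [← show cut χ (T ∪ F) x = 1 from h5]
  exact Finset.sum_le_sum_of_subset_of_nonneg Finset.subset_union_right fun g _ _ => h3 _

end

/-- the pairing with the differential -/
noncomputable def pr (f : E n → ℝ) (Z : E n → E n) (x : E n) : ℝ := ∑ i, pd i f x * Z x i

theorem pr_le (hG : Met n Γ G) (f : E n → ℝ) (Z : E n → E n) (x : E n) :
    pr f Z x ^ 2 ≤ gradSq G f x * ∑ i, ∑ j, G x i j * Z x i * Z x j :=
  pair_le (hG.pos x) (fun i => pd i f x) (Z x)

theorem pr_cut (hΓ : Act n Γ) {χ : E n → ℝ} (h1 : ContDiff ℝ ∞ χ) (F : Finset Γ)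
    (Z : E n → E n) (x : E n) :
    pr (cut χ F) Z x = ∑ g ∈ F, pr (fun y => χ (g⁻¹ • y)) Z x := by
  unfold pr
  rw [Finset.sum_comm]
  refine Finset.sum_congr rfl fun i _ => ?_
  rw [← Finset.sum_mul]
  congr 1
  unfold cut pd
  rw [fderiv_fun_sum fun g _ => (smooth_tr hΓ h1 g).differentiable (by simp) x]
  simp only [_root_.sum_apply]

/-- uniform bound for the differentials of the cutoff functions -/
theorem pr_cut_le (hΓ : Act n Γ) (hG : Met n Γ G) {χ : E n → ℝ} (h1 : ContDiff ℝ ∞ χ)
    (h2 : HasCompactSupport χ) : ∃ B : ℝ, 0 < B ∧ ∀ (F : Finset Γ) (Z : E n → E n) (x : E n) (c : ℝ),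
      0 ≤ c → (∑ i, ∑ j, G x i j * Z x i * Z x j ≤ c ^ 2) → |pr (cut χ F) Z x| ≤ B * c := by
  classical
  have hχ1 : ContDiff ℝ 1 χ := h1.of_le (by exact_mod_cast le_top)
  set k : E n → ℝ := fun x => √(gradSq G χ x) with hk
  have hkc : Continuous k := Real.continuous_sqrt.comp (Norm.continuous_gradSq hG hχ1)
  have hks : HasCompactSupport k := by
    refine h2.mono' fun x hx => ?_
    by_contra hcon
    apply hx
    have h0 : fderiv ℝ χ x = 0 := by
      by_contra hne
      exact hcon ((support_fderiv_subset ℝ) hne)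
    simp [hk, gradSq, gradIp, pd, h0]
  set b : E n → ℝ := fun x => ∑ᶠ g : Γ, k (g⁻¹ • x) with hb
  have hbc : Continuous b :=
    continuous_finsum (fun g => hkc.comp (Common.cont hΓ g⁻¹))
      (Common.locallyFinite_support hΓ k hks)
  obtain ⟨B, hB, hB'⟩ := Common.bounded hΓ b hbc fun γ x => by
    rw [hb]; simp only [Common.avg_inv k γ x]
  refine ⟨B, hB, fun F Z x c hc hZ => ?_⟩
  rw [pr_cut hΓ h1]
  have hterm : ∀ g ∈ F, |pr (fun y => χ (g⁻¹ • y)) Z x| ≤ k (g⁻¹ • x) * c := by
    intro g _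
    have h5 := pr_le hG (fun y => χ (g⁻¹ • y)) Z x
    rw [Common.gradSq_comp hΓ hG g⁻¹ χ x (h1.differentiable (by simp) _)] at h5
    have h6 := Common.gradSq_nonneg hG χ (g⁻¹ • x)
    refine abs_le_of_sq_le_sq ?_ (by positivity)
    calc pr (fun y => χ (g⁻¹ • y)) Z x ^ 2
        ≤ gradSq G χ (g⁻¹ • x) * ∑ i, ∑ j, G x i j * Z x i * Z x j := h5
      _ ≤ gradSq G χ (g⁻¹ • x) * c ^ 2 := by gcongr
      _ = (k (g⁻¹ • x) * c) ^ 2 := by rw [hk, mul_pow, Real.sq_sqrt h6]
  have hfin : (Function.support fun g : Γ => k (g⁻¹ • x)).Finite :=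
    ((Common.locallyFinite_support hΓ k hks).point_finite x).subset fun g hg => hg
  calc |∑ g ∈ F, pr (fun y => χ (g⁻¹ • y)) Z x|
      ≤ ∑ g ∈ F, |pr (fun y => χ (g⁻¹ • y)) Z x| := Finset.abs_sum_le_sum_abs _ _
    _ ≤ ∑ g ∈ F, k (g⁻¹ • x) * c := Finset.sum_le_sum hterm
    _ = (∑ g ∈ F, k (g⁻¹ • x)) * c := by rw [Finset.sum_mul]
    _ ≤ b x * c := by
        gcongr
        rw [hb]
        simp only
        rw [finsum_eq_sum_of_support_subset (s := F ∪ hfin.toFinset) _ (by
          intro g hg; simp only [Finset.coe_union, Set.Finite.coe_toFinset]; exact Or.inr hg)]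
        exact Finset.sum_le_sum_of_subset_of_nonneg Finset.subset_union_left
          fun g _ _ => Real.sqrt_nonneg _
    _ ≤ B * c := by
        gcongr
        exact (le_abs_self _).trans (hB' x)

/-- Integration by parts for one cutoff function. -/
theorem ibp (hG : Met n Γ G) {k : E n → ℝ} (hk : ContDiff ℝ 1 k) (hks : HasCompactSupport k)
    {Z : E n → E n} (hZ : ContDiff ℝ 1 Z) :
    ∫ x, k x * (divg G Z x * dens G x) = - ∫ x, pr k Z x * dens G x := by
  have hu : ∀ i, ContDiff ℝ 1 fun y => dens G y * Z y i := fun i =>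
    (contDiff_dens hG (m := 1)).mul (contDiff_pi.1 hZ i)
  have hkc := hk.continuous
  have hpk : ∀ i, Continuous fun x => pd i k x := fun i => Norm.continuous_pd hk i
  have hpu : ∀ i, Continuous fun x => pd i (fun y => dens G y * Z y i) x := fun i =>
    Norm.continuous_pd (hu i) i
  have hpks : ∀ i, HasCompactSupport fun x => pd i k x := fun i =>
    (hks.fderiv_apply (𝕜 := ℝ) (Pi.single i 1))
  have i1 : ∀ i, Integrable fun x => k x * pd i (fun y => dens G y * Z y i) x := fun i =>
    (hkc.mul (hpu i)).integrable_of_hasCompactSupport hks.mul_right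
  have i2 : ∀ i, Integrable fun x => pd i k x * (dens G x * Z x i) := fun i =>
    ((hpk i).mul (hu i).continuous).integrable_of_hasCompactSupport (hpks i).mul_right
  have i3 : ∀ i, Integrable fun x => k x * (dens G x * Z x i) := fun i =>
    (hkc.mul (hu i).continuous).integrable_of_hasCompactSupport hks.mul_right
  have e1 : ∀ x, k x * (divg G Z x * dens G x) =
      ∑ i, k x * pd i (fun y => dens G y * Z y i) x := by
    intro x
    rw [divg, ← Finset.mul_sum]
    have := (Common.dens_pos hG x).ne'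
    field_simp
  have e2 : ∀ x, pr k Z x * dens G x = ∑ i, pd i k x * (dens G x * Z x i) := by
    intro x
    rw [pr, Finset.sum_mul]
    exact Finset.sum_congr rfl fun i _ => by ring
  simp only [e1, e2]
  rw [integral_finsetSum _ fun i _ => i1 i, integral_finsetSum _ fun i _ => i2 i,
    ← Finset.sum_neg_distrib]
  refine Finset.sum_congr rfl fun i _ => ?_
  exact integral_mul_fderiv_eq_neg_fderiv_mul_of_integrable (i2 i) (i1 i) (i3 i)
    (fun x _ => hk.differentiable one_ne_zero x) (fun x _ => (hu i).differentiable one_ne_zero x)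

/-- Block 5a. -/
theorem main : SpecIBP := by
  intro n Γ _ _ G W hΓ hG hW Z C f h hZ hZW hf hh hfh
  have hcount : Countable Γ := Common.countable hΓ
  obtain ⟨χ, h1, h2, h3, h4⟩ := Common.exists_chi hΓ
  obtain ⟨B, hB, hB'⟩ := pr_cut_le hΓ hG h1 h2
  have hZW' : ∀ x, ∑ i, ∑ j, G x i j * Z x i * Z x j ≤ (|C| * W x) ^ 2 := fun x => by
    refine (hZW x).trans (le_of_eq ?_)
    rw [mul_pow, mul_pow, sq_abs]
  have hdc : Continuous (dens G) := Norm.continuous_dens hG
  have hs1 : ∀ F : Finset Γ, ContDiff ℝ 1 (cut χ F) := fun F =>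
    (cut_smooth hΓ h1 F).of_le (by exact_mod_cast le_top)
  -- continuity
  have hprc : ∀ F : Finset Γ, Continuous fun x => pr (cut χ F) Z x * dens G x := fun F => by
    unfold pr
    refine Continuous.mul (continuous_finsetSum _ fun i _ => ?_) hdc
    exact (Norm.continuous_pd (hs1 F) i).mul ((continuous_apply i).comp hZ.continuous)
  have hdivc : Continuous fun x => divg G Z x * dens G x := by
    have : (fun x => divg G Z x * dens G x) = fun x => ∑ i, pd i (fun y => dens G y * Z y i) x := by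
      funext x
      rw [divg]
      have := (Common.dens_pos hG x).ne'
      field_simp
    rw [this]
    exact continuous_finsetSum _ fun i _ =>
      Norm.continuous_pd ((contDiff_dens hG (m := 1)).mul (contDiff_pi.1 hZ i)) i
  -- the three limits
  have lim : ∀ g : E n → ℝ, Integrable (fun x => g x * dens G x) →
      Tendsto (fun F : Finset Γ => ∫ x, cut χ F x * (g x * dens G x)) atTop
        (𝓝 (∫ x, g x * dens G x)) := by
    intro g hg
    refine tendsto_integral_filter_of_dominated_convergence (fun x => ‖g x * dens G x‖) ?_ ?_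
      hg.norm ?_
    · exact Eventually.of_forall fun F =>
        (hs1 F).continuous.aestronglyMeasurable.mul hg.aestronglyMeasurable
    · refine Eventually.of_forall fun F => Eventually.of_forall fun x => ?_
      obtain ⟨h5, h6⟩ := cut_mem hΓ h2 h3 h4 F x
      rw [norm_mul, Real.norm_of_nonneg h5]
      exact mul_le_of_le_one_left (norm_nonneg _) h6
    · refine Eventually.of_forall fun x => ?_
      obtain ⟨T, hT⟩ := cut_eq_one hΓ h2 h4 x
      refine tendsto_const_nhds.congr' ?_
      filter_upwards [eventually_ge_atTop T] with F hF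
      have := (hT F hF).self_of_nhds
      rw [this, one_mul]
  have lim0 : Tendsto (fun F : Finset Γ => ∫ x, pr (cut χ F) Z x * dens G x) atTop
      (𝓝 (∫ _ : E n, (0 : ℝ))) := by
    refine tendsto_integral_filter_of_dominated_convergence
      (fun x => B * |C| * (W x * dens G x)) ?_ ?_ (hW.integ.const_mul _) ?_
    · exact Eventually.of_forall fun F => (hprc F).aestronglyMeasurable
    · refine Eventually.of_forall fun F => Eventually.of_forall fun x => ?_
      have h5 := hB' F Z x (|C| * W x) (mul_nonneg (abs_nonneg _) (hW.pos x).le) (hZW' x)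
      have h6 := Common.dens_pos hG x
      rw [norm_mul, Real.norm_of_nonneg h6.le, Real.norm_eq_abs]
      calc |pr (cut χ F) Z x| * dens G x ≤ B * (|C| * W x) * dens G x := by gcongr
        _ = _ := by ring
    · refine Eventually.of_forall fun x => ?_
      obtain ⟨T, hT⟩ := cut_eq_one hΓ h2 h4 x
      refine tendsto_const_nhds.congr' ?_
      filter_upwards [eventually_ge_atTop T] with F hF
      have h5 : fderiv ℝ (cut χ F) x = 0 := by
        rw [(hT F hF).fderiv_eq]; simp
      simp [pr, pd, h5]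
  -- conclusion
  have key : ∀ F : Finset Γ, ∫ x, cut χ F x * (f x * dens G x) ≤
      (∫ x, cut χ F x * (h x * dens G x)) + - ∫ x, pr (cut χ F) Z x * dens G x := by
    intro F
    have hbd : ∀ g : E n → ℝ, Integrable (fun x => g x * dens G x) →
        Integrable fun x => cut χ F x * (g x * dens G x) := by
      intro g hg
      refine hg.norm.mono' ((hs1 F).continuous.aestronglyMeasurable.mul hg.aestronglyMeasurable) ?_
      refine Eventually.of_forall fun x => ?_
      obtain ⟨h5, h6⟩ := cut_mem hΓ h2 h3 h4 F x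
      rw [norm_mul, Real.norm_of_nonneg h5]
      exact mul_le_of_le_one_left (norm_nonneg _) h6
    have hdi : Integrable fun x => cut χ F x * (divg G Z x * dens G x) :=
      ((hs1 F).continuous.mul hdivc).integrable_of_hasCompactSupport
        (cut_supp hΓ h2 F).mul_right
    rw [← ibp hG (hs1 F) (cut_supp hΓ h2 F) hZ, ← integral_add (hbd h hh) hdi]
    refine integral_mono (hbd f hf) ((hbd h hh).add hdi) fun x => ?_
    have h5 := (cut_mem hΓ h2 h3 h4 F x).1
    have h6 := (Common.dens_pos hG x).le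
    have h7 := mul_le_mul_of_nonneg_left (mul_le_mul_of_nonneg_right (hfh x) h6) h5
    calc cut χ F x * (f x * dens G x) ≤ cut χ F x * ((h x + divg G Z x) * dens G x) := h7
      _ = _ := by ring
  have := le_of_tendsto_of_tendsto' (lim f hf) ((lim h hh).add lim0.neg) key
  simpa using this

end Vale.Agent.P223.H.B5b
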