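import Vale.Agent.P223.H.B5b

/-! Block 5c, first part: pointwise estimates and regularity. -/

namespace Vale.Agent.P223.H.B5c

open scoped ContDiff Topology Matrix
open MeasureTheory Filter B5a B5b

variable {n : ℕ}

theorem bl_lin_le {H : Matrix (Fin n) (Fin n) ℝ} (hH : H.PosDef) (p q : Fin n → ℝ) (c d : ℝ) :
    bl H (fun i => c * p i + d * q i) (fun i => c * p i + d * q i) ≤
      2 * (c ^ 2 * bl H p p) + 2 * (d ^ 2 * bl H q q) := by
  refine (bl_add_sq_le hH (fun i => c * p i) (fun i => d * q i)).trans (le_of_eq ?_)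
  simp only [bl_smul_left, bl_smul_right]
  ring

theorem gradSq_lin_le {G : E n → Matrix (Fin n) (Fin n) ℝ} {x : E n} (hG : (G x).PosDef)
    {f g h : E n → ℝ} {c d : ℝ} (e : ∀ i, pd i f x = c * pd i g x + d * pd i h x) :
    gradSq G f x ≤ 2 * (c ^ 2 * gradSq G g x) + 2 * (d ^ 2 * gradSq G h x) := by
  have := bl_lin_le hG.inv (fun i => pd i g x) (fun i => pd i h x) c d
  simp only [← e] at this
  exact this

theorem gradIp_cs {G : E n → Matrix (Fin n) (Fin n) ℝ} {x : E n} (hG : (G x).PosDef)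
    (f g : E n → ℝ) : gradIp G f g x ^ 2 ≤ gradSq G f x * gradSq G g x :=
  bl_cs hG.inv (fun i => pd i f x) (fun i => pd i g x)

/-! ### elementary bounds -/

theorem pos_of {A W v : ℝ} (hA : 0 < A) (hW : 0 < W) (h : W ≤ A * v) : 0 < v := by
  by_contra hcon
  have : A * v ≤ 0 := mul_nonpos_of_nonneg_of_nonpos hA.le (not_lt.1 hcon)
  linarith

theorem inv_le {A W v : ℝ} (hA : 0 < A) (hW : 0 < W) (h : W ≤ A * v) : v⁻¹ ≤ A / W := by
  have hv := pos_of hA hW h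
  rw [inv_le_comm₀ hv (by positivity), inv_div, div_le_iff₀ hA]
  linarith

theorem quot_le {A W v q : ℝ} (hA : 0 < A) (hW : 0 < W) (h : W ≤ A * v)
    (hq : q ≤ (A * W) ^ 2) : q / v ^ 2 ≤ A ^ 4 := by
  have hv := pos_of hA hW h
  rw [div_le_iff₀ (by positivity)]
  have : W ^ 2 ≤ (A * v) ^ 2 := by gcongr
  calc q ≤ (A * W) ^ 2 := hq
    _ = A ^ 2 * W ^ 2 := by ring
    _ ≤ A ^ 2 * (A * v) ^ 2 := by gcongr
    _ = A ^ 4 * v ^ 2 := by ring

/-- bound for the first variation -/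
theorem abs_dE_le {a η A : ℝ} (ha : 1 ≤ a) (hη : 0 < η) (hA : 0 < A)
    {G : E n → Matrix (Fin n) (Fin n) ℝ} {x : E n} (hG : (G x).PosDef) {v r : E n → ℝ} {W B : ℝ}
    (hW : 0 < W) (hB : 0 ≤ B) (h1 : W ≤ A * v x) (h2 : gradSq G v x ≤ (A * W) ^ 2)
    (h3 : |r x| ≤ B * W) (h4 : gradSq G r x ≤ (B * W) ^ 2) :
    |dE G a η v r x| ≤ ((A ^ 4 + η) ^ a + 2 * a * (A ^ 4 + η) ^ (a - 1) * (A ^ 2 + A ^ 4)) *
      (B * W) := by
  have hv := pos_of hA hW h1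
  have hq := quot_le hA hW h1 h2
  have hq0 : 0 ≤ gradSq G v x := bl_nonneg hG.inv _
  have hr0 : 0 ≤ gradSq G r x := bl_nonneg hG.inv _
  set s : ℝ := gradSq G v x / v x ^ 2 + η with hs
  have hs0 : 0 < s := by positivity
  have hsM : s ≤ A ^ 4 + η := by rw [hs]; linarith
  have hsa : s ^ a ≤ (A ^ 4 + η) ^ a := Real.rpow_le_rpow hs0.le hsM (by linarith)
  have hsa1 : s ^ (a - 1) ≤ (A ^ 4 + η) ^ (a - 1) := Real.rpow_le_rpow hs0.le hsM (by linarith)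
  have ha0 : 0 ≤ a := by linarith
  have hip : |gradIp G v r x| ≤ A * W * (B * W) := by
    refine abs_le_of_sq_le_sq ?_ (by positivity)
    calc gradIp G v r x ^ 2 ≤ gradSq G v x * gradSq G r x := gradIp_cs hG v r
      _ ≤ (A * W) ^ 2 * (B * W) ^ 2 := by gcongr
      _ = _ := by ring
  have e1 : |gradIp G v r x / v x| ≤ A ^ 2 * (B * W) := by
    rw [abs_div, abs_of_pos hv, div_eq_mul_inv]
    calc |gradIp G v r x| * (v x)⁻¹ ≤ A * W * (B * W) * (A / W) := by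
          gcongr
          exact inv_le hA hW h1
      _ = _ := by field_simp
  have e2 : |gradSq G v x / v x ^ 2 * r x| ≤ A ^ 4 * (B * W) := by
    rw [abs_mul, abs_of_nonneg (by positivity : 0 ≤ gradSq G v x / v x ^ 2)]
    gcongr
  rw [dE, ← hs]
  calc |s ^ a * r x + 2 * a * s ^ (a - 1) * (gradIp G v r x / v x - gradSq G v x / v x ^ 2 * r x)|
      ≤ |s ^ a * r x| + |2 * a * s ^ (a - 1) *
        (gradIp G v r x / v x - gradSq G v x / v x ^ 2 * r x)| := abs_add_le _ _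
    _ = s ^ a * |r x| + 2 * a * s ^ (a - 1) *
        |gradIp G v r x / v x - gradSq G v x / v x ^ 2 * r x| := by
        rw [abs_mul, abs_mul, abs_of_nonneg (by positivity : 0 ≤ s ^ a),
          abs_of_nonneg (by positivity : 0 ≤ 2 * a * s ^ (a - 1))]
    _ ≤ (A ^ 4 + η) ^ a * (B * W) + 2 * a * (A ^ 4 + η) ^ (a - 1) *
        (A ^ 2 * (B * W) + A ^ 4 * (B * W)) := by
        gcongr
        exact (abs_sub _ _).trans (add_le_add e1 e2)
    _ = _ := by ring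

/-- linearity of the first variation -/
theorem dE_lin {a η : ℝ} {G : E n → Matrix (Fin n) (Fin n) ℝ} {x : E n} {v w w₁ w₂ : E n → ℝ}
    {c : ℝ} (e0 : w x = c * w₁ x + w₂ x) (e : ∀ i, pd i w x = c * pd i w₁ x + pd i w₂ x) :
    dE G a η v w x = c * dE G a η v w₁ x + dE G a η v w₂ x := by
  have : gradIp G v w x = c * gradIp G v w₁ x + gradIp G v w₂ x := by
    simp only [gradIp, e, Finset.mul_sum, ← Finset.sum_add_distrib]
    exact Finset.sum_congr rfl fun i _ => Finset.sum_congr rfl fun j _ => by ring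
  rw [dE, dE, dE, this, e0]
  ring

/-- The energy density decreases up to a small error. -/
theorem step_le (a η A c₀ : ℝ) (ha : 1 ≤ a) (hη : 0 < η) (hA : 0 < A) (hc : 0 < c₀) :
    ∃ C : ℝ, 0 < C ∧ ∀ (n : ℕ) (G : E n → Matrix (Fin n) (Fin n) ℝ) (x : E n) (W ε : ℝ)
      (v v' l : E n → ℝ), (G x).PosDef → 0 < W → 0 < ε → ε ≤ 1 →
      DifferentiableAt ℝ v x → DifferentiableAt ℝ v' x → DifferentiableAt ℝ l x →
      W ≤ A * v x → W ≤ A * v' x → v x ≤ A * W → v' x ≤ A * W →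
      gradSq G v x ≤ (A * W) ^ 2 → gradSq G v' x ≤ (A * W) ^ 2 →
      |l x| ≤ A * W → gradSq G l x ≤ (A * W) ^ 2 →
      |v' x - v x - ε ^ 2 * c₀ * l x| ≤ A * ε ^ 3 * W →
      gradSq G (fun y => v' y - v y - ε ^ 2 * c₀ * l y) x ≤ (A * ε ^ 3 * W) ^ 2 →
      eD G a η v' x - eD G a η v x ≤ ε ^ 2 * c₀ * dE G a η v l x + C * ε ^ 3 * W := by
  obtain ⟨C₁, hC₁, hT⟩ := B5a.main a η A ha hη hA
  set C₂ : ℝ := (A ^ 4 + η) ^ a + 2 * a * (A ^ 4 + η) ^ (a - 1) * (A ^ 2 + A ^ 4) with hC₂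
  have ha0 : 0 ≤ a := by linarith
  have hC₂0 : 0 ≤ C₂ := by positivity
  refine ⟨C₁ * (4 * (c₀ ^ 2 + 1) * A ^ 2) + C₂ * A, by positivity, ?_⟩
  intro n G x W ε v v' l hG hW hε hε1 dv dv' dl h1 h2 h3 h4 h5 h6 h7 h8 h9 h10
  have key := hT n G x v v' W hG dv dv' hW h1 h2 h3 h4 h5 h6
  set r : E n → ℝ := fun y => v' y - v y - ε ^ 2 * c₀ * l y with hr
  have hpr : ∀ i, pd i r x = pd i v' x - pd i v x - ε ^ 2 * c₀ * pd i l x := fun i => by
    have d1 : DifferentiableAt ℝ (fun y => v' y - v y) x := dv'.sub dv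
    have d2 : DifferentiableAt ℝ (fun y => ε ^ 2 * c₀ * l y) x := dl.const_mul _
    unfold pd
    rw [hr, fderiv_fun_sub d1 d2, fderiv_fun_sub dv' dv, fderiv_const_mul dl]
    rfl
  have hpw : ∀ i, pd i (fun y => v' y - v y) x = pd i v' x - pd i v x := fun i => by
    unfold pd
    rw [fderiv_fun_sub dv' dv]; rfl
  have hlin := dE_lin (a := a) (η := η) (G := G) (x := x) (v := v) (w := fun y => v' y - v y)
    (w₁ := l) (w₂ := r) (c := ε ^ 2 * c₀) (by simp only [hr]; ring)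
    (fun i => by rw [hpr, hpw]; ring)
  have hr1 := abs_dE_le ha hη hA hG (r := r) (B := A * ε ^ 3) hW (by positivity) h1 h5 h9 h10
  rw [← hC₂] at hr1
  -- quadratic term
  have hε3 : ε ^ 6 ≤ ε ^ 3 := pow_le_pow_of_le_one hε.le hε1 (by norm_num)
  have hε4 : ε ^ 4 ≤ ε ^ 3 := pow_le_pow_of_le_one hε.le hε1 (by norm_num)
  have q1 : (v' x - v x) ^ 2 ≤ 2 * (c₀ ^ 2 + 1) * A ^ 2 * ε ^ 3 * W ^ 2 := by
    have e : v' x - v x = ε ^ 2 * c₀ * l x + r x := by simp only [hr]; ring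
    have s1 : l x ^ 2 ≤ (A * W) ^ 2 := sq_le_sq' (by linarith [abs_le.1 h7]) (by linarith [abs_le.1 h7])
    have s2 : r x ^ 2 ≤ (A * ε ^ 3 * W) ^ 2 :=
      sq_le_sq' (by linarith [abs_le.1 h9]) (by linarith [abs_le.1 h9])
    calc (v' x - v x) ^ 2 ≤ 2 * (ε ^ 2 * c₀ * l x) ^ 2 + 2 * r x ^ 2 := by
          rw [e]; nlinarith [sq_nonneg (ε ^ 2 * c₀ * l x - r x)]
      _ = 2 * (ε ^ 4 * c₀ ^ 2 * l x ^ 2) + 2 * r x ^ 2 := by ring
      _ ≤ 2 * (ε ^ 3 * c₀ ^ 2 * (A * W) ^ 2) + 2 * (A * ε ^ 3 * W) ^ 2 := by gcongr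
      _ = 2 * c₀ ^ 2 * A ^ 2 * ε ^ 3 * W ^ 2 + 2 * A ^ 2 * ε ^ 6 * W ^ 2 := by ring
      _ ≤ 2 * c₀ ^ 2 * A ^ 2 * ε ^ 3 * W ^ 2 + 2 * A ^ 2 * ε ^ 3 * W ^ 2 := by gcongr
      _ = _ := by ring
  have q2 : gradSq G (fun y => v' y - v y) x ≤ 2 * (c₀ ^ 2 + 1) * A ^ 2 * ε ^ 3 * W ^ 2 := by
    have e := gradSq_lin_le (f := fun y => v' y - v y) (g := l) (h := r) (c := ε ^ 2 * c₀) (d := 1)
      hG (fun i => by rw [hpr, hpw]; ring)
    have hl0 : 0 ≤ gradSq G l x := bl_nonneg hG.inv _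
    calc gradSq G (fun y => v' y - v y) x
        ≤ 2 * ((ε ^ 2 * c₀) ^ 2 * gradSq G l x) + 2 * (1 ^ 2 * gradSq G r x) := e
      _ = 2 * (ε ^ 4 * c₀ ^ 2 * gradSq G l x) + 2 * gradSq G r x := by ring
      _ ≤ 2 * (ε ^ 3 * c₀ ^ 2 * (A * W) ^ 2) + 2 * (A * ε ^ 3 * W) ^ 2 := by gcongr
      _ = 2 * c₀ ^ 2 * A ^ 2 * ε ^ 3 * W ^ 2 + 2 * A ^ 2 * ε ^ 6 * W ^ 2 := by ring
      _ ≤ 2 * c₀ ^ 2 * A ^ 2 * ε ^ 3 * W ^ 2 + 2 * A ^ 2 * ε ^ 3 * W ^ 2 := by gcongr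
      _ = _ := by ring
  have q3 : C₁ * ((v' x - v x) ^ 2 + gradSq G (fun y => v' y - v y) x) / W ≤
      C₁ * (4 * (c₀ ^ 2 + 1) * A ^ 2) * ε ^ 3 * W := by
    rw [div_le_iff₀ hW]
    calc C₁ * ((v' x - v x) ^ 2 + gradSq G (fun y => v' y - v y) x)
        ≤ C₁ * (2 * (c₀ ^ 2 + 1) * A ^ 2 * ε ^ 3 * W ^ 2 +
            2 * (c₀ ^ 2 + 1) * A ^ 2 * ε ^ 3 * W ^ 2) := by gcongr
      _ = _ := by ring
  have q4 : dE G a η v r x ≤ C₂ * A * ε ^ 3 * W := by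
    refine (le_abs_self _).trans (hr1.trans (le_of_eq (by ring)))
  rw [hlin] at key
  have q5 : (C₁ * (4 * (c₀ ^ 2 + 1) * A ^ 2) + C₂ * A) * ε ^ 3 * W =
    C₁ * (4 * (c₀ ^ 2 + 1) * A ^ 2) * ε ^ 3 * W + C₂ * A * ε ^ 3 * W := by ring
  rw [q5]
  linarith

/-! ### regularity -/

theorem contDiff_pd {m k : WithTop ℕ∞} {f : E n → ℝ} (hf : ContDiff ℝ m f) (hmk : k + 1 ≤ m)
    (c : Fin n) : ContDiff ℝ k (fun y => pd c f y) := by
  unfold pd
  exact (hf.fderiv_right hmk).clm_apply contDiff_const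

section
variable {Γ : Type} [Group Γ] [MulAction Γ (E n)] {G : E n → Matrix (Fin n) (Fin n) ℝ}
  (hG : Met n Γ G)
include hG

theorem contDiff_gradSq {m : ℕ∞} {k : WithTop ℕ∞} {v : E n → ℝ} (hv : ContDiff ℝ k v)
    (h : (m : WithTop ℕ∞) + 1 ≤ k) : ContDiff ℝ m (gradSq G v) := by
  unfold gradSq gradIp
  refine ContDiff.sum fun i _ => ContDiff.sum fun j _ => ?_
  exact ((contDiff_inv hG i j).mul (contDiff_pd hv h i)).mul (contDiff_pd hv h j)

theorem contDiff_chr {m : ℕ∞} (k i j : Fin n) : ContDiff ℝ m fun x => chr G x k i j := by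
  unfold chr
  have hp : ∀ a b c, ContDiff ℝ m fun y => pd a (fun z => G z b c) y := fun a b c =>
    contDiff_pd (hG.smooth b c) (by
      exact_mod_cast le_top) a
  exact contDiff_const.mul (ContDiff.sum fun l _ => (contDiff_inv hG k l).mul
    (((hp _ _ _).add (hp _ _ _)).sub (hp _ _ _)))

theorem contDiff_lap {v : E n → ℝ} (hv : ContDiff ℝ 4 v) : ContDiff ℝ 2 (lap G v) := by
  unfold lap
  refine ContDiff.sum fun i _ => ContDiff.sum fun j _ => ?_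
  refine (contDiff_inv hG i j (m := 2)).mul (ContDiff.sub ?_ (ContDiff.sum fun k _ => ?_))
  · exact contDiff_pd (contDiff_pd hv (k := 3) (by norm_num) j) (by norm_num) i
  · exact (contDiff_chr hG k i j (m := 2)).mul
      ((contDiff_pd hv (k := 3) (by norm_num) k).of_le (by norm_num))

theorem contDiff_eD {v : E n → ℝ} (hv : ContDiff ℝ 4 v) (hv0 : ∀ x, 0 < v x) {a η : ℝ}
    (hη : 0 < η) : ContDiff ℝ 3 (eD G a η v) := by
  unfold eD
  refine (hv.of_le (by norm_num)).mul (ContDiff.rpow_const_of_ne ?_ fun x => ?_)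
  · refine ContDiff.add ?_ contDiff_const
    exact (contDiff_gradSq hG (m := 3) hv (by norm_num)).div ((hv.of_le (by norm_num)).pow 2)
      fun x => (pow_pos (hv0 x) 2).ne'
  · have := Common.gradSq_nonneg hG v x
    have := hv0 x
    positivity

theorem contDiff_grd {m : ℕ∞} {k : WithTop ℕ∞} {v : E n → ℝ} (hv : ContDiff ℝ k v)
    (h : (m : WithTop ℕ∞) + 1 ≤ k) (i : Fin n) : ContDiff ℝ m fun x => grd G v x i := by
  unfold grd
  exact ContDiff.sum fun j _ => (contDiff_inv hG i j).mul (contDiff_pd hv h j)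

theorem contDiff_s {v : E n → ℝ} (hv : ContDiff ℝ 4 v) (hv0 : ∀ x, 0 < v x) {η : ℝ} :
    ContDiff ℝ 3 fun x => gradSq G v x / v x ^ 2 + η := by
  refine ContDiff.add ?_ contDiff_const
  exact (contDiff_gradSq hG (m := 3) hv (by norm_num)).div ((hv.of_le (by norm_num)).pow 2)
    fun x => (pow_pos (hv0 x) 2).ne'

theorem s_pos {v : E n → ℝ} (hv0 : ∀ x, 0 < v x) {η : ℝ} (hη : 0 < η) (x : E n) :
    0 < gradSq G v x / v x ^ 2 + η := by
  have := Common.gradSq_nonneg hG v x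
  have := hv0 x
  positivity

theorem contDiff_ZZ {v : E n → ℝ} (hv : ContDiff ℝ 4 v) (hv0 : ∀ x, 0 < v x) {a η κ : ℝ}
    (hη : 0 < η) : ContDiff ℝ 1 (ZZ G a η κ v) := by
  refine contDiff_pi.2 fun i => ?_
  unfold ZZ
  refine ContDiff.add ?_ (ContDiff.mul (contDiff_const.mul ?_) ?_)
  · exact contDiff_grd hG (m := 1) (k := 3) (contDiff_eD hG hv hv0 hη) (by norm_num) i
  · exact ((contDiff_s hG hv hv0).of_le (by norm_num)).rpow_const_of_ne
      fun x => (s_pos hG hv0 hη x).ne'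
  · exact contDiff_grd hG (m := 1) (k := 4) hv (by norm_num) i

end

/-- derivative along a coordinate line -/
theorem line {f : E n → ℝ} {x : E n} (hf : DifferentiableAt ℝ f x) (i : Fin n) :
    HasDerivAt (fun t : ℝ => f (x + t • (Pi.single i (1 : ℝ) : E n))) (pd i f x) 0 :=
  hf.hasFDerivAt.hasLineDerivAt _

theorem pd_eD {G : E n → Matrix (Fin n) (Fin n) ℝ} {v : E n → ℝ} {x : E n} {a η : ℝ}
    (dv : DifferentiableAt ℝ v x) (dq : DifferentiableAt ℝ (gradSq G v) x)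
    (de : DifferentiableAt ℝ (eD G a η v) x) (hv : 0 < v x)
    (hs : 0 < gradSq G v x / v x ^ 2 + η) (i : Fin n) :
    pd i (eD G a η v) x =
      ((gradSq G v x / v x ^ 2 + η) ^ a - 2 * a * (gradSq G v x / v x ^ 2 + η) ^ (a - 1) *
        (gradSq G v x / v x ^ 2)) * pd i v x +
      (a * (gradSq G v x / v x ^ 2 + η) ^ (a - 1) / v x) * pd i (gradSq G v) x := by
  have h1 := line dv i
  have h2 := line dq i
  have h3 := line de i
  have e0 : x + (0 : ℝ) • (Pi.single i (1 : ℝ) : E n) = x := by simp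
  have h4 := h1.mul (((h2.div (h1.pow 2) (by
    simp only [Pi.pow_apply, e0]; exact (pow_pos hv 2).ne')).add_const
    η).rpow_const (p := a) (Or.inl (by
      simp only [Pi.pow_apply, Pi.div_apply, e0]; exact hs.ne')))
  have h5 := h3.unique h4
  rw [h5]
  simp only [Pi.pow_apply, Pi.div_apply, e0]
  field_simp
  ring

theorem bl_grd {G : E n → Matrix (Fin n) (Fin n) ℝ} {x : E n} (hG : (G x).PosDef) (f : E n → ℝ) :
    bl (G x) (grd G f x) (grd G f x) = gradSq G f x := by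
  have hu : IsUnit (G x).det := hG.det_pos.ne'.isUnit
  have e : grd G f x = (G x)⁻¹ *ᵥ fun i => pd i f x := by
    funext i; simp only [grd, Matrix.mulVec, dotProduct]
  have e' : gradSq G f x = (fun i => pd i f x) ⬝ᵥ ((G x)⁻¹ *ᵥ fun i => pd i f x) :=
    Common.gradIp_eq f f x
  rw [bl_eq, e, Matrix.mulVec_mulVec, Matrix.mul_nonsing_inv _ hu, Matrix.one_mulVec, e',
    dotProduct_comm]

/-- bound for the vector field `ZZ` -/
theorem ZZ_le (a η κ A : ℝ) (ha : 1 ≤ a) (hη : 0 < η) (hA : 0 < A) :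
    ∃ C : ℝ, ∀ (n : ℕ) (G : E n → Matrix (Fin n) (Fin n) ℝ) (x : E n) (W : ℝ)
      (v : E n → ℝ), (G x).PosDef → 0 < W → DifferentiableAt ℝ v x →
      DifferentiableAt ℝ (gradSq G v) x → DifferentiableAt ℝ (eD G a η v) x →
      W ≤ A * v x → gradSq G v x ≤ (A * W) ^ 2 →
      gradSq G (fun y => gradSq G v y) x ≤ (A * W ^ 2) ^ 2 →
      ∑ i, ∑ j, G x i j * ZZ G a η κ v x i * ZZ G a η κ v x j ≤ (C * W) ^ 2 := by
  set M : ℝ := A ^ 4 + η with hM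
  have ha0 : 0 ≤ a := by linarith
  set C₁ : ℝ := M ^ a + 2 * a * M ^ (a - 1) * A ^ 4 with hC₁
  set C₂ : ℝ := a * M ^ (a - 1) * A with hC₂
  have hC₁0 : 0 ≤ C₁ := by positivity
  have hC₂0 : 0 ≤ C₂ := by positivity
  set C₃ : ℝ := 2 * (2 * (C₁ ^ 2 * A ^ 2) + 2 * (C₂ ^ 2 * A ^ 2)) +
    2 * ((4 * a / κ ^ 2 * M ^ a) ^ 2 * A ^ 2) with hC₃
  have hC₃0 : 0 ≤ C₃ := by positivity
  refine ⟨√C₃, ?_⟩
  intro n G x W v hG hW dv dq de h1 h2 h3
  have hv := pos_of hA hW h1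
  have hq := quot_le hA hW h1 h2
  have hq0 : 0 ≤ gradSq G v x := bl_nonneg hG.inv _
  have hpd := pd_eD (a := a) dv dq de hv (by positivity)
  set s : ℝ := gradSq G v x / v x ^ 2 + η with hs
  have hs0 : 0 < s := by positivity
  have hsM : s ≤ M := by rw [hs, hM]; linarith
  have hsa : s ^ a ≤ M ^ a := Real.rpow_le_rpow hs0.le hsM (by linarith)
  have hsa1 : s ^ (a - 1) ≤ M ^ (a - 1) := Real.rpow_le_rpow hs0.le hsM (by linarith)
  set α : ℝ := s ^ a - 2 * a * s ^ (a - 1) * (gradSq G v x / v x ^ 2) with hα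
  set β : ℝ := a * s ^ (a - 1) / v x with hβ
  have hαC : α ^ 2 ≤ C₁ ^ 2 := by
    have h4 : 2 * a * s ^ (a - 1) * (gradSq G v x / v x ^ 2) ≤ 2 * a * M ^ (a - 1) * A ^ 4 := by
      gcongr
    have h5 : 0 ≤ 2 * a * s ^ (a - 1) * (gradSq G v x / v x ^ 2) := by positivity
    have h6 : 0 ≤ s ^ a := by positivity
    exact sq_le_sq' (by rw [hα, hC₁]; linarith [Real.rpow_nonneg (by positivity : 0 ≤ M) a])
      (by rw [hα, hC₁]; linarith [(h5.trans h4)])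
  have hβC : β ≤ C₂ / W := by
    rw [hβ, hC₂, div_eq_mul_inv]
    calc a * s ^ (a - 1) * (v x)⁻¹ ≤ a * M ^ (a - 1) * (A / W) := by
          gcongr
          exact inv_le hA hW h1
      _ = _ := by ring
  have hβ0 : 0 ≤ β := by positivity
  -- gradient of the energy density
  have g1 : gradSq G (eD G a η v) x ≤ (2 * (C₁ ^ 2 * A ^ 2) + 2 * (C₂ ^ 2 * A ^ 2)) * W ^ 2 := by
    have h4 := gradSq_lin_le (f := eD G a η v) (g := v) (h := gradSq G v) hG hpd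
    calc gradSq G (eD G a η v) x
        ≤ 2 * (α ^ 2 * gradSq G v x) + 2 * (β ^ 2 * gradSq G (gradSq G v) x) := h4
      _ ≤ 2 * (C₁ ^ 2 * (A * W) ^ 2) + 2 * ((C₂ / W) ^ 2 * (A * W ^ 2) ^ 2) := by
          have h7 : gradSq G (gradSq G v) x ≤ (A * W ^ 2) ^ 2 := h3
          have h8 : 0 ≤ gradSq G (gradSq G v) x := bl_nonneg hG.inv _
          gcongr
      _ = _ := by field_simp
  have e : ZZ G a η κ v x = fun i => 1 * grd G (fun y => eD G a η v y) x i +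
      (4 * a / κ ^ 2 * s ^ a) * grd G v x i := by
    funext i; rw [ZZ, one_mul]
  have h5 : ∑ i, ∑ j, G x i j * ZZ G a η κ v x i * ZZ G a η κ v x j =
      bl (G x) (ZZ G a η κ v x) (ZZ G a η κ v x) := rfl
  rw [h5, e]
  have h6 := bl_lin_le hG (grd G (fun y => eD G a η v y) x) (grd G v x) 1 (4 * a / κ ^ 2 * s ^ a)
  rw [bl_grd hG, bl_grd hG] at h6
  refine h6.trans ?_
  rw [show (√C₃ * W) ^ 2 = C₃ * W ^ 2 by rw [mul_pow, Real.sq_sqrt hC₃0]]
  have h7 : gradSq G (fun y => eD G a η v y) x ≤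
    (2 * (C₁ ^ 2 * A ^ 2) + 2 * (C₂ ^ 2 * A ^ 2)) * W ^ 2 := g1
  calc 2 * (1 ^ 2 * gradSq G (fun y => eD G a η v y) x) +
        2 * ((4 * a / κ ^ 2 * s ^ a) ^ 2 * gradSq G v x)
      ≤ 2 * (1 ^ 2 * ((2 * (C₁ ^ 2 * A ^ 2) + 2 * (C₂ ^ 2 * A ^ 2)) * W ^ 2)) +
        2 * ((4 * a / κ ^ 2 * M ^ a) ^ 2 * (A * W) ^ 2) := by gcongr
    _ = C₃ * W ^ 2 := by rw [hC₃]; ring

end Vale.Agent.P223.H.B5c
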