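import Vale.Agent.P223.H.B5c

/-! Block 5c, second part: the main analytic estimate. -/

namespace Vale.Agent.P223.H.B5d

open scoped ContDiff Topology Matrix ENNReal
open MeasureTheory Filter B5a B5b B5c

section
variable {n : ℕ} {Γ : Type} [Group Γ] [MulAction Γ (E n)] {G : E n → Matrix (Fin n) (Fin n) ℝ}
  {W : E n → ℝ}

theorem integ_of_le (hG : Met n Γ G) (hW : Wt n Γ G W) {g : E n → ℝ} (hg : Continuous g) {C : ℝ}
    (h : ∀ x, |g x| ≤ C * W x) : Integrable fun x => g x * dens G x := by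
  refine (hW.integ.const_mul C).mono' (hg.mul (Norm.continuous_dens hG)).aestronglyMeasurable ?_
  refine Eventually.of_forall fun x => ?_
  have h6 := Common.dens_pos hG x
  rw [norm_mul, Real.norm_of_nonneg h6.le, Real.norm_eq_abs]
  calc |g x| * dens G x ≤ C * W x * dens G x := by gcongr; exact h x
    _ = _ := by ring

theorem unf (hΓ : Act n Γ) (hG : Met n Γ G) {v h : E n → ℝ} (hv : Continuous v)
    (hv0 : ∀ x, 0 ≤ v x) (hs : ∀ x, HasSum (fun γ : Γ => v (γ • x)) 1) (hh : Continuous h)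
    (hh0 : ∀ x, 0 ≤ h x) (hi : ∀ (γ : Γ) x, h (γ • x) = h x) (D : Set (E n))
    (hD : MeasurableSet D) (hD' : ∀ x : E n, ∃ γ : Γ, γ • x ∈ D) :
    ∫⁻ x, ENNReal.ofReal (v x * h x * dens G x) ≤ int G D h := by
  have h1 := Common.unfold_le hΓ hG D hD hD' (fun x => ENNReal.ofReal (v x * h x))
    (hv.mul hh).measurable.ennreal_ofReal
  have h2 : ∀ x, ∑' γ : Γ, ENNReal.ofReal (v (γ • x) * h (γ • x)) = ENNReal.ofReal (h x) := by
    intro x
    simp only [hi]
    have h3 := (hs x).mul_right (h x)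
    rw [← ENNReal.ofReal_tsum_of_nonneg (fun γ => mul_nonneg (hv0 _) (hh0 x)) h3.summable,
      h3.tsum_eq, one_mul]
  calc ∫⁻ x, ENNReal.ofReal (v x * h x * dens G x)
      = ∫⁻ x, ENNReal.ofReal (v x * h x) * ENNReal.ofReal (dens G x) := by
        refine lintegral_congr fun x => ?_
        rw [ENNReal.ofReal_mul (mul_nonneg (hv0 x) (hh0 x))]
    _ ≤ _ := h1
    _ = int G D h := by
        unfold int
        refine lintegral_congr fun x => ?_
        rw [h2, ENNReal.ofReal_mul (hh0 x)]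

end

/-- choice of the regularisation parameter -/
theorem choose_eta (κ p R δ : ℝ) (hκ : 0 < κ) (hp : 0 ≤ p) (hδ : 0 < δ) :
    ∃ η : ℝ, 0 < η ∧ ∀ t : ℝ, 0 ≤ t → t ≤ R →
      (κ ^ 2 * (t + 2 * η / κ ^ 2)) ^ p ≤ (κ ^ 2 * t) ^ p + δ := by
  have hc : ContinuousOn (fun x : ℝ => x ^ p) (Set.Icc 0 (κ ^ 2 * R + 2)) :=
    (Real.continuous_rpow_const hp).continuousOn
  have huc := isCompact_Icc.uniformContinuousOn_of_continuous hc
  obtain ⟨θ, hθ, hθ'⟩ := Metric.uniformContinuousOn_iff.1 huc δ hδ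
  refine ⟨min 1 (θ / 4), by positivity, fun t ht0 htR => ?_⟩
  set η : ℝ := min 1 (θ / 4) with hη
  have h1 : η ≤ 1 := min_le_left _ _
  have h2 : η ≤ θ / 4 := min_le_right _ _
  have h0 : 0 < η := by positivity
  have e : κ ^ 2 * (t + 2 * η / κ ^ 2) = κ ^ 2 * t + 2 * η := by field_simp
  rw [e]
  have h3 : κ ^ 2 * t ≤ κ ^ 2 * R := by gcongr
  have h4 : 0 ≤ κ ^ 2 * t := by positivity
  have h5 := hθ' (κ ^ 2 * t + 2 * η) ⟨by linarith, by linarith⟩ (κ ^ 2 * t) ⟨h4, by linarith⟩ (by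
    rw [Real.dist_eq, show κ ^ 2 * t + 2 * η - κ ^ 2 * t = 2 * η by ring, abs_of_pos (by linarith)]
    linarith)
  rw [Real.dist_eq] at h5
  have := (abs_lt.1 h5).2
  linarith

/-- pigeonhole along the flow -/
theorem pick {K : ℕ} {Y X P I : ℕ → ℝ} {c₀ c₁ ε C δ : ℝ} (hc₀ : 0 < c₀) (hc₁ : 0 < c₁)
    (hε : 0 < ε)
    (h1 : ∀ k < K, c₁ * Y k ≤ c₁ * X k + (I k - I (k + 1)) / (ε ^ 2 * c₀) + C)
    (h2 : ∀ k < K, X k ≤ P k + δ / 4) (h3 : C ≤ c₁ * δ / 4) (h4 : 0 ≤ I K)
    (h5 : 2 * I 0 < K * ε ^ 2 * (c₀ * c₁ * δ)) : ∃ k < K, Y k ≤ P k + δ := by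
  by_contra hcon
  push Not at hcon
  have h6 : ∀ k < K, ε ^ 2 * c₀ * (c₁ * δ / 2) ≤ I k - I (k + 1) := by
    intro k hk
    have a1 := h1 k hk
    have a2 := mul_le_mul_of_nonneg_left (h2 k hk) hc₁.le
    have a3 := mul_lt_mul_of_pos_left (hcon k hk) hc₁
    have a4 : c₁ * δ / 2 ≤ (I k - I (k + 1)) / (ε ^ 2 * c₀) := by linarith
    rw [le_div_iff₀ (by positivity)] at a4
    linarith
  have h7 : ∀ j ≤ K, j * (ε ^ 2 * c₀ * (c₁ * δ / 2)) ≤ I 0 - I j := by
    intro j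
    induction j with
    | zero => intro _; simp
    | succ j ih =>
      intro hj
      have a1 := ih (by omega)
      have a2 := h6 j (by omega)
      push_cast
      linarith
  have h8 := h7 K le_rfl
  nlinarith

/-- Block 5c. -/
theorem main (hflow : SpecFlow) (hboch : SpecBochner) : SpecA := by
  intro n Γ _ _ G hn hΓ hG ρ hρ hρ0 hρi hric D hD hD' δ hδ
  obtain ⟨W, c₀, hW, hc₀, hflow⟩ := hflow n Γ G hΓ hG
  have hn4 : (4 : ℝ) ≤ n := by exact_mod_cast hn
  obtain ⟨a, ha'⟩ : ∃ a : ℝ, a = ((n : ℝ) - 2) / 2 := ⟨_, rfl⟩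
  have ha : 1 ≤ a := by rw [ha']; linarith
  have ha1 : a + 1 = (n : ℝ) / 2 := by rw [ha']; ring
  obtain ⟨κ, hκ'⟩ : ∃ κ : ℝ, κ = √n + 2 * a := ⟨_, rfl⟩
  have hκ : 0 < κ := by rw [hκ']; positivity
  have hκn : (n : ℝ) - 2 + √n = κ := by rw [hκ', ha']; ring
  obtain ⟨R, hR, hR'⟩ := Common.bounded hΓ ρ hρ fun γ x => by rw [hρi]
  have hρR : ∀ x, ρ x ≤ R := fun x => (le_abs_self _).trans (hR' x)
  obtain ⟨K₀, hK₀, hK₀'⟩ := hΓ.cocompact
  have hdc : Continuous (dens G) := Norm.continuous_dens hG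
  have hvol : int G K₀ (fun _ => 1) ≠ ⊤ := by
    obtain ⟨m, hm⟩ := hK₀.exists_bound_of_continuousOn hdc.continuousOn
    unfold int
    refine ne_top_of_le_ne_top (b := ∫⁻ x in K₀, ENNReal.ofReal m) ?_ ?_
    · rw [lintegral_const]
      refine ENNReal.mul_ne_top ENNReal.ofReal_ne_top ?_
      rw [Measure.restrict_apply_univ]
      exact hK₀.measure_lt_top.ne
    · refine setLIntegral_mono' hK₀.measurableSet fun x hx => ?_
      refine ENNReal.ofReal_le_ofReal ?_
      rw [one_mul]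
      exact (le_abs_self _).trans (hm x hx)
  set V₀ : ℝ := (int G K₀ (fun _ => 1)).toReal with hV₀
  have hV₀0 : 0 ≤ V₀ := ENNReal.toReal_nonneg
  obtain ⟨η, hη, hη'⟩ := choose_eta κ ((n : ℝ) / 2) R (δ / (4 * (V₀ + 1))) hκ (by positivity)
    (by positivity)
  set I0 : ℝ := ∫ x, eD G a η W x * dens G x with hI0
  obtain ⟨c₁, hc₁'⟩ : ∃ c₁ : ℝ, c₁ = 2 * a / (κ ^ 2 * (a + 1)) := ⟨_, rfl⟩
  have hc₁ : 0 < c₁ := by rw [hc₁']; positivity
  set T : ℝ := max 2 (4 * I0 / (c₀ * c₁ * δ) + 1) with hT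
  have hT2 : 2 ≤ T := le_max_left _ _
  have hTI : 4 * I0 / (c₀ * c₁ * δ) < T := lt_of_lt_of_le (by linarith) (le_max_right _ _)
  obtain ⟨A, hA, hflow⟩ := hflow T (by linarith)
  obtain ⟨C₁, hC₁, hstep⟩ := step_le a η A c₀ ha hη hA hc₀
  obtain ⟨C₂, hZZ⟩ := ZZ_le a η κ A ha hη hA
  set V : ℝ := ∫ x, W x * dens G x with hV
  have hV0 : 0 ≤ V := integral_nonneg fun x =>
    mul_nonneg (hW.pos x).le (Common.dens_pos hG x).le
  obtain ⟨ε, hε, hε1, hεC⟩ : ∃ ε : ℝ, 0 < ε ∧ ε ≤ 1 ∧ C₁ * ε * V / c₀ ≤ c₁ * δ / 4 := by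
    refine ⟨min 1 (c₁ * δ * c₀ / (4 * (C₁ * V + 1))), by positivity, min_le_left _ _, ?_⟩
    have h1 : min 1 (c₁ * δ * c₀ / (4 * (C₁ * V + 1))) ≤ c₁ * δ * c₀ / (4 * (C₁ * V + 1)) :=
      min_le_right _ _
    rw [div_le_iff₀ hc₀]
    calc C₁ * min 1 (c₁ * δ * c₀ / (4 * (C₁ * V + 1))) * V
        = (C₁ * V) * min 1 (c₁ * δ * c₀ / (4 * (C₁ * V + 1))) := by ring
      _ ≤ (C₁ * V + 1) * (c₁ * δ * c₀ / (4 * (C₁ * V + 1))) := by
          gcongr
          linarith
      _ = _ := by field_simp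
  obtain ⟨v, hv0, hstp, hinc⟩ := hflow ε hε hε1
  obtain ⟨K, hK⟩ : ∃ K : ℕ, K = ⌊T / ε ^ 2⌋₊ := ⟨_, rfl⟩
  have hε2 : ε ^ 2 ≤ 1 := pow_le_one₀ hε.le hε1
  have hKle : (K : ℝ) * ε ^ 2 ≤ T := by
    have := Nat.floor_le (a := T / ε ^ 2) (by positivity)
    rw [← hK, le_div_iff₀ (by positivity)] at this
    exact this
  have hKge : T / 2 ≤ (K : ℝ) * ε ^ 2 := by
    have := Nat.lt_floor_add_one (T / ε ^ 2)
    rw [← hK, div_lt_iff₀ (by positivity)] at this
    linarith
  have hle : ∀ k ≤ K, (k : ℝ) * ε ^ 2 ≤ T := fun k hk => by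
    refine le_trans ?_ hKle
    have : (k : ℝ) ≤ K := by exact_mod_cast hk
    gcongr
  -- facts about the flow
  have hS : ∀ k ≤ K, Step n Γ G W A (v k) := fun k hk => hstp k (hle k hk)
  have hvp : ∀ k ≤ K, ∀ x, 0 < v k x := fun k hk x => pos_of hA (hW.pos x) ((hS k hk).lower x)
  set M : ℝ := A ^ 4 + η with hM
  have hM0 : 0 < M := by positivity
  have hsp : ∀ k ≤ K, ∀ x, 0 < gradSq G (v k) x / v k x ^ 2 + η := fun k hk x =>
    s_pos hG (hvp k hk) hη x
  have hsM : ∀ k ≤ K, ∀ x, gradSq G (v k) x / v k x ^ 2 + η ≤ M := fun k hk x => by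
    have := quot_le hA (hW.pos x) ((hS k hk).lower x) ((hS k hk).grad x)
    rw [hM]; linarith
  have hvc : ∀ k ≤ K, Continuous (v k) := fun k hk => (hS k hk).smooth.continuous
  have hvs : ∀ k ≤ K, ∀ p : ℝ, 0 ≤ p → Integrable fun x =>
      (v k x * (gradSq G (v k) x / v k x ^ 2 + η) ^ p) * dens G x := by
    intro k hk p hp
    refine integ_of_le hG hW (C := A * M ^ p) ?_ fun x => ?_
    · refine (hvc k hk).mul (Continuous.rpow_const ?_ fun x => Or.inr hp)
      exact (contDiff_s hG (hS k hk).smooth (hvp k hk)).continuous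
    · have h1 := hvp k hk x
      have h2 := hsp k hk x
      rw [abs_of_nonneg (by positivity)]
      have h3 := (hS k hk).upper x
      have h4 : (gradSq G (v k) x / v k x ^ 2 + η) ^ p ≤ M ^ p :=
        Real.rpow_le_rpow h2.le (hsM k hk x) hp
      have h5 := hW.pos x
      calc v k x * (gradSq G (v k) x / v k x ^ 2 + η) ^ p ≤ (A * W x) * M ^ p := by gcongr
        _ = _ := by ring
  have hvρ : ∀ k ≤ K, ∀ g : E n → ℝ, Continuous g → (∃ m : ℝ, ∀ x, |g x| ≤ m) →
      Integrable fun x => (v k x * g x) * dens G x := by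
    rintro k hk g hg ⟨m, hm⟩
    refine integ_of_le hG hW (C := A * m) ((hvc k hk).mul hg) fun x => ?_
    have h1 := hvp k hk x
    have h3 := (hS k hk).upper x
    have h5 := hW.pos x
    rw [abs_mul, abs_of_pos h1]
    calc v k x * |g x| ≤ (A * W x) * m := by
          gcongr
          exact hm x
      _ = _ := by ring
  have hp0 : (0 : ℝ) ≤ (n : ℝ) / 2 := by positivity
  have hXb : ∀ x, |(κ ^ 2 * (ρ x + 2 * η / κ ^ 2)) ^ (a + 1)| ≤
      (κ ^ 2 * R) ^ ((n : ℝ) / 2) + δ / (4 * (V₀ + 1)) := by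
    intro x
    have h1 := hρ0 x
    rw [abs_of_nonneg (by positivity), ha1]
    refine (hη' (ρ x) h1 (hρR x)).trans ?_
    have h2 : (κ ^ 2 * ρ x) ^ ((n : ℝ) / 2) ≤ (κ ^ 2 * R) ^ ((n : ℝ) / 2) := by
      refine Real.rpow_le_rpow (by positivity) ?_ hp0
      have := hρR x
      gcongr
    linarith
  have hXc : Continuous fun x => (κ ^ 2 * (ρ x + 2 * η / κ ^ 2)) ^ (a + 1) :=
    (continuous_const.mul (hρ.add continuous_const)).rpow_const fun x => Or.inr (by linarith)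
  have hPc : Continuous fun x => ρ x ^ ((n : ℝ) / 2) := hρ.rpow_const fun x => Or.inr hp0
  have hPb : ∀ x, |ρ x ^ ((n : ℝ) / 2)| ≤ R ^ ((n : ℝ) / 2) := fun x => by
    rw [abs_of_nonneg (Real.rpow_nonneg (hρ0 x) _)]
    exact Real.rpow_le_rpow (hρ0 x) (hρR x) hp0
  set Y : ℕ → ℝ := fun k => ∫ x, (v k x * (gradSq G (v k) x / v k x ^ 2 + η) ^ (a + 1)) * dens G x
    with hY
  set X : ℕ → ℝ := fun k => ∫ x, (v k x * (κ ^ 2 * (ρ x + 2 * η / κ ^ 2)) ^ (a + 1)) * dens G x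
    with hX
  set P : ℕ → ℝ := fun k => ∫ x, (v k x * ρ x ^ ((n : ℝ) / 2)) * dens G x with hP
  set I : ℕ → ℝ := fun k => ∫ x, eD G a η (v k) x * dens G x with hI
  have hIi : ∀ k ≤ K, Integrable fun x => eD G a η (v k) x * dens G x := fun k hk =>
    hvs k hk a (by linarith)
  -- the differential inequality
  have main1 : ∀ k < K, c₁ * Y k ≤ c₁ * X k + (I k - I (k + 1)) / (ε ^ 2 * c₀) +
      C₁ * ε * V / c₀ := by
    intro k hk
    have hk1 : k ≤ K := hk.le
    have hk2 : k + 1 ≤ K := hk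
    have hs1 := (hS k hk1).smooth
    have hs2 := (hS (k + 1) hk2).smooth
    have hl := contDiff_lap hG hs1
    have hpt : ∀ x, c₁ * (v k x * (gradSq G (v k) x / v k x ^ 2 + η) ^ (a + 1)) ≤
        (c₁ * (v k x * (κ ^ 2 * (ρ x + 2 * η / κ ^ 2)) ^ (a + 1)) +
          ((ε ^ 2 * c₀)⁻¹ * (eD G a η (v k) x - eD G a η (v (k + 1)) x) +
          (ε ^ 2 * c₀)⁻¹ * (C₁ * ε ^ 3) * W x)) + divg G (ZZ G a η κ (v k)) x := by
      intro x
      have b1 := hboch n G hG.smooth hG.pos ρ hρ0 hric a η ha hη (v k) hs1 (hvp k hk1) κ hκ' x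
      rw [← hc₁'] at b1
      have b2 := hstep n G x (W x) ε (v k) (v (k + 1)) (lap G (v k)) (hG.pos x) (hW.pos x) hε hε1
        (hs1.differentiable (by norm_num) x) (hs2.differentiable (by norm_num) x)
        (hl.differentiable (by norm_num) x) ((hS k hk1).lower x) ((hS (k + 1) hk2).lower x)
        ((hS k hk1).upper x) ((hS (k + 1) hk2).upper x) ((hS k hk1).grad x)
        ((hS (k + 1) hk2).grad x) ((hS k hk1).lap0 x) ((hS k hk1).lap1 x)
        (hinc k (hle k hk1) x).1 (hinc k (hle k hk1) x).2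
      have b3 : - dE G a η (v k) (fun y => lap G (v k) y) x ≤
          (ε ^ 2 * c₀)⁻¹ * (eD G a η (v k) x - eD G a η (v (k + 1)) x) +
          (ε ^ 2 * c₀)⁻¹ * (C₁ * ε ^ 3) * W x := by
        have e : (ε ^ 2 * c₀)⁻¹ * (eD G a η (v k) x - eD G a η (v (k + 1)) x) +
          (ε ^ 2 * c₀)⁻¹ * (C₁ * ε ^ 3) * W x =
          (eD G a η (v k) x - eD G a η (v (k + 1)) x + C₁ * ε ^ 3 * W x) / (ε ^ 2 * c₀) := by
          field_simp
        rw [e, le_div_iff₀ (by positivity)]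
        have : dE G a η (v k) (fun y => lap G (v k) y) x = dE G a η (v k) (lap G (v k)) x := rfl
        rw [this]
        linarith
      linarith
    have j1 := hvs k hk1 (a + 1) (by linarith)
    have j2 := hvρ k hk1 _ hXc ⟨_, hXb⟩
    have j3 := hIi k hk1
    have j4 := hIi (k + 1) hk2
    have j5 := hW.integ
    have j34 : Integrable fun x =>
        eD G a η (v k) x * dens G x - eD G a η (v (k + 1)) x * dens G x := j3.sub j4
    have j6 : Integrable fun x => (ε ^ 2 * c₀)⁻¹ *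
        (eD G a η (v k) x * dens G x - eD G a η (v (k + 1)) x * dens G x) := j34.const_mul _
    have j7 : Integrable fun x => (ε ^ 2 * c₀)⁻¹ * (C₁ * ε ^ 3) * (W x * dens G x) :=
      j5.const_mul _
    have i1 : Integrable fun x =>
        c₁ * (v k x * (gradSq G (v k) x / v k x ^ 2 + η) ^ (a + 1)) * dens G x := by
      refine (j1.const_mul c₁).congr (Eventually.of_forall fun x => ?_)
      simp only; ring
    have i3 : Integrable fun x =>
        (ε ^ 2 * c₀)⁻¹ * (eD G a η (v k) x * dens G x - eD G a η (v (k + 1)) x * dens G x) +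
        (ε ^ 2 * c₀)⁻¹ * (C₁ * ε ^ 3) * (W x * dens G x) :=
      j6.add j7
    have e2 : (fun x => (c₁ * (v k x * (κ ^ 2 * (ρ x + 2 * η / κ ^ 2)) ^ (a + 1)) +
          ((ε ^ 2 * c₀)⁻¹ * (eD G a η (v k) x - eD G a η (v (k + 1)) x) +
          (ε ^ 2 * c₀)⁻¹ * (C₁ * ε ^ 3) * W x)) * dens G x) = fun x =>
        c₁ * ((v k x * (κ ^ 2 * (ρ x + 2 * η / κ ^ 2)) ^ (a + 1)) * dens G x) +
        ((ε ^ 2 * c₀)⁻¹ * (eD G a η (v k) x * dens G x - eD G a η (v (k + 1)) x * dens G x) +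
        (ε ^ 2 * c₀)⁻¹ * (C₁ * ε ^ 3) * (W x * dens G x)) := by
      funext x; ring
    have i2 : Integrable fun x => (c₁ * (v k x * (κ ^ 2 * (ρ x + 2 * η / κ ^ 2)) ^ (a + 1)) +
          ((ε ^ 2 * c₀)⁻¹ * (eD G a η (v k) x - eD G a η (v (k + 1)) x) +
          (ε ^ 2 * c₀)⁻¹ * (C₁ * ε ^ 3) * W x)) * dens G x := by
      rw [e2]
      exact (j2.const_mul c₁).add i3
    have key := B5b.main n Γ G W hΓ hG hW (ZZ G a η κ (v k)) C₂ _ _
      (contDiff_ZZ hG hs1 (hvp k hk1) hη) (fun x => hZZ n G x (W x) (v k) (hG.pos x) (hW.pos x)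
        (hs1.differentiable (by norm_num) x)
        ((contDiff_gradSq hG (m := 3) hs1 (by norm_num)).differentiable (by norm_num) x)
        ((contDiff_eD hG hs1 (hvp k hk1) hη).differentiable (by norm_num) x)
        ((hS k hk1).lower x) ((hS k hk1).grad x) ((hS k hk1).grad2 x)) i1 i2 hpt
    rw [e2] at key
    have e1 : ∫ x, c₁ * (v k x * (gradSq G (v k) x / v k x ^ 2 + η) ^ (a + 1)) * dens G x =
        c₁ * Y k := by
      rw [hY, ← integral_const_mul]
      exact integral_congr_ae (Eventually.of_forall fun x => by simp only; ring)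
    rw [e1, integral_add (j2.const_mul c₁) i3, integral_add j6 j7, integral_const_mul,
      integral_const_mul, integral_const_mul, integral_sub j3 j4] at key
    refine key.trans (le_of_eq ?_)
    have e3 : (I k - I (k + 1)) / (ε ^ 2 * c₀) = (ε ^ 2 * c₀)⁻¹ * (I k - I (k + 1)) := by
      rw [div_eq_inv_mul]
    have e4 : C₁ * ε * V / c₀ = (ε ^ 2 * c₀)⁻¹ * (C₁ * ε ^ 3) * V := by
      field_simp
    rw [e3, e4, add_assoc]
  -- comparison of `X` and `P`
  have hone : ∀ k ≤ K, ∫ x, (v k x * 1) * dens G x ≤ V₀ := by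
    intro k hk
    have h1 := unf hΓ hG (hvc k hk) (fun x => (hvp k hk x).le) (hS k hk).sum
      (h := fun _ => (1 : ℝ)) continuous_const (fun _ => zero_le_one) (fun _ _ => rfl) K₀
      hK₀.measurableSet hK₀'
    have h2 := ofReal_integral_eq_lintegral_ofReal
      (hvρ k hk (fun _ => 1) continuous_const ⟨1, fun _ => by simp⟩)
      (Eventually.of_forall fun x => by
        have h1 := hvp k hk x
        have h2 := Common.dens_pos hG x
        simp only [Pi.zero_apply]; positivity)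
    rw [← h2] at h1
    rw [hV₀]
    have h3 := ENNReal.toReal_mono hvol h1
    rwa [ENNReal.toReal_ofReal (integral_nonneg fun x => by
        have h1 := hvp k hk x
        have h2 := Common.dens_pos hG x
        simp only [Pi.zero_apply]; positivity)] at h3
  have hκ2 : (κ ^ 2) ^ ((n : ℝ) / 2) = κ ^ n := by
    rw [← Real.rpow_natCast κ 2, ← Real.rpow_mul hκ.le]
    push_cast
    rw [mul_div_cancel₀ _ (two_ne_zero), Real.rpow_natCast]
  have main2 : ∀ k < K, X k ≤ κ ^ n * P k + δ / 4 := by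
    intro k hk
    have hk1 : k ≤ K := hk.le
    have j1 := hvρ k hk1 _ hXc ⟨_, hXb⟩
    have j2 := hvρ k hk1 _ hPc ⟨_, hPb⟩
    have j3 := hvρ k hk1 (fun _ => 1) continuous_const ⟨1, fun _ => by simp⟩
    have h1 : X k ≤ ∫ x, (κ ^ n * ((v k x * ρ x ^ ((n : ℝ) / 2)) * dens G x) +
        δ / (4 * (V₀ + 1)) * ((v k x * 1) * dens G x)) := by
      refine integral_mono j1 ((j2.const_mul _).add (j3.const_mul _)) fun x => ?_
      have h2 := hη' (ρ x) (hρ0 x) (hρR x)
      rw [Real.mul_rpow (by positivity) (hρ0 x), hκ2, ← ha1] at h2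
      have h3 := mul_le_mul_of_nonneg_right (mul_le_mul_of_nonneg_left h2 (hvp k hk1 x).le)
        (Common.dens_pos hG x).le
      simp only
      rw [← ha1]
      refine h3.trans (le_of_eq (by ring))
    rw [integral_add (j2.const_mul _) (j3.const_mul _), integral_const_mul,
      integral_const_mul] at h1
    have h4 := hone k hk1
    have h5 : δ / (4 * (V₀ + 1)) * ∫ x, (v k x * 1) * dens G x ≤ δ / 4 := by
      calc δ / (4 * (V₀ + 1)) * ∫ x, (v k x * 1) * dens G x ≤ δ / (4 * (V₀ + 1)) * (V₀ + 1) := by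
            gcongr
            linarith
        _ = δ / 4 := by field_simp
    linarith
  have hI0' : I 0 = I0 := by simp only [hI, hI0, hv0]
  obtain ⟨k, hk, hkY⟩ := pick (K := K) (Y := Y) (X := X) (P := fun k => κ ^ n * P k) (I := I)
    (C := C₁ * ε * V / c₀) hc₀ hc₁ hε main1 main2 hεC
    (integral_nonneg fun x => by
      have h1 := hvp K le_rfl x
      have h2 := Common.dens_pos hG x
      have h3 := hsp K le_rfl x
      simp only [Pi.zero_apply, eD]; positivity)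
    (by
      rw [hI0']
      rw [div_lt_iff₀ (by positivity)] at hTI
      have h1 : T / 2 * (c₀ * c₁ * δ) ≤ K * ε ^ 2 * (c₀ * c₁ * δ) := by gcongr
      linarith)
  have hk1 : k ≤ K := hk.le
  refine ⟨W, v k, A, hW, hS k hk1, ?_⟩
  have hvk := hvp k hk1
  have f1 : int G Set.univ (fun x => v k x * (gradSq G (v k) x / v k x ^ 2) ^ ((n : ℝ) / 2)) ≤
      ENNReal.ofReal (Y k) := by
    rw [hY]
    simp only
    rw [ofReal_integral_eq_lintegral_ofReal (hvs k hk1 (a + 1) (by linarith))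
      (Eventually.of_forall fun x => by
        have h1 := hvk x
        have h2 := Common.dens_pos hG x
        have h3 := hsp k hk1 x
        simp only [Pi.zero_apply]; positivity)]
    unfold int
    rw [Measure.restrict_univ]
    refine lintegral_mono fun x => ENNReal.ofReal_le_ofReal ?_
    have h1 := hvk x
    have h2 := Common.dens_pos hG x
    have h3 := Common.gradSq_nonneg hG (v k) x
    simp only
    rw [ha1]
    gcongr
    linarith
  have f2 : ENNReal.ofReal (P k) ≤ int G D (fun x => ρ x ^ ((n : ℝ) / 2)) := by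
    rw [hP]
    simp only
    rw [ofReal_integral_eq_lintegral_ofReal (hvρ k hk1 _ hPc ⟨_, hPb⟩)
      (Eventually.of_forall fun x => by
        have h1 := hvk x
        have h2 := Common.dens_pos hG x
        have h3 := hρ0 x
        simp only [Pi.zero_apply]; positivity)]
    exact unf hΓ hG (hvc k hk1) (fun x => (hvk x).le) (hS k hk1).sum hPc
      (fun x => Real.rpow_nonneg (hρ0 x) _) (fun γ x => by simp only [hρi]) D hD hD'
  have hPk0 : 0 ≤ P k := integral_nonneg fun x => by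
    have h1 := hvk x
    have h2 := Common.dens_pos hG x
    have h3 := hρ0 x
    simp only [Pi.zero_apply]; positivity
  rw [hκn]
  calc _ ≤ ENNReal.ofReal (Y k) := f1
    _ ≤ ENNReal.ofReal (κ ^ n * P k + δ) := ENNReal.ofReal_le_ofReal hkY
    _ = ENNReal.ofReal (κ ^ n) * ENNReal.ofReal (P k) + ENNReal.ofReal δ := by
        rw [ENNReal.ofReal_add (by positivity) hδ.le, ENNReal.ofReal_mul (by positivity)]
    _ ≤ _ := by gcongr

end Vale.Agent.P223.H.B5d
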