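import Vale.Agent.P223.H.Common

/-! Block 6a : iterated cones. -/

namespace Vale.Agent.P223.H.B6a

open Set Filter Topology

section
variable {n : ℕ} {Γ : Type} [Group Γ] [MulAction Γ (E n)]

/-- The coordinates of the projection to the opposite face. -/
noncomputable def tl {k : ℕ} (t : Fin (k + 2) → ℝ) : Fin (k + 1) → ℝ :=
  fun i => t i.succ / (1 - t 0)

theorem tl_mem {k : ℕ} {t : Fin (k + 2) → ℝ} (ht : t ∈ stdSimplex ℝ (Fin (k + 2)))
    (h : t 0 ≠ 1) : tl t ∈ stdSimplex ℝ (Fin (k + 1)) := by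
  have h1 : t 0 ≤ 1 := (mem_Icc_of_mem_stdSimplex ht 0).2
  have h2 : 0 < 1 - t 0 := sub_pos.2 (lt_of_le_of_ne h1 h)
  refine ⟨fun i => div_nonneg (ht.1 _) h2.le, ?_⟩
  have h3 := ht.2
  rw [Fin.sum_univ_succ] at h3
  unfold tl
  rw [← Finset.sum_div, div_eq_one_iff_eq h2.ne']
  linarith

/-- Iterated cones. -/
noncomputable def F : (k : ℕ) → (Fin (k + 1) → Γ × E n) → (Fin (k + 1) → ℝ) → E n
  | 0, l, _ => (l 0).1 • (l 0).2
  | k + 1, l, t => (l 0).1 •
      (t 0 • (l 0).2 + (1 - t 0) • ((l 0).1⁻¹ • F k (fun i => l i.succ) (tl t)))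

theorem F_succ (k : ℕ) (l : Fin (k + 2) → Γ × E n) (t : Fin (k + 2) → ℝ) :
    F (k + 1) l t = (l 0).1 •
      (t 0 • (l 0).2 + (1 - t 0) • ((l 0).1⁻¹ • F k (fun i => l i.succ) (tl t))) := rfl

theorem cont_tl {k : ℕ} {t : Fin (k + 2) → ℝ} (h : t 0 ≠ 1) : ContinuousAt tl t := by
  unfold tl
  refine continuousAt_pi.2 fun i => ?_
  refine ContinuousAt.div (continuous_apply _).continuousAt
    (continuousAt_const.sub (continuous_apply _).continuousAt) (sub_ne_zero.2 h.symm)

theorem cont_F (hΓ : Act n Γ) : ∀ (k : ℕ) (l : Fin (k + 1) → Γ × E n),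
    ContinuousOn (F k l) (stdSimplex ℝ (Fin (k + 1)))
  | 0, l => continuousOn_const
  | k + 1, l => by
    have ih := cont_F hΓ k (fun i => l i.succ)
    have hc : ContinuousOn (fun t => (l 0).1⁻¹ • F k (fun i => l i.succ) t)
        (stdSimplex ℝ (Fin (k + 1))) := (Common.cont hΓ _).comp_continuousOn ih
    obtain ⟨C, hC⟩ := (isCompact_stdSimplex ℝ (Fin (k + 1))).exists_bound_of_continuousOn hc
    have key : ContinuousOn (fun t : Fin (k + 2) → ℝ => (1 - t 0) •
        ((l 0).1⁻¹ • F k (fun i => l i.succ) (tl t))) (stdSimplex ℝ (Fin (k + 2))) := by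
      intro t ht
      by_cases h : t 0 = 1
      · unfold ContinuousWithinAt
        show Tendsto _ _ (𝓝 ((1 - t 0) • ((l 0).1⁻¹ • F k (fun i => l i.succ) (tl t))))
        rw [h, sub_self, zero_smul]
        have hb : ∀ s ∈ stdSimplex ℝ (Fin (k + 2)), ‖(1 - s 0) •
            ((l 0).1⁻¹ • F k (fun i => l i.succ) (tl s))‖ ≤ (1 - s 0) * C := by
          intro s hs
          have h0 : 0 ≤ 1 - s 0 := sub_nonneg.2 (mem_Icc_of_mem_stdSimplex hs 0).2
          by_cases h1 : s 0 = 1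
          · rw [h1]; simp
          · rw [norm_smul, Real.norm_of_nonneg h0]
            exact mul_le_mul_of_nonneg_left (hC _ (tl_mem hs h1)) h0
        refine squeeze_zero_norm' (eventually_mem_nhdsWithin.mono hb) ?_
        have : Continuous fun s : Fin (k + 2) → ℝ => (1 - s 0) * C := by fun_prop
        have h2 := (this.tendsto t)
        rw [h] at h2
        simp only [sub_self, zero_mul] at h2
        exact h2.mono_left nhdsWithin_le_nhds
      · have h1 : ContinuousWithinAt (fun t : Fin (k + 2) → ℝ =>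
            (l 0).1⁻¹ • F k (fun i => l i.succ) (tl t)) (stdSimplex ℝ (Fin (k + 2)) ∩
            {s | s 0 ≠ 1}) t :=
          ContinuousWithinAt.comp (g := fun t => (l 0).1⁻¹ • F k (fun i => l i.succ) t)
            (f := tl) (t := stdSimplex ℝ (Fin (k + 1)))
            (hc _ (tl_mem ht h)) (cont_tl h).continuousWithinAt fun s hs => tl_mem hs.1 hs.2
        have h2 : ContinuousWithinAt (fun t : Fin (k + 2) → ℝ =>
            (l 0).1⁻¹ • F k (fun i => l i.succ) (tl t)) (stdSimplex ℝ (Fin (k + 2))) t := by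
          refine (continuousWithinAt_inter ?_).1 h1
          exact (isOpen_ne.preimage (continuous_apply 0)).mem_nhds h
        have h3 : Continuous fun t : Fin (k + 2) → ℝ => 1 - t 0 := by fun_prop
        exact ContinuousWithinAt.smul h3.continuousWithinAt h2
    have h2 : ContinuousOn (fun t : Fin (k + 2) → ℝ => t 0 • (l 0).2 + (1 - t 0) •
        ((l 0).1⁻¹ • F k (fun i => l i.succ) (tl t))) (stdSimplex ℝ (Fin (k + 2))) :=
      ContinuousOn.add (Continuous.continuousOn (by fun_prop)) key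
    exact (Common.cont hΓ _).comp_continuousOn h2

theorem F_equi : ∀ (k : ℕ) (l : Fin (k + 1) → Γ × E n) (γ : Γ) (t : Fin (k + 1) → ℝ),
    F k (fun j => (γ * (l j).1, (l j).2)) t = γ • F k l t
  | 0, l, γ, t => by
    show (γ * (l 0).1) • (l 0).2 = γ • (l 0).1 • (l 0).2
    rw [mul_smul]
  | k + 1, l, γ, t => by
    rw [F_succ, F_succ]
    have ih := F_equi k (fun i => l i.succ) γ (tl t)
    show (γ * (l 0).1) • (t 0 • (l 0).2 + (1 - t 0) • ((γ * (l 0).1)⁻¹ •
      F k (fun j => (γ * (l j.succ).1, (l j.succ).2)) (tl t))) = _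
    rw [ih, mul_smul, mul_inv_rev, mul_smul, inv_smul_smul]

theorem F_affine : ∀ (k : ℕ) (l : Fin (k + 1) → Γ × E n), (∀ j, (l j).1 = 1) →
    ∀ t ∈ stdSimplex ℝ (Fin (k + 1)), F k l t = ∑ j, t j • (l j).2
  | 0, l, hl, t, ht => by
    have h1 := ht.2
    rw [Fin.sum_univ_succ, Finset.univ_eq_empty, Finset.sum_empty, add_zero] at h1 ⊢
    rw [h1, one_smul]
    show (l 0).1 • (l 0).2 = (l 0).2
    rw [hl, one_smul]
  | k + 1, l, hl, t, ht => by
    rw [F_succ, hl, one_smul, inv_one, one_smul, Fin.sum_univ_succ]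
    congr 1
    by_cases h : t 0 = 1
    · have h3 := ht.2
      rw [Fin.sum_univ_succ, h] at h3
      have h4 : ∑ i : Fin (k + 1), t i.succ = 0 := by linarith
      have h5 := (Finset.sum_eq_zero_iff_of_nonneg fun i _ => ht.1 (Fin.succ i)).1 h4
      rw [h, sub_self, zero_smul]
      exact (Finset.sum_eq_zero fun i hi => by rw [h5 i hi, zero_smul]).symm
    · rw [F_affine k _ (fun j => hl _) _ (tl_mem ht h), Finset.smul_sum]
      have h0 : 1 - t 0 ≠ 0 := sub_ne_zero.2 (Ne.symm h)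
      refine Finset.sum_congr rfl fun i _ => ?_
      rw [smul_smul, tl, mul_div_cancel₀ _ h0]

theorem face_coe (k : ℕ) (i : Fin (k + 1)) (s : stdSimplex ℝ (Fin k)) :
    (⇑(H.face k i s) : Fin (k + 1) → ℝ) = i.insertNth (α := fun _ => ℝ) 0 ⇑s := by
  show ⇑(stdSimplex.map i.succAbove s) = _
  rw [stdSimplex.map_coe]
  ext y
  rw [FunOnFinite.linearMap_apply_apply]
  induction y using Fin.succAboveCases i with
  | x =>
    rw [Fin.insertNth_apply_same]
    refine Finset.sum_eq_zero fun x hx => ?_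
    exact absurd (Finset.mem_filter.1 hx).2 (Fin.succAbove_ne i x)
  | p j =>
    rw [Fin.insertNth_apply_succAbove]
    have : (Finset.univ.filter fun x => i.succAbove x = i.succAbove j) = {j} := by
      ext x; simp
    rw [this, Finset.sum_singleton]

theorem insertNth_succ {k : ℕ} (j : Fin (k + 1)) (s : Fin (k + 1) → ℝ) (m : Fin (k + 1)) :
    (j.succ.insertNth (α := fun _ => ℝ) 0 s : Fin (k + 2) → ℝ) m.succ =
      (j.insertNth (α := fun _ => ℝ) 0 (fun i : Fin k => s i.succ) : Fin (k + 1) → ℝ) m := by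
  induction m using Fin.succAboveCases j with
  | x => rw [Fin.insertNth_apply_same, Fin.insertNth_apply_same]
  | p i =>
    rw [Fin.insertNth_apply_succAbove, ← Fin.succ_succAbove_succ, Fin.insertNth_apply_succAbove]

theorem F_face : ∀ (k : ℕ) (l : Fin (k + 2) → Γ × E n) (i : Fin (k + 2)),
    ∀ s ∈ stdSimplex ℝ (Fin (k + 1)),
    F (k + 1) l (i.insertNth (α := fun _ => ℝ) 0 s) = F k (l ∘ i.succAbove) s := by
  intro k
  induction k with
  | zero =>
    intro l i s hs
    have h1 := hs.2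
    rw [Fin.sum_univ_succ, Finset.univ_eq_empty, Finset.sum_empty, add_zero] at h1
    induction i using Fin.cases with
    | zero =>
      rw [F_succ, Fin.insertNth_apply_same, zero_smul, sub_zero, one_smul,
        zero_add ((l 0).1⁻¹ • F 0 (fun i => l i.succ) _ : E n), smul_inv_smul]
      rfl
    | succ j =>
      have h0 : (j.succ.insertNth (α := fun _ => ℝ) 0 s : Fin 2 → ℝ) 0 = s 0 := by
        have := Fin.insertNth_apply_succAbove (α := fun _ => ℝ) j.succ 0 s 0
        rwa [Fin.succ_succAbove_zero] at this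
      rw [F_succ, h0, h1, one_smul, sub_self, zero_smul, add_zero]
      show (l 0).1 • (l 0).2 = (l (j.succ.succAbove 0)).1 • (l (j.succ.succAbove 0)).2
      rw [Fin.succ_succAbove_zero]
  | succ k ih =>
    intro l i s hs
    induction i using Fin.cases with
    | zero =>
      rw [F_succ, Fin.insertNth_apply_same, zero_smul, sub_zero, one_smul, zero_add,
        smul_inv_smul]
      congr 1
      ext m
      rw [tl, Fin.insertNth_apply_same, sub_zero, div_one]
      have := Fin.insertNth_apply_succAbove (α := fun _ => ℝ) 0 0 s m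
      rwa [Fin.succAbove_zero] at this
    | succ j =>
      have h0 : (j.succ.insertNth (α := fun _ => ℝ) 0 s : Fin (k + 3) → ℝ) 0 = s 0 := by
        have := Fin.insertNth_apply_succAbove (α := fun _ => ℝ) j.succ 0 s 0
        rwa [Fin.succ_succAbove_zero] at this
      have e0 : (l ∘ j.succ.succAbove) 0 = l 0 := by
        simp
      rw [F_succ (k + 1) l, F_succ k (l ∘ j.succ.succAbove), h0, e0]
      by_cases h : s 0 = 1
      · rw [h, sub_self, zero_smul, zero_smul]
      · have ht := ih (fun i => l i.succ) j (tl s) (tl_mem hs h)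
        have e1 : tl (j.succ.insertNth (α := fun _ => ℝ) 0 s : Fin (k + 3) → ℝ) =
            j.insertNth (α := fun _ => ℝ) 0 (tl s) := by
          ext m
          rw [tl, h0, insertNth_succ]
          induction m using Fin.succAboveCases j with
          | x => rw [Fin.insertNth_apply_same, Fin.insertNth_apply_same, zero_div]
          | p i => rw [Fin.insertNth_apply_succAbove, Fin.insertNth_apply_succAbove, tl]
        have e2 : (fun i : Fin (k + 1) => (l ∘ j.succ.succAbove) i.succ) =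
            (fun i => l i.succ) ∘ j.succAbove := by
          ext m <;> simp [Fin.succ_succAbove_succ]
        rw [e1, e2, ht]

/-- The system of iterated cones. -/
noncomputable def sys (hΓ : Act n Γ) : Sys n Γ where
  S k l := ⟨fun t => F k l ⇑t, (cont_F hΓ k l).comp_continuous continuous_subtype_val
    fun t => t.2⟩
  face k l i := by
    ext1 s
    show F (k + 1) l ⇑(H.face (k + 1) i s) = F k (l ∘ i.succAbove) ⇑s
    rw [face_coe]
    exact F_face k l i _ s.2
  equi k l γ t := F_equi k l γ _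
  affine k l hl t := F_affine k l hl _ t.2

theorem sys_S (hΓ : Act n Γ) (k : ℕ) (l : Fin (k + 1) → Γ × E n)
    (t : stdSimplex ℝ (Fin (k + 1))) : (sys hΓ).S k l t = F k l ⇑t := rfl

theorem finite_min {Λ : Type} {T : Set Λ} (hT : T.Finite) (η : Λ → ℝ) (hη : ∀ γ ∈ T, 0 < η γ) :
    ∃ η0 : ℝ, 0 < η0 ∧ ∀ γ ∈ T, η0 ≤ η γ := by
  by_cases hne : hT.toFinset.Nonempty
  · exact ⟨hT.toFinset.inf' hne η,
      (Finset.lt_inf'_iff hne).2 fun γ hγ => hη γ (hT.mem_toFinset.1 hγ),
      fun γ hγ => Finset.inf'_le η (hT.mem_toFinset.2 hγ)⟩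
  · exact ⟨1, one_pos, fun γ hγ => absurd ⟨γ, hT.mem_toFinset.2 hγ⟩ hne⟩

/-- Smallness. -/
theorem small (hΓ : Act n Γ) : ∀ (k : ℕ) (K : Set (E n)), IsCompact K → ∀ δ : ℝ, 0 < δ →
    ∃ δ' : ℝ, 0 < δ' ∧ ∀ l : Fin (k + 1) → Γ × E n, (∀ j, (l j).2 ∈ K) →
      (∀ j, (l j).1 • (l j).2 ∈ K) →
      (∀ j j', dist ((l j).1 • (l j).2) ((l j').1 • (l j').2) < δ') →
      ∀ t ∈ stdSimplex ℝ (Fin (k + 1)), dist (F k l t) ((l 0).1 • (l 0).2) < δ := by
  intro k
  induction k with
  | zero =>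
    intro K hK δ hδ
    refine ⟨1, one_pos, fun l _ _ _ t _ => ?_⟩
    show dist ((l 0).1 • (l 0).2) ((l 0).1 • (l 0).2) < δ
    rwa [dist_self]
  | succ k ih =>
    intro K hK δ hδ
    set K1 := Metric.cthickening 1 K with hK1
    have hK1c : IsCompact K1 := hK.cthickening
    set T : Set Γ := {γ : Γ | ∃ x ∈ K, γ • x ∈ K} with hT
    have hTf : T.Finite := hΓ.proper K hK
    -- a convex compact set
    have hbd : IsCompact (⋃ γ ∈ T, (fun y : E n => γ⁻¹ • y) '' K1) :=
      hTf.isCompact_biUnion fun γ _ => hK1c.image (Common.cont hΓ γ⁻¹)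
    obtain ⟨r, hr⟩ := hbd.isBounded.subset_closedBall (0 : E n)
    set K2 := Metric.closedBall (0 : E n) r with hK2
    have hK2c : IsCompact K2 := isCompact_closedBall _ _
    have hu2 : ∃ η : ℝ, 0 < η ∧ ∀ γ ∈ T, ∀ u ∈ K2, ∀ v ∈ K2, dist u v < η →
        dist (γ • u) (γ • v) < δ := by
      have h1 : ∀ γ ∈ T, ∃ η : ℝ, 0 < η ∧ ∀ u ∈ K2, ∀ v ∈ K2, dist u v < η →
          dist (γ • u) (γ • v) < δ := by
        intro γ _
        have := hK2c.uniformContinuousOn_of_continuous (Common.cont hΓ γ).continuousOn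
        exact (Metric.uniformContinuousOn_iff.1 this) δ hδ
      choose! η hη hη' using h1
      obtain ⟨η0, h0, h0'⟩ := finite_min hTf η hη
      exact ⟨η0, h0, fun γ hγ u hu v hv huv => hη' γ hγ u hu v hv (huv.trans_le (h0' γ hγ))⟩
    obtain ⟨η, hη, hη2⟩ := hu2
    have hu1 : ∃ η' : ℝ, 0 < η' ∧ ∀ γ ∈ T, ∀ u ∈ K1, ∀ v ∈ K1, dist u v < η' →
        dist (γ⁻¹ • u) (γ⁻¹ • v) < η := by
      have h1 : ∀ γ ∈ T, ∃ η' : ℝ, 0 < η' ∧ ∀ u ∈ K1, ∀ v ∈ K1, dist u v < η' →
          dist (γ⁻¹ • u) (γ⁻¹ • v) < η := by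
        intro γ _
        have := hK1c.uniformContinuousOn_of_continuous (Common.cont hΓ γ⁻¹).continuousOn
        exact (Metric.uniformContinuousOn_iff.1 this) η hη
      choose! ζ hζ hζ' using h1
      obtain ⟨η0, h0, h0'⟩ := finite_min hTf ζ hζ
      exact ⟨η0, h0, fun γ hγ u hu v hv huv => hζ' γ hγ u hu v hv (huv.trans_le (h0' γ hγ))⟩
    obtain ⟨η', hη', hη1⟩ := hu1
    obtain ⟨δ₁, hδ₁, ih1⟩ := ih K hK (min 1 (η' / 2)) (by positivity)
    refine ⟨min (δ₁) (min 1 (η' / 2)) / 1, by positivity, ?_⟩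
    rw [div_one]
    intro l hl1 hl2 hl3 t ht
    have hγT : (l 0).1 ∈ T := ⟨(l 0).2, hl1 0, hl2 0⟩
    rw [F_succ]
    set p := F k (fun i => l i.succ) (tl t) with hp
    set x0 := (l 0).2 with hx0
    set γ := (l 0).1 with hγ
    have hx0K : x0 ∈ K2 := by
      refine hr (mem_biUnion hγT ⟨γ • x0, Metric.self_subset_cthickening K (hl2 0), ?_⟩)
      simp
    by_cases h : t 0 = 1
    · rw [h, sub_self, zero_smul, one_smul, add_zero, dist_self]; exact hδ
    · have hd := ih1 (fun i => l i.succ) (fun j => hl1 _) (fun j => hl2 _)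
        (fun j j' => (hl3 _ _).trans_le (min_le_left _ _)) (tl t) (tl_mem ht h)
      have hd1 : dist p ((l 1).1 • (l 1).2) < min 1 (η' / 2) := hd
      have hd2 : dist ((l 1).1 • (l 1).2) (γ • x0) < min 1 (η' / 2) :=
        (hl3 1 0).trans_le (min_le_right _ _)
      have hpK : p ∈ K1 := by
        refine Metric.mem_cthickening_of_dist_le p ((l 1).1 • (l 1).2) 1 K (hl2 1) ?_
        exact (hd1.trans_le (min_le_left _ _)).le
      have hd3 : dist p (γ • x0) < η' := by
        have := dist_triangle p ((l 1).1 • (l 1).2) (γ • x0)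
        have h5 := hd1.trans_le (min_le_right _ _)
        have h6 := hd2.trans_le (min_le_right _ _)
        linarith
      have hd4 := hη1 γ hγT p hpK (γ • x0) (Metric.self_subset_cthickening K (hl2 0)) hd3
      rw [inv_smul_smul] at hd4
      have hpK2 : γ⁻¹ • p ∈ K2 := hr (mem_biUnion hγT ⟨p, hpK, rfl⟩)
      have h0 : 0 ≤ 1 - t 0 := sub_nonneg.2 (mem_Icc_of_mem_stdSimplex ht 0).2
      have h01 : 0 ≤ t 0 := ht.1 0
      have hq : t 0 • x0 + (1 - t 0) • (γ⁻¹ • p) ∈ K2 :=
        (convex_closedBall _ _) hx0K hpK2 h01 h0 (by ring)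
      refine hη2 γ hγT _ hq _ hx0K ?_
      have e : t 0 • x0 + (1 - t 0) • (γ⁻¹ • p) - x0 = (1 - t 0) • (γ⁻¹ • p - x0) := by
        rw [smul_sub, sub_smul 1 (t 0) x0, one_smul]; abel
      rw [dist_eq_norm, e, norm_smul, Real.norm_of_nonneg h0, ← dist_eq_norm]
      calc (1 - t 0) * dist (γ⁻¹ • p) x0 ≤ 1 * dist (γ⁻¹ • p) x0 :=
            mul_le_mul_of_nonneg_right (by linarith) dist_nonneg
        _ < η := by rwa [one_mul]

end

/-- Block 6a. -/
theorem main : SpecSys := by
  intro n Γ _ _ hΓ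
  refine ⟨sys hΓ, fun K hK δ hδ => ?_⟩
  obtain ⟨δ', h1, h2⟩ := small hΓ n K hK δ hδ
  exact ⟨δ', h1, fun l hl1 hl2 hl3 t => h2 l hl1 hl2 hl3 _ t.2⟩

end Vale.Agent.P223.H.B6a
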