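import Vale.Agent.P223.H.Spec
import Mathlib.MeasureTheory.Function.Jacobian

/-! Common lemmas. -/

namespace Vale.Agent.P223.H.Common

open scoped ContDiff Matrix Pointwise
open MeasureTheory

variable {n : ℕ} {Γ : Type} [Group Γ] [MulAction Γ (E n)]

/-- Jacobian matrix of `γ` at `x`. -/
noncomputable def Dm (γ : Γ) (x : E n) : Matrix (Fin n) (Fin n) ℝ :=
  LinearMap.toMatrix' (fderiv ℝ (fun y : E n => γ • y) x : E n →ₗ[ℝ] E n)

theorem Dm_apply (γ : Γ) (x : E n) (i j : Fin n) :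
    Dm γ x i j = fderiv ℝ (fun y : E n => γ • y) x (Pi.single j 1) i := by
  simp [Dm, LinearMap.toMatrix'_apply]

theorem Dm_mulVec (γ : Γ) (x v : E n) :
    Dm γ x *ᵥ v = fderiv ℝ (fun y : E n => γ • y) x v := by
  simp [Dm, LinearMap.toMatrix'_mulVec]

theorem det_Dm (γ : Γ) (x : E n) :
    (Dm γ x).det = (fderiv ℝ (fun y : E n => γ • y) x).det := by
  rw [Dm, LinearMap.det_toMatrix']

section act
variable (h : Act n Γ)
include h

theorem diff (γ : Γ) (x : E n) : DifferentiableAt ℝ (fun y : E n => γ • y) x :=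
  (h.smooth γ).differentiable (by simp) x

theorem cont (γ : Γ) : Continuous (fun y : E n => γ • y) := (h.smooth γ).continuous

theorem det_pos (γ : Γ) (x : E n) : 0 < (Dm γ x).det := by
  rw [det_Dm]; exact h.orient γ x

theorem countable : Countable Γ := by
  have : (Set.univ : Set Γ) = ⋃ k : ℕ, {γ : Γ | ∃ x ∈ Metric.closedBall (0 : E n) k,
      γ • x ∈ Metric.closedBall (0 : E n) k} := by
    ext γ
    simp only [Set.mem_univ, Set.mem_iUnion, Set.mem_ofPred_eq, true_iff]
    obtain ⟨k, hk⟩ := exists_nat_ge (dist (γ • (0 : E n)) 0)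
    exact ⟨k, 0, by simp, by simpa using hk⟩
  rw [← Set.countable_univ_iff, this]
  exact Set.countable_iUnion fun k => (h.proper _ (isCompact_closedBall _ _)).countable

/-- Continuous invariant functions are bounded. -/
theorem bounded {F : Type} [SeminormedAddCommGroup F] (f : E n → F) (hf : Continuous f)
    (hi : ∀ (γ : Γ) x, ‖f (γ • x)‖ = ‖f x‖) : ∃ C : ℝ, 0 < C ∧ ∀ x, ‖f x‖ ≤ C := by
  obtain ⟨K, hK, hK'⟩ := h.cocompact
  obtain ⟨C, hC⟩ := hK.exists_bound_of_continuousOn hf.continuousOn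
  refine ⟨max C 1, by positivity, fun x => ?_⟩
  obtain ⟨γ, hγ⟩ := hK' x
  rw [← hi γ x]
  exact (hC _ hγ).trans (le_max_left _ _)

/-- Chain rule for partial derivatives. -/
theorem pd_comp (γ : Γ) (f : E n → ℝ) (x : E n) (hf : DifferentiableAt ℝ f (γ • x)) (j : Fin n) :
    pd j (fun y => f (γ • y)) x = ∑ i, pd i f (γ • x) * Dm γ x i j := by
  have h1 : fderiv ℝ (fun y => f (γ • y)) x =
      (fderiv ℝ f (γ • x)).comp (fderiv ℝ (fun y : E n => γ • y) x) :=
    fderiv_comp x hf (diff h γ x)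
  unfold pd
  rw [h1, ContinuousLinearMap.comp_apply]
  have h2 : fderiv ℝ (fun y : E n => γ • y) x (Pi.single j 1) =
      ∑ i, Dm γ x i j • (Pi.single i (1 : ℝ) : E n) := by
    ext k
    simp [Finset.sum_apply, Dm_apply, Pi.single_apply]
  rw [h2, map_sum]
  simp [mul_comm]

end act

section met
variable {G : E n → Matrix (Fin n) (Fin n) ℝ} (h : Act n Γ) (hG : Met n Γ G)
include h hG

omit h in
theorem G_trans (γ : Γ) (x : E n) : (Dm γ x)ᵀ * G (γ • x) * Dm γ x = G x := by
  ext a b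
  have := hG.inv γ x (Pi.single a 1) (Pi.single b 1)
  simp only [← Dm_apply] at this
  have h2 : ∑ i, ∑ j, (Pi.single a (1 : ℝ) : E n) i * (Pi.single b (1 : ℝ) : E n) j * G x i j
      = G x a b := by
    simp [Pi.single_apply]
  rw [h2] at this
  rw [← this]
  simp only [Matrix.mul_apply, Matrix.transpose_apply, Finset.sum_mul]
  rw [Finset.sum_comm]
  refine Finset.sum_congr rfl fun i _ => Finset.sum_congr rfl fun j _ => by ring

omit h in
theorem G_unit (x : E n) : IsUnit (G x).det := (hG.pos x).det_pos.ne'.isUnit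

omit h in
theorem G_symm (x : E n) : (G x)ᵀ = G x := by
  have := (hG.pos x).isHermitian
  simpa [Matrix.IsHermitian, Matrix.conjTranspose_eq_transpose_of_trivial] using this

/-- transformation of the inverse metric -/
theorem Ginv_trans (γ : Γ) (x : E n) :
    Dm γ x * (G x)⁻¹ * (Dm γ x)ᵀ = (G (γ • x))⁻¹ := by
  have hD : IsUnit (Dm γ x).det := (det_pos h γ x).ne'.isUnit
  have hDt : IsUnit (Dm γ x)ᵀ.det := by rwa [Matrix.det_transpose]
  have h1 := G_trans hG γ x
  have hg := G_unit hG (γ • x)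
  rw [← h1, Matrix.mul_inv_rev, Matrix.mul_inv_rev]
  calc Dm γ x * ((Dm γ x)⁻¹ * ((G (γ • x))⁻¹ * ((Dm γ x)ᵀ)⁻¹)) * (Dm γ x)ᵀ
      = (Dm γ x * (Dm γ x)⁻¹) * (G (γ • x))⁻¹ * (((Dm γ x)ᵀ)⁻¹ * (Dm γ x)ᵀ) := by
        simp only [Matrix.mul_assoc]
    _ = _ := by
      rw [Matrix.mul_nonsing_inv _ hD, Matrix.nonsing_inv_mul _ hDt, one_mul, mul_one]

/-- transformation of the density -/
theorem dens_trans (γ : Γ) (x : E n) : dens G (γ • x) * (Dm γ x).det = dens G x := by
  unfold dens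
  rw [← G_trans hG γ x, Matrix.det_mul, Matrix.det_mul, Matrix.det_transpose,
    show (Dm γ x).det * (G (γ • x)).det * (Dm γ x).det = (Dm γ x).det ^ 2 * (G (γ • x)).det by ring,
    Real.sqrt_mul (by positivity), Real.sqrt_sq (det_pos h γ x).le, mul_comm]

omit h in
theorem dens_pos (x : E n) : 0 < dens G x := Real.sqrt_pos.2 (hG.pos x).det_pos

omit h hG in
theorem gradIp_eq (f k : E n → ℝ) (x : E n) : gradIp G f k x =
    (fun i => pd i f x) ⬝ᵥ ((G x)⁻¹ *ᵥ fun i => pd i k x) := by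
  simp only [gradIp, dotProduct, Matrix.mulVec, Finset.mul_sum]
  refine Finset.sum_congr rfl fun i _ => Finset.sum_congr rfl fun j _ => by ring

/-- The inner product of gradients is invariant. -/
theorem gradIp_comp (γ : Γ) (f k : E n → ℝ) (x : E n) (hf : DifferentiableAt ℝ f (γ • x))
    (hk : DifferentiableAt ℝ k (γ • x)) :
    gradIp G (fun y => f (γ • y)) (fun y => k (γ • y)) x = gradIp G f k (γ • x) := by
  have e : ∀ (f : E n → ℝ), DifferentiableAt ℝ f (γ • x) →
      (fun i => pd i (fun y => f (γ • y)) x) = (Dm γ x)ᵀ *ᵥ fun i => pd i f (γ • x) := by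
    intro f hf
    ext j
    rw [pd_comp h γ f x hf]
    simp only [Matrix.mulVec, dotProduct, Matrix.transpose_apply]
    exact Finset.sum_congr rfl fun i _ => mul_comm _ _
  rw [gradIp_eq, gradIp_eq, e f hf, e k hk, ← Ginv_trans h hG γ x, Matrix.mulVec_mulVec,
    ← Matrix.mulVec_mulVec, ← Matrix.mulVec_mulVec, ← Matrix.mulVec_mulVec,
    Matrix.mulVec_transpose, ← Matrix.dotProduct_mulVec]

theorem gradSq_comp (γ : Γ) (f : E n → ℝ) (x : E n) (hf : DifferentiableAt ℝ f (γ • x)) :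
    gradSq G (fun y => f (γ • y)) x = gradSq G f (γ • x) := gradIp_comp h hG γ f f x hf hf

omit h in
theorem Ginv_pos (x : E n) : ((G x)⁻¹).PosDef := (hG.pos x).inv

omit h in
theorem gradSq_nonneg (f : E n → ℝ) (x : E n) : 0 ≤ gradSq G f x := by
  have := (Ginv_pos hG x).posSemidef.dotProduct_mulVec_nonneg (fun i => pd i f x)
  rw [gradSq, gradIp_eq]
  simpa using this

end met

section measure
variable {G : E n → Matrix (Fin n) (Fin n) ℝ} (h : Act n Γ) (hG : Met n Γ G)
include h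

omit h in
theorem inj (γ : Γ) : Function.Injective (fun y : E n => γ • y) := MulAction.injective γ

theorem measurable_smul (γ : Γ) : Measurable (fun y : E n => γ • y) := (cont h γ).measurable

/-- Change of variables. -/
theorem lintegral_smul_set (γ : Γ) (S : Set (E n)) (hS : MeasurableSet S) (F : E n → ENNReal) :
    ∫⁻ x in (fun y : E n => γ • y) '' S, F x =
      ∫⁻ x in S, ENNReal.ofReal (Dm γ x).det * F (γ • x) := by
  rw [lintegral_image_eq_lintegral_abs_det_fderiv_mul volume hS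
    (fun x _ => (diff h γ x).hasFDerivAt.hasFDerivWithinAt) (inj γ).injOn]
  refine lintegral_congr fun x => ?_
  rw [← det_Dm, abs_of_pos (det_pos h γ x)]

include hG

/-- The Riemannian measure is invariant. -/
theorem lintegral_dens_smul (γ : Γ) (S : Set (E n)) (hS : MeasurableSet S) (F : E n → ENNReal) :
    ∫⁻ x in (fun y : E n => γ • y) '' S, F x * ENNReal.ofReal (dens G x) =
      ∫⁻ x in S, F (γ • x) * ENNReal.ofReal (dens G x) := by
  rw [lintegral_smul_set h γ S hS]
  refine lintegral_congr fun x => ?_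
  rw [← dens_trans h hG γ x, ENNReal.ofReal_mul (dens_pos hG _).le]
  ring

theorem lintegral_dens_smul_univ (γ : Γ) (F : E n → ENNReal) :
    ∫⁻ x, F (γ • x) * ENNReal.ofReal (dens G x) = ∫⁻ x, F x * ENNReal.ofReal (dens G x) := by
  have := lintegral_dens_smul h hG γ Set.univ MeasurableSet.univ F
  rw [Set.image_univ, (MulAction.surjective γ).range_eq] at this
  simpa using this.symm

/-- Unfolding inequality: `D` is a measurable set whose translates cover. -/
theorem unfold_le (D : Set (E n)) (hD : MeasurableSet D) (hD' : ∀ x : E n, ∃ γ : Γ, γ • x ∈ D)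
    (F : E n → ENNReal) (hF : Measurable F) :
    ∫⁻ x, F x * ENNReal.ofReal (dens G x) ≤
      ∫⁻ x in D, (∑' γ : Γ, F (γ • x)) * ENNReal.ofReal (dens G x) := by
  have := countable h
  have hc : (Set.univ : Set (E n)) ⊆ ⋃ γ : Γ, (fun y : E n => γ • y) '' D := by
    intro x _
    obtain ⟨γ, hγ⟩ := hD' x
    exact Set.mem_iUnion.2 ⟨γ⁻¹, γ • x, hγ, by simp⟩
  have hd : Measurable fun x => ENNReal.ofReal (dens G x) := by
    refine ENNReal.measurable_ofReal.comp (Continuous.measurable ?_)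
    have : Continuous fun x => (G x) := continuous_matrix fun i j => (hG.smooth i j).continuous
    exact Real.continuous_sqrt.comp (Continuous.matrix_det this)
  calc ∫⁻ x, F x * ENNReal.ofReal (dens G x)
      = ∫⁻ x in Set.univ, F x * ENNReal.ofReal (dens G x) := by simp
    _ ≤ ∫⁻ x in ⋃ γ : Γ, (fun y : E n => γ • y) '' D, F x * ENNReal.ofReal (dens G x) :=
        lintegral_mono_set hc
    _ ≤ ∑' γ : Γ, ∫⁻ x in (fun y : E n => γ • y) '' D, F x * ENNReal.ofReal (dens G x) :=
        lintegral_iUnion_le _ _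
    _ = ∑' γ : Γ, ∫⁻ x in D, F (γ • x) * ENNReal.ofReal (dens G x) :=
        tsum_congr fun γ => lintegral_dens_smul h hG γ D hD F
    _ = ∫⁻ x in D, ∑' γ : Γ, F (γ • x) * ENNReal.ofReal (dens G x) := by
        rw [lintegral_tsum]
        exact fun γ => ((hF.comp (measurable_smul h γ)).mul hd).aemeasurable
    _ = _ := by simp only [ENNReal.tsum_mul_right]

/-- Unfolding equality: `D` is a measurable strict fundamental domain. -/
theorem unfold_eq (D : Set (E n)) (hD : MeasurableSet D) (hD' : ∀ x : E n, ∃! γ : Γ, γ • x ∈ D)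
    (F : E n → ENNReal) (hF : Measurable F) :
    ∫⁻ x, F x * ENNReal.ofReal (dens G x) =
      ∫⁻ x in D, (∑' γ : Γ, F (γ • x)) * ENNReal.ofReal (dens G x) := by
  have := countable h
  have hc : (⋃ γ : Γ, (fun y : E n => γ • y) '' D) = Set.univ := by
    refine Set.eq_univ_of_forall fun x => ?_
    obtain ⟨γ, hγ, _⟩ := hD' x
    exact Set.mem_iUnion.2 ⟨γ⁻¹, γ • x, hγ, by simp⟩
  have hd : Measurable fun x => ENNReal.ofReal (dens G x) := by
    refine ENNReal.measurable_ofReal.comp (Continuous.measurable ?_)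
    have : Continuous fun x => (G x) := continuous_matrix fun i j => (hG.smooth i j).continuous
    exact Real.continuous_sqrt.comp (Continuous.matrix_det this)
  have hm : ∀ γ : Γ, MeasurableSet ((fun y : E n => γ • y) '' D) := fun γ => by
    have : (fun y : E n => γ • y) '' D = (fun y : E n => γ⁻¹ • y) ⁻¹' D := by
      ext x
      constructor
      · rintro ⟨y, hy, rfl⟩; simpa using hy
      · intro hx; exact ⟨γ⁻¹ • x, hx, by simp⟩
    rw [this]
    exact measurable_smul h γ⁻¹ hD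
  have hdis : Pairwise (Function.onFun Disjoint fun γ : Γ => (fun y : E n => γ • y) '' D) := by
    intro γ γ' hne
    refine Set.disjoint_left.2 ?_
    rintro x ⟨y, hy, rfl⟩ ⟨z, hz, hzy⟩
    obtain ⟨g, _, hg2⟩ := hD' (γ • y)
    apply hne
    have h1 := hg2 γ⁻¹ (by simpa using hy)
    have h2 := hg2 γ'⁻¹ (by
      have : γ'⁻¹ • γ • y = z := by rw [← show γ' • z = γ • y from hzy]; simp
      show γ'⁻¹ • γ • y ∈ D
      rw [this]; exact hz)
    exact inv_injective (h1.trans h2.symm)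
  calc ∫⁻ x, F x * ENNReal.ofReal (dens G x)
      = ∫⁻ x in ⋃ γ : Γ, (fun y : E n => γ • y) '' D, F x * ENNReal.ofReal (dens G x) := by
        rw [hc]; simp
    _ = ∑' γ : Γ, ∫⁻ x in (fun y : E n => γ • y) '' D, F x * ENNReal.ofReal (dens G x) :=
        lintegral_iUnion hm hdis _
    _ = ∑' γ : Γ, ∫⁻ x in D, F (γ • x) * ENNReal.ofReal (dens G x) :=
        tsum_congr fun γ => lintegral_dens_smul h hG γ D hD F
    _ = ∫⁻ x in D, ∑' γ : Γ, F (γ • x) * ENNReal.ofReal (dens G x) := by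
        rw [lintegral_tsum]
        exact fun γ => ((hF.comp (measurable_smul h γ)).mul hd).aemeasurable
    _ = _ := by simp only [ENNReal.tsum_mul_right]

end measure

section loc

/-- Smoothness of locally finite sums. -/
theorem contDiff_finsum {ι F : Type} [NormedAddCommGroup F] [NormedSpace ℝ F]
    {m : WithTop ℕ∞} (f : ι → E n → F) (hf : ∀ i, ContDiff ℝ m (f i))
    (hl : LocallyFinite fun i => Function.support (f i)) :
    ContDiff ℝ m fun x => ∑ᶠ i, f i x := by
  refine contDiff_iff_contDiffAt.2 fun x => ?_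
  obtain ⟨t, ht, hft⟩ := hl x
  have : (fun y => ∑ᶠ i, f i y) =ᶠ[nhds x] fun y => ∑ i ∈ hft.toFinset, f i y := by
    filter_upwards [ht] with y hy
    refine finsum_eq_sum_of_support_subset _ fun i hi => ?_
    simp only [Set.Finite.coe_toFinset, Set.mem_ofPred_eq]
    exact ⟨y, hi, hy⟩
  exact (ContDiffAt.sum fun i _ => (hf i).contDiffAt).congr_of_eventuallyEq this

variable (h : Act n Γ)
include h

/-- Finitely many translates of a compact set meet another one. -/
theorem finite_meet {K L : Set (E n)} (hK : IsCompact K) (hL : IsCompact L) :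
    {γ : Γ | ∃ x ∈ K, γ • x ∈ L}.Finite :=
  (h.proper (K ∪ L) (hK.union hL)).subset fun _ ⟨x, hx, hx'⟩ => ⟨x, Or.inl hx, Or.inr hx'⟩

theorem locallyFinite {K : Set (E n)} (hK : IsCompact K) :
    LocallyFinite fun γ : Γ => {x : E n | γ⁻¹ • x ∈ K} := by
  intro x
  refine ⟨Metric.closedBall x 1, Metric.closedBall_mem_nhds x one_pos, ?_⟩
  refine (finite_meet h hK (isCompact_closedBall x 1)).subset ?_
  rintro γ ⟨y, hy, hy'⟩
  exact ⟨γ⁻¹ • y, hy, by simpa using hy'⟩

theorem locallyFinite_support {F : Type} [Zero F] (f : E n → F) (hf : HasCompactSupport f) :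
    LocallyFinite fun γ : Γ => Function.support fun x : E n => f (γ⁻¹ • x) :=
  (locallyFinite h hf).subset fun _ _ hx => subset_tsupport f hx

/-- Averages of smooth functions with compact support are smooth. -/
theorem contDiff_avg {F : Type} [NormedAddCommGroup F] [NormedSpace ℝ F]
    {m : ℕ∞} (f : E n → F) (hf : HasCompactSupport f) (hs : ContDiff ℝ m f) :
    ContDiff ℝ m fun x : E n => ∑ᶠ γ : Γ, f (γ⁻¹ • x) :=
  contDiff_finsum _ (fun γ => hs.comp ((h.smooth γ⁻¹).of_le (mod_cast le_top)))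
    (locallyFinite_support h f hf)

omit h in
theorem avg_inv {F : Type} [AddCommMonoid F] (f : E n → F) (g : Γ) (x : E n) :
    ∑ᶠ γ : Γ, f (γ⁻¹ • g • x) = ∑ᶠ γ : Γ, f (γ⁻¹ • x) := by
  refine finsum_eq_of_bijective (fun γ => g⁻¹ * γ) (Group.mulLeft_bijective g⁻¹) fun γ => ?_
  simp [mul_smul]

/-- An equivariant smooth partition of unity with one function. -/
theorem exists_chi : ∃ χ : E n → ℝ, ContDiff ℝ ∞ χ ∧ HasCompactSupport χ ∧ (∀ x, 0 ≤ χ x) ∧
    ∀ x, ∑ᶠ γ : Γ, χ (γ⁻¹ • x) = 1 := by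
  obtain ⟨K, hK, hK'⟩ := h.cocompact
  obtain ⟨r, hr⟩ := hK.isBounded.subset_ball (0 : E n)
  obtain ⟨η, h1, h2, h3⟩ := (Metric.isOpen_ball (x := (0 : E n)) (ε := r)).exists_contDiff_support_eq
    (n := ⊤)
  have hcs : HasCompactSupport η := by
    refine HasCompactSupport.of_support_subset_isCompact (isCompact_closedBall (0 : E n) r) ?_
    rw [h1]; exact Metric.ball_subset_closedBall
  have h0 : ∀ x, 0 ≤ η x := fun x => (h3 ⟨x, rfl⟩).1
  have hfin : ∀ x : E n, (Function.support fun γ : Γ => η (γ⁻¹ • x)).Finite := fun x =>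
    ((locallyFinite_support h η hcs).point_finite x).subset fun γ hγ => hγ
  have hpos : ∀ x : E n, 0 < ∑ᶠ γ : Γ, η (γ⁻¹ • x) := by
    intro x
    obtain ⟨γ, hγ⟩ := hK' x
    refine finsum_pos (fun γ => h0 _) ⟨γ⁻¹, ?_⟩ (hfin x)
    refine lt_of_le_of_ne (h0 _) (Ne.symm ?_)
    have : γ⁻¹⁻¹ • x ∈ Function.support η := by rw [h1, inv_inv]; exact hr hγ
    exact this
  have hsm : ContDiff ℝ ∞ fun x : E n => ∑ᶠ γ : Γ, η (γ⁻¹ • x) := contDiff_avg h η hcs h2
  refine ⟨fun x => η x / ∑ᶠ γ : Γ, η (γ⁻¹ • x), h2.div hsm fun x => (hpos x).ne', ?_, ?_, ?_⟩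
  · exact hcs.mono fun x hx => fun h0 => hx (by simp [h0])
  · exact fun x => div_nonneg (h0 x) (hpos x).le
  · intro x
    have : ∀ γ : Γ, η (γ⁻¹ • x) / ∑ᶠ g : Γ, η (g⁻¹ • γ⁻¹ • x) =
        η (γ⁻¹ • x) * (∑ᶠ g : Γ, η (g⁻¹ • x))⁻¹ := by
      intro γ; rw [avg_inv η γ⁻¹ x, div_eq_mul_inv]
    rw [finsum_congr this, ← finsum_mul' _ _ (hfin x), mul_inv_cancel₀ (hpos x).ne']

end loc

end Vale.Agent.P223.H.Common
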