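import Vale.Agent.P223.H.Stokes
import Vale.Agent.P223.H.Common

/-! Block 6b, analytic part : the weights. -/

namespace Vale.Agent.P223.H.B6b

open Set Filter Topology MeasureTheory Function

section
variable {n : ℕ}

/-- `C¹` functions with compact support. -/
def CC (f : E n → ℝ) : Prop := ContDiff ℝ 1 f ∧ HasCompactSupport f

/-- The integrand of `wt`. -/
noncomputable def ig (f : Fin (n + 1) → E n → ℝ) (x : E n) : ℝ :=
  f 0 x * jdet (fun i => f i.succ) x

theorem wt_eq (f : Fin (n + 1) → E n → ℝ) : wt f = ∫ x, ig f x := rfl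

theorem CC.zero : CC (fun _ : E n => (0 : ℝ)) := ⟨contDiff_const, HasCompactSupport.zero⟩

theorem CC.mul_left {f g : E n → ℝ} (hf : ContDiff ℝ 1 f) (hg : CC g) :
    CC (fun x => f x * g x) := ⟨hf.mul hg.1, hg.2.mul_left⟩

theorem CC.mul_right {f g : E n → ℝ} (hf : CC f) (hg : ContDiff ℝ 1 g) :
    CC (fun x => f x * g x) := ⟨hf.1.mul hg, hf.2.mul_right⟩

theorem CC.sum {Λ : Type} (T : Finset Λ) (g : Λ → E n → ℝ) (hg : ∀ a ∈ T, CC (g a)) :
    CC (fun x => ∑ a ∈ T, g a x) := by
  classical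
  induction T using Finset.induction_on with
  | empty => simpa using (CC.zero (n := n))
  | insert a s ha ih =>
    have h1 := hg a (Finset.mem_insert_self a s)
    have h2 := ih fun b hb => hg b (Finset.mem_insert_of_mem hb)
    simp only [Finset.sum_insert ha]
    exact ⟨h1.1.add h2.1, h1.2.add h2.2⟩

theorem continuous_pd {f : E n → ℝ} (hf : ContDiff ℝ 1 f) (i : Fin n) :
    Continuous fun x => pd i f x :=
  (hf.continuous_fderiv one_ne_zero).clm_apply continuous_const

theorem continuous_jdet {f : Fin n → E n → ℝ} (hf : ∀ i, ContDiff ℝ 1 (f i)) :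
    Continuous (jdet f) := by
  unfold jdet
  exact Continuous.matrix_det (continuous_matrix fun i j => continuous_pd (hf i) j)

theorem integrable_ig {f : Fin (n + 1) → E n → ℝ} (hf : ∀ k, CC (f k)) :
    Integrable (ig f) := by
  refine Continuous.integrable_of_hasCompactSupport ?_ ?_
  · exact (hf 0).1.continuous.mul (continuous_jdet fun i => (hf i.succ).1)
  · exact (hf 0).2.mul_right

theorem ig_congr {f g : Fin (n + 1) → E n → ℝ} {x : E n} (h : ∀ k, f k =ᶠ[𝓝 x] g k) :
    ig f x = ig g x := by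
  unfold ig
  rw [(h 0).eq_of_nhds]
  congr 1
  unfold jdet
  congr 1
  ext i j
  simp only [Matrix.of_apply, pd]
  rw [(h i.succ).fderiv_eq]

theorem jdet_zero {f : Fin n → E n → ℝ} {x : E n} {i : Fin n} (h : fderiv ℝ (f i) x = 0) :
    jdet f x = 0 := by
  unfold jdet
  refine Matrix.det_eq_zero_of_row_eq_zero i fun j => ?_
  simp [pd, h]

theorem ig_zero {f : Fin (n + 1) → E n → ℝ} {x : E n} {k : Fin (n + 1)}
    (h : f k =ᶠ[𝓝 x] fun _ => 0) : ig f x = 0 := by
  induction k using Fin.cases with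
  | zero => rw [ig, h.eq_of_nhds, zero_mul]
  | succ i => rw [ig, jdet_zero (i := i) (by rw [h.fderiv_eq]; simp), mul_zero]

theorem ig_row_const {f : Fin (n + 1) → E n → ℝ} {x : E n} {i : Fin n} {c : ℝ}
    (h : f i.succ =ᶠ[𝓝 x] fun _ => c) : ig f x = 0 := by
  rw [ig, jdet_zero (i := i) (by rw [h.fderiv_eq]; simp), mul_zero]

/-- The integrand is linear in each place. -/
theorem ig_sum {Λ : Type} (T : Finset Λ) (f : Fin (n + 1) → E n → ℝ) (k : Fin (n + 1))
    (g : Λ → E n → ℝ) (hg : ∀ a ∈ T, ContDiff ℝ 1 (g a)) (x : E n) :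
    ig (update f k fun y => ∑ a ∈ T, g a y) x = ∑ a ∈ T, ig (update f k (g a)) x := by
  classical
  induction k using Fin.cases with
  | zero =>
    have h1 : ∀ h : E n → ℝ, ig (update f 0 h) x = h x * jdet (fun i => f i.succ) x := by
      intro h
      rw [ig, update_self]
      congr 2
    simp only [h1, Finset.sum_mul]
  | succ i =>
    set M : Matrix (Fin n) (Fin n) ℝ := Matrix.of fun i j => pd j (f i.succ) x with hM
    have h1 : ∀ h : E n → ℝ, ig (update f i.succ h) x =
        f 0 x * (Matrix.updateRow M i fun j => pd j h x).det := by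
      intro h
      rw [ig, update_of_ne (Fin.succ_ne_zero i).symm, jdet]
      congr 2
      ext a b
      rw [Matrix.of_apply, Matrix.updateRow_apply]
      by_cases hab : a = i
      · rw [hab, update_self, if_pos rfl]
      · rw [update_of_ne (fun hc => hab (Fin.succ_injective _ hc)), if_neg hab, hM,
          Matrix.of_apply]
    have h2 : (fun j => pd j (fun y => ∑ a ∈ T, g a y) x) =
        ∑ a ∈ T, fun j => pd j (g a) x := by
      ext j
      rw [Finset.sum_apply]
      simp only [pd]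
      rw [fderiv_fun_sum fun a ha => (hg a ha).differentiable one_ne_zero x]
      simp
    have h3 : ∀ v : Fin n → ℝ, (Matrix.updateRow M i v).det =
        (Matrix.detRowAlternating (n := Fin n) (R := ℝ)).toMultilinearMap.toLinearMap M i v :=
      fun v => rfl
    simp only [h1]
    rw [h2, h3, map_sum, Finset.mul_sum]
    rfl

theorem wt_sum {Λ : Type} (T : Finset Λ) (f : Fin (n + 1) → E n → ℝ) (hf : ∀ k, CC (f k))
    (k : Fin (n + 1)) (g : Λ → E n → ℝ) (hg : ∀ a ∈ T, CC (g a)) :
    wt (update f k fun y => ∑ a ∈ T, g a y) = ∑ a ∈ T, wt (update f k (g a)) := by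
  simp only [wt_eq, ig_sum T f k g fun a ha => (hg a ha).1]
  refine integral_finsetSum T fun a ha => integrable_ig fun j => ?_
  by_cases h : j = k
  · rw [h, update_self]; exact hg a ha
  · rw [update_of_ne h]; exact hf j

end

section act
variable {n : ℕ} {Γ : Type} [Group Γ] [MulAction Γ (E n)]

theorem jdet_comp (hΓ : Act n Γ) (γ : Γ) (f : Fin n → E n → ℝ) (hf : ∀ i, ContDiff ℝ 1 (f i))
    (x : E n) : jdet (fun i y => f i (γ • y)) x = jdet f (γ • x) * (Common.Dm γ x).det := by
  unfold jdet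
  rw [← Matrix.det_mul]
  congr 1
  ext i j
  rw [Matrix.of_apply, Matrix.mul_apply,
    Common.pd_comp hΓ γ (f i) x ((hf i).differentiable one_ne_zero _) j]
  rfl

theorem wt_comp (hΓ : Act n Γ) (γ : Γ) (f : Fin (n + 1) → E n → ℝ)
    (hf : ∀ k, ContDiff ℝ 1 (f k)) : wt (fun k y => f k (γ • y)) = wt f := by
  have h1 : ∀ x, ig (fun k y => f k (γ • y)) x =
      |(fderiv ℝ (fun y : E n => γ • y) x).det| • ig f (γ • x) := by
    intro x
    rw [ig, ig, jdet_comp hΓ γ _ (fun i => hf i.succ), Common.det_Dm, smul_eq_mul,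
      abs_of_pos (hΓ.orient γ x)]
    ring
  rw [wt_eq, wt_eq]
  simp only [h1]
  have h2 := integral_image_eq_integral_abs_det_fderiv_smul (μ := (volume : Measure (E n)))
    (f := fun y : E n => γ • y) (f' := fun x => fderiv ℝ (fun y : E n => γ • y) x)
    MeasurableSet.univ (fun x _ => (Common.diff hΓ γ x).hasFDerivAt.hasFDerivWithinAt)
    (MulAction.injective γ).injOn (ig f)
  rw [image_univ, (MulAction.surjective γ).range_eq] at h2
  simpa using h2.symm

variable {ι : Type} [Fintype ι]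

theorem fn_cc (hΓ : Act n Γ) (P : PU n Γ ι) (a : Γ × ι) : CC (P.fn a) := by
  refine ⟨(P.smooth a.2).comp ((hΓ.smooth a.1⁻¹).of_le (by norm_cast)), ?_⟩
  have h : HasCompactSupport (P.φ a.2) := P.supp a.2
  have := h.comp_homeomorph (⟨MulAction.toPerm a.1⁻¹, Common.cont hΓ a.1⁻¹,
    Common.cont hΓ a.1⁻¹⁻¹⟩ : E n ≃ₜ E n)
  exact this

theorem fn_mul (P : PU n Γ ι) (γ : Γ) (a : Γ × ι) (x : E n) :
    P.fn (γ * a.1, a.2) x = P.fn a (γ⁻¹ • x) := by
  simp only [PU.fn, mul_inv_rev, mul_smul]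

/-- The union of the supports. -/
def sup (P : PU n Γ ι) : Set (E n) := ⋃ i, tsupport (P.φ i)

theorem compact_sup (P : PU n Γ ι) : IsCompact (sup P) := isCompact_iUnion fun i => P.supp i

theorem mem_sup (hΓ : Act n Γ) (P : PU n Γ ι) (a : Γ × ι) {x : E n} (hx : x ∈ tsupport (P.fn a)) :
    a.1⁻¹ • x ∈ sup P := by
  refine mem_iUnion.2 ⟨a.2, ?_⟩
  have h1 : tsupport (P.fn a) ⊆ (fun y : E n => a.1⁻¹ • y) ⁻¹' tsupport (P.φ a.2) :=
    closure_minimal (fun y hy => subset_tsupport _ hy)
      ((isClosed_tsupport _).preimage (Common.cont hΓ a.1⁻¹))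
  exact h1 hx

theorem near (hΓ : Act n Γ) (P : PU n Γ ι) {K : Set (E n)} (hK : IsCompact K) :
    ∃ T : Finset (Γ × ι), (∀ ν, ν ∉ T → ∀ x ∈ K, P.fn ν =ᶠ[𝓝 x] fun _ => 0) ∧
      ∀ x ∈ K, (fun y => ∑ ν ∈ T, P.fn ν y) =ᶠ[𝓝 x] fun _ => 1 := by
  classical
  set K' := Metric.cthickening 1 K with hK'
  have hK'c : IsCompact K' := hK.cthickening
  have hfin : {γ : Γ | ∃ x ∈ sup P, γ • x ∈ K'}.Finite :=
    Common.finite_meet hΓ (compact_sup P) hK'c
  have hz : ∀ ν : Γ × ι, ν.1 ∉ {γ : Γ | ∃ x ∈ sup P, γ • x ∈ K'} → ∀ y ∈ K', P.fn ν y = 0 := by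
    intro ν hν y hy
    by_contra hne
    refine hν ⟨ν.1⁻¹ • y, mem_sup hΓ P ν (subset_tsupport _ hne), ?_⟩
    rwa [smul_inv_smul]
  have hnb : ∀ x ∈ K, ∀ᶠ y in 𝓝 x, y ∈ K' := by
    intro x hx
    filter_upwards [Metric.ball_mem_nhds x one_pos] with y hy
    exact Metric.mem_cthickening_of_dist_le y x 1 K hx (Metric.mem_ball.1 hy).le
  refine ⟨hfin.toFinset ×ˢ Finset.univ, ?_, ?_⟩
  · intro ν hν x hx
    filter_upwards [hnb x hx] with y hy
    refine hz ν (fun hc => hν ?_) y hy
    exact Finset.mem_product.2 ⟨hfin.mem_toFinset.2 hc, Finset.mem_univ _⟩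
  · intro x hx
    filter_upwards [hnb x hx] with y hy
    rw [Finset.sum_product_right]
    have h1 := P.sum y
    rw [← h1]
    refine Finset.sum_congr rfl fun i _ => ?_
    refine (finsum_eq_sum_of_support_subset _ fun γ hγ => ?_).symm
    by_contra hc
    have : γ ∉ {γ : Γ | ∃ x ∈ sup P, γ • x ∈ K'} := fun h => hc (hfin.mem_toFinset.2 h)
    exact hγ (hz (γ, i) this y hy)

/-- Summing over one free place gives zero. -/
theorem sum_free (hΓ : Act n Γ) (hn : 1 ≤ n) (P : PU n Γ ι) (f : Fin (n + 1) → E n → ℝ)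
    (hf : ∀ k, CC (f k)) (k : Fin (n + 1)) :
    ∑ᶠ ν : Γ × ι, wt (update f k (P.fn ν)) = 0 := by
  classical
  obtain ⟨k1, hk1⟩ : ∃ k1 : Fin (n + 1), k1 ≠ k := by
    have : Nontrivial (Fin (n + 1)) := Fin.nontrivial_iff_two_le.2 (by omega)
    exact exists_ne k
  obtain ⟨T, hT1, hT2⟩ := near hΓ P (hf k1).2
  have hout : ∀ x, x ∉ tsupport (f k1) → f k1 =ᶠ[𝓝 x] fun _ => 0 := fun x hx =>
    notMem_tsupport_iff_eventuallyEq.1 hx
  have h0 : ∀ (g : E n → ℝ) (x : E n), x ∉ tsupport (f k1) → ig (update f k g) x = 0 := by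
    intro g x hx
    refine ig_zero (k := k1) ?_
    rw [update_of_ne hk1]
    exact hout x hx
  rw [finsum_eq_sum_of_support_subset (s := T), ← wt_sum T f hf k _ fun a _ => fn_cc hΓ P a]
  · induction k using Fin.cases with
    | zero =>
      have h2 : ∀ x, ig (update f 0 fun y => ∑ a ∈ T, P.fn a y) x =
          jdet (fun i => f i.succ) x := by
        intro x
        obtain ⟨i, rfl⟩ := Fin.exists_succ_eq.2 hk1
        have e : (fun i : Fin n => update f 0 (fun y => ∑ a ∈ T, P.fn a y) i.succ) =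
            fun i : Fin n => f i.succ := by
          ext i; rw [update_of_ne (Fin.succ_ne_zero i)]
        rw [ig, update_self, e]
        by_cases hx : x ∈ tsupport (f i.succ)
        · rw [(hT2 x hx).eq_of_nhds, one_mul]
        · rw [jdet_zero (i := i) (by rw [(hout x hx).fderiv_eq]; simp), mul_zero]
      rw [wt_eq]
      simp only [h2]
      exact Stokes.main n _ hn (fun i => (hf i.succ).1) fun i => (hf i.succ).2
    | succ i =>
      rw [wt_eq]
      refine integral_eq_zero_of_ae (Eventually.of_forall fun x => ?_)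
      by_cases hx : x ∈ tsupport (f k1)
      · refine ig_row_const (i := i) (c := 1) ?_
        rw [update_self]
        exact hT2 x hx
      · exact h0 _ x hx
  · intro ν hν
    by_contra hc
    refine hν ?_
    show wt (update f k (P.fn ν)) = 0
    rw [wt_eq]
    refine integral_eq_zero_of_ae (Eventually.of_forall fun x => ?_)
    by_cases hx : x ∈ tsupport (f k1)
    · refine ig_zero (k := k) ?_
      rw [update_self]
      exact hT1 ν (fun h => hc h) x hx
    · exact h0 _ x hx

/-- Summing over a place which is multiplied by `h`. -/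
theorem sum_mul (hΓ : Act n Γ) (P : PU n Γ ι) (f : Fin (n + 1) → E n → ℝ)
    (hf : ∀ k, CC (f k)) (k : Fin (n + 1)) (h : E n → ℝ) (hh : CC h) :
    ∑ᶠ ν : Γ × ι, wt (update f k fun x => P.fn ν x * h x) = wt (update f k h) := by
  classical
  obtain ⟨T, hT1, hT2⟩ := near hΓ P hh.2
  have h1 : (fun x => ∑ ν ∈ T, P.fn ν x * h x) = h := by
    ext x
    rw [← Finset.sum_mul]
    by_cases hx : x ∈ tsupport h
    · rw [(hT2 x hx).eq_of_nhds, one_mul]
    · rw [image_eq_zero_of_notMem_tsupport hx, mul_zero]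
  rw [finsum_eq_sum_of_support_subset (s := T), ← wt_sum T f hf k
    (fun ν x => P.fn ν x * h x) fun a _ => CC.mul_left (fn_cc hΓ P a).1 hh, h1]
  intro ν hν
  by_contra hc
  refine hν ?_
  have h2 : (fun x => P.fn ν x * h x) = fun _ => 0 := by
    ext x
    by_cases hx : x ∈ tsupport h
    · rw [(hT1 ν (fun h => hc h) x hx).eq_of_nhds, zero_mul]
    · rw [image_eq_zero_of_notMem_tsupport hx, mul_zero]
  show wt (update f k fun x => P.fn ν x * h x) = 0
  rw [h2, wt_eq]
  refine integral_eq_zero_of_ae (Eventually.of_forall fun x => ?_)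
  refine ig_zero (k := k) ?_
  rw [update_self]

/-- If the weight does not vanish there is a point in all supports. -/
theorem exists_mem {f : Fin (n + 1) → E n → ℝ} (h : wt f ≠ 0) :
    ∃ x, ∀ k, x ∈ tsupport (f k) := by
  by_contra hc
  push Not at hc
  refine h ?_
  rw [wt_eq]
  refine integral_eq_zero_of_ae (Eventually.of_forall fun x => ?_)
  obtain ⟨k, hk⟩ := hc x
  exact ig_zero (k := k) (notMem_tsupport_iff_eventuallyEq.1 hk)

end act

end Vale.Agent.P223.H.B6b
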