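import Vale.Agent.P223.H.B6b

/-! Block 6b, chain part : chains given by invariant weights. -/

namespace Vale.Agent.P223.H.B6c

open Function

section
variable {n : ℕ} {Γ : Type} [Group Γ] [MulAction Γ (E n)] {ι : Type}

/-- Translation of labels. -/
def tr (γ : Γ) {k : ℕ} (l : Fin k → Γ × ι) : Fin k → Γ × ι := fun j => (γ * (l j).1, (l j).2)

omit [MulAction Γ (E n)] in
theorem tr_tr (γ γ' : Γ) {k : ℕ} (l : Fin k → Γ × ι) : tr γ (tr γ' l) = tr (γ * γ') l := by
  ext j <;> simp [tr, mul_assoc]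

theorem tr_one {k : ℕ} (l : Fin k → Γ × ι) : tr (1 : Γ) l = l := by
  ext j <;> simp [tr]

/-- Insertion of a label. -/
def ins {k : ℕ} (i : Fin (k + 2)) (ν : Γ × ι) (m : Fin (k + 1) → Γ × ι) : Fin (k + 2) → Γ × ι :=
  i.insertNth (α := fun _ => Γ × ι) ν m

theorem ins_self {k : ℕ} (i : Fin (k + 2)) (ν : Γ × ι) (m : Fin (k + 1) → Γ × ι) :
    ins i ν m i = ν := Fin.insertNth_apply_same _ _ _

theorem ins_succAbove {k : ℕ} (i : Fin (k + 2)) (ν : Γ × ι) (m : Fin (k + 1) → Γ × ι)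
    (j : Fin (k + 1)) : ins i ν m (i.succAbove j) = m j := Fin.insertNth_apply_succAbove _ _ _ _

theorem ins_comp {k : ℕ} (i : Fin (k + 2)) (ν : Γ × ι) (m : Fin (k + 1) → Γ × ι) :
    ins i ν m ∘ i.succAbove = m := by
  ext j <;> simp [ins_succAbove]

theorem ins_eq {k : ℕ} (i : Fin (k + 2)) (l : Fin (k + 2) → Γ × ι) :
    ins i (l i) (l ∘ i.succAbove) = l := by
  funext j
  induction j using Fin.succAboveCases i with
  | x => rw [ins_self]
  | p j => rw [ins_succAbove]; rfl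

theorem tr_ins {k : ℕ} (γ : Γ) (i : Fin (k + 2)) (ν : Γ × ι) (m : Fin (k + 1) → Γ × ι) :
    tr γ (ins i ν m) = ins i (γ * ν.1, ν.2) (tr γ m) := by
  funext j
  induction j using Fin.succAboveCases i with
  | x => rw [ins_self, tr, ins_self]
  | p j => rw [ins_succAbove, tr, ins_succAbove]; rfl

/-- Normalised labels. -/
abbrev NL (Γ : Type) [Group Γ] (ι : Type) (k : ℕ) := {l : Fin (k + 1) → Γ × ι // (l 0).1 = 1}

theorem tr_norm {k : ℕ} (l : Fin (k + 1) → Γ × ι) : (tr (l 0).1⁻¹ l 0).1 = 1 := by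
  simp [tr]

/-- Removing the label with number `i`, as a bijection. -/
def eqv {k : ℕ} (i : Fin (k + 2)) : NL Γ ι k × (Γ × ι) ≃ NL Γ ι (k + 1) where
  toFun p := ⟨tr (ins i p.2 p.1.1 0).1⁻¹ (ins i p.2 p.1.1), tr_norm _⟩
  invFun l := (⟨tr ((l.1 ∘ i.succAbove) 0).1⁻¹ (l.1 ∘ i.succAbove), tr_norm _⟩,
    (((l.1 ∘ i.succAbove) 0).1⁻¹ * (l.1 i).1, (l.1 i).2))
  left_inv := by
    rintro ⟨⟨m, hm⟩, ν⟩
    set g := (ins i ν m 0).1 with hg
    have h1 : tr g⁻¹ (ins i ν m) ∘ i.succAbove = tr g⁻¹ m := by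
      rw [tr_ins, ins_comp]
    have h2 : (tr g⁻¹ (ins i ν m)) i = (g⁻¹ * ν.1, ν.2) := by
      rw [tr_ins, ins_self]
    simp only [← hg, h1, h2]
    have h3 : (tr g⁻¹ m 0).1 = g⁻¹ := by simp [tr, hm]
    refine Prod.ext (Subtype.ext ?_) ?_
    · simp only [h3]
      rw [tr_tr, inv_mul_cancel, tr_one]
    · simp only [h3]
      ext <;> simp
  right_inv := by
    rintro ⟨l, hl⟩
    refine Subtype.ext ?_
    set a := ((l ∘ i.succAbove) 0).1 with ha
    have h1 : ins i (a⁻¹ * (l i).1, (l i).2) (tr a⁻¹ (l ∘ i.succAbove)) = tr a⁻¹ l := by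
      rw [← tr_ins, ins_eq]
    simp only [← ha, h1]
    rw [tr_tr]
    have h2 : (tr a⁻¹ l 0).1 = a⁻¹ := by simp [tr, hl]
    rw [h2, inv_mul_cancel, tr_one]

/-- The simplex with given labels. -/
noncomputable def sig (R : Sys n Γ) (q : ι → E n) (k : ℕ) (l : Fin (k + 1) → Γ × ι) :
    Simp (k + 1) (Mfd n Γ) :=
  (proj n Γ).comp (R.S k (fun j => ((l j).1, q (l j).2)))

theorem sig_tr (R : Sys n Γ) (q : ι → E n) (k : ℕ) (γ : Γ) (l : Fin (k + 1) → Γ × ι) :
    sig R q k (tr γ l) = sig R q k l := by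
  ext1 t
  have h := R.equi k (fun j => ((l j).1, q (l j).2)) γ t
  show (Quotient.mk _ (R.S k (fun j => (γ * (l j).1, q (l j).2)) t) : Mfd n Γ) =
    Quotient.mk _ (R.S k (fun j => ((l j).1, q (l j).2)) t)
  rw [h]
  exact Quotient.sound ⟨γ, rfl⟩

theorem sig_face (R : Sys n Γ) (q : ι → E n) (k : ℕ) (l : Fin (k + 2) → Γ × ι)
    (i : Fin (k + 2)) : (sig R q (k + 1) l).comp (H.face (k + 1) i) =
      sig R q k (l ∘ i.succAbove) := by
  rw [sig, sig, ContinuousMap.comp_assoc, R.face]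
  rfl

/-- The chain with given weights. -/
noncomputable def CH (R : Sys n Γ) (q : ι → E n) (k : ℕ) (w : (Fin (k + 1) → Γ × ι) → ℝ) :
    Chain (k + 1) (Mfd n Γ) :=
  ∑ᶠ l : NL Γ ι k, Finsupp.single (sig R q k l.1) (w l.1)

/-- Invariant weights, with finitely many nonzero values on normalised labels. -/
structure Good (k : ℕ) (w : (Fin (k + 1) → Γ × ι) → ℝ) : Prop where
  inv : ∀ (γ : Γ) l, w (tr γ l) = w l
  fin : {l : NL Γ ι k | w l.1 ≠ 0}.Finite

/-- Sum over one label. -/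
noncomputable def dd (k : ℕ) (w : (Fin (k + 2) → Γ × ι) → ℝ) (i : Fin (k + 2))
    (m : Fin (k + 1) → Γ × ι) : ℝ := ∑ᶠ ν : Γ × ι, w (ins i ν m)

theorem Good.fin_eqv {k : ℕ} {w : (Fin (k + 2) → Γ × ι) → ℝ} (hw : Good (k + 1) w)
    (i : Fin (k + 2)) : {p : NL Γ ι k × (Γ × ι) | w (ins i p.2 p.1.1) ≠ 0}.Finite := by
  refine (hw.fin.preimage (f := eqv i) (eqv i).injective.injOn).subset fun p hp => ?_
  show w (tr _ _) ≠ 0
  rw [hw.inv]
  exact hp

theorem bd_single {M : Type} [TopologicalSpace M] (k : ℕ) (σ : Simp (k + 1) M) (a : ℝ) :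
    bd k (Finsupp.single σ a) =
      ∑ i : Fin (k + 1), ((-1 : ℝ) ^ (i : ℕ)) • Finsupp.single (σ.comp (H.face k i)) a := by
  rw [bd, Finsupp.linearCombination_single, Finset.smul_sum]
  refine Finset.sum_congr rfl fun i _ => ?_
  rw [Finsupp.smul_single, Finsupp.smul_single, smul_eq_mul, smul_eq_mul, mul_comm]

theorem bd_CH (R : Sys n Γ) (q : ι → E n) (k : ℕ) (w : (Fin (k + 2) → Γ × ι) → ℝ)
    (hw : Good (k + 1) w) : bd (k + 1) (CH R q (k + 1) w) =
      ∑ i : Fin (k + 2), ((-1 : ℝ) ^ (i : ℕ)) • CH R q k (dd k w i) := by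
  have hs : ∀ (f : NL Γ ι (k + 1) → Simp (k + 1) (Mfd n Γ)),
      HasFiniteSupport fun l : NL Γ ι (k + 1) => Finsupp.single (f l) (w l.1) := by
    intro f
    refine hw.fin.subset fun l hl => ?_
    intro h0
    exact hl (by simp only [h0, Finsupp.single_zero])
  have hs' : HasFiniteSupport fun l : NL Γ ι (k + 1) =>
      Finsupp.single (sig R q (k + 1) l.1) (w l.1) := by
    refine hw.fin.subset fun l hl => ?_
    intro h0
    exact hl (by simp only [h0, Finsupp.single_zero])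
  rw [CH, map_finsum (bd (k + 1)) hs']
  simp only [bd_single, sig_face]
  rw [finsum_sum_comm]
  · refine Finset.sum_congr rfl fun i _ => ?_
    rw [← smul_finsum' _ (hs fun l => sig R q k (l.1 ∘ i.succAbove))]
    congr 1
    rw [← finsum_comp_equiv (eqv i)]
    have h1 : ∀ p : NL Γ ι k × (Γ × ι),
        Finsupp.single (sig R q k ((eqv i p).1 ∘ i.succAbove)) (w (eqv i p).1) =
        Finsupp.single (sig R q k p.1.1) (w (ins i p.2 p.1.1)) := by
      intro p
      have e1 : (eqv i p).1 = tr (ins i p.2 p.1.1 0).1⁻¹ (ins i p.2 p.1.1) := rfl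
      have e2 : (eqv i p).1 ∘ i.succAbove = tr (ins i p.2 p.1.1 0).1⁻¹ p.1.1 := by
        rw [e1, tr_ins, ins_comp]
      rw [e2, sig_tr, e1, hw.inv]
    simp only [h1]
    rw [finsum_curry]
    · rw [CH]
      refine finsum_congr fun m => ?_
      exact ((Finsupp.singleAddHom (sig R q k m.1)).map_finsum_of_injective
        (Finsupp.single_injective _) _).symm
    · refine (hw.fin_eqv i).subset fun p hp => ?_
      intro h0
      exact hp (by simp only [h0, Finsupp.single_zero])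
  · intro i _
    refine (hs fun l => sig R q k (l.1 ∘ i.succAbove)).subset fun l hl => ?_
    intro h0
    simp only at h0
    exact hl (by simp only [h0, smul_zero])

theorem CH_congr (R : Sys n Γ) (q : ι → E n) (k : ℕ) {w w' : (Fin (k + 1) → Γ × ι) → ℝ}
    (h : ∀ l, w l = w' l) : CH R q k w = CH R q k w' := by
  have : w = w' := funext h
  rw [this]

theorem CH_zero (R : Sys n Γ) (q : ι → E n) (k : ℕ) :
    CH R q k (fun _ => 0) = 0 := by
  simp [CH]

theorem Good.hs (R : Sys n Γ) (q : ι → E n) {k : ℕ} {w : (Fin (k + 1) → Γ × ι) → ℝ}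
    (hw : Good k w) : HasFiniteSupport fun l : NL Γ ι k =>
      Finsupp.single (sig R q k l.1) (w l.1) := by
  refine hw.fin.subset fun l hl => ?_
  intro h0
  exact hl (by simp only [h0, Finsupp.single_zero])

theorem CH_sub (R : Sys n Γ) (q : ι → E n) (k : ℕ) {w w' : (Fin (k + 1) → Γ × ι) → ℝ}
    (hw : Good k w) (hw' : Good k w') :
    CH R q k (fun l => w l - w' l) = CH R q k w - CH R q k w' := by
  simp only [CH, Finsupp.single_sub]
  exact finsum_sub_distrib (hw.hs R q) (hw'.hs R q)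

end

end Vale.Agent.P223.H.B6c
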