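import Vale.Agent.P223.H.B6c

/-! Block 6b : the cycle of a partition of unity. -/

namespace Vale.Agent.P223.H.B6d

open Function B6b B6c Set

section
variable {n : ℕ} {Γ : Type} [Group Γ] [MulAction Γ (E n)] {ι : Type}

theorem ins_castSucc {k : ℕ} {i : Fin (k + 2)} {j : Fin (k + 1)} (h : j.castSucc < i)
    (ν : Γ × ι) (m : Fin (k + 1) → Γ × ι) : ins i ν m j.castSucc = m j := by
  rw [← Fin.succAbove_of_castSucc_lt _ _ h, ins_succAbove]

theorem ins_succ {k : ℕ} {i : Fin (k + 2)} {j : Fin (k + 1)} (h : i < j.succ)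
    (ν : Γ × ι) (m : Fin (k + 1) → Γ × ι) : ins i ν m j.succ = m j := by
  rw [← Fin.succAbove_of_lt_succ _ _ h, ins_succAbove]

theorem ins_ne {k : ℕ} {i : Fin (k + 2)} {a : Fin (k + 2)} (h : a ≠ i)
    (ν ν' : Γ × ι) (m : Fin (k + 1) → Γ × ι) : ins i ν m a = ins i ν' m a := by
  obtain ⟨b, rfl⟩ := Fin.exists_succAbove_eq h
  rw [ins_succAbove, ins_succAbove]

/-- Finiteness of the set of relevant normalised labels. -/
theorem finite_labels [Finite ι] (hΓ : Act n Γ) {K : Set (E n)} (hK : IsCompact K) {k : ℕ}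
    (w : (Fin (k + 1) → Γ × ι) → ℝ)
    (hw : ∀ l, w l ≠ 0 → ∃ x, ∀ j, (l j).1⁻¹ • x ∈ K) :
    {l : NL Γ ι k | w l.1 ≠ 0}.Finite := by
  have hT := hΓ.proper K hK
  set T : Set Γ := {γ : Γ | ∃ x ∈ K, γ • x ∈ K} with hTd
  have hA : {a : Γ × ι | a.1⁻¹ ∈ T}.Finite := by
    have h1 : ((fun γ : Γ => γ⁻¹) ⁻¹' T).Finite := hT.preimage inv_injective.injOn
    refine (h1.prod (Set.finite_univ (α := ι))).subset fun a ha => ?_
    exact ⟨ha, mem_univ _⟩
  have hB : {l : Fin (k + 1) → Γ × ι | ∀ j, l j ∈ {a : Γ × ι | a.1⁻¹ ∈ T}}.Finite := by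
    have := Set.Finite.pi' (fun _ : Fin (k + 1) => hA)
    exact this
  refine (hB.preimage (f := fun l : NL Γ ι k => l.1) Subtype.val_injective.injOn).subset ?_
  intro l hl j
  obtain ⟨x, hx⟩ := hw l.1 hl
  have h0 := hx 0
  rw [l.2, inv_one, one_smul] at h0
  exact ⟨x, h0, hx j⟩

variable [Fintype ι]

theorem good_wt (hΓ : Act n Γ) (P : PU n Γ ι) : Good n P.wt := by
  constructor
  · intro γ l
    have h1 : (fun k => P.fn (tr γ l k)) = fun k y => P.fn (l k) (γ⁻¹ • y) := by
      funext k y
      exact fn_mul P γ (l k) y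
    rw [PU.wt, h1, wt_comp hΓ γ⁻¹ _ fun k => (fn_cc hΓ P (l k)).1]
    rfl
  · refine finite_labels hΓ (compact_sup P) _ fun l hl => ?_
    obtain ⟨x, hx⟩ := exists_mem hl
    exact ⟨x, fun j => mem_sup hΓ P _ (hx j)⟩

theorem cyc_eq (R : Sys n Γ) (P : PU n Γ ι) (q : ι → E n) : cyc R P q = CH R q n P.wt := by
  rw [cyc, CH, ← finsum_set_coe_eq_finsum_mem]
  rfl

/-- The cycle property. -/
theorem bd_cyc (hΓ : Act n Γ) (hn : 1 ≤ n) (R : Sys n Γ) (P : PU n Γ ι) (q : ι → E n) :
    bd n (cyc R P q) = 0 := by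
  rw [cyc_eq]
  have hg := good_wt hΓ P
  obtain ⟨k, hk⟩ : ∃ k, n = k + 1 := ⟨n - 1, by omega⟩
  have key : ∀ (i : Fin (n + 1)) (f : Fin (n + 1) → E n → ℝ), (∀ k, CC (f k)) →
      ∑ᶠ ν : Γ × ι, H.wt (update f i (P.fn ν)) = 0 := fun i f hf => sum_free hΓ hn P f hf i
  have hcc : ∀ a, CC (P.fn a) := fn_cc hΓ P
  subst hk
  rw [bd_CH R q k P.wt hg]
  refine Finset.sum_eq_zero fun i _ => ?_
  have h1 : CH R q k (dd k P.wt i) = CH R q k fun _ => 0 := by
    refine CH_congr R q k fun m => ?_
    have h2 : ∀ ν, P.wt (ins i ν m) = H.wt (update (fun a => P.fn (ins i (m 0) m a)) i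
        (P.fn ν)) := by
      intro ν
      rw [PU.wt]
      congr 1
      funext a
      by_cases ha : a = i
      · rw [ha, update_self, ins_self]
      · rw [update_of_ne ha, ins_ne ha ν (m 0)]
    rw [dd]
    simp only [h2]
    exact key i _ fun a => hcc _
  rw [h1, CH_zero, smul_zero]

/-! ### The prism -/

/-- The functions of the prism. -/
noncomputable def pr (P P' : PU n Γ ι) (j : Fin (n + 1)) (l : Fin (n + 2) → Γ × ι)
    (k : Fin (n + 1)) : E n → ℝ :=
  if k < j then P.fn (l k.castSucc) else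
    if k = j then fun x => P.fn (l k.castSucc) x * P'.fn (l k.succ) x else P'.fn (l k.succ)

/-- The weights of the prism. -/
noncomputable def pw (P P' : PU n Γ ι) (j : Fin (n + 1)) (l : Fin (n + 2) → Γ × ι) : ℝ :=
  wt (pr P P' j l)

/-- Mixed weights. -/
noncomputable def mx (P P' : PU n Γ ι) (j : ℕ) (l : Fin (n + 1) → Γ × ι) : ℝ :=
  wt fun k : Fin (n + 1) => if (k : ℕ) < j then P.fn (l k) else P'.fn (l k)

theorem mx_zero (P P' : PU n Γ ι) : mx P P' 0 = P'.wt := by
  funext l
  simp only [mx, not_lt_zero, if_false]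
  rfl

theorem mx_last (P P' : PU n Γ ι) : mx P P' (n + 1) = P.wt := by
  funext l
  have : (fun k : Fin (n + 1) => if (k : ℕ) < n + 1 then P.fn (l k) else P'.fn (l k)) =
      fun k => P.fn (l k) := by
    funext k
    rw [if_pos k.2]
  rw [mx, this]
  rfl

theorem pr_cc (hΓ : Act n Γ) (P P' : PU n Γ ι) (j : Fin (n + 1)) (l : Fin (n + 2) → Γ × ι)
    (k : Fin (n + 1)) : CC (pr P P' j l k) := by
  unfold pr
  split_ifs
  · exact fn_cc hΓ P _
  · exact CC.mul_left (fn_cc hΓ P _).1 (fn_cc hΓ P' _)
  · exact fn_cc hΓ P' _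

theorem good_pw (hΓ : Act n Γ) (P P' : PU n Γ ι) (j : Fin (n + 1)) :
    Good (n + 1) (pw P P' j) := by
  constructor
  · intro γ l
    have h1 : pr P P' j (tr γ l) = fun k y => pr P P' j l k (γ⁻¹ • y) := by
      funext k y
      unfold pr
      split_ifs
      · exact fn_mul P γ (l k.castSucc) y
      · exact congrArg₂ (· * ·) (fn_mul P γ (l k.castSucc) y) (fn_mul P' γ (l k.succ) y)
      · exact fn_mul P' γ (l k.succ) y
    rw [pw, h1, wt_comp hΓ γ⁻¹ _ fun k => (pr_cc hΓ P P' j l k).1]
    rfl
  · refine finite_labels hΓ ((compact_sup P).union (compact_sup P')) _ fun l hl => ?_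
    obtain ⟨x, hx⟩ := exists_mem hl
    refine ⟨x, fun a => ?_⟩
    by_cases ha : (a : ℕ) ≤ j
    · have hk : (a : ℕ) < n + 1 := lt_of_le_of_lt ha j.2
      set k : Fin (n + 1) := ⟨a, hk⟩ with hkd
      have hka : k.castSucc = a := rfl
      have h1 := hx k
      unfold pr at h1
      split_ifs at h1 with h2 h3
      · rw [hka] at h1; exact Or.inl (mem_sup hΓ P _ h1)
      · rw [hka] at h1
        exact Or.inl (mem_sup hΓ P _ (tsupport_mul_subset_left h1))
      · exfalso
        have h4 : k ≤ j := ha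
        exact h3 (le_antisymm h4 (not_lt.1 h2))
    · push Not at ha
      have hk : (a : ℕ) - 1 < n + 1 := by have := a.2; omega
      set k : Fin (n + 1) := ⟨a - 1, hk⟩ with hkd
      have hka : k.succ = a := by
        apply Fin.ext
        show (a : ℕ) - 1 + 1 = a
        omega
      have hkj : j ≤ k := by
        show (j : ℕ) ≤ (a : ℕ) - 1
        omega
      have h1 := hx k
      unfold pr at h1
      rw [if_neg (not_lt.2 hkj)] at h1
      split_ifs at h1 with h3
      · rw [hka] at h1
        exact Or.inr (mem_sup hΓ P' _ (tsupport_mul_subset_right h1))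
      · rw [hka] at h1; exact Or.inr (mem_sup hΓ P' _ h1)

theorem dd_zero (hΓ : Act n Γ) (hn : 1 ≤ n) (P P' : PU n Γ ι) (j : Fin (n + 1))
    (i : Fin (n + 2)) (h1 : i ≠ j.castSucc) (h2 : i ≠ j.succ) (m : Fin (n + 1) → Γ × ι) :
    dd n (pw P P' j) i m = 0 := by
  rcases lt_or_gt_of_ne h1 with h | h
  · -- the place `k₀ = i < j`
    have hv : (i : ℕ) < j := h
    have hk : (i : ℕ) < n + 1 := lt_trans hv j.2
    set k₀ : Fin (n + 1) := ⟨i, hk⟩ with hk₀
    have hki : k₀.castSucc = i := rfl
    have hkj : k₀ < j := hv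
    have h3 : ∀ ν, pw P P' j (ins i ν m) =
        wt (update (pr P P' j (ins i (m 0) m)) k₀ (P.fn ν)) := by
      intro ν
      rw [pw]
      congr 1
      funext k
      by_cases hkk : k = k₀
      · rw [hkk, update_self]
        unfold pr
        rw [if_pos hkj, hki, ins_self]
      · rw [update_of_ne hkk]
        have e1 : k.castSucc ≠ i := fun hc => hkk (Fin.castSucc_injective _ hc)
        unfold pr
        split_ifs with c1 c2
        · rw [ins_ne e1 ν (m 0)]
        · have e2 : k.succ ≠ i := by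
            intro hc
            have := congrArg Fin.val hc
            rw [Fin.val_succ, c2] at this
            omega
          rw [ins_ne e1 ν (m 0), ins_ne e2 ν (m 0)]
        · have e2 : k.succ ≠ i := by
            intro hc
            have := congrArg Fin.val hc
            rw [Fin.val_succ] at this
            have : ¬ (k : ℕ) < j := c1
            omega
          rw [ins_ne e2 ν (m 0)]
    rw [dd]
    simp only [h3]
    exact sum_free hΓ hn P _ (fun k => pr_cc hΓ P P' j _ k) k₀
  · have hv : (j : ℕ) < i := h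
    have hv2 : (i : ℕ) ≠ j + 1 := fun hc => h2 (Fin.ext (by rw [Fin.val_succ]; exact hc))
    have hk : (i : ℕ) - 1 < n + 1 := by have := i.2; omega
    set k₀ : Fin (n + 1) := ⟨i - 1, hk⟩ with hk₀
    have hki : k₀.succ = i := by
      apply Fin.ext
      show (i : ℕ) - 1 + 1 = i
      omega
    have hkj : j < k₀ := by
      show (j : ℕ) < (i : ℕ) - 1
      omega
    have h3 : ∀ ν, pw P P' j (ins i ν m) =
        wt (update (pr P P' j (ins i (m 0) m)) k₀ (P'.fn ν)) := by
      intro ν
      rw [pw]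
      congr 1
      funext k
      by_cases hkk : k = k₀
      · rw [hkk, update_self]
        unfold pr
        rw [if_neg (not_lt.2 hkj.le), if_neg hkj.ne', hki, ins_self]
      · rw [update_of_ne hkk]
        have e1 : k.succ ≠ i := fun hc => hkk (Fin.succ_injective _ (hc.trans hki.symm))
        unfold pr
        split_ifs with c1 c2
        · have e2 : k.castSucc ≠ i := by
            intro hc
            have := congrArg Fin.val hc
            rw [Fin.val_castSucc] at this
            have : (k : ℕ) < j := c1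
            omega
          rw [ins_ne e2 ν (m 0)]
        · have e2 : k.castSucc ≠ i := by
            intro hc
            have := congrArg Fin.val hc
            rw [Fin.val_castSucc, c2] at this
            omega
          rw [ins_ne e1 ν (m 0), ins_ne e2 ν (m 0)]
        · rw [ins_ne e1 ν (m 0)]
    rw [dd]
    simp only [h3]
    exact sum_free hΓ hn P' _ (fun k => pr_cc hΓ P P' j _ k) k₀

theorem dd_cast (hΓ : Act n Γ) (P P' : PU n Γ ι) (j : Fin (n + 1)) (m : Fin (n + 1) → Γ × ι) :
    dd n (pw P P' j) j.castSucc m = mx P P' j m := by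
  have h3 : ∀ ν, pw P P' j (ins j.castSucc ν m) =
      wt (update (pr P P' j (ins j.castSucc (m 0) m)) j fun x => P.fn ν x * P'.fn (m j) x) := by
    intro ν
    rw [pw]
    congr 1
    funext k
    by_cases hkk : k = j
    · rw [hkk, update_self]
      unfold pr
      rw [if_neg (lt_irrefl _), if_pos rfl, ins_self, ins_succ (Fin.castSucc_lt_succ)]
    · rw [update_of_ne hkk]
      unfold pr
      split_ifs with c1
      · rw [ins_ne (fun hc => hkk (Fin.castSucc_injective _ hc)) ν (m 0)]
      · have e2 : k.succ ≠ j.castSucc := by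
          intro hc
          have := congrArg Fin.val hc
          rw [Fin.val_succ, Fin.val_castSucc] at this
          have : ¬ (k : ℕ) < j := c1
          omega
        rw [ins_ne e2 ν (m 0)]
  rw [dd]
  simp only [h3]
  rw [sum_mul hΓ P _ (fun k => pr_cc hΓ P P' j _ k) j _ (fn_cc hΓ P' (m j)), mx]
  congr 1
  funext k
  by_cases hkk : k = j
  · rw [hkk, update_self, if_neg (lt_irrefl _)]
  · rw [update_of_ne hkk]
    unfold pr
    by_cases c1 : k < j
    · rw [if_pos c1, if_pos (show (k : ℕ) < j from c1), ins_castSucc (i := j.castSucc) c1]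
    · have c2 : j < k := lt_of_le_of_ne (not_lt.1 c1) (Ne.symm hkk)
      rw [if_neg c1, if_neg hkk, if_neg (show ¬ (k : ℕ) < j from c1), ins_succ]
      show (j : ℕ) < (k : ℕ) + 1
      have : (j : ℕ) < k := c2
      omega

theorem dd_succ (hΓ : Act n Γ) (P P' : PU n Γ ι) (j : Fin (n + 1)) (m : Fin (n + 1) → Γ × ι) :
    dd n (pw P P' j) j.succ m = mx P P' (j + 1) m := by
  have h3 : ∀ ν, pw P P' j (ins j.succ ν m) =
      wt (update (pr P P' j (ins j.succ (m 0) m)) j fun x => P'.fn ν x * P.fn (m j) x) := by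
    intro ν
    rw [pw]
    congr 1
    funext k
    by_cases hkk : k = j
    · rw [hkk, update_self]
      unfold pr
      rw [if_neg (lt_irrefl _), if_pos rfl, ins_self, ins_castSucc (Fin.castSucc_lt_succ)]
      funext x
      exact mul_comm _ _
    · rw [update_of_ne hkk]
      unfold pr
      split_ifs with c1
      · have e2 : k.castSucc ≠ j.succ := by
          intro hc
          have := congrArg Fin.val hc
          rw [Fin.val_succ, Fin.val_castSucc] at this
          have : (k : ℕ) < j := c1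
          omega
        rw [ins_ne e2 ν (m 0)]
      · rw [ins_ne (fun hc => hkk (Fin.succ_injective _ hc)) ν (m 0)]
  rw [dd]
  simp only [h3]
  rw [sum_mul hΓ P' _ (fun k => pr_cc hΓ P P' j _ k) j _ (fn_cc hΓ P (m j)), mx]
  congr 1
  funext k
  by_cases hkk : k = j
  · rw [hkk, update_self, if_pos (Nat.lt_succ_self _)]
  · rw [update_of_ne hkk]
    unfold pr
    by_cases c1 : k < j
    · have c1' : (k : ℕ) < j := c1
      rw [if_pos c1, if_pos (show (k : ℕ) < j + 1 by omega), ins_castSucc]
      show (k : ℕ) < (j : ℕ) + 1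
      omega
    · have c2 : j < k := lt_of_le_of_ne (not_lt.1 c1) (Ne.symm hkk)
      have c2' : (j : ℕ) < k := c2
      rw [if_neg c1, if_neg hkk, if_neg (show ¬ (k : ℕ) < j + 1 by omega), ins_succ]
      show (j : ℕ) + 1 < (k : ℕ) + 1
      omega

theorem bd_pw (hΓ : Act n Γ) (hn : 1 ≤ n) (R : Sys n Γ) (P P' : PU n Γ ι) (q : ι → E n)
    (j : Fin (n + 1)) : ((-1 : ℝ) ^ (j : ℕ)) • bd (n + 1) (CH R q (n + 1) (pw P P' j)) =
      CH R q n (mx P P' j) - CH R q n (mx P P' (j + 1)) := by
  rw [bd_CH R q n _ (good_pw hΓ P P' j), Finset.sum_eq_add j.castSucc j.succ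
    (Fin.castSucc_lt_succ).ne]
  · have e1 : dd n (pw P P' j) j.castSucc = mx P P' j := funext fun m => dd_cast hΓ P P' j m
    have e2 : dd n (pw P P' j) j.succ = mx P P' (j + 1) := funext fun m => dd_succ hΓ P P' j m
    rw [e1, e2, smul_add, smul_smul, smul_smul, Fin.val_castSucc, Fin.val_succ, ← pow_add,
      ← pow_add, Even.neg_one_pow ⟨(j : ℕ), rfl⟩, Odd.neg_one_pow ⟨(j : ℕ), by ring⟩]
    rw [one_smul, neg_smul, one_smul, sub_eq_add_neg]
  · intro i _ hi
    have e1 : dd n (pw P P' j) i = fun _ => 0 :=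
      funext fun m => dd_zero hΓ hn P P' j i hi.1 hi.2 m
    rw [e1, CH_zero, smul_zero]
  · intro h; exact absurd (Finset.mem_univ _) h
  · intro h; exact absurd (Finset.mem_univ _) h

theorem same (hΓ : Act n Γ) (hn : 1 ≤ n) (R : Sys n Γ) (P P' : PU n Γ ι) (q : ι → E n) :
    ∃ b : Chain (n + 2) (Mfd n Γ), cyc R P q - cyc R P' q = bd (n + 1) b := by
  refine ⟨-∑ j : Fin (n + 1), ((-1 : ℝ) ^ (j : ℕ)) • CH R q (n + 1) (pw P P' j), ?_⟩
  rw [map_neg, map_sum]
  simp only [map_smul, bd_pw hΓ hn]
  rw [Fin.sum_univ_eq_sum_range fun j => CH R q n (mx P P' j) - CH R q n (mx P P' (j + 1)),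
    Finset.sum_range_sub' fun j => CH R q n (mx P P' j), mx_zero, mx_last, cyc_eq, cyc_eq,
    neg_sub]

end

/-! ### Different index sets -/

section
variable {n : ℕ} {Γ : Type} [Group Γ] [MulAction Γ (E n)] {ι ι' : Type} [Fintype ι] [Fintype ι']

/-- Pull a partition of unity back to a larger index set. -/
noncomputable def ext (P : PU n Γ ι) {κ : Type} [Fintype κ] (e : κ → Option ι)
    (he : ∀ i, ∃! a, e a = some i) : PU n Γ κ where
  φ a := match e a with
    | some i => P.φ i
    | none => fun _ => 0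
  smooth a := by
    rcases e a with _ | i
    · exact contDiff_const
    · exact P.smooth i
  supp a := by
    rcases e a with _ | i
    · exact HasCompactSupport.zero
    · exact P.supp i
  sum x := by
    classical
    rw [← P.sum x]
    choose s hs hs' using he
    have hinj : Injective s := fun i j hij => by
      have := hs i
      rw [hij, hs j] at this
      exact (Option.some_injective _ this).symm
    rw [← Finset.sum_subset (Finset.subset_univ (Finset.univ.image s)),
      Finset.sum_image hinj.injOn]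
    · refine Finset.sum_congr rfl fun i _ => ?_
      simp only [hs i]
    · intro a _ ha
      have h1 : e a = none := by
        cases hea : e a with
        | none => rfl
        | some i =>
          exact absurd (Finset.mem_image.2 ⟨i, Finset.mem_univ _, (hs' i a hea).symm⟩) ha
      simp only [h1]
      simp

theorem cyc_ext (R : Sys n Γ) (P : PU n Γ ι) {κ : Type} [Fintype κ] (e : κ → Option ι)
    (he : ∀ i, ∃! a, e a = some i) (q : κ → E n) (s : ι → κ) (hs : ∀ i, e (s i) = some i) :
    cyc R (ext P e he) q = cyc R P (q ∘ s) := by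
  have hinj : Injective s := fun i j hij => by
    have := hs i
    rw [hij, hs j] at this
    exact (Option.some_injective _ this).symm
  have hfn : ∀ a : Γ × ι, (ext P e he).fn (a.1, s a.2) = P.fn a := by
    intro a
    funext x
    simp only [PU.fn, ext, hs]
  have hfn0 : ∀ a : Γ × κ, e a.2 = none → (ext P e he).fn a = fun _ => 0 := by
    intro a ha
    funext x
    simp only [PU.fn, ext, ha]
  rw [cyc_eq, cyc_eq, CH, CH]
  set g : NL Γ ι n → NL Γ κ n := fun l => ⟨fun j => ((l.1 j).1, s (l.1 j).2), l.2⟩ with hg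
  have hginj : Injective g := by
    intro l l' h
    have h1 := congrArg Subtype.val h
    refine Subtype.ext (funext fun j => ?_)
    have h2 : ((l.1 j).1, s (l.1 j).2) = ((l'.1 j).1, s (l'.1 j).2) := congrFun h1 j
    exact Prod.ext (Prod.ext_iff.1 h2).1 (hinj (Prod.ext_iff.1 h2).2)
  rw [← finsum_mem_univ, finsum_mem_inter_support_eq' _ Set.univ (Set.range g),
    finsum_mem_range hginj]
  · refine finsum_congr fun l => ?_
    have h1 : (ext P e he).wt (g l).1 = P.wt l.1 := by
      rw [PU.wt, PU.wt]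
      congr 1
      funext k
      exact hfn (l.1 k)
    rw [h1]
    rfl
  · intro l hl
    refine iff_of_true (mem_univ _) ?_
    have h1 : (ext P e he).wt l.1 ≠ 0 := by
      intro h0
      exact hl (by simp only [h0, Finsupp.single_zero])
    obtain ⟨x, hx⟩ := exists_mem h1
    have h2 : ∀ k, ∃ i, e (l.1 k).2 = some i := by
      intro k
      cases hea : e (l.1 k).2 with
      | some i => exact ⟨i, rfl⟩
      | none =>
        have h3 := hx k
        rw [hfn0 (l.1 k) hea] at h3
        simp [tsupport] at h3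
    choose i hi using h2
    refine ⟨⟨fun j => ((l.1 j).1, i j), l.2⟩, ?_⟩
    refine Subtype.ext (funext fun j => ?_)
    refine Prod.ext rfl ?_
    show s (i j) = (l.1 j).2
    exact (he (i j)).unique (hs (i j)) (hi j)

end

/-- Block 6b. -/
theorem main : SpecCyc := by
  intro n Γ _ _ hn hΓ R ι _ P q
  refine ⟨bd_cyc hΓ hn R P q, fun ι' _ P' q' => ?_⟩
  set e : ι ⊕ ι' → Option ι := Sum.elim some fun _ => none with he
  set e' : ι ⊕ ι' → Option ι' := Sum.elim (fun _ => none) some with he'
  have h1 : ∀ i, ∃! a, e a = some i := by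
    intro i
    refine ⟨Sum.inl i, rfl, ?_⟩
    rintro (a | a) ha
    · exact congrArg Sum.inl (Option.some_injective _ ha)
    · exact absurd ha (by simp [he])
  have h2 : ∀ i, ∃! a, e' a = some i := by
    intro i
    refine ⟨Sum.inr i, rfl, ?_⟩
    rintro (a | a) ha
    · exact absurd ha (by simp [he'])
    · exact congrArg Sum.inr (Option.some_injective _ ha)
  obtain ⟨b, hb⟩ := same hΓ hn R (ext P e h1) (ext P' e' h2) (Sum.elim q q')
  refine ⟨b, ?_⟩
  rw [← hb, cyc_ext R P e h1 _ Sum.inl fun i => rfl, cyc_ext R P' e' h2 _ Sum.inr fun i => rfl]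
  rfl

end Vale.Agent.P223.H.B6d
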