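import Vale.Agent.P223.H.Spec8
import Vale.Agent.P223.H.Common

/-! Block 8a. -/

namespace Vale.Agent.P223.H.B8a

open MeasureTheory Set Metric
open scoped ContDiff Topology

/-- Block 8a. -/
theorem main : SpecGen := by
  classical
  intro n Γ _ _ h p r₂ r₄ hr₂ hr₄ hinj
  obtain ⟨K₀, hK₀, hK₀'⟩ := h.cocompact
  set r₃ : ℝ := (r₂ + r₄) / 2 with hr₃
  have h23 : r₂ < r₃ := by rw [hr₃]; linarith
  have h34 : r₃ < r₄ := by rw [hr₃]; linarith
  -- the two compact sets
  set O : Set (E n) := ⋃ γ : Γ, (fun x : E n => γ • x) ⁻¹' ball p r₃ with hO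
  have hOo : IsOpen O := isOpen_iUnion fun γ => isOpen_ball.preimage (Common.cont h γ)
  set KB : Set (E n) := K₀ \ O with hKB
  have hKBc : IsCompact KB := hK₀.diff hOo
  set C : Set (E n) := ⋃ γ : Γ, {x : E n | γ⁻¹ • x ∈ closedBall p r₂} with hC
  have hCc : IsClosed C :=
    (Common.locallyFinite h (isCompact_closedBall p r₂)).isClosed_iUnion fun γ =>
      isClosed_closedBall.preimage (Common.cont h γ⁻¹)
  have hdis : Disjoint KB C := by
    refine Set.disjoint_left.2 fun x hx hx' => ?_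
    obtain ⟨γ, hγ⟩ := mem_iUnion.1 hx'
    exact hx.2 (mem_iUnion.2 ⟨γ⁻¹, closedBall_subset_ball h23 hγ⟩)
  obtain ⟨δ₁, hδ₁, hdis'⟩ := hdis.exists_cthickenings hKBc hCc
  set L : Set (E n) := closedBall p r₃ ∪ KB with hL
  have hLc : IsCompact L := (isCompact_closedBall p r₃).union hKBc
  have hLcov : ∀ x : E n, ∃ γ : Γ, γ • x ∈ L := by
    intro x
    obtain ⟨γ, hγ⟩ := hK₀' x
    by_cases hO' : γ • x ∈ O
    · obtain ⟨γ', hγ'⟩ := mem_iUnion.1 hO'
      exact ⟨γ' * γ, Or.inl (ball_subset_closedBall (by simpa [mul_smul] using hγ'))⟩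
    · exact ⟨γ, Or.inr ⟨hγ, hO'⟩⟩
  refine ⟨cthickening 1 L, hLc.cthickening, fun δ hδ => ?_⟩
  set δ' : ℝ := min (min δ δ₁) (min 1 ((r₄ - r₃) / 2)) with hδ'
  have hδ'0 : 0 < δ' := by
    refine lt_min (lt_min hδ hδ₁) (lt_min one_pos ?_)
    linarith
  have hδ'1 : δ' ≤ δ := (min_le_left _ _).trans (min_le_left _ _)
  have hδ'2 : δ' ≤ δ₁ := (min_le_left _ _).trans (min_le_right _ _)
  have hδ'3 : δ' ≤ 1 := (min_le_right _ _).trans (min_le_left _ _)
  have hδ'4 : δ' ≤ (r₄ - r₃) / 2 := (min_le_right _ _).trans (min_le_right _ _)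
  obtain ⟨t, htL, htcov⟩ := hLc.elim_nhds_subcover (fun q => ball q δ')
    fun q _ => ball_mem_nhds q hδ'0
  -- bump functions
  have hη : ∀ q : E n, ∃ η : E n → ℝ, Function.support η = ball q δ' ∧ ContDiff ℝ ∞ η ∧
      ∀ x, 0 ≤ η x := by
    intro q
    obtain ⟨η, h1, h2, h3⟩ := (isOpen_ball (x := q) (ε := δ')).exists_contDiff_support_eq
      (n := ⊤)
    exact ⟨η, h1, h2, fun x => (h3 ⟨x, rfl⟩).1⟩
  choose η hη1 hη2 hη0 using hη
  have hηts : ∀ q, tsupport (η q) ⊆ closedBall q δ' := fun q => by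
    rw [tsupport, hη1]
    exact closure_ball_subset_closedBall
  have hηc : ∀ q, HasCompactSupport (η q) := fun q =>
    HasCompactSupport.of_support_subset_isCompact (isCompact_closedBall q δ')
      (by rw [hη1]; exact ball_subset_closedBall)
  have hfin : ∀ (q x : E n), (Function.support fun γ : Γ => η q (γ⁻¹ • x)).Finite := fun q x =>
    ((Common.locallyFinite_support h (η q) (hηc q)).point_finite x).subset fun γ hγ => hγ
  set N : E n → ℝ := fun x => ∑ q : t, ∑ᶠ γ : Γ, η q (γ⁻¹ • x) with hN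
  have hNs : ContDiff ℝ ∞ N := ContDiff.sum fun q _ =>
    Common.contDiff_avg h (η q) (hηc q) (hη2 q)
  have hNinv : ∀ (γ : Γ) x, N (γ • x) = N x := by
    intro γ x
    simp only [hN]
    exact Finset.sum_congr rfl fun q _ => Common.avg_inv (η q) γ x
  have hNpos : ∀ x, 0 < N x := by
    intro x
    obtain ⟨γ, hγ⟩ := hLcov x
    obtain ⟨q, hq, hq'⟩ := mem_iUnion₂.1 (htcov hγ)
    refine Finset.sum_pos' (fun q _ => finsum_nonneg fun γ => hη0 _ _) ⟨⟨q, hq⟩,
      Finset.mem_univ _, ?_⟩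
    refine finsum_pos (fun γ => hη0 _ _) ⟨γ⁻¹, ?_⟩ (hfin q x)
    refine lt_of_le_of_ne (hη0 _ _) (Ne.symm ?_)
    have : γ⁻¹⁻¹ • x ∈ Function.support (η q) := by rw [hη1, inv_inv]; exact hq'
    exact this
  have hts : ∀ q : t, tsupport (fun x => η q x / N x) ⊆ closedBall (q : E n) δ' := by
    intro q
    refine (closure_mono ?_).trans (hηts q)
    intro x hx h0
    exact hx (by simp [h0])
  refine ⟨t, inferInstance, fun q x => η q x / N x, fun q => q, ?_, ?_, ?_, ?_, ?_, ?_, ?_, ?_⟩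
  · exact fun q => (hη2 q).div hNs fun x => (hNpos x).ne'
  · exact fun q x => div_nonneg (hη0 _ _) (hNpos x).le
  · exact fun q => HasCompactSupport.intro (isCompact_closedBall (q : E n) δ') fun x hx => by
      have : η q x = 0 := by
        by_contra hne
        exact hx (hηts q (subset_tsupport _ hne))
      simp [this]
  · intro x
    have : ∀ (q : t) (γ : Γ), η q (γ⁻¹ • x) / N (γ⁻¹ • x) = η q (γ⁻¹ • x) * (N x)⁻¹ := by
      intro q γ
      rw [hNinv, div_eq_mul_inv]
    simp_rw [this]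
    have h2 : ∀ q : t, ∑ᶠ γ : Γ, η q (γ⁻¹ • x) * (N x)⁻¹ =
        (∑ᶠ γ : Γ, η q (γ⁻¹ • x)) * (N x)⁻¹ := fun q => (finsum_mul' _ _ (hfin q x)).symm
    simp_rw [h2]
    rw [← Finset.sum_mul]
    exact mul_inv_cancel₀ (hNpos x).ne'
  · exact fun q => self_subset_cthickening L (htL q q.2)
  · exact fun q => (hts q).trans (closedBall_subset_closedBall hδ'1)
  · exact fun q => (hts q).trans ((closedBall_subset_closedBall hδ'3).trans
      (closedBall_subset_cthickening (htL q q.2) 1))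
  · rintro q γ ⟨x, hx, hγx⟩
    have hxq := hts q hx
    rcases htL q q.2 with hq | hq
    · refine hinj γ ⟨x, ?_, ball_subset_ball (h23.trans h34).le hγx⟩
      rw [mem_ball]
      rw [mem_closedBall] at hq hxq
      have := dist_triangle x (q : E n) p
      linarith
    · exfalso
      have h1 : x ∈ cthickening δ₁ KB :=
        cthickening_mono hδ'2 _ (closedBall_subset_cthickening hq δ' hxq)
      have h2 : x ∈ cthickening δ₁ C := by
        refine self_subset_cthickening C (mem_iUnion.2 ⟨γ⁻¹, ?_⟩)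
        show γ⁻¹⁻¹ • x ∈ closedBall p r₂
        rw [inv_inv]
        exact ball_subset_closedBall hγx
      exact Set.disjoint_left.1 hdis' h1 h2

end Vale.Agent.P223.H.B8a
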