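import Vale.Agent.P223.H.B8c
import Vale.Agent.P223.H.Frame1

/-! Block 8b: case analysis near the point `p`. -/

namespace Vale.Agent.P223.H.B8b

open scoped ContDiff Topology
open Metric Common

variable {n : ℕ}

/-! ### Barycentric coordinates -/

theorem ext_zero (x : E n) : ext x 0 = 1 := rfl

theorem ext_succ (x : E n) (i : Fin n) : ext x (i + 1) = x i := by
  simp [ext]

theorem ext_ge (x : E n) {j : ℕ} (h : n < j) : ext x j = 0 := by
  cases j with
  | zero => omega
  | succ j => simp only [ext]; rw [dif_neg (by omega)]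

theorem ext_xc {j : ℕ} (hj : j ≤ n + 1) : ext (xc n) j = ((n : ℝ) + 1 - j) / (n + 1) := by
  have h : (n : ℝ) + 1 ≠ 0 := by positivity
  cases j with
  | zero => rw [ext_zero]; push_cast; field_simp; ring
  | succ j =>
    simp only [ext]
    split_ifs with h1
    · simp only [xc]; push_cast; congr 1; ring
    · have : j = n := by omega
      subst this
      push_cast
      simp

theorem bary_xc (k : Fin (n + 1)) : bary k (xc n) = 1 / ((n : ℝ) + 1) := by
  have h : (n : ℝ) + 1 ≠ 0 := by positivity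
  unfold bary
  rw [ext_xc (by omega), ext_xc (by omega)]
  push_cast
  field_simp
  ring

theorem ext_vtx (i : Fin (n + 1)) {j : ℕ} : ext (vtx n i) j = if j ≤ (i : ℕ) then 1 else 0 := by
  cases j with
  | zero => simp [ext]
  | succ j =>
    simp only [ext, vtx]
    have := i.2
    split_ifs <;> first | rfl | omega

theorem bary_vtx (k i : Fin (n + 1)) : bary k (vtx n i) = if k = i then 1 else 0 := by
  unfold bary
  rw [ext_vtx, ext_vtx]
  simp only [Fin.ext_iff]
  split_ifs <;> first | (exfalso; omega) | norm_num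

theorem abs_ext_sub (x y : E n) (j : ℕ) : |ext x j - ext y j| ≤ dist x y := by
  cases j with
  | zero => simp [ext]
  | succ j =>
    simp only [ext]
    split_ifs with h
    · have := dist_le_pi_dist x y ⟨j, h⟩
      rwa [Real.dist_eq] at this
    · simp

theorem abs_bary_sub (k : Fin (n + 1)) (x y : E n) : |bary k x - bary k y| ≤ 2 * dist x y := by
  unfold bary
  have h1 := abs_le.1 (abs_ext_sub x y k)
  have h2 := abs_le.1 (abs_ext_sub x y (k + 1))
  exact abs_le.2 ⟨by linarith, by linarith⟩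

theorem ext_sum {κ : Type*} [Fintype κ] (t : κ → ℝ) (ht : ∑ m, t m = 1) (p : E n) (c : ℝ)
    (y : κ → E n) {j : ℕ} : ext (crd p c (∑ m, t m • y m)) j = ∑ m, t m * ext (crd p c (y m)) j := by
  cases j with
  | zero => simp [ext, ht]
  | succ j =>
    simp only [ext]
    split_ifs with h
    · simp only [crd, Finset.sum_apply, Pi.smul_apply, smul_eq_mul]
      have e : ∀ m, t m * (xc n ⟨j, h⟩ + c⁻¹ * (y m ⟨j, h⟩ - p ⟨j, h⟩)) =
          t m * (xc n ⟨j, h⟩ - c⁻¹ * p ⟨j, h⟩) + c⁻¹ * (t m * y m ⟨j, h⟩) := fun m => by ring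
      simp only [e, Finset.sum_add_distrib, ← Finset.sum_mul, ← Finset.mul_sum, ht]
      ring
    · simp

theorem bary_sum {κ : Type*} [Fintype κ] (t : κ → ℝ) (ht : ∑ m, t m = 1) (p : E n) (c : ℝ)
    (y : κ → E n) (k : Fin (n + 1)) :
    bary k (crd p c (∑ m, t m • y m)) = ∑ m, t m * bary k (crd p c (y m)) := by
  unfold bary
  rw [ext_sum t ht, ext_sum t ht, ← Finset.sum_sub_distrib]
  exact Finset.sum_congr rfl fun m _ => by ring

theorem crd_self (p : E n) (c : ℝ) : crd p c p = xc n := by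
  funext i; simp [crd]

theorem crd_crdInv (p : E n) {c : ℝ} (hc : c ≠ 0) (x : E n) : crd p c (crdInv p c x) = x := by
  funext i
  simp only [crd, crdInv]
  field_simp
  ring

theorem dist_crd (p : E n) {c : ℝ} (hc : 0 < c) (x y : E n) :
    dist (crd p c x) (crd p c y) ≤ c⁻¹ * dist x y := by
  rw [dist_pi_le_iff (by positivity)]
  intro i
  have h1 := dist_le_pi_dist x y i
  rw [Real.dist_eq] at h1 ⊢
  have : crd p c x i - crd p c y i = c⁻¹ * (x i - y i) := by simp only [crd]; ring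
  rw [this, abs_mul, abs_of_pos (inv_pos.2 hc)]
  exact mul_le_mul_of_nonneg_left h1 (inv_pos.2 hc).le

theorem xc_mem (i : Fin n) : 0 < xc n i ∧ xc n i < 1 := by
  have h1 : (i : ℝ) < n := by exact_mod_cast i.2
  have h2 : (0 : ℝ) ≤ i := by positivity
  unfold xc
  constructor
  · apply div_pos <;> linarith
  · rw [div_lt_one (by linarith)]; linarith

/-- the cube -/
def Cub (p : E n) (c : ℝ) (y : E n) : Prop := ∀ i, -1 < crd p c y i ∧ crd p c y i < 2

theorem Cub.mem {p : E n} {c : ℝ} (hc : 0 < c) {y : E n} (h : Cub p c y) :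
    y ∈ closedBall p (2 * c) := by
  rw [mem_closedBall, dist_pi_le_iff (by positivity)]
  intro i
  have h1 := h i
  have h2 := xc_mem i
  simp only [crd] at h1
  have h3 : y i - p i = c * (c⁻¹ * (y i - p i)) := by field_simp
  rw [Real.dist_eq, h3, abs_mul, abs_of_pos hc]
  have h4 : |c⁻¹ * (y i - p i)| ≤ 2 := abs_le.2 ⟨by linarith, by linarith⟩
  nlinarith

theorem isOpen_cub (p : E n) (c : ℝ) : IsOpen {y : E n | Cub p c y} := by
  have hc : ∀ i, Continuous fun y : E n => crd p c y i := fun i => by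
    unfold crd; fun_prop
  have : {y : E n | Cub p c y} =
      ⋂ i, ((fun y : E n => crd p c y i) ⁻¹' Set.Ioo (-1) 2) := by
    ext y; simp [Cub]
  rw [this]
  exact isOpen_iInter_of_finite fun i => isOpen_Ioo.preimage (hc i)

theorem dist_vtx (p : E n) {c : ℝ} (hc : 0 < c) (k : Fin (n + 1)) :
    dist (crdInv p c (vtx n k)) p ≤ c := by
  rw [dist_pi_le_iff hc.le]
  intro i
  have h2 := xc_mem i
  rw [Real.dist_eq]
  simp only [crdInv, vtx]
  rw [add_sub_cancel_left, abs_mul, abs_of_pos hc]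
  have : |(if (i : ℕ) < k then (1 : ℝ) else 0) - xc n i| ≤ 1 := by
    split_ifs <;> exact abs_le.2 ⟨by linarith, by linarith⟩
  nlinarith

/-- outside the cube some barycentric coordinate is very negative -/
theorem outside (hn : 1 ≤ n) (x : E n) (hx : ¬ ∀ i, -1 < x i ∧ x i < 2) :
    ∃ k : Fin (n + 1), bary k x ≤ -(1 / (n : ℝ)) ∧
      ((∃ i : Fin n, (i : ℕ) < k ∧ x i < 0) ∨ 1 < ext x (k + 1)) := by
  have hn0 : (0 : ℝ) < n := by exact_mod_cast hn
  have hn1 : 0 < 1 / (n : ℝ) := by positivity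
  push Not at hx
  obtain ⟨J, hJ⟩ := hx
  by_contra hcon
  push Not at hcon
  by_cases h1 : -1 < x J
  · have h2 := hJ h1
    -- all `ext x j ≤ 1 + j / n`
    have key : ∀ j : ℕ, j ≤ (J : ℕ) + 1 → ext x j ≤ 1 + j / n ∧ (1 ≤ j → ext x j < 1 + j / n) := by
      intro j
      induction j with
      | zero => intro _; simp [ext_zero]
      | succ j ih =>
        intro hj
        have hlt : ext x (j + 1) < 1 + ((j + 1 : ℕ) : ℝ) / n := by
          have hjJ := J.2
          have h3 := hcon ⟨j, by omega⟩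
          have h4 := (ih (by omega)).1
          have h5 : ((j + 1 : ℕ) : ℝ) / n = j / n + 1 / n := by push_cast; ring
          have h6 : (0 : ℝ) ≤ (j : ℝ) / n := by positivity
          by_cases h7 : bary (⟨j, by omega⟩ : Fin (n + 1)) x ≤ -(1 / (n : ℝ))
          · have h8 := (h3 h7).2
            simp only at h8
            rw [h5]; linarith
          · push Not at h7
            simp only [bary] at h7
            rw [h5]; linarith
        exact ⟨hlt.le, fun _ => hlt⟩
    have h3 := (key (J + 1) le_rfl).2 (by omega)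
    rw [ext_succ] at h3
    have h4 : (((J : ℕ) + 1 : ℕ) : ℝ) / n ≤ 1 := by
      rw [div_le_one hn0]; exact_mod_cast J.2
    linarith
  · push Not at h1
    have key : ∀ m : ℕ, (J : ℕ) + 1 + m ≤ n + 1 → ext x (J + 1 + m) ≤ -1 + m / n ∧
        (1 ≤ m → ext x (J + 1 + m) < -1 + m / n) := by
      intro m
      induction m with
      | zero => intro _; simp [ext_succ, h1]
      | succ m ih =>
        intro hm
        have h4 := (ih (by omega)).1
        have h5 : ((m + 1 : ℕ) : ℝ) / n = m / n + 1 / n := by push_cast; ring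
        have hlt : ext x (J + 1 + (m + 1)) < -1 + ((m + 1 : ℕ) : ℝ) / n := by
          by_cases h7 : bary (⟨J + 1 + m, by omega⟩ : Fin (n + 1)) x ≤ -(1 / (n : ℝ))
          · have h8 := (hcon _ h7).1 J (by simp only; omega)
            linarith
          · push Not at h7
            simp only [bary] at h7
            rw [h5]
            have : (J : ℕ) + 1 + (m + 1) = J + 1 + m + 1 := by omega
            rw [this]
            linarith
        exact ⟨hlt.le, fun _ => hlt⟩
    have hJ2 := J.2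
    have h3 := (key (n - J) (by omega)).2 (by omega)
    have h4 : (J : ℕ) + 1 + (n - J) = n + 1 := by omega
    rw [h4, ext_ge x (by omega)] at h3
    have h5 : ((n - J : ℕ) : ℝ) / n ≤ 1 := by
      rw [div_le_one hn0]; exact_mod_cast Nat.sub_le n J
    linarith

/-! ### The functions `tht` -/

theorem tht_eq (k : Fin (n + 1)) :
    (tht k : E n → ℝ) = B8c.TT (fun _ => Real.smoothTransition) (k : ℕ) := by
  funext x
  unfold tht B8c.TT B8c.BB
  congr 2
  simp only [ext]
  split_ifs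
  · rfl
  · exact Real.smoothTransition.zero

theorem smoothTransition_contDiff : ContDiff ℝ 1 Real.smoothTransition :=
  Real.smoothTransition.contDiff (n := 1)

theorem tht_contDiff (k : Fin (n + 1)) : ContDiff ℝ 1 (tht k : E n → ℝ) := by
  rw [tht_eq]
  exact B8c.contDiff_TT (fun _ => smoothTransition_contDiff) _

theorem sum_tht (x : E n) : ∑ k : Fin (n + 1), tht k x = 1 := by
  set b : Fin n → ℝ → ℝ := fun _ => Real.smoothTransition
  have h1 : ∀ m : ℕ, m ≤ n → ∑ k ∈ Finset.range m, B8c.TT b k x = B8c.BB b 0 x - B8c.BB b m x := by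
    intro m
    induction m with
    | zero => intro _; simp
    | succ m ih =>
      intro hm
      rw [Finset.sum_range_succ, ih (by omega), B8c.TT_lt b (by omega)]
      ring
  simp only [tht_eq]
  rw [Fin.sum_univ_eq_sum_range (fun k => B8c.TT b k x) (n + 1), Finset.sum_range_succ,
    h1 n le_rfl, B8c.TT_ge b (by omega), B8c.BB_zero]
  ring

theorem tht_ne {k : Fin (n + 1)} {x : E n} (h : tht k x ≠ 0) :
    (∀ i : Fin n, (i : ℕ) < k → 0 ≤ x i) ∧ ext x (k + 1) ≤ 1 := by
  constructor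
  · intro i hi
    by_contra h0
    push Not at h0
    apply h
    unfold tht
    rw [Finset.prod_eq_zero (Finset.mem_univ i), zero_mul]
    rw [if_pos hi]
    exact Real.smoothTransition.zero_of_nonpos h0.le
  · by_contra h0
    push Not at h0
    apply h
    unfold tht
    rw [Real.smoothTransition.one_of_one_le h0.le]
    simp

/-! ### Supports -/

variable {Γ : Type} [Group Γ] [MulAction Γ (E n)]

theorem mem_tsupport_fn (hΓ : Act n Γ) {ι : Type} [Fintype ι] (P : PU n Γ ι) (l : Γ × ι)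
    (y : E n) (hy : y ∈ tsupport (P.fn l)) : l.1⁻¹ • y ∈ tsupport (P.φ l.2) := by
  have hcl : IsClosed ((fun x : E n => l.1⁻¹ • x) ⁻¹' tsupport (P.φ l.2)) :=
    (isClosed_tsupport _).preimage (cont hΓ l.1⁻¹)
  refine closure_minimal ?_ hcl hy
  intro x hx
  exact subset_tsupport _ hx

/-- support of the special functions -/
theorem mem_tsupport_special {p : E n} {c : ℝ} {χ : E n → ℝ} {k : Fin (n + 1)} {y : E n}
    (hy : y ∈ tsupport (fun y => χ y * tht k (crd p c y))) :
    y ∈ tsupport χ ∧ (∀ i : Fin n, (i : ℕ) < k → 0 ≤ crd p c y i) ∧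
      ext (crd p c y) (k + 1) ≤ 1 := by
  have hcc : ∀ i, Continuous fun y : E n => crd p c y i := fun i => by
    unfold crd; fun_prop
  have hce : ∀ j, Continuous fun y : E n => ext (crd p c y) j := fun j => by
    cases j with
    | zero => exact continuous_const
    | succ j =>
      simp only [ext]
      split_ifs with h
      · exact hcc _
      · exact continuous_const
  have hcl : IsClosed {y : E n | y ∈ tsupport χ ∧ (∀ i : Fin n, (i : ℕ) < k → 0 ≤ crd p c y i) ∧
      ext (crd p c y) (k + 1) ≤ 1} := by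
    refine (isClosed_tsupport χ).inter (IsClosed.inter ?_
      (isClosed_le (hce _) continuous_const))
    have : {y : E n | ∀ i : Fin n, (i : ℕ) < k → 0 ≤ crd p c y i} =
        ⋂ i : Fin n, ⋂ _ : (i : ℕ) < k, {y | 0 ≤ crd p c y i} := by
      ext y; simp
    change IsClosed {y : E n | ∀ i : Fin n, (i : ℕ) < k → 0 ≤ crd p c y i}
    rw [this]
    exact isClosed_iInter fun i => isClosed_iInter fun _ => isClosed_le continuous_const (hcc i)
  refine closure_minimal ?_ hcl hy
  intro x hx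
  have hx' : χ x * tht k (crd p c x) ≠ 0 := hx
  exact ⟨subset_tsupport χ (left_ne_zero_of_mul hx'), tht_ne (right_ne_zero_of_mul hx')⟩

/-- uniform continuity of finitely many group elements on a compact set -/
theorem unif (hΓ : Act n Γ) {F : Set Γ} (hF : F.Finite) {L : Set (E n)} (hL : IsCompact L) {ε : ℝ}
    (hε : 0 < ε) : ∃ δ : ℝ, 0 < δ ∧ ∀ γ ∈ F, ∀ a ∈ L, ∀ b ∈ L, dist a b < δ →
      dist (γ • a) (γ • b) < ε := by
  have h1 : ∀ γ : Γ, ∀ᶠ δ in 𝓝[>] (0 : ℝ), ∀ a ∈ L, ∀ b ∈ L, dist a b < δ →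
      dist (γ • a) (γ • b) < ε := by
    intro γ
    have := hL.uniformContinuousOn_of_continuous (cont hΓ γ).continuousOn
    rw [Metric.uniformContinuousOn_iff] at this
    obtain ⟨δ, hδ, h⟩ := this ε hε
    have h2 : ∀ᶠ r in 𝓝[>] (0 : ℝ), r < δ := nhdsWithin_le_nhds (Iio_mem_nhds hδ)
    filter_upwards [h2] with r hr a ha b hb hab
    exact h a ha b hb (hab.trans hr)
  have h2 := (Filter.eventually_all_finite hF).2 fun γ _ => h1 γ
  obtain ⟨δ, h3, h4⟩ := (h2.and self_mem_nhdsWithin).exists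
  exact ⟨δ, h4, h3⟩

/-- In the cube all vertices are special. -/
theorem case1b (hn : 1 ≤ n) (p : E n) {c : ℝ} (hc : 0 < c) {ι : Type}
    (sp : Fin (n + 1) → Fin (n + 1) ⊕ ι) (q : Fin (n + 1) ⊕ ι → E n)
    (hq : ∀ k, q (Sum.inl k) = crdInv p c (vtx n k)) (y : E n) {δ : ℝ}
    (hδ : 2 * (c⁻¹ * δ) < 1 / n)
    (h1 : ∀ m k, sp m = Sum.inl k → (∀ i : Fin n, (i : ℕ) < k → 0 ≤ crd p c y i) ∧
      ext (crd p c y) (k + 1) ≤ 1)
    (h2 : ∀ m j, sp m = Sum.inr j → dist (q (Sum.inr j)) y ≤ δ ∧ ¬ Cub p c y)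
    (t : Fin (n + 1) → ℝ) (ht0 : ∀ m, 0 ≤ t m) (ht1 : ∑ m, t m = 1)
    (ht : ∑ m, t m • q (sp m) = p) : ∀ m, ∃ k, sp m = Sum.inl k := by
  intro m₀
  rcases hm₀ : sp m₀ with k₀ | j₀
  · exact ⟨k₀, rfl⟩
  exfalso
  obtain ⟨k, hk1, hk2⟩ := outside hn (crd p c y) (h2 m₀ j₀ hm₀).2
  have hle : ∀ m, bary k (crd p c (q (sp m))) ≤ 0 := by
    intro m
    rcases hm : sp m with k' | j
    · rw [hq, crd_crdInv p hc.ne', bary_vtx]
      rw [if_neg]
      rintro rfl
      obtain ⟨h3, h4⟩ := h1 m k hm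
      rcases hk2 with ⟨i, hi, hxi⟩ | hk2
      · linarith [h3 i hi]
      · linarith
    · obtain ⟨h3, -⟩ := h2 m j hm
      have h4 := (abs_le.1 (abs_bary_sub k (crd p c (q (Sum.inr j))) (crd p c y))).2
      have h5 := dist_crd p hc (q (Sum.inr j)) y
      have h6 : c⁻¹ * dist (q (Sum.inr j)) y ≤ c⁻¹ * δ :=
        mul_le_mul_of_nonneg_left h3 (inv_pos.2 hc).le
      linarith
  have h3 := bary_sum t ht1 p c (fun m => q (sp m)) k
  rw [ht, crd_self, bary_xc] at h3
  have h4 : ∑ m, t m * bary k (crd p c (q (sp m))) ≤ 0 :=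
    Finset.sum_nonpos fun m _ => mul_nonpos_of_nonneg_of_nonpos (ht0 m) (hle m)
  have h5 : 0 < 1 / ((n : ℝ) + 1) := by positivity
  linarith

theorem cases (hn : 1 ≤ n) (R : Sys n Γ) (p : E n) {c r δ : ℝ} (hc : 0 < c)
    (hδ0 : 0 < δ) (hδc : 2 * (c⁻¹ * δ) < 1 / n) (hr : 3 * c + δ < r)
    (hinj : ∀ (γ : Γ) (y : E n), y ∈ ball p r → γ • y ∈ ball p r → γ = 1)
    {ι : Type} (q : Fin (n + 1) ⊕ ι → E n) (hq : ∀ k, q (Sum.inl k) = crdInv p c (vtx n k))
    (T : Fin (n + 1) ⊕ ι → Set (E n))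
    (hT1 : ∀ k, ∀ y ∈ T (Sum.inl k), y ∈ closedBall p (3 * c) ∧
      (∀ i : Fin n, (i : ℕ) < k → 0 ≤ crd p c y i) ∧ ext (crd p c y) (k + 1) ≤ 1)
    (hT2 : ∀ j, ∀ y ∈ T (Sum.inr j), dist (q (Sum.inr j)) y ≤ δ ∧ ¬ Cub p c y)
    (hT3 : ∀ j (γ : Γ), ∀ y ∈ T (Sum.inr j), γ • y ∈ ball p r → γ = 1)
    (hgen : ∀ (g : Fin (n + 1) → Γ) (j : Fin (n + 1) → ι) (y : E n),
      (∀ m, (g m)⁻¹ • y ∈ T (Sum.inr (j m))) →
      ∀ t, R.S n (fun m => (g m, q (Sum.inr (j m)))) t = p → y ∈ ball p r)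
    (l : Fin (n + 1) → Γ × (Fin (n + 1) ⊕ ι)) (y : E n) (hy : ∀ m, (l m).1⁻¹ • y ∈ T (l m).2)
    (t : stdSimplex ℝ (Fin (n + 1)))
    (ht : R.S n (fun j => ((l j).1, q (l j).2)) t = p) (m : Fin (n + 1)) :
    (l m).1 = 1 ∧ ∃ k, (l m).2 = Sum.inl k := by
  have hball : ∀ {z : E n}, z ∈ closedBall p (3 * c) → z ∈ ball p r := fun hz =>
    mem_ball.2 ((mem_closedBall.1 hz).trans_lt (by linarith))
  -- first part of case 1
  have case1a : ∀ (l : Fin (n + 1) → Γ × (Fin (n + 1) ⊕ ι)) (y : E n),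
      (∀ m, (l m).1⁻¹ • y ∈ T (l m).2) → y ∈ ball p r → ∀ m, (l m).1 = 1 := by
    intro l y hy hyb m
    have h1 := hy m
    rcases hm : (l m).2 with k | j
    · rw [hm] at h1
      refine hinj _ ((l m).1⁻¹ • y) (hball (hT1 k _ h1).1) ?_
      simpa using hyb
    · rw [hm] at h1
      refine hT3 j _ _ h1 ?_
      simpa using hyb
  have haff : ∀ l : Fin (n + 1) → Γ × (Fin (n + 1) ⊕ ι), (∀ m, (l m).1 = 1) →
      R.S n (fun j => ((l j).1, q (l j).2)) t = ∑ j, t j • q (l j).2 := fun l hl =>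
    R.affine n _ hl t
  by_cases hyb : y ∈ ball p r
  · have h1 := case1a l y hy hyb
    refine ⟨h1 m, ?_⟩
    have hy' : ∀ m, y ∈ T (l m).2 := fun m => by
      have := hy m
      rwa [h1 m, inv_one, one_smul] at this
    refine case1b hn p hc (fun m => (l m).2) q hq y hδc (fun m k hm => ?_) (fun m j hm => ?_)
      t t.2.1 t.2.2 ?_ m
    · have := hy' m
      rw [hm] at this
      exact (hT1 k y this).2
    · have := hy' m
      rw [hm] at this
      exact hT2 j y this
    · rw [← haff l h1]; exact ht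
  · exfalso
    by_cases hsp : ∃ m k, (l m).2 = Sum.inl k
    · obtain ⟨m₀, k₀, hm₀⟩ := hsp
      set g := (l m₀).1 with hg
      have hy0 : g⁻¹ • y ∈ closedBall p (3 * c) := by
        have := hy m₀
        rw [hm₀] at this
        exact (hT1 k₀ _ this).1
      have hy1 : ∀ m, (g⁻¹ * (l m).1)⁻¹ • (g⁻¹ • y) ∈ T (l m).2 := fun m => by
        have := hy m
        rwa [mul_inv_rev, inv_inv, smul_smul, mul_assoc, mul_inv_cancel, mul_one]
      have h1 := case1a (fun m => (g⁻¹ * (l m).1, (l m).2)) (g⁻¹ • y) hy1 (hball hy0)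
      simp only at h1
      have h2 : ∀ m, (l m).1 = g := fun m => by
        have := h1 m
        rw [inv_mul_eq_one] at this
        exact this.symm
      have hw := haff (fun m => (g⁻¹ * (l m).1, (l m).2)) h1
      have hw2 : R.S n (fun j => ((l j).1, q (l j).2)) t =
          g • R.S n (fun j => (g⁻¹ * (l j).1, q (l j).2)) t := by
        rw [← R.equi]
        simp
      simp only at hw
      rw [ht, hw] at hw2
      have hwb : ∑ j, t j • q (l j).2 ∈ ball p r := by
        refine (convex_ball p r).sum_mem (fun i _ => t.2.1 i) t.2.2 fun j _ => ?_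
        rcases hj : (l j).2 with k | i
        · rw [hq]
          exact mem_ball.2 ((dist_vtx p hc k).trans_lt (by linarith))
        · have h3 := hy1 j
          rw [h1 j, inv_one, one_smul, hj] at h3
          have h4 := (hT2 i _ h3).1
          have h5 := mem_closedBall.1 hy0
          exact mem_ball.2 ((dist_triangle _ (g⁻¹ • y) _).trans_lt (by linarith))
      have hg1 : g = 1 := hinj g _ hwb (by
        rw [← hw2]; exact mem_ball_self (by linarith))
      apply hyb
      have := hball hy0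
      rwa [hg1, inv_one, one_smul] at this
    · push Not at hsp
      have hgen' : ∀ m, ∃ j, (l m).2 = Sum.inr j := by
        intro m
        rcases hm : (l m).2 with k | j
        · exact absurd hm (hsp m k)
        · exact ⟨j, rfl⟩
      choose j hj using hgen'
      apply hyb
      refine hgen (fun m => (l m).1) j y (fun m => ?_) t ?_
      · rw [← hj m]; exact hy m
      · simp only [← hj]; exact ht

theorem generic (hΓ : Act n Γ) (R : Sys n Γ) (hR : R.Small) (p : E n) {r : ℝ} (hr : 0 < r)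
    {K : Set (E n)} (hK : IsCompact K) : ∃ δ : ℝ, 0 < δ ∧ ∀ (ι : Type) (q : ι → E n)
      (T : ι → Set (E n)), (∀ j, q j ∈ K) → (∀ j, T j ⊆ K) →
      (∀ j, ∀ y ∈ T j, dist (q j) y ≤ δ) → ∀ (g : Fin (n + 1) → Γ) (j : Fin (n + 1) → ι) (y : E n),
      (∀ m, (g m)⁻¹ • y ∈ T (j m)) →
      ∀ t, R.S n (fun m => (g m, q (j m))) t = p → y ∈ ball p r := by
  set F : Set Γ := {γ : Γ | ∃ x ∈ K, γ • x ∈ K} with hF
  have hFf : F.Finite := hΓ.proper K hK
  set K' : Set (E n) := K ∪ ⋃ γ ∈ F, (fun x : E n => γ • x) '' K with hK'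
  have hK'c : IsCompact K' := hK.union (hFf.isCompact_biUnion fun γ _ => hK.image (cont hΓ γ))
  set L : Set (E n) := cthickening 1 K ∪ {p} with hL
  have hLc : IsCompact L := hK.cthickening.union isCompact_singleton
  have hKL : K ⊆ L := fun x hx => Or.inl (self_subset_cthickening K hx)
  obtain ⟨δ4, hδ4, h4⟩ := unif hΓ (hΓ.proper L hLc) hLc hr
  obtain ⟨δ', hδ', h'⟩ := hR K' hK'c (min (δ4 / 2) 1) (by positivity)
  obtain ⟨δ5, hδ5, h5⟩ := unif hΓ hFf hK (half_pos hδ')
  refine ⟨min (δ5 / 2) (δ4 / 2), by positivity, fun ι q T hq hT hqT g j y hy t ht => ?_⟩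
  have hg0 : (g 0)⁻¹ • y ∈ K := hT _ (hy 0)
  set h : Fin (n + 1) → Γ := fun m => (g 0)⁻¹ * g m with hh
  have hhz : ∀ m, h m • ((g m)⁻¹ • y) = (g 0)⁻¹ • y := fun m => by
    rw [smul_smul, hh]; simp
  have hzK : ∀ m, (g m)⁻¹ • y ∈ K := fun m => hT _ (hy m)
  have hhF : ∀ m, h m ∈ F := fun m => ⟨_, hzK m, by rw [hhz]; exact hg0⟩
  have hd : ∀ m, dist (h m • q (j m)) ((g 0)⁻¹ • y) < δ' / 2 := fun m => by
    rw [← hhz m]
    refine h5 _ (hhF m) _ (hq _) _ (hzK m) ?_
    have h1 := hqT _ _ (hy m)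
    have h2 := min_le_left (δ5 / 2) (δ4 / 2)
    linarith
  have hS := h' (fun m => (h m, q (j m))) (fun m => Or.inl (hq _))
    (fun m => Or.inr (Set.mem_biUnion (hhF m) ⟨_, hq _, rfl⟩))
    (fun m m' => by
      have h1 := hd m
      have h2 := hd m'
      have h3 := dist_triangle_right (h m • q (j m)) (h m' • q (j m')) ((g 0)⁻¹ • y)
      simp only
      linarith) t
  simp only at hS
  set z := R.S n (fun m => (h m, q (j m))) t with hz
  have hh0 : h 0 = 1 := by simp [hh]
  rw [hh0, one_smul] at hS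
  have hgz : g 0 • z = p := by
    rw [hz, ← R.equi, ← ht]
    simp [hh]
  have hzL : z ∈ L := Or.inl (mem_cthickening_of_dist_le z (q (j 0)) 1 K (hq _)
    (hS.le.trans (min_le_right _ _)))
  have hgF : g 0 ∈ {γ : Γ | ∃ x ∈ L, γ • x ∈ L} := ⟨z, hzL, by rw [hgz]; exact Or.inr rfl⟩
  have h6 := h4 (g 0) hgF z hzL _ (hKL hg0) (by
    have h1 := hqT _ _ (hy 0)
    have h2 := min_le_right (δ5 / 2) (δ4 / 2)
    have h3 := min_le_left (δ4 / 2) 1
    have h7 := dist_triangle z (q (j 0)) ((g 0)⁻¹ • y)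
    linarith)
  rw [hgz, smul_inv_smul] at h6
  rw [mem_ball, dist_comm]
  exact h6

theorem main (hgen : SpecGen) : SpecCase := by
  classical
  intro n Γ _ _ hn hΓ R hR p
  have hn0 : (0 : ℝ) < n := by exact_mod_cast hn
  have hn1 : (1 : ℝ) ≤ n := by exact_mod_cast hn
  obtain ⟨r₄, hr₄, hinj⟩ := Frame1.small_ball hΓ p
  set r := r₄ / 2 with hr
  have hr0 : 0 < r := by positivity
  have hrr : r < r₄ := by rw [hr]; linarith
  set c := r / 8 with hc
  have hc0 : 0 < c := by positivity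
  obtain ⟨K, hK, hKgen⟩ := hgen n Γ hΓ p r r₄ hr0 hrr (fun γ ⟨x, hx, hx'⟩ => hinj γ x hx hx')
  obtain ⟨δ₀, hδ₀, hδ₀g⟩ := generic hΓ R hR p hr0 hK
  set δ := min δ₀ (c / (4 * n)) with hδ
  have hδ0 : 0 < δ := by positivity
  have hδ1 : δ ≤ c / (4 * n) := min_le_right _ _
  have hδc : 2 * (c⁻¹ * δ) < 1 / n := by
    have h1 : c⁻¹ * δ ≤ c⁻¹ * (c / (4 * n)) := mul_le_mul_of_nonneg_left hδ1 (by positivity)
    have h2 : c⁻¹ * (c / (4 * n)) = 1 / n / 4 := by field_simp
    have h3 : 0 < 1 / (n : ℝ) := by positivity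
    linarith
  have hδ2 : δ ≤ c := hδ1.trans (by rw [div_le_iff₀ (by positivity)]; nlinarith)
  obtain ⟨ι, hι, φ, q, hφ, hφ0, hφc, hφ1, hqK, hφq, hφK, hφr⟩ := hKgen δ hδ0
  let b : ContDiffBump p := ⟨2 * c, 3 * c, by positivity, by linarith⟩
  have hb1 : ∀ y ∈ closedBall p (2 * c), b y = 1 := fun y hy => b.one_of_mem_closedBall hy
  have hbt : tsupport b = closedBall p (3 * c) := b.tsupport_eq
  have hbs : ContDiff ℝ 1 b := b.contDiff
  have hbc : HasCompactSupport b := b.hasCompactSupport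
  have hb4 : closedBall p (3 * c) ⊆ ball p r₄ := fun y hy =>
    mem_ball.2 ((mem_closedBall.1 hy).trans_lt (by linarith))
  set av : E n → ℝ := fun y => ∑ᶠ γ : Γ, b (γ⁻¹ • y) with hav
  have havs : ContDiff ℝ 1 av := contDiff_avg hΓ (m := 1) b hbc hbs
  have hav1 : ∀ y, Cub p c y → av y = 1 := by
    intro y hy
    have hy2 := hy.mem hc0
    have hy4 : y ∈ ball p r₄ := mem_ball.2 ((mem_closedBall.1 hy2).trans_lt (by linarith))
    rw [hav]
    simp only
    rw [finsum_eq_single _ (1 : Γ)]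
    · rw [inv_one, one_smul]; exact hb1 y hy2
    · intro γ hγ
      by_contra h0
      apply hγ
      have h1 : γ⁻¹ • y ∈ tsupport b := subset_tsupport _ h0
      rw [hbt] at h1
      exact hinj γ (γ⁻¹ • y) (hb4 h1) (by simpa using hy4)
  have hcrd : ContDiff ℝ 1 (crd p c) := by
    unfold crd
    fun_prop
  have hsuppf : ∀ {f : E n → ℝ} (_ : HasCompactSupport f) (x : E n),
      (Function.support fun γ : Γ => f (γ⁻¹ • x)).Finite := fun hf x =>
    ((locallyFinite_support hΓ _ hf).point_finite x).subset fun γ hγ => hγ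
  let P : PU n Γ (Fin (n + 1) ⊕ ι) :=
    { φ := Sum.elim (fun k y => b y * tht k (crd p c y)) (fun j y => (1 - av y) * φ j y)
      smooth := by
        rintro (k | j)
        · exact hbs.mul ((tht_contDiff k).comp hcrd)
        · exact (contDiff_const.sub havs).mul (contDiff_infty.1 (hφ j) 1)
      supp := by
        rintro (k | j)
        · exact hbc.mul_right
        · exact (hφc j).mul_left
      sum := by
        intro x
        rw [Fintype.sum_sum_type]
        simp only [Sum.elim_inl, Sum.elim_inr]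
        have h1 : ∑ k : Fin (n + 1), ∑ᶠ γ : Γ, b (γ⁻¹ • x) * tht k (crd p c (γ⁻¹ • x)) = av x := by
          rw [← finsum_sum_comm]
          · refine finsum_congr fun γ => ?_
            rw [← Finset.mul_sum, sum_tht, mul_one]
          · intro k _
            exact (hsuppf hbc x).subset fun γ hγ => left_ne_zero_of_mul hγ
        have h2 : ∀ j, ∑ᶠ γ : Γ, (1 - av (γ⁻¹ • x)) * φ j (γ⁻¹ • x) =
            (1 - av x) * ∑ᶠ γ : Γ, φ j (γ⁻¹ • x) := by
          intro j
          rw [mul_finsum' _ _ (hsuppf (hφc j) x)]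
          refine finsum_congr fun γ => ?_
          have : av (γ⁻¹ • x) = av x := avg_inv (b : E n → ℝ) γ⁻¹ x
          rw [this]
        rw [h1, Finset.sum_congr rfl fun j _ => h2 j, ← Finset.mul_sum, hφ1]
        ring }
  let qq : Fin (n + 1) ⊕ ι → E n := Sum.elim (fun k => crdInv p c (vtx n k)) q
  have hT2 : ∀ j, ∀ y ∈ tsupport (P.φ (Sum.inr j)), y ∈ tsupport (φ j) ∧ ¬ Cub p c y := by
    intro j y hy
    have hcl : IsClosed {y : E n | y ∈ tsupport (φ j) ∧ ¬ Cub p c y} :=
      (isClosed_tsupport _).inter (isOpen_cub p c).isClosed_compl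
    refine closure_minimal ?_ hcl hy
    intro x hx
    have hx' : (1 - av x) * φ j x ≠ 0 := hx
    refine ⟨subset_tsupport _ (right_ne_zero_of_mul hx'), fun h0 => ?_⟩
    apply left_ne_zero_of_mul hx'
    rw [hav1 x h0]; ring
  refine ⟨c, b, ι, hι, P, qq, hc0, hbs, hbc, fun y hy => hb1 y (Cub.mem hc0 hy), fun k => rfl,
    fun k => rfl, ?_, ?_⟩
  · rintro γ ⟨x, hx, hx'⟩
    have h1 := (Cub.mem hc0 hx : x ∈ closedBall p (2 * c))
    have h2 := (Cub.mem hc0 hx' : γ • x ∈ closedBall p (2 * c))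
    exact hinj γ x (mem_ball.2 ((mem_closedBall.1 h1).trans_lt (by linarith)))
      (mem_ball.2 ((mem_closedBall.1 h2).trans_lt (by linarith)))
  · intro l y hy t ht
    refine cases hn R p hc0 hδ0 hδc (by linarith) (fun γ y hy hy' => hinj γ y
      (ball_subset_ball hrr.le hy) (ball_subset_ball hrr.le hy')) qq (fun k => rfl)
      (fun i => tsupport (P.φ i)) ?_ ?_ ?_ ?_ l y
      (fun m => mem_tsupport_fn hΓ P (l m) y (hy m)) t ht
    · intro k y hy
      have := mem_tsupport_special (χ := b) hy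
      rwa [hbt] at this
    · intro j y hy
      refine ⟨?_, (hT2 j y hy).2⟩
      have := hφq j (hT2 j y hy).1
      rw [dist_comm]
      exact mem_closedBall.1 this
    · intro j γ y hy hγ
      exact hφr j γ ⟨y, (hT2 j y hy).1, hγ⟩
    · intro g j y hy t ht
      refine hδ₀g ι q (fun j => tsupport (φ j)) hqK hφK (fun j y hy => ?_) g j y
        (fun m => (hT2 _ _ (hy m)).1) t ht
      have := hφq j hy
      rw [dist_comm]
      exact (mem_closedBall.1 this).trans (min_le_left _ _)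

end Vale.Agent.P223.H.B8b
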