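import Vale.Agent.P223.H.Spec8
import Mathlib.Analysis.SpecialFunctions.SmoothTransition
import Mathlib.MeasureTheory.Integral.Pi
import Mathlib.MeasureTheory.Integral.IntegralEqImproper

/-! Block 8c. -/

namespace Vale.Agent.P223.H.B8c

open MeasureTheory Set
open scoped ContDiff Topology

section alt
variable {n : ℕ}

theorem continuous_pd {f : E n → ℝ} (hf : ContDiff ℝ 1 f) (i : Fin n) :
    Continuous fun x => pd i f x :=
  (hf.continuous_fderiv one_ne_zero).clm_apply continuous_const

theorem continuous_jdet {f : Fin n → E n → ℝ} (hf : ∀ i, ContDiff ℝ 1 (f i)) :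
    Continuous (jdet f) := by
  unfold jdet
  refine Continuous.matrix_det (continuous_matrix fun i j => ?_)
  exact continuous_pd (hf i) j

theorem pd_mul {f g : E n → ℝ} (hf : ContDiff ℝ 1 f) (hg : ContDiff ℝ 1 g) (l : Fin n) (x : E n) :
    pd l (fun y => f y * g y) x = f x * pd l g x + g x * pd l f x := by
  have := (hf.differentiable one_ne_zero x).hasFDerivAt.mul
    (hg.differentiable one_ne_zero x).hasFDerivAt
  have h2 : fderiv ℝ (fun y => f y * g y) x = f x • fderiv ℝ g x + g x • fderiv ℝ f x :=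
    this.fderiv
  rw [pd, h2]
  simp [pd]

theorem integrable_wt {f : Fin (n + 1) → E n → ℝ} (hf : ∀ i, ContDiff ℝ 1 (f i))
    (hc : ∀ i, HasCompactSupport (f i)) :
    Integrable fun x => f 0 x * jdet (fun i => f i.succ) x := by
  refine Continuous.integrable_of_hasCompactSupport ?_ ((hc 0).mul_right)
  exact (hf 0).continuous.mul (continuous_jdet fun i => hf i.succ)

theorem wt_swap_zero (hst : SpecStokes) (hn : 1 ≤ n) {f : Fin (n + 1) → E n → ℝ}
    (hf : ∀ i, ContDiff ℝ 1 (f i)) (hc : ∀ i, HasCompactSupport (f i)) (j : Fin n) :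
    wt (fun m => f (Equiv.swap 0 j.succ m)) = - wt f := by
  classical
  have hpt : ∀ x, f 0 x * jdet (fun i => f i.succ) x +
      f j.succ x * jdet (fun l => f (Equiv.swap 0 j.succ l.succ)) x =
      jdet (Function.update (fun l : Fin n => f l.succ) j (fun y => f 0 y * f j.succ y)) x := by
    intro x
    set M : Matrix (Fin n) (Fin n) ℝ := Matrix.of fun i l => pd l (f i.succ) x with hM
    have h1 : jdet (fun i => f i.succ) x = (M.updateRow j (M j)).det := by
      rw [Matrix.updateRow_eq_self]; rfl
    have h2 : jdet (fun l => f (Equiv.swap 0 j.succ l.succ)) x =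
        (M.updateRow j (fun l => pd l (f 0) x)).det := by
      unfold jdet
      congr 1
      ext a b
      rw [Matrix.of_apply, Matrix.updateRow_apply]
      split_ifs with h
      · dsimp only
        rw [h, Equiv.swap_apply_right]
      · dsimp only
        rw [Equiv.swap_apply_of_ne_of_ne (Fin.succ_ne_zero a) (fun h' => h (Fin.succ_injective _ h'))]
        rfl
    have h3 : jdet (Function.update (fun l : Fin n => f l.succ) j
        (fun y => f 0 y * f j.succ y)) x =
        (M.updateRow j (f 0 x • M j + f j.succ x • fun l => pd l (f 0) x)).det := by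
      unfold jdet
      congr 1
      ext a b
      rw [Matrix.of_apply, Matrix.updateRow_apply]
      split_ifs with h
      · rw [h, Function.update_self, pd_mul (hf 0) (hf _)]
        rfl
      · rw [Function.update_of_ne h]
        rfl
    rw [h1, h2, h3, Matrix.det_updateRow_add, Matrix.det_updateRow_smul, Matrix.det_updateRow_smul]
  have hS := hst n (Function.update (fun l : Fin n => f l.succ) j (fun y => f 0 y * f j.succ y)) hn
    (by
      intro i
      rcases eq_or_ne i j with h | h
      · subst h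
        rw [Function.update_self]
        exact (hf 0).mul (hf _)
      · rw [Function.update_of_ne h]
        exact hf _)
    (by
      intro i
      rcases eq_or_ne i j with h | h
      · subst h
        rw [Function.update_self]
        exact (hc 0).mul_right
      · rw [Function.update_of_ne h]
        exact hc _)
  simp_rw [← hpt] at hS
  have hI1 := integrable_wt hf hc
  have hI2 := integrable_wt (f := fun m => f (Equiv.swap 0 j.succ m)) (fun i => hf _)
    (fun i => hc _)
  simp only [Equiv.swap_apply_left] at hI2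
  rw [integral_add hI1 hI2] at hS
  have e : wt (fun m => f (Equiv.swap 0 j.succ m)) =
      ∫ x, f j.succ x * jdet (fun l => f (Equiv.swap 0 j.succ l.succ)) x := by
    unfold wt
    simp only [Equiv.swap_apply_left]
  rw [e]
  unfold wt
  linarith

theorem wt_swap_succ {f : Fin (n + 1) → E n → ℝ} {i j : Fin n} (hij : i ≠ j) :
    wt (fun m => f (Equiv.swap i.succ j.succ m)) = - wt f := by
  classical
  unfold wt
  rw [← integral_neg]
  congr 1
  funext x
  dsimp only
  rw [Equiv.swap_apply_of_ne_of_ne (Fin.succ_ne_zero i).symm (Fin.succ_ne_zero j).symm]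
  have h : jdet (fun l : Fin n => f (Equiv.swap i.succ j.succ l.succ)) x =
      ((Matrix.of fun a l => pd l (f a.succ) x).submatrix (Equiv.swap i j) id).det := by
    unfold jdet
    congr 1
    ext a b
    rw [Matrix.submatrix_apply, Matrix.of_apply, Matrix.of_apply, id]
    congr 2
    rcases eq_or_ne a i with rfl | hi
    · simp
    · rcases eq_or_ne a j with rfl | hj
      · simp
      · dsimp only
        rw [Equiv.swap_apply_of_ne_of_ne hi hj, Equiv.swap_apply_of_ne_of_ne (by simpa using hi)
          (by simpa using hj)]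
  rw [h, Matrix.det_permute, Equiv.Perm.sign_swap hij]
  simp only [Units.val_neg, Units.val_one, Int.cast_neg, Int.cast_one, neg_mul, one_mul, mul_neg]
  rfl

theorem wt_swap (hst : SpecStokes) (hn : 1 ≤ n) {f : Fin (n + 1) → E n → ℝ}
    (hf : ∀ i, ContDiff ℝ 1 (f i)) (hc : ∀ i, HasCompactSupport (f i)) {a b : Fin (n + 1)}
    (hab : a ≠ b) : wt (fun m => f (Equiv.swap a b m)) = - wt f := by
  induction a using Fin.cases with
  | zero =>
    induction b using Fin.cases with
    | zero => exact absurd rfl hab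
    | succ j => exact wt_swap_zero hst hn hf hc j
  | succ i =>
    induction b using Fin.cases with
    | zero =>
      rw [Equiv.swap_comm]
      exact wt_swap_zero hst hn hf hc i
    | succ j => exact wt_swap_succ (by rintro rfl; exact hab rfl)

theorem wt_perm (hst : SpecStokes) (hn : 1 ≤ n) {f : Fin (n + 1) → E n → ℝ}
    (hf : ∀ i, ContDiff ℝ 1 (f i)) (hc : ∀ i, HasCompactSupport (f i))
    (π : Equiv.Perm (Fin (n + 1))) :
    wt (fun m => f (π m)) = ((Equiv.Perm.sign π : ℤ) : ℝ) * wt f := by
  classical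
  induction π using Equiv.Perm.swap_induction_on' with
  | one => simp
  | mul_swap π a b hab ih =>
    have := wt_swap hst hn (f := fun m => f (π m)) (fun i => hf _) (fun i => hc _) hab
    simp only [Equiv.Perm.mul_apply]
    rw [this, ih, Equiv.Perm.sign_mul, Equiv.Perm.sign_swap hab]
    simp

theorem wt_eq_zero (hst : SpecStokes) (hn : 1 ≤ n) {f : Fin (n + 1) → E n → ℝ}
    (hf : ∀ i, ContDiff ℝ 1 (f i)) (hc : ∀ i, HasCompactSupport (f i)) {a b : Fin (n + 1)}
    (hab : a ≠ b) (h : f a = f b) : wt f = 0 := by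
  classical
  have h1 := wt_swap hst hn hf hc hab
  have h2 : (fun m => f (Equiv.swap a b m)) = f := by
    funext m
    rcases eq_or_ne m a with rfl | ha
    · rw [Equiv.swap_apply_left, h]
    · rcases eq_or_ne m b with rfl | hb
      · rw [Equiv.swap_apply_right, h]
      · rw [Equiv.swap_apply_of_ne_of_ne ha hb]
  rw [h2] at h1
  linarith

end alt

section prod
variable {n : ℕ}

/-- Partial products. -/
noncomputable def BB (b : Fin n → ℝ → ℝ) (k : ℕ) (y : E n) : ℝ :=
  ∏ i : Fin n, if (i : ℕ) < k then b i (y i) else 1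

theorem BB_succ (b : Fin n → ℝ → ℝ) (i : Fin n) (y : E n) :
    BB b (i + 1) y = BB b i y * b i (y i) := by
  classical
  unfold BB
  have h : ∀ j : Fin n, (if (j : ℕ) < i + 1 then b j (y j) else 1) =
      (if (j : ℕ) < i then b j (y j) else 1) * (if j = i then b j (y j) else 1) := by
    intro j
    rcases lt_trichotomy (j : ℕ) (i : ℕ) with h | h | h
    · have : j ≠ i := by rintro rfl; exact lt_irrefl _ h
      simp [h, this, Nat.lt_succ_of_lt h]
    · have : j = i := Fin.ext h
      subst this
      simp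
    · have h1 : j ≠ i := by rintro rfl; exact lt_irrefl _ h
      have h2 : ¬ (j : ℕ) < i := by omega
      have h3 : ¬ (j : ℕ) < i + 1 := by omega
      simp [h1, h2, h3]
  simp_rw [h]
  rw [Finset.prod_mul_distrib]
  congr 1
  simp

theorem BB_zero (b : Fin n → ℝ → ℝ) (y : E n) : BB b 0 y = 1 := by
  simp [BB]

theorem BB_indep (b : Fin n → ℝ → ℝ) (k : ℕ) {y y' : E n}
    (h : ∀ j : Fin n, (j : ℕ) < k → y j = y' j) : BB b k y = BB b k y' := by
  unfold BB
  refine Finset.prod_congr rfl fun j _ => ?_
  split_ifs with hj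
  · rw [h j hj]
  · rfl

theorem contDiff_BB {b : Fin n → ℝ → ℝ} (hb : ∀ i, ContDiff ℝ 1 (b i)) (k : ℕ) :
    ContDiff ℝ 1 (BB b k) := by
  unfold BB
  refine contDiff_prod fun i _ => ?_
  split_ifs
  · exact (hb i).comp (contDiff_apply ℝ ℝ i)
  · exact contDiff_const

theorem pd_eq_deriv {f : E n → ℝ} (hf : ContDiff ℝ 1 f) (j : Fin n) (x : E n) :
    pd j f x = deriv (fun t : ℝ => f (x + t • Pi.single j 1)) 0 := by
  have := (hf.differentiable one_ne_zero x).lineDeriv_eq_fderiv (v := (Pi.single j (1 : ℝ) : E n))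
  rw [pd, ← this]
  rfl

theorem pd_BB_gt {b : Fin n → ℝ → ℝ} (hb : ∀ i, ContDiff ℝ 1 (b i)) {i j : Fin n} (hij : i < j)
    (x : E n) : pd j (BB b (i + 1)) x = 0 := by
  rw [pd_eq_deriv (contDiff_BB hb _)]
  have : (fun t : ℝ => BB b (i + 1) (x + t • Pi.single j 1)) = fun _ => BB b (i + 1) x := by
    funext t
    refine BB_indep _ _ fun l hl => ?_
    have : l ≠ j := by
      rintro rfl
      have := Fin.lt_def.1 hij
      omega
    simp [this]
  rw [this, deriv_const]

theorem pd_BB_eq {b : Fin n → ℝ → ℝ} (hb : ∀ i, ContDiff ℝ 1 (b i)) (i : Fin n)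
    (x : E n) : pd i (BB b (i + 1)) x = BB b i x * deriv (b i) (x i) := by
  rw [pd_eq_deriv (contDiff_BB hb _)]
  have : (fun t : ℝ => BB b (i + 1) (x + t • Pi.single i 1)) =
      fun t => BB b i x * b i (x i + t) := by
    funext t
    rw [BB_succ]
    congr 1
    · refine BB_indep _ _ fun l hl => ?_
      have : l ≠ i := by
        rintro rfl
        exact lt_irrefl _ hl
      simp [this]
    · simp
  have hd : DifferentiableAt ℝ (fun t => b i (x i + t)) 0 :=
    ((hb i).differentiable one_ne_zero _).comp (0 : ℝ) (by fun_prop)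
  rw [this, deriv_const_mul _ hd, deriv_comp_const_add, add_zero]

theorem jdet_BB {b : Fin n → ℝ → ℝ} (hb : ∀ i, ContDiff ℝ 1 (b i)) (x : E n) :
    jdet (fun i : Fin n => BB b (i + 1)) x = ∏ i : Fin n, (BB b i x * deriv (b i) (x i)) := by
  unfold jdet
  rw [Matrix.det_of_isLowerTriangular]
  · exact Finset.prod_congr rfl fun i _ => by rw [Matrix.of_apply, pd_BB_eq hb]
  · intro i j hij
    rw [Matrix.of_apply]
    exact pd_BB_gt hb (by simpa using hij) x

/-- The functions of the partition of unity. -/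
noncomputable def TT (b : Fin n → ℝ → ℝ) (k : ℕ) (y : E n) : ℝ :=
  BB b k y * (1 - if h : k < n then b ⟨k, h⟩ (y ⟨k, h⟩) else 0)

theorem contDiff_TT {b : Fin n → ℝ → ℝ} (hb : ∀ i, ContDiff ℝ 1 (b i)) (k : ℕ) :
    ContDiff ℝ 1 (TT b k) := by
  unfold TT
  refine (contDiff_BB hb k).mul (contDiff_const.sub ?_)
  split_ifs with h
  · exact (hb _).comp (contDiff_apply ℝ ℝ _)
  · exact contDiff_const

theorem TT_lt (b : Fin n → ℝ → ℝ) {k : ℕ} (h : k < n) :
    TT b k = fun y => BB b k y - BB b (k + 1) y := by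
  funext y
  have := BB_succ b ⟨k, h⟩ y
  simp only at this
  rw [this, TT, dif_pos h]
  ring

theorem TT_ge (b : Fin n → ℝ → ℝ) {k : ℕ} (h : ¬ k < n) : TT b k = BB b k := by
  funext y
  rw [TT, dif_neg h]
  ring

theorem pd_sub {f g : E n → ℝ} (hf : ContDiff ℝ 1 f) (hg : ContDiff ℝ 1 g) (l : Fin n) (x : E n) :
    pd l (fun y => f y - g y) x = pd l f x - pd l g x := by
  have h2 : fderiv ℝ (fun y => f y - g y) x = fderiv ℝ f x - fderiv ℝ g x :=
    fderiv_sub (hf.differentiable one_ne_zero x) (hg.differentiable one_ne_zero x)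
  rw [pd, h2]
  simp [pd]

theorem jdet_TT {b : Fin n → ℝ → ℝ} (hb : ∀ i, ContDiff ℝ 1 (b i)) (x : E n) :
    jdet (fun i : Fin n => TT b (i + 1)) x = ∏ i : Fin n, (BB b i x * deriv (b i) (x i)) := by
  classical
  rw [← jdet_BB hb]
  set U : Matrix (Fin n) (Fin n) ℝ :=
    Matrix.of fun i j => if j = i then 1 else if (j : ℕ) = i + 1 then -1 else 0 with hU
  have hdet : U.det = 1 := by
    rw [Matrix.det_of_isUpperTriangular]
    · simp [hU]
    · intro i j hij
      have h1 : j ≠ i := (ne_of_lt hij)
      have h2 : ¬ (j : ℕ) = i + 1 := by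
        have := Fin.lt_def.1 hij
        simp only [id] at this
        omega
      simp [hU, h1, h2]
  have hmul : (Matrix.of fun i j : Fin n => pd j (TT b (i + 1)) x) =
      U * Matrix.of fun i j : Fin n => pd j (BB b (i + 1)) x := by
    ext i j
    rw [Matrix.mul_apply]
    simp only [hU, Matrix.of_apply]
    by_cases h : (i : ℕ) + 1 < n
    · rw [TT_lt b h, pd_sub (contDiff_BB hb _) (contDiff_BB hb _)]
      have e : ∀ l : Fin n, (if l = i then (1 : ℝ) else if (l : ℕ) = i + 1 then -1 else 0) *
          pd j (BB b (l + 1)) x = (if l = i then pd j (BB b (l + 1)) x else 0) -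
          (if l = ⟨(i : ℕ) + 1, h⟩ then pd j (BB b (l + 1)) x else 0) := by
        intro l
        by_cases h1 : l = i
        · have h2 : l ≠ ⟨(i : ℕ) + 1, h⟩ := by
            rw [h1]
            intro h3
            have := congrArg Fin.val h3
            simp only at this
            omega
          rw [if_pos h1, if_pos h1, if_neg h2]
          ring
        · by_cases h2 : l = ⟨(i : ℕ) + 1, h⟩
          · have h3 : (l : ℕ) = i + 1 := by rw [h2]
            rw [if_neg h1, if_neg h1, if_pos h2, if_pos h3]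
            ring
          · have h3 : ¬ (l : ℕ) = i + 1 := fun h3 => h2 (Fin.ext h3)
            rw [if_neg h1, if_neg h1, if_neg h2, if_neg h3]
            ring
      simp_rw [e]
      rw [Finset.sum_sub_distrib]
      simp
    · rw [TT_ge b h]
      have e : ∀ l : Fin n, (if l = i then (1 : ℝ) else if (l : ℕ) = i + 1 then -1 else 0) *
          pd j (BB b (l + 1)) x = (if l = i then pd j (BB b (l + 1)) x else 0) := by
        intro l
        by_cases h1 : l = i
        · rw [if_pos h1, if_pos h1, one_mul]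
        · have h3 : ¬ (l : ℕ) = i + 1 := by omega
          rw [if_neg h1, if_neg h1, if_neg h3, zero_mul]
      simp_rw [e]
      simp
  unfold jdet
  rw [hmul, Matrix.det_mul, hdet, one_mul]

/-- The product of the partial products. -/
theorem prod_BB (b : Fin n → ℝ → ℝ) (x : E n) :
    ∏ i : Fin n, BB b i x = ∏ l : Fin n, b l (x l) ^ (n - 1 - (l : ℕ)) := by
  classical
  unfold BB
  rw [Finset.prod_comm]
  refine Finset.prod_congr rfl fun l _ => ?_
  rw [Finset.prod_ite, Finset.prod_const, Finset.prod_const_one, mul_one]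
  congr 1
  have : (Finset.univ.filter fun i : Fin n => (l : ℕ) < i) = Finset.Ioi l := by
    ext i
    simp
  rw [this, Fin.card_Ioi]

end prod

section one

theorem int_pow {b : ℝ → ℝ} (hb : ContDiff ℝ 1 b) (hc : HasCompactSupport (deriv b))
    (h0 : Filter.Tendsto b Filter.atBot (𝓝 0)) (h1 : Filter.Tendsto b Filter.atTop (𝓝 1)) (k : ℕ) :
    Integrable (fun t => b t ^ k * deriv b t) ∧ ∫ t, b t ^ k * deriv b t = 1 / ((k : ℝ) + 1) := by
  have hcont : Continuous (deriv b) := hb.continuous_deriv le_rfl
  have hint : Integrable (fun t => b t ^ k * deriv b t) :=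
    Continuous.integrable_of_hasCompactSupport ((hb.continuous.pow k).mul hcont) hc.mul_left
  refine ⟨hint, ?_⟩
  have hk : (k : ℝ) + 1 ≠ 0 := by positivity
  have hder : ∀ t, HasDerivAt (fun t => b t ^ (k + 1) / ((k : ℝ) + 1)) (b t ^ k * deriv b t) t := by
    intro t
    have h := ((hb.differentiable one_ne_zero t).hasDerivAt.pow (k + 1)).div_const ((k : ℝ) + 1)
    have e : ((k + 1 : ℕ) : ℝ) * b t ^ (k + 1 - 1) * deriv b t / ((k : ℝ) + 1) =
        b t ^ k * deriv b t := by
      rw [Nat.add_sub_cancel, div_eq_iff hk]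
      push_cast
      ring
    rw [e] at h
    exact h
  rw [integral_of_hasDerivAt_of_tendsto hder hint ((h0.pow (k + 1)).div_const _)
    ((h1.pow (k + 1)).div_const _)]
  simp

theorem int_pow' {b : ℝ → ℝ} (hb : ContDiff ℝ 1 b) (hc : HasCompactSupport (deriv b))
    (h0 : Filter.Tendsto b Filter.atBot (𝓝 0)) (h1 : Filter.Tendsto b Filter.atTop (𝓝 1)) (k : ℕ) :
    ∫ t, (1 - b t) * (b t ^ k * deriv b t) = 1 / (((k : ℝ) + 1) * ((k : ℝ) + 2)) := by
  have h := int_pow hb hc h0 h1 k
  have h' := int_pow hb hc h0 h1 (k + 1)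
  have e : ∀ t, (1 - b t) * (b t ^ k * deriv b t) =
      b t ^ k * deriv b t - b t ^ (k + 1) * deriv b t := fun t => by ring
  simp_rw [e]
  rw [integral_sub h.1 h'.1, h.2, h'.2]
  push_cast
  field_simp
  ring

theorem prod_inv_factorial (m : ℕ) : ∏ i : Fin m, (1 / ((m : ℝ) - (i : ℕ))) = 1 / m.factorial := by
  induction m with
  | zero => simp
  | succ m ih =>
    rw [Fin.prod_univ_succ]
    have e : ∀ i : Fin m, 1 / (((m + 1 : ℕ) : ℝ) - ((i.succ : Fin (m + 1)) : ℕ)) =
        1 / ((m : ℝ) - (i : ℕ)) := by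
      intro i
      push_cast [Fin.val_succ]
      ring_nf
    simp_rw [e]
    rw [ih, Nat.factorial_succ]
    push_cast [Fin.val_zero]
    rw [sub_zero]
    field_simp

/-- The integral for the partition of unity. -/
theorem wt_TT {m : ℕ} {b : Fin (m + 1) → ℝ → ℝ} (hb : ∀ i, ContDiff ℝ 1 (b i))
    (hc : ∀ i, HasCompactSupport (deriv (b i)))
    (h0 : ∀ i, Filter.Tendsto (b i) Filter.atBot (𝓝 0))
    (h1 : ∀ i, Filter.Tendsto (b i) Filter.atTop (𝓝 1)) :
    wt (fun k : Fin (m + 1 + 1) => TT b k) = ((m + 1 + 1).factorial : ℝ)⁻¹ := by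
  classical
  unfold wt
  set g : Fin (m + 1) → ℝ → ℝ := fun l t => (if l = 0 then 1 - b l t else 1) *
    (b l t ^ (m + 1 - 1 - (l : ℕ)) * deriv (b l) t) with hg
  have hpt : ∀ x : E (m + 1), TT b ((0 : Fin (m + 1 + 1)) : ℕ) x *
      jdet (fun i : Fin (m + 1) => TT b ((i.succ : Fin (m + 1 + 1)) : ℕ)) x =
      ∏ l : Fin (m + 1), g l (x l) := by
    intro x
    simp only [Fin.val_succ, hg]
    rw [jdet_TT hb, Finset.prod_mul_distrib, prod_BB, Finset.prod_mul_distrib,
      Finset.prod_mul_distrib]
    congr 1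
    rw [Finset.prod_ite_eq' Finset.univ (0 : Fin (m + 1)), if_pos (Finset.mem_univ _), TT,
      Fin.val_zero, dif_pos (Nat.succ_pos m), BB_zero, one_mul]
    rfl
  simp_rw [hpt]
  rw [integral_fintype_prod_volume_eq_prod, Fin.prod_univ_succ]
  have e0 : ∫ t, g 0 t = 1 / (((m : ℝ) + 1) * ((m : ℝ) + 2)) := by
    simp only [hg, if_true]
    have := int_pow' (hb 0) (hc 0) (h0 0) (h1 0) m
    simpa using this
  have e1 : ∀ i : Fin m, ∫ t, g i.succ t = 1 / ((m : ℝ) - (i : ℕ)) := by
    intro i
    have hi : i.succ ≠ 0 := Fin.succ_ne_zero i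
    simp only [hg, hi, if_false, one_mul]
    rw [(int_pow (hb _) (hc _) (h0 _) (h1 _) _).2]
    congr 1
    have hlt : (i : ℕ) + 1 ≤ m := i.2
    rw [Fin.val_succ, show m + 1 - 1 - ((i : ℕ) + 1) = m - ((i : ℕ) + 1) by omega,
      Nat.cast_sub hlt]
    push_cast
    ring
  simp_rw [e0, e1]
  rw [prod_inv_factorial, Nat.factorial_succ, Nat.factorial_succ]
  push_cast
  field_simp
  ring

end one

section final
variable {n : ℕ}

theorem st_contDiff : ContDiff ℝ 1 Real.smoothTransition :=
  Real.smoothTransition.contDiff (n := 1)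

/-- The one dimensional functions. -/
noncomputable def bb (p : E n) (c : ℝ) (i : Fin n) (t : ℝ) : ℝ :=
  Real.smoothTransition (xc n i + c⁻¹ * (t - p i))

theorem bb_contDiff (p : E n) (c : ℝ) (i : Fin n) : ContDiff ℝ 1 (bb p c i) := by
  unfold bb
  exact st_contDiff.comp (by fun_prop)

theorem bb_apply (p : E n) (c : ℝ) (i : Fin n) (y : E n) :
    bb p c i (y i) = Real.smoothTransition (crd p c y i) := rfl

theorem bb_zero {p : E n} {c : ℝ} (hc : 0 < c) (i : Fin n) {t : ℝ} (ht : t ≤ p i - c * xc n i) :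
    bb p c i t = 0 := by
  refine Real.smoothTransition.zero_of_nonpos ?_
  have : c⁻¹ * (t - p i) ≤ c⁻¹ * (-(c * xc n i)) :=
    mul_le_mul_of_nonneg_left (by linarith) (by positivity)
  have e : c⁻¹ * (-(c * xc n i)) = - xc n i := by field_simp
  linarith

theorem bb_one {p : E n} {c : ℝ} (hc : 0 < c) (i : Fin n) {t : ℝ}
    (ht : p i + c * (1 - xc n i) ≤ t) : bb p c i t = 1 := by
  refine Real.smoothTransition.one_of_one_le ?_
  have : c⁻¹ * (c * (1 - xc n i)) ≤ c⁻¹ * (t - p i) :=
    mul_le_mul_of_nonneg_left (by linarith) (by positivity)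
  have e : c⁻¹ * (c * (1 - xc n i)) = 1 - xc n i := by field_simp
  linarith

theorem bb_tendsto_bot {p : E n} {c : ℝ} (hc : 0 < c) (i : Fin n) :
    Filter.Tendsto (bb p c i) Filter.atBot (𝓝 0) := by
  refine tendsto_const_nhds.congr' ?_
  filter_upwards [Filter.eventually_le_atBot (p i - c * xc n i)] with t ht
  exact (bb_zero hc i ht).symm

theorem bb_tendsto_top {p : E n} {c : ℝ} (hc : 0 < c) (i : Fin n) :
    Filter.Tendsto (bb p c i) Filter.atTop (𝓝 1) := by
  refine tendsto_const_nhds.congr' ?_
  filter_upwards [Filter.eventually_ge_atTop (p i + c * (1 - xc n i))] with t ht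
  exact (bb_one hc i ht).symm

theorem bb_deriv_compact {p : E n} {c : ℝ} (hc : 0 < c) (i : Fin n) :
    HasCompactSupport (deriv (bb p c i)) := by
  refine HasCompactSupport.intro (K := Icc (p i - c * xc n i) (p i + c * (1 - xc n i)))
    isCompact_Icc fun t ht => ?_
  rw [mem_Icc, not_and_or, not_le, not_le] at ht
  rcases ht with ht | ht
  · have : bb p c i =ᶠ[𝓝 t] fun _ => 0 := by
      filter_upwards [Iio_mem_nhds ht] with s hs
      exact bb_zero hc i (le_of_lt hs)
    rw [this.deriv_eq, deriv_const]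
  · have : bb p c i =ᶠ[𝓝 t] fun _ => 1 := by
      filter_upwards [Ioi_mem_nhds ht] with s hs
      exact bb_one hc i (le_of_lt hs)
    rw [this.deriv_eq, deriv_const]

theorem tht_eq (p : E n) (c : ℝ) (k : Fin (n + 1)) (y : E n) :
    tht k (crd p c y) = TT (bb p c) k y := by
  unfold tht TT BB
  congr 1
  congr 1
  by_cases h : (k : ℕ) < n
  · rw [dif_pos h, ext, dif_pos h]
    rfl
  · rw [dif_neg h, ext, dif_neg h]
    exact Real.smoothTransition.zero

theorem tht_contDiff (p : E n) (c : ℝ) (k : Fin (n + 1)) :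
    ContDiff ℝ 1 fun y => tht k (crd p c y) := by
  have : (fun y => tht k (crd p c y)) = TT (bb p c) k := funext fun y => tht_eq p c k y
  rw [this]
  exact contDiff_TT (bb_contDiff p c) k

theorem crd_continuous (p : E n) (c : ℝ) (i : Fin n) : Continuous fun y => crd p c y i := by
  unfold crd
  fun_prop

theorem integrand_zero {f : Fin (n + 1) → E n → ℝ} {y : E n} (m : Fin (n + 1))
    (h : f m =ᶠ[𝓝 y] fun _ => 0) : f 0 y * jdet (fun i => f i.succ) y = 0 := by
  induction m using Fin.cases with
  | zero => rw [h.eq_of_nhds, zero_mul]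
  | succ i =>
    have : jdet (fun i => f i.succ) y = 0 := by
      unfold jdet
      refine Matrix.det_eq_zero_of_row_eq_zero i fun j => ?_
      rw [Matrix.of_apply, pd, h.fderiv_eq]
      simp
    rw [this, mul_zero]

theorem integrand_congr {f g : Fin (n + 1) → E n → ℝ} {y : E n}
    (h : ∀ m, f m =ᶠ[𝓝 y] g m) : f 0 y * jdet (fun i => f i.succ) y =
      g 0 y * jdet (fun i => g i.succ) y := by
  rw [(h 0).eq_of_nhds]
  congr 1
  unfold jdet
  congr 1
  ext i j
  rw [Matrix.of_apply, Matrix.of_apply, pd, pd, (h i.succ).fderiv_eq]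

theorem tht_zero_of_neg {x : E n} {i : Fin n} (h : x i ≤ 0) : tht (Fin.last n) x = 0 := by
  unfold tht
  rw [Finset.prod_eq_zero (Finset.mem_univ i), zero_mul]
  rw [if_pos (by simp), Real.smoothTransition.zero_of_nonpos h]

theorem tht_zero_of_one {x : E n} {i : Fin n} (h : 1 ≤ x i) : tht i.castSucc x = 0 := by
  unfold tht
  have : ext x ((i.castSucc : Fin (n + 1)) + 1) = x i := by
    rw [ext, Fin.val_castSucc, dif_pos i.2]
  rw [this, Real.smoothTransition.one_of_one_le h, sub_self, mul_zero]

/-- Block 8c. -/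
theorem main (hst : SpecStokes) : SpecTheta := by
  intro n hn p c hc χ hχ hχc hχ1
  have hf : ∀ k : Fin (n + 1), ContDiff ℝ 1 fun y => χ y * tht k (crd p c y) := fun k =>
    hχ.mul (tht_contDiff p c k)
  have hfc : ∀ k : Fin (n + 1), HasCompactSupport fun y => χ y * tht k (crd p c y) := fun k =>
    hχc.mul_right
  refine ⟨fun π => ?_, fun k hk => ?_⟩
  · rw [wt_perm hst hn (f := fun k y => χ y * tht k (crd p c y)) hf hfc π]
    congr 1
    have h1 : wt (fun (k : Fin (n + 1)) y => χ y * tht k (crd p c y)) =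
        wt (fun (k : Fin (n + 1)) => TT (bb p c) k) := by
      unfold wt
      congr 1
      funext y
      by_cases hy : ∀ i, -1 < crd p c y i ∧ crd p c y i < 2
      · refine integrand_congr (f := fun (k : Fin (n + 1)) y => χ y * tht k (crd p c y))
          (g := fun (k : Fin (n + 1)) => TT (bb p c) k) fun k => ?_
        have hev : ∀ᶠ z in 𝓝 y, ∀ i, -1 < crd p c z i ∧ crd p c z i < 2 := by
          rw [Filter.eventually_all]
          intro i
          have hci := (crd_continuous p c i).continuousAt (x := y)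
          exact (hci.eventually_const_lt (hy i).1).and (hci.eventually_lt_const (hy i).2)
        filter_upwards [hev] with z hz
        rw [hχ1 z hz, one_mul, tht_eq]
      · push Not at hy
        obtain ⟨i, hi⟩ := hy
        by_cases h0 : -1 < crd p c y i
        · have h2 : 2 ≤ crd p c y i := hi h0
          have hev : ∀ᶠ z in 𝓝 y, (1 : ℝ) < crd p c z i :=
            (crd_continuous p c i).continuousAt.eventually_const_lt (by linarith)
          rw [integrand_zero (f := fun (k : Fin (n + 1)) y => χ y * tht k (crd p c y))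
            i.castSucc, integrand_zero (f := fun (k : Fin (n + 1)) => TT (bb p c) k) i.castSucc]
          · filter_upwards [hev] with z hz
            rw [← tht_eq, tht_zero_of_one hz.le]
          · filter_upwards [hev] with z hz
            rw [tht_zero_of_one hz.le, mul_zero]
        · push Not at h0
          have hev : ∀ᶠ z in 𝓝 y, crd p c z i < 0 :=
            (crd_continuous p c i).continuousAt.eventually_lt_const (by linarith)
          rw [integrand_zero (f := fun (k : Fin (n + 1)) y => χ y * tht k (crd p c y))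
            (Fin.last n), integrand_zero (f := fun (k : Fin (n + 1)) => TT (bb p c) k)
            (Fin.last n)]
          · filter_upwards [hev] with z hz
            rw [← tht_eq, tht_zero_of_neg hz.le]
          · filter_upwards [hev] with z hz
            rw [tht_zero_of_neg hz.le, mul_zero]
    rw [h1]
    obtain ⟨m, rfl⟩ : ∃ m, n = m + 1 := ⟨n - 1, by omega⟩
    exact wt_TT (bb_contDiff p c) (bb_deriv_compact hc) (bb_tendsto_bot hc) (bb_tendsto_top hc)
  · rw [Function.not_injective_iff] at hk
    obtain ⟨a, b, hab, hne⟩ := hk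
    exact wt_eq_zero hst hn (fun i => hf _) (fun i => hfc _) hne (by rw [hab])

end final

end Vale.Agent.P223.H.B8c
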