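import Vale.Agent.P223.H.Spec8
import Mathlib.GroupTheory.Perm.Fin

/-! Block 8d: alternating simplices. -/

namespace Vale.Agent.P223.H.B8d

open scoped ContDiff

variable {n : ℕ} {Γ : Type} [Group Γ] [MulAction Γ (E n)]

/-- the simplex with vertices `q (k 0), …, q (k n)` -/
noncomputable def sx (R : Sys n Γ) (q : Fin (n + 1) → E n) (k : Fin (n + 1) → Fin (n + 1)) :
    Simp (n + 1) (Mfd n Γ) := (proj n Γ).comp (R.S n fun m => (1, q (k m)))

/-- the degenerate simplices -/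
def Dg (R : Sys n Γ) (q : Fin (n + 1) → E n) : Set (Simp (n + 1) (Mfd n Γ)) :=
  {σ | ∃ k : Fin (n + 1) → Fin (n + 1), ¬ Function.Surjective k ∧ σ = sx R q k}

/-- boundaries plus degenerate chains -/
noncomputable def NS (R : Sys n Γ) (q : Fin (n + 1) → E n) :
    Submodule ℝ (Chain (n + 1) (Mfd n Γ)) :=
  LinearMap.range (bd (M := Mfd n Γ) (n + 1)) ⊔ Finsupp.supported ℝ ℝ (Dg R q)

theorem deg_mem (R : Sys n Γ) (q : Fin (n + 1) → E n) (k : Fin (n + 1) → Fin (n + 1))
    (hk : ¬ Function.Surjective k) (a : ℝ) : Finsupp.single (sx R q k) a ∈ NS R q :=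
  Submodule.mem_sup_right (Finsupp.single_mem_supported ℝ a ⟨k, hk, rfl⟩)

/-- the list with a repeated entry -/
def ll (i : Fin n) (k : Fin (n + 1) → Fin (n + 1)) : Fin (n + 2) → Fin (n + 1) :=
  Fin.insertNth (α := fun _ => Fin (n + 1)) i.succ.succ (k i.castSucc) k

theorem ll_same (i : Fin n) (k : Fin (n + 1) → Fin (n + 1)) :
    ll i k i.succ.succ = k i.castSucc := Fin.insertNth_apply_same _ _ _

theorem ll_succAbove (i : Fin n) (k : Fin (n + 1) → Fin (n + 1)) (m : Fin (n + 1)) :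
    ll i k (i.succ.succ.succAbove m) = k m := Fin.insertNth_apply_succAbove _ _ _ _

theorem ll_of (i : Fin n) (k : Fin (n + 1) → Fin (n + 1)) (a : Fin (n + 2)) (m : Fin (n + 1))
    (h : i.succ.succ.succAbove m = a) : ll i k a = k m := by rw [← h, ll_succAbove]

theorem face_a (i : Fin n) (π : Equiv.Perm (Fin (n + 1))) (m : Fin (n + 1)) :
    ll i π (i.castSucc.castSucc.succAbove m) = π (Equiv.swap i.castSucc i.succ m) := by
  by_cases h1 : m = i.castSucc
  · subst h1
    rw [Equiv.swap_apply_left]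
    refine ll_of i π _ _ (Fin.ext ?_)
    simp [Fin.succAbove, Fin.lt_def]
  · by_cases h2 : m = i.succ
    · subst h2
      rw [Equiv.swap_apply_right]
      have h3 : i.castSucc.castSucc.succAbove i.succ = i.succ.succ := by
        refine Fin.ext ?_
        simp [Fin.succAbove, Fin.lt_def]
      rw [h3, ll_same]
    · rw [Equiv.swap_apply_of_ne_of_ne h1 h2]
      refine ll_of i π _ _ (Fin.ext ?_)
      have h1' : (m : ℕ) ≠ i := fun h => h1 (Fin.ext h)
      have h2' : (m : ℕ) ≠ i + 1 := fun h => h2 (Fin.ext h)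
      simp only [Fin.succAbove, Fin.lt_def, Fin.val_castSucc, Fin.val_succ]
      split_ifs <;> simp <;> omega

theorem face_other (i : Fin n) (π : Equiv.Perm (Fin (n + 1))) (j : Fin (n + 2))
    (ha : j ≠ i.castSucc.castSucc) (hp : j ≠ i.succ.succ) :
    ¬ Function.Surjective (ll i π ∘ j.succAbove) := by
  intro hs
  obtain ⟨m, hm⟩ := hs (ll i π j)
  have hne : j.succAbove m ≠ j := Fin.succAbove_ne j m
  obtain ⟨b, hb⟩ := Fin.exists_succAbove_eq hp
  rw [Function.comp_apply, ← hb, ll_succAbove] at hm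
  by_cases hq : (i.succ.succ.succAbove b).succAbove m = i.succ.succ
  · rw [hq, ll_same] at hm
    have h1 : i.castSucc = b := π.injective hm
    apply ha
    rw [← hb, ← h1]
    refine Fin.ext ?_
    simp [Fin.succAbove, Fin.lt_def]
  · obtain ⟨c, hc⟩ := Fin.exists_succAbove_eq hq
    rw [← hc, ll_succAbove] at hm
    have h1 : c = b := π.injective hm
    apply hne
    rw [← hb, ← hc, h1]

theorem adj (R : Sys n Γ) (q : Fin (n + 1) → E n) (i : Fin n) (π : Equiv.Perm (Fin (n + 1))) :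
    Finsupp.single (sx R q ⇑(π * Equiv.swap i.castSucc i.succ)) (1 : ℝ) +
      Finsupp.single (sx R q π) 1 ∈ NS R q := by
  set l : Fin (n + 2) → Γ × E n := fun m => (1, q (ll i π m)) with hl
  have hb : bd (M := Mfd n Γ) (n + 1) (Finsupp.single ((proj n Γ).comp (R.S (n + 1) l)) 1) =
      ∑ j : Fin (n + 2), Finsupp.single (sx R q (ll i π ∘ j.succAbove)) ((-1 : ℝ) ^ (j : ℕ)) := by
    rw [bd, Finsupp.linearCombination_single, one_smul]
    refine Finset.sum_congr rfl fun j _ => ?_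
    rw [ContinuousMap.comp_assoc, R.face]
    rfl
  set a : Fin (n + 2) := i.castSucc.castSucc with ha
  set p : Fin (n + 2) := i.succ.succ with hp
  have hap : p ≠ a := fun h => by
    have := congrArg Fin.val h
    simp only [ha, hp, Fin.val_succ, Fin.val_castSucc] at this
    omega
  have hm : (∑ j : Fin (n + 2), Finsupp.single (sx R q (ll i π ∘ j.succAbove))
      ((-1 : ℝ) ^ (j : ℕ))) ∈ NS R q := by
    rw [← hb]; exact Submodule.mem_sup_left ⟨_, rfl⟩
  rw [← Finset.add_sum_erase Finset.univ _ (Finset.mem_univ a),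
    ← Finset.add_sum_erase _ _ (Finset.mem_erase.2 ⟨hap, Finset.mem_univ p⟩)] at hm
  have hr : (∑ j ∈ (Finset.univ.erase a).erase p,
      Finsupp.single (sx R q (ll i π ∘ j.succAbove)) ((-1 : ℝ) ^ (j : ℕ))) ∈ NS R q := by
    refine Submodule.sum_mem _ fun j hj => ?_
    rw [Finset.mem_erase, Finset.mem_erase] at hj
    exact deg_mem R q _ (face_other i π j hj.2.1 hj.1) _
  have h1 := Submodule.sub_mem _ hm hr
  have h2 := Submodule.smul_mem _ ((-1 : ℝ) ^ (i : ℕ)) h1
  have e1 : (ll i π ∘ a.succAbove) = (π * Equiv.swap i.castSucc i.succ : Equiv.Perm _) :=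
    funext fun m => face_a i π m
  have e2 : (ll i π ∘ p.succAbove) = π := funext fun m => ll_succAbove i π m
  rw [e1, e2] at h2
  have hv1 : ((-1 : ℝ) ^ (a : ℕ)) = (-1 : ℝ) ^ (i : ℕ) := by simp [ha]
  have hv2 : ((-1 : ℝ) ^ (p : ℕ)) = (-1 : ℝ) ^ (i : ℕ) := by simp [hp, pow_succ]
  have hsq : (-1 : ℝ) ^ (i : ℕ) * (-1 : ℝ) ^ (i : ℕ) = 1 := by
    rw [← mul_pow]; simp
  rw [hv1, hv2] at h2
  convert h2 using 1
  rw [add_sub_assoc, add_sub_cancel_right, smul_add, Finsupp.smul_single, Finsupp.smul_single,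
    smul_eq_mul, hsq]

theorem perm (R : Sys n Γ) (q : Fin (n + 1) → E n) (τ : Equiv.Perm (Fin (n + 1))) :
    ∀ π : Equiv.Perm (Fin (n + 1)), Finsupp.single (sx R q ⇑(π * τ)) (1 : ℝ) -
      ((Equiv.Perm.sign τ : ℤ) : ℝ) • Finsupp.single (sx R q π) 1 ∈ NS R q := by
  have hτ : τ ∈ Submonoid.closure (Set.range fun i : Fin n => Equiv.swap i.castSucc i.succ) := by
    rw [Equiv.Perm.mclosure_swap_castSucc_succ]; trivial
  induction hτ using Submonoid.closure_induction with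
  | mem τ hτ =>
    intro π
    obtain ⟨i, rfl⟩ := hτ
    rw [Equiv.Perm.sign_swap (fun h => by have := congrArg Fin.val h; simp at this)]
    have := adj R q i π
    simpa using this
  | one => intro π; simp
  | mul τ₁ τ₂ _ _ h1 h2 =>
    intro π
    have h3 := h2 (π * τ₁)
    have h4 := Submodule.smul_mem _ ((Equiv.Perm.sign τ₂ : ℤ) : ℝ) (h1 π)
    have h5 := Submodule.add_mem _ h3 h4
    have e : Finsupp.single (sx R q ⇑(π * (τ₁ * τ₂))) (1 : ℝ) -
        ((Equiv.Perm.sign (τ₁ * τ₂) : ℤ) : ℝ) • Finsupp.single (sx R q π) 1 =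
        Finsupp.single (sx R q ⇑(π * τ₁ * τ₂)) (1 : ℝ) -
        ((Equiv.Perm.sign τ₂ : ℤ) : ℝ) • Finsupp.single (sx R q ⇑(π * τ₁)) 1 +
        ((Equiv.Perm.sign τ₂ : ℤ) : ℝ) • (Finsupp.single (sx R q ⇑(π * τ₁)) 1 -
        ((Equiv.Perm.sign τ₁ : ℤ) : ℝ) • Finsupp.single (sx R q π) 1) := by
      rw [Equiv.Perm.sign_mul, mul_assoc, smul_sub, smul_smul]
      push_cast
      rw [mul_comm ((Equiv.Perm.sign τ₂ : ℤ) : ℝ)]
      abel
    rw [e]
    exact h5

theorem main : SpecAlt := by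
  intro n Γ _ _ _ R q π
  have h := perm R q π 1
  rw [one_mul, NS, Submodule.mem_sup] at h
  obtain ⟨_, ⟨b, rfl⟩, c, hc, h⟩ := h
  refine ⟨b, c, ?_, fun σ hσ => ?_⟩
  · have h2 : Finsupp.single (sx R q π) (1 : ℝ) = ((Equiv.Perm.sign π : ℤ) : ℝ) •
      Finsupp.single (sx R q (1 : Equiv.Perm (Fin (n + 1)))) 1 + bd (n + 1) b + c := by
      rw [add_assoc, h]; abel
    exact h2
  · exact (Finsupp.mem_supported ℝ c).1 hc hσ

end Vale.Agent.P223.H.B8d
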