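import Vale.Agent.P223.H.B8b
import Vale.Agent.P223.H.B8d
import Vale.Agent.P223.H.B6d

/-! Block 8e: the local structure of the cycle near a point. -/

namespace Vale.Agent.P223.H.B8e

open scoped ContDiff Topology
open B8b

variable {n : ℕ} {Γ : Type} [Group Γ] [MulAction Γ (E n)]

/-! ### Localisation -/

theorem proj_eq {x y : E n} (h : proj n Γ x = proj n Γ y) : ∃ γ : Γ, γ • y = x := by
  have h1 : (MulAction.orbitRel Γ (E n)) x y := Quotient.exact h
  exact h1

/-- Near `p` only the special simplices contribute. -/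
theorem local_part (hΓ : Act n Γ) (R : Sys n Γ) (p : E n) {ι : Type} [Fintype ι]
    (P : PU n Γ (Fin (n + 1) ⊕ ι)) (q : Fin (n + 1) ⊕ ι → E n)
    (hcase : ∀ (l : Fin (n + 1) → Γ × (Fin (n + 1) ⊕ ι)) (y : E n),
      (∀ m, y ∈ tsupport (P.fn (l m))) → ∀ t, R.S n (fun j => ((l j).1, q (l j).2)) t = p →
      ∀ m, (l m).1 = 1 ∧ ∃ k, (l m).2 = Sum.inl k) :
    ∃ c' : Chain (n + 1) (Mfd n Γ), (∀ σ ∈ c'.support, ∀ t, σ t ≠ proj n Γ p) ∧
      cyc R P q = ∑ k : Fin (n + 1) → Fin (n + 1),
        Finsupp.single ((proj n Γ).comp (R.S n fun m => (1, q (Sum.inl (k m)))))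
          (P.wt fun m => (1, Sum.inl (k m))) + c' := by
  classical
  set N := B6c.NL Γ (Fin (n + 1) ⊕ ι) n with hN
  set F : N → Chain (n + 1) (Mfd n Γ) := fun l => Finsupp.single (B6c.sig R q n l.1) (P.wt l.1)
    with hF
  have hfin : (Function.support F).Finite := (B6d.good_wt hΓ P).hs R q
  have hcyc : cyc R P q = ∑ᶠ l, F l := B6d.cyc_eq R P q
  -- the special labels
  set e : (Fin (n + 1) → Fin (n + 1)) → N := fun k => ⟨fun m => (1, Sum.inl (k m)), rfl⟩ with he
  have he_inj : Function.Injective e := by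
    intro k k' h
    funext m
    have h1 := congrArg (fun l : N => (l.1 m).2) h
    simpa [he] using h1
  set B : Finset N := Finset.univ.image e with hB
  set A : Finset N := hfin.toFinset with hA
  have h1 : ∑ᶠ l, F l = ∑ l ∈ A ∪ B, F l := by
    refine finsum_eq_sum_of_support_subset F ?_
    intro l hl
    simp only [Finset.coe_union, Set.mem_union, Finset.mem_coe]
    left
    exact hfin.mem_toFinset.2 hl
  have h2 : ∑ l ∈ A ∪ B, F l = ∑ l ∈ B, F l + ∑ l ∈ A \ B, F l := by
    have := Finset.sum_sdiff (f := F) (Finset.subset_union_right (s₁ := A) (s₂ := B))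
    have e1 : (A ∪ B) \ B = A \ B := Finset.union_sdiff_right A B
    rw [e1] at this
    rw [← this]; abel
  have h3 : ∑ l ∈ B, F l = ∑ k, F (e k) := by
    rw [hB, Finset.sum_image fun a _ b _ h => he_inj h]
  refine ⟨∑ l ∈ A \ B, F l, ?_, ?_⟩
  · intro σ hσ t ht
    obtain ⟨l, hl, hl2⟩ := Finsupp.mem_support_finsetSum σ hσ
    rw [Finset.mem_sdiff] at hl
    rw [Finsupp.mem_support_iff] at hl2
    have hσl : σ = B6c.sig R q n l.1 := by
      by_contra hne
      apply hl2
      simp only [hF]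
      exact Finsupp.single_eq_of_ne hne
    have hw : P.wt l.1 ≠ 0 := by
      intro h0
      apply hl2
      simp only [hF, h0, Finsupp.single_zero, Finsupp.coe_zero, Pi.zero_apply]
    rw [hσl] at ht
    obtain ⟨γ, hγ⟩ := proj_eq (Γ := Γ) (x := R.S n (fun j => ((l.1 j).1, q (l.1 j).2)) t)
      (y := p) ht
    obtain ⟨y, hy⟩ := B6b.exists_mem hw
    have hS : R.S n (fun j => ((B6c.tr γ⁻¹ l.1 j).1, q (B6c.tr γ⁻¹ l.1 j).2)) t = p := by
      have := R.equi n (fun j => ((l.1 j).1, q (l.1 j).2)) γ⁻¹ t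
      show R.S n (fun j => (γ⁻¹ * (l.1 j).1, q (l.1 j).2)) t = p
      rw [this, ← hγ, inv_smul_smul]
    have hsup : ∀ m, γ⁻¹ • y ∈ tsupport (P.fn (B6c.tr γ⁻¹ l.1 m)) := by
      intro m
      have e1 : P.fn (B6c.tr γ⁻¹ l.1 m) = fun x => P.fn (l.1 m) (γ • x) := by
        funext x
        have := B6b.fn_mul P γ⁻¹ (l.1 m) x
        rw [inv_inv] at this
        exact this
      have e2 : (fun x : E n => γ • x) ⁻¹' tsupport (P.fn (l.1 m)) ⊆
          tsupport (fun x => P.fn (l.1 m) (γ • x)) := by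
        intro x hx
        have hcont : Continuous fun x : E n => γ⁻¹ • x := Common.cont hΓ γ⁻¹
        have h4 : (fun x : E n => γ⁻¹ • x) ⁻¹' tsupport (fun x => P.fn (l.1 m) (γ • x)) ∈
            {s | IsClosed s} := (isClosed_tsupport _).preimage hcont
        have h5 : tsupport (P.fn (l.1 m)) ⊆
            (fun x : E n => γ⁻¹ • x) ⁻¹' tsupport (fun x => P.fn (l.1 m) (γ • x)) := by
          refine closure_minimal ?_ h4
          intro z hz
          refine subset_tsupport _ ?_
          show P.fn (l.1 m) (γ • γ⁻¹ • z) ≠ 0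
          rw [smul_inv_smul]; exact hz
        have h6 := h5 hx
        simpa using h6
      rw [e1]
      refine e2 ?_
      show (γ • γ⁻¹ • y : E n) ∈ tsupport (P.fn (l.1 m))
      rw [smul_inv_smul]; exact hy m
    have hc := hcase _ _ hsup t hS
    have h0 : γ⁻¹ = 1 := by
      have h7 := (hc 0).1
      have h8 : (B6c.tr γ⁻¹ l.1 0).1 = γ⁻¹ * (l.1 0).1 := rfl
      rw [h8, l.2, mul_one] at h7
      exact h7
    apply hl.2
    rw [h0, B6c.tr_one] at hc
    choose k hk using fun m => (hc m).2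
    rw [hB, Finset.mem_image]
    refine ⟨k, Finset.mem_univ _, ?_⟩
    refine Subtype.ext (funext fun m => ?_)
    exact Prod.ext (hc m).1.symm (hk m).symm
  · rw [hcyc, h1, h2, h3]
    rfl

/-! ### The affine simplex -/

/-- the vertices -/
noncomputable def Q (n : ℕ) (p : E n) (c : ℝ) (k : Fin (n + 1)) : E n := crdInv p c (vtx n k)

theorem bary_Q (p : E n) {c : ℝ} (hc : c ≠ 0) (k i : Fin (n + 1)) :
    bary k (crd p c (Q n p c i)) = if k = i then 1 else 0 := by
  rw [Q, crd_crdInv p hc, bary_vtx]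

theorem crd_comb (p : E n) {c : ℝ} (hc : c ≠ 0) (t : stdSimplex ℝ (Fin (n + 1)))
    (k : Fin (n + 1) → Fin (n + 1)) (i : Fin n) :
    crd p c (∑ m, t m • Q n p c (k m)) i = ∑ m, t m * vtx n (k m) i := by
  have h := ext_sum (fun m => t m) (stdSimplex.sum_eq_one t) p c (fun m => Q n p c (k m))
    (j := (i : ℕ) + 1)
  rw [ext_succ] at h
  rw [h]
  refine Finset.sum_congr rfl fun m _ => ?_
  rw [ext_succ, Q, crd_crdInv p hc]

theorem vtx_mem (k : Fin (n + 1)) (i : Fin n) : 0 ≤ vtx n k i ∧ vtx n k i ≤ 1 := by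
  unfold vtx; split_ifs <;> norm_num

theorem cub_comb (p : E n) {c : ℝ} (hc : c ≠ 0) (t : stdSimplex ℝ (Fin (n + 1)))
    (k : Fin (n + 1) → Fin (n + 1)) (i : Fin n) :
    -1 < crd p c (∑ m, t m • Q n p c (k m)) i ∧ crd p c (∑ m, t m • Q n p c (k m)) i < 2 := by
  rw [crd_comb p hc]
  have h1 : 0 ≤ ∑ m, t m * vtx n (k m) i :=
    Finset.sum_nonneg fun m _ => mul_nonneg (stdSimplex.zero_le t m) (vtx_mem _ _).1
  have h2 : ∑ m, t m * vtx n (k m) i ≤ ∑ m, t m :=
    Finset.sum_le_sum fun m _ => mul_le_of_le_one_right (stdSimplex.zero_le t m) (vtx_mem _ _).2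
  rw [stdSimplex.sum_eq_one t] at h2
  exact ⟨by linarith, by linarith⟩

theorem cub_p (p : E n) (c : ℝ) (i : Fin n) : -1 < crd p c p i ∧ crd p c p i < 2 := by
  rw [crd_self]
  have := xc_mem i
  exact ⟨by linarith, by linarith⟩

/-- degenerate simplices do not meet the orbit of `p` -/
theorem degen (R : Sys n Γ) (p : E n) {c : ℝ} (hc : c ≠ 0)
    (hinj : ∀ γ : Γ, (∃ x, (∀ i, -1 < crd p c x i ∧ crd p c x i < 2) ∧
      (∀ i, -1 < crd p c (γ • x) i ∧ crd p c (γ • x) i < 2)) → γ = 1)
    (k : Fin (n + 1) → Fin (n + 1)) (hk : ¬ Function.Surjective k) (t) :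
    ((proj n Γ).comp (R.S n fun m => (1, Q n p c (k m)))) t ≠ proj n Γ p := by
  intro h
  obtain ⟨γ, hγ⟩ := proj_eq (Γ := Γ) (x := R.S n (fun m => (1, Q n p c (k m))) t) (y := p) h
  have hS : R.S n (fun m => (1, Q n p c (k m))) t = ∑ m, t m • Q n p c (k m) :=
    R.affine n _ (fun _ => rfl) t
  rw [hS] at hγ
  have h1 : γ = 1 := hinj γ ⟨p, cub_p p c, fun i => by rw [hγ]; exact cub_comb p hc t k i⟩
  rw [h1, one_smul] at hγ
  apply hk
  by_contra hns
  simp only [Function.Surjective] at hns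
  push Not at hns
  obtain ⟨a, ha⟩ := hns
  have h2 : bary a (crd p c p) = 1 / ((n : ℝ) + 1) := by rw [crd_self, bary_xc]
  have h3 : bary a (crd p c (∑ m, t m • Q n p c (k m))) = 0 := by
    rw [bary_sum (fun m => t m) (stdSimplex.sum_eq_one t)]
    refine Finset.sum_eq_zero fun m _ => ?_
    rw [bary_Q p hc, if_neg (fun h => ha m h.symm), mul_zero]
  rw [← hγ] at h3
  rw [h3] at h2
  have : (0 : ℝ) < 1 / ((n : ℝ) + 1) := by positivity
  linarith

theorem main (hCase : SpecCase) (hTheta : SpecTheta) (hAlt : SpecAlt) : SpecLoc := by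
  classical
  intro n Γ _ _ hn hΓ R hR p
  obtain ⟨c, χ, ι, _, P, q, hc, hχ, hχc, hχ1, hφ, hq, hinj, hcase⟩ := hCase n Γ hn hΓ R hR p
  obtain ⟨hth1, hth2⟩ := hTheta n hn p c hc χ hχ hχc hχ1
  obtain ⟨c', hc', hcyc⟩ := local_part hΓ R p P q hcase
  have hcn : c ≠ 0 := hc.ne'
  -- notation
  set S : (Fin (n + 1) → Fin (n + 1)) → Simp (n + 1) (Mfd n Γ) := fun k =>
    (proj n Γ).comp (R.S n fun m => (1, Q n p c (k m))) with hS
  have hS' : ∀ k : Fin (n + 1) → Fin (n + 1),
      (proj n Γ).comp (R.S n fun m => (1, q (Sum.inl (k m)))) = S k := fun k => by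
    simp only [hS, hq, Q]
  have hw : ∀ k : Fin (n + 1) → Fin (n + 1), P.wt (fun m => (1, Sum.inl (k m))) =
      wt (fun m y => χ y * tht (k m) (crd p c y)) := by
    intro k
    unfold PU.wt
    congr 1
    funext m y
    simp only [PU.fn, inv_one, one_smul, hφ]
  simp only [hS', hw] at hcyc
  -- only permutations contribute
  have hperm : ∑ k : Fin (n + 1) → Fin (n + 1), Finsupp.single (S k)
      (wt (fun m y => χ y * tht (k m) (crd p c y))) =
      ∑ π : Equiv.Perm (Fin (n + 1)), Finsupp.single (S π)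
        ((Equiv.Perm.sign π : ℤ) * ((n + 1).factorial : ℝ)⁻¹) := by
    have h1 : ∑ π : Equiv.Perm (Fin (n + 1)), Finsupp.single (S π)
        ((Equiv.Perm.sign π : ℤ) * ((n + 1).factorial : ℝ)⁻¹) =
        ∑ π : Equiv.Perm (Fin (n + 1)), Finsupp.single (S π)
          (wt (fun m y => χ y * tht (π m) (crd p c y))) :=
      Finset.sum_congr rfl fun π _ => by rw [hth1 π]
    rw [h1]
    have hinjc : Function.Injective (fun π : Equiv.Perm (Fin (n + 1)) => (π : Fin (n + 1) → _)) :=
      fun a b h => DFunLike.coe_injective h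
    rw [← Finset.sum_image (s := Finset.univ)
      (g := fun π : Equiv.Perm (Fin (n + 1)) => (π : Fin (n + 1) → Fin (n + 1)))
      (f := fun k => Finsupp.single (S k) (wt (fun m y => χ y * tht (k m) (crd p c y))))
      (fun a _ b _ h => hinjc h)]
    symm
    refine Finset.sum_subset (Finset.subset_univ _) fun k _ hk => ?_
    have hni : ¬ Function.Injective k := by
      intro hi
      apply hk
      rw [Finset.mem_image]
      refine ⟨Equiv.ofBijective k (Finite.injective_iff_bijective.1 hi), Finset.mem_univ _, ?_⟩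
      rfl
    rw [hth2 k hni, Finsupp.single_zero]
  -- alternation
  choose b d hbd hd using fun π : Equiv.Perm (Fin (n + 1)) => hAlt n Γ hΓ R (Q n p c) π
  have hsgn : ∀ π : Equiv.Perm (Fin (n + 1)), ((Equiv.Perm.sign π : ℤ) : ℝ) *
      ((Equiv.Perm.sign π : ℤ) : ℝ) = 1 := fun π => by
    rcases Int.units_eq_one_or (Equiv.Perm.sign π) with h | h <;> rw [h] <;> simp
  set a : ℝ := ((n + 1).factorial : ℝ)⁻¹ with ha
  set sg : Equiv.Perm (Fin (n + 1)) → ℝ := fun π => ((Equiv.Perm.sign π : ℤ) : ℝ) with hsg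
  have hone : ∀ π : Equiv.Perm (Fin (n + 1)), Finsupp.single (S π) (sg π * a) =
      a • Finsupp.single (S (fun m => m)) (1 : ℝ) + (sg π * a) • bd (n + 1) (b π) +
        (sg π * a) • d π := by
    intro π
    have h1 : Finsupp.single (S π) (sg π * a) = (sg π * a) • Finsupp.single (S π) (1 : ℝ) := by
      rw [Finsupp.smul_single, smul_eq_mul, mul_one]
    have h2 : Finsupp.single (S π) (1 : ℝ) = sg π • Finsupp.single (S (fun m => m)) 1 +
        bd (n + 1) (b π) + d π := hbd π
    rw [h1]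
    conv_lhs => rw [h2]
    rw [smul_add, smul_add, smul_smul]
    have h3 : sg π * a * sg π = a := by
      have := hsgn π
      calc sg π * a * sg π = (sg π * sg π) * a := by ring
        _ = a := by rw [this, one_mul]
    rw [h3]
  have hsum : ∑ π : Equiv.Perm (Fin (n + 1)), Finsupp.single (S π) (sg π * a) =
      Finsupp.single (S (fun m => m)) (1 : ℝ) + bd (n + 1) (∑ π, (sg π * a) • b π) +
        ∑ π, (sg π * a) • d π := by
    rw [Finset.sum_congr rfl fun π _ => hone π, Finset.sum_add_distrib, Finset.sum_add_distrib,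
      Finset.sum_const, Finset.card_univ, Fintype.card_perm, Fintype.card_fin, map_sum]
    simp only [map_smul]
    have : (n + 1).factorial • a • Finsupp.single (S (fun m => m)) (1 : ℝ) =
        Finsupp.single (S (fun m => m)) (1 : ℝ) := by
      rw [← Nat.cast_smul_eq_nsmul ℝ, smul_smul, ha, mul_inv_cancel₀, one_smul]
      exact_mod_cast (n + 1).factorial_ne_zero
    rw [this]
  -- the affine simplex
  set s : Simp (n + 1) (E n) := R.S n (fun m => (1, Q n p c m)) with hs
  have hsa : ∀ t, s t = ∑ m, t m • Q n p c m := fun t => R.affine n _ (fun _ => rfl) t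
  set A : Matrix (Fin n) (Fin n) ℝ := Matrix.of fun i j => Q n p c i.succ j - Q n p c 0 j with hA
  refine ⟨Fin (n + 1) ⊕ ι, inferInstance, P, q, Q n p c 0, A, s, ?_, ?_, ?_, ?_,
    ∑ π, (sg π * a) • b π, ∑ π, (sg π * a) • d π + c', ?_, ?_⟩
  · -- determinant
    have hA' : ∀ i j : Fin n, A i j = if j ≤ i then c else 0 := by
      intro i j
      simp only [hA, Matrix.of_apply, Q, crdInv, vtx, Fin.val_succ, Fin.val_zero, Fin.le_def]
      have e1 : ((j : ℕ) < i + 1) ↔ ((j : ℕ) ≤ i) := Nat.lt_succ_iff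
      simp only [e1, Nat.not_lt_zero, if_false]
      split_ifs <;> ring
    have htri : A.BlockTriangular OrderDual.toDual := by
      intro i j hij
      rw [hA', if_neg]
      exact not_le.2 (OrderDual.toDual_lt_toDual.1 hij)
    rw [Matrix.det_of_isLowerTriangular A htri]
    refine Finset.prod_pos fun i _ => ?_
    rw [hA', if_pos le_rfl]; exact hc
  · intro t
    rw [hsa]
    funext j
    have h1 := stdSimplex.sum_eq_one t
    rw [Fin.sum_univ_succ] at h1
    rw [Fin.sum_univ_succ]
    simp only [Pi.add_apply, Pi.smul_apply, smul_eq_mul, Finset.sum_apply, hA, Matrix.of_apply,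
      mul_sub, Finset.sum_sub_distrib, ← Finset.sum_mul]
    have h2 : t 0 = 1 - ∑ i : Fin n, t i.succ := by linarith
    rw [h2]; ring
  · -- the barycentre
    have hmem : (fun _ => 1 / ((n : ℝ) + 1) : Fin (n + 1) → ℝ) ∈ stdSimplex ℝ (Fin (n + 1)) := by
      refine ⟨fun _ => by positivity, ?_⟩
      rw [Finset.sum_const, Finset.card_univ, Fintype.card_fin, nsmul_eq_mul]
      push_cast
      field_simp
    set t : stdSimplex ℝ (Fin (n + 1)) := ⟨fun _ => 1 / ((n : ℝ) + 1), hmem⟩ with ht
    refine ⟨t, fun i => ?_, ?_⟩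
    · show 0 < 1 / ((n : ℝ) + 1)
      positivity
    · rw [hsa]
      have hcr : crd p c (∑ m, t m • Q n p c m) = crd p c p := by
        funext i
        have := crd_comb p hcn t (fun m => m) i
        rw [this, crd_self]
        have e1 : ∀ m, t m = 1 / ((n : ℝ) + 1) := fun m => rfl
        simp only [e1, vtx, ← Finset.mul_sum, xc]
        rw [Finset.sum_boole]
        have e2 : (Finset.univ.filter fun m : Fin (n + 1) => (i : ℕ) < m).card = n - i := by
          have : (Finset.univ.filter fun m : Fin (n + 1) => (i : ℕ) < m) =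
              Finset.Ioi i.castSucc := by
            ext m; simp [Fin.lt_def]
          rw [this, Fin.card_Ioi]
          simp
        rw [e2, Nat.cast_sub i.2.le]
        ring
      have hinv : ∀ x : E n, crdInv p c (crd p c x) = x := by
        intro x; funext i
        simp only [crdInv, crd]
        field_simp
        ring
      have := congrArg (crdInv p c) hcr
      rwa [hinv, hinv] at this
  · intro t t' γ h
    refine hinj γ ⟨s t, ?_, ?_⟩
    · intro i; rw [hsa]; exact cub_comb p hcn t (fun m => m) i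
    · intro i; rw [h, hsa]; exact cub_comb p hcn t' (fun m => m) i
  · intro σ hσ t
    rcases Finset.mem_union.1 (Finsupp.support_add hσ) with h | h
    · obtain ⟨π, _, hπ⟩ := Finsupp.mem_support_finsetSum σ h
      have hπ2 : σ ∈ (d π).support := Finsupp.support_smul hπ
      obtain ⟨k, hk, rfl⟩ := hd π σ hπ2
      exact degen R p hcn hinj k hk t
    · exact hc' σ h t
  · rw [hcyc, hperm, hsum]
    have : (proj n Γ).comp s = S (fun m => m) := rfl
    rw [this]; abel

end Vale.Agent.P223.H.B8e
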