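import Vale.Agent.P223.H.Grad

/-! Block 9: truncation. -/

namespace Vale.Agent.P223.H.B9

open scoped ContDiff
open MeasureTheory Common Grad

variable {n : ℕ} {Γ : Type} [Group Γ] [MulAction Γ (E n)] {G : E n → Matrix (Fin n) (Fin n) ℝ}

theorem continuous_inv (hG : Met n Γ G) (i j : Fin n) : Continuous fun x => (G x)⁻¹ i j := by
  refine continuous_iff_continuousAt.2 fun x => ?_
  exact (Sm.inv (fun a b => (hG.smooth a b).contDiffAt) (hG.pos x).det_pos.ne' i j).continuousAt

theorem continuous_pd {f : E n → ℝ} (hf : ContDiff ℝ 1 f) (i : Fin n) :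
    Continuous fun x => H.pd i f x :=
  (Bridge.contDiff_pd hf (k := 0) (by norm_num) i).continuous

theorem continuous_gradSq (hG : Met n Γ G) {f : E n → ℝ} (hf : ContDiff ℝ 1 f) :
    Continuous fun x => gradSq G f x := by
  unfold gradSq gradIp
  refine continuous_finsetSum _ fun i _ => continuous_finsetSum _ fun j _ => ?_
  exact ((continuous_inv hG i j).mul (continuous_pd hf i)).mul (continuous_pd hf j)

theorem continuous_dens (hG : Met n Γ G) : Continuous fun x => dens G x := by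
  have : Continuous fun x => G x := continuous_matrix fun i j => (hG.smooth i j).continuous
  exact Real.continuous_sqrt.comp (Continuous.matrix_det this)

/-- Comparison of the differential and the gradient on compact sets. -/
theorem cmp (hG : Met n Γ G) {K : Set (E n)} (hK : IsCompact K) : ∃ c : ℝ, 0 < c ∧
    ∀ f : E n → ℝ, ∀ x ∈ K, ‖fderiv ℝ f x‖ ≤ c * √(gradSq G f x) ∧
      √(gradSq G f x) ≤ c * ‖fderiv ℝ f x‖ := by
  have c1 : Continuous fun x => ∑ i, √(G x i i) :=
    continuous_finsetSum _ fun i _ => Real.continuous_sqrt.comp (hG.smooth i i).continuous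
  have c2 : Continuous fun x => √(∑ i, ∑ j, |(G x)⁻¹ i j|) :=
    Real.continuous_sqrt.comp (continuous_finsetSum _ fun i _ => continuous_finsetSum _ fun j _ =>
      (continuous_inv hG i j).abs)
  obtain ⟨C1, h1⟩ := hK.exists_bound_of_continuousOn c1.continuousOn
  obtain ⟨C2, h2⟩ := hK.exists_bound_of_continuousOn c2.continuousOn
  refine ⟨max (max C1 C2) 1, by positivity, fun f x hx => ⟨?_, ?_⟩⟩
  · refine (norm_fderiv_le_sqrt (hG.pos x) f).trans ?_
    refine mul_le_mul_of_nonneg_right ?_ (Real.sqrt_nonneg _)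
    exact (le_abs_self _).trans ((h1 x hx).trans ((le_max_left _ _).trans (le_max_left _ _)))
  · refine (Real.sqrt_le_sqrt (gradSq_le f x)).trans ?_
    have hnn : 0 ≤ ∑ i, ∑ j, |(G x)⁻¹ i j| :=
      Finset.sum_nonneg fun i _ => Finset.sum_nonneg fun j _ => abs_nonneg _
    rw [Real.sqrt_mul hnn, Real.sqrt_sq (norm_nonneg _)]
    refine mul_le_mul_of_nonneg_right ?_ (norm_nonneg _)
    exact (le_abs_self _).trans ((h2 x hx).trans ((le_max_right _ _).trans (le_max_left _ _)))

theorem tangent (m : ℕ) (r s : ℝ) (hr : 0 ≤ r) (hs : 0 ≤ s) :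
    s ^ (m + 1) + (m + 1) * s ^ m * (r - s) ≤ r ^ (m + 1) := by
  induction m with
  | zero => simp
  | succ m ih =>
    have h1 := mul_le_mul_of_nonneg_left ih hr
    have h2 : 0 ≤ (m + 1) * s ^ m * (r - s) ^ 2 := by positivity
    push_cast
    calc s ^ (m + 1 + 1) + (m + 1 + 1) * s ^ (m + 1) * (r - s)
        = r * (s ^ (m + 1) + (m + 1) * s ^ m * (r - s)) - (m + 1) * s ^ m * (r - s) ^ 2 := by ring
      _ ≤ r * r ^ (m + 1) := by linarith
      _ = r ^ (m + 1 + 1) := by ring

section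
variable (h : Act n Γ) (hG : Met n Γ G) {W v : E n → ℝ} {A : ℝ} (hW : Wt n Γ G W)
  (hv : Step n Γ G W A v)
include h hG hW hv

omit h hG in
theorem A_pos : 0 < A := by
  by_contra hA
  push Not at hA
  have : ∀ γ : Γ, v (γ • (0 : E n)) ≤ 0 := fun γ =>
    (hv.upper _).trans (mul_nonpos_of_nonpos_of_nonneg hA (hW.pos _).le)
  have h1 := hasSum_le this (hv.sum 0) hasSum_zero
  linarith

omit h hG in
theorem v_pos (x : E n) : 0 < v x := by
  have h1 := hv.lower x
  have h3 := hW.pos x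
  exact (pos_iff_pos_of_mul_pos (h3.trans_le h1)).1 (A_pos hW hv)

omit h in
theorem sqrt_le (x : E n) : √(gradSq G v x) ≤ A * W x := by
  have := Real.sqrt_le_sqrt (hv.grad x)
  rwa [Real.sqrt_sq (mul_nonneg (A_pos hW hv).le (hW.pos x).le)] at this

omit h in
theorem summable_a (x : E n) : Summable fun γ : Γ => √(gradSq G v (γ • x)) :=
  Summable.of_nonneg_of_le (fun _ => Real.sqrt_nonneg _) (fun γ => sqrt_le hG hW hv (γ • x))
    ((hW.sum x).summable.mul_left A)

/-- total gradient norm -/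
noncomputable def HH (Γ : Type) [Group Γ] [MulAction Γ (E n)] (G : E n → Matrix (Fin n) (Fin n) ℝ)
    (v : E n → ℝ) (x : E n) : ℝ := ∑' γ : Γ, √(gradSq G v (γ • x))

omit h in
theorem HH_le (x : E n) : HH Γ G v x ≤ A := by
  have := (summable_a hG hW hv x).tsum_le_tsum (fun γ => sqrt_le hG hW hv (γ • x))
    ((hW.sum x).summable.mul_left A)
  rwa [tsum_mul_left, (hW.sum x).tsum_eq, mul_one] at this

omit h in
theorem HH_nonneg (x : E n) : 0 ≤ HH Γ G v x := tsum_nonneg fun _ => Real.sqrt_nonneg _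

omit h in
theorem F_eq (x : E n) : v x * (gradSq G v x / v x ^ 2) ^ ((n : ℝ) / 2) =
    v x * (√(gradSq G v x) / v x) ^ n := by
  have hvx := v_pos hW hv x
  have h0 := gradSq_nonneg' (hG.pos x) v
  congr 1
  have : gradSq G v x / v x ^ 2 = (√(gradSq G v x) / v x) ^ (2 : ℝ) := by
    rw [Real.rpow_two, div_pow, Real.sq_sqrt h0]
  rw [this, ← Real.rpow_mul (by positivity), mul_div_cancel₀ _ (two_ne_zero), Real.rpow_natCast]

/-- Jensen's inequality -/
theorem jensen (hn : 1 ≤ n) (x : E n) : ENNReal.ofReal (HH Γ G v x ^ n) ≤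
    ∑' γ : Γ, ENNReal.ofReal (v (γ • x) * (gradSq G v (γ • x) / v (γ • x) ^ 2) ^ ((n : ℝ) / 2)) := by
  obtain ⟨m, rfl⟩ : ∃ m, n = m + 1 := ⟨n - 1, by omega⟩
  have hA := A_pos hW hv
  have hvp := fun γ : Γ => v_pos hW hv (γ • x)
  have hWp := fun γ : Γ => hW.pos (γ • x)
  set a : Γ → ℝ := fun γ => √(gradSq G v (γ • x)) with ha
  set V : Γ → ℝ := fun γ => v (γ • x) with hV
  set F : Γ → ℝ := fun γ => V γ * (a γ / V γ) ^ (m + 1) with hF
  have hF0 : ∀ γ, 0 ≤ F γ := fun γ => by
    have := hvp γ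
    positivity
  have e : ∀ γ : Γ, v (γ • x) * (gradSq G v (γ • x) / v (γ • x) ^ 2) ^ (((m + 1 : ℕ) : ℝ) / 2) =
      F γ := fun γ => F_eq hG hW hv (γ • x)
  simp only [e]
  have hle : ∀ γ, F γ ≤ A * (A * A) ^ (m + 1) * W (γ • x) := by
    intro γ
    have h1 : a γ / V γ ≤ A * A := by
      rw [div_le_iff₀ (hvp γ)]
      calc a γ ≤ A * W (γ • x) := sqrt_le hG hW hv (γ • x)
        _ ≤ A * (A * V γ) := mul_le_mul_of_nonneg_left (hv.lower _) hA.le
        _ = _ := by ring
    calc F γ ≤ (A * W (γ • x)) * (A * A) ^ (m + 1) :=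
          mul_le_mul (hv.upper _) (pow_le_pow_left₀ (div_nonneg (Real.sqrt_nonneg _)
            (hvp γ).le) h1 _) (by have := hvp γ; positivity) (by have := hWp γ; positivity)
      _ = _ := by ring
  have hFs : Summable F := Summable.of_nonneg_of_le hF0 hle ((hW.sum x).summable.mul_left _)
  rw [← ENNReal.ofReal_tsum_of_nonneg hF0 hFs]
  refine ENNReal.ofReal_le_ofReal ?_
  set s := HH Γ G v x with hs
  have hs0 : 0 ≤ s := HH_nonneg hG hW hv x
  have hterm : ∀ γ, V γ * s ^ (m + 1) + (m + 1) * s ^ m * (a γ - s * V γ) ≤ F γ := by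
    intro γ
    have h1 := tangent m (a γ / V γ) s (div_nonneg (Real.sqrt_nonneg _) (hvp γ).le) hs0
    have h2 := mul_le_mul_of_nonneg_left h1 (hvp γ).le
    have h3 : V γ * (s ^ (m + 1) + (m + 1) * s ^ m * (a γ / V γ - s)) =
        V γ * s ^ (m + 1) + (m + 1) * s ^ m * (a γ - s * V γ) := by
      have : V γ ≠ 0 := (hvp γ).ne'
      field_simp
    rw [← h3]; exact h2
  have hVs : HasSum V 1 := hv.sum x
  have has : HasSum a s := (summable_a hG hW hv x).hasSum
  have h1 : HasSum (fun γ => V γ * s ^ (m + 1) + (m + 1) * s ^ m * (a γ - s * V γ))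
      (1 * s ^ (m + 1) + (m + 1) * s ^ m * (s - s * 1)) :=
    (hVs.mul_right _).add ((has.sub (hVs.mul_left s)).mul_left _)
  have h2 := hasSum_le hterm h1 hFs.hasSum
  simpa using h2

/-- uniform tails -/
theorem exists_tail {K : Set (E n)} (hK : IsCompact K) (h0 : (0 : E n) ∈ K) {τ : ℝ} (hτ : 0 < τ) :
    ∃ (T : Finset Γ) (u : Γ → ℝ), Summable u ∧ (∀ γ, ∀ x ∈ K, W (γ • x) ≤ u γ) ∧
      ∑' γ, ((T : Set Γ)ᶜ).indicator u γ ≤ τ := by
  obtain ⟨C, hC⟩ := hW.harnack K hK
  have hs : Summable fun γ : Γ => C * W (γ • (0 : E n)) := (hW.sum 0).summable.mul_left C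
  have ht := tendsto_tsum_compl_atTop_zero (fun γ : Γ => C * W (γ • (0 : E n)))
  obtain ⟨T, hT⟩ := ((ht.eventually (Iio_mem_nhds hτ)).exists)
  refine ⟨T, _, hs, fun γ x hx => hC γ x hx 0 h0, ?_⟩
  rw [← tsum_subtype]
  exact (le_of_lt hT)

end

section cut

variable (h : Act n Γ) (hG : Met n Γ G) {χ : E n → ℝ} (hχ : ContDiff ℝ ∞ χ)
  (hχc : HasCompactSupport χ) (hχ0 : ∀ x, 0 ≤ χ x) (hχs : ∀ x : E n, ∑ᶠ γ : Γ, χ (γ⁻¹ • x) = 1)

/-- cutoff function -/
noncomputable def cut (χ : E n → ℝ) (F : Finset Γ) (x : E n) : ℝ := ∑ g ∈ F, χ (g⁻¹ • x)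

include h hχ

theorem contDiff_cut (F : Finset Γ) : ContDiff ℝ ∞ (cut χ F) :=
  ContDiff.sum fun g _ => hχ.comp (h.smooth g⁻¹)

include hχc hχs

omit hχ in
theorem fin_supp (x : E n) : (Function.support fun γ : Γ => χ (γ⁻¹ • x)).Finite :=
  ((locallyFinite_support h χ hχc).point_finite x).subset fun γ hγ => hγ

include hχ0

omit hχ in
theorem cut_le (F : Finset Γ) (x : E n) : cut χ F x ≤ 1 := by
  classical
  rw [← hχs x, finsum_eq_sum_of_support_subset (s := F ∪ (fin_supp h hχc hχs x).toFinset) _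
    (by simp)]
  exact Finset.sum_le_sum_of_subset_of_nonneg Finset.subset_union_left fun _ _ _ => hχ0 _

omit h hχ hχc hχs in
theorem cut_nonneg (F : Finset Γ) (x : E n) : 0 ≤ cut χ F x := Finset.sum_nonneg fun _ _ => hχ0 _

omit hχ hχc hχ0 h in
theorem cut_eq_one (F : Finset Γ) (x : E n) (hF : ∀ g : Γ, χ (g⁻¹ • x) ≠ 0 → g ∈ F) :
    cut χ F x = 1 := by
  rw [← hχs x, finsum_eq_sum_of_support_subset (s := F) _ (fun g hg => by simpa using hF g hg)]
  rfl

omit hχs hχ0 hχ in
theorem compact_cut (F : Finset Γ) : HasCompactSupport (cut χ F) := by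
  classical
  have : ∀ g : Γ, HasCompactSupport fun x : E n => χ (g⁻¹ • x) := fun g => by
    refine HasCompactSupport.of_support_subset_isCompact
      (hχc.image (cont h g)) ?_
    intro x hx
    exact ⟨g⁻¹ • x, subset_tsupport _ hx, by simp⟩
  unfold cut
  induction F using Finset.induction_on with
  | empty => simpa using! HasCompactSupport.zero
  | insert a s ha ih => simpa [Finset.sum_insert ha] using! (this a).add ih

include hG

omit hχ0 in
theorem exists_B : ∃ B : ℝ, 0 < B ∧ ∀ (F : Finset Γ) (x : E n), √(gradSq G (cut χ F) x) ≤ B := by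
  classical
  have hc1 : ContDiff ℝ 1 χ := hχ.of_le (mod_cast le_top)
  have hcont : Continuous fun x => √(gradSq G χ x) :=
    Real.continuous_sqrt.comp (continuous_gradSq hG hc1)
  have hcs : HasCompactSupport fun x => √(gradSq G χ x) := by
    refine HasCompactSupport.of_support_subset_isCompact hχc fun x hx => ?_
    by_contra hx'
    apply hx
    have : χ =ᶠ[nhds x] fun _ => (0 : ℝ) := notMem_tsupport_iff_eventuallyEq.1 hx'
    show √(gradSq G χ x) = 0
    rw [gradSq_congr this, show gradSq G (fun _ => (0 : ℝ)) x = 0 from gradIp_const_right 0]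
    simp
  have hlf := locallyFinite_support h _ hcs
  have hN : Continuous fun x : E n => ∑ᶠ g : Γ, √(gradSq G χ (g⁻¹ • x)) :=
    continuous_finsum (fun g => hcont.comp (cont h g⁻¹)) hlf
  obtain ⟨B, hB, hB'⟩ := bounded h _ hN fun γ x => by
    rw [avg_inv (fun y => √(gradSq G χ y)) γ x]
  refine ⟨B, hB, fun F x => ?_⟩
  have hfin : (Function.support fun g : Γ => √(gradSq G χ (g⁻¹ • x))).Finite :=
    (hlf.point_finite x).subset fun γ hγ => hγ
  have hd : ∀ y, DifferentiableAt ℝ χ y := fun y => hc1.differentiable (by simp) y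
  calc √(gradSq G (cut χ F) x) ≤ ∑ g ∈ F, √(gradSq G (fun y => χ (g⁻¹ • y)) x) :=
        sqrt_gradSq_sum_le (hG.pos x) F _ fun g _ => (hd _).comp x (diff h g⁻¹ x)
    _ = ∑ g ∈ F, √(gradSq G χ (g⁻¹ • x)) := Finset.sum_congr rfl fun g _ => by
        rw [gradSq_comp h hG g⁻¹ χ x (hd _)]
    _ ≤ ∑ᶠ g : Γ, √(gradSq G χ (g⁻¹ • x)) := by
        rw [finsum_eq_sum_of_support_subset (s := F ∪ hfin.toFinset) _ (by simp)]
        exact Finset.sum_le_sum_of_subset_of_nonneg Finset.subset_union_left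
          fun _ _ _ => Real.sqrt_nonneg _
    _ ≤ B := (le_abs_self _).trans (hB' x)

end cut

section main

variable (h : Act n Γ) (hG : Met n Γ G) {W v : E n → ℝ} {A : ℝ} (hW : Wt n Γ G W)
  (hv : Step n Γ G W A v)
include h hG hW hv

/-- derivative of the constant `∑ v (γ x) = 1` -/
theorem tsum_fderiv {c R : ℝ} (hR : 0 < R) (u : Γ → ℝ) (hu : Summable u)
    (hc : 0 < c) (hcmp : ∀ f : E n → ℝ, ∀ x ∈ Metric.closedBall (0 : E n) R,
      ‖fderiv ℝ f x‖ ≤ c * √(gradSq G f x))
    (hWu : ∀ γ : Γ, ∀ x ∈ Metric.closedBall (0 : E n) R, W (γ • x) ≤ u γ) (x : E n)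
    (hx : x ∈ Metric.ball (0 : E n) R) :
    HasSum (fun γ : Γ => fderiv ℝ (fun y : E n => v (γ • y)) x) 0 := by
  have hA := A_pos hW hv
  have hvd : Differentiable ℝ v := hv.smooth.differentiable (by simp)
  have hd : ∀ (γ : Γ) (y : E n), DifferentiableAt ℝ (fun y : E n => v (γ • y)) y := fun γ y =>
    (hvd _).comp y (diff h γ y)
  have hbd : ∀ (γ : Γ) (y : E n), y ∈ Metric.ball (0 : E n) R →
      ‖fderiv ℝ (fun y : E n => v (γ • y)) y‖ ≤ c * A * u γ := by
    intro γ y hy
    have hy' := Metric.ball_subset_closedBall hy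
    refine (hcmp _ y hy').trans ?_
    rw [gradSq_comp h hG γ v y (hvd _), mul_assoc]
    exact mul_le_mul_of_nonneg_left ((sqrt_le hG hW hv (γ • y)).trans
      (mul_le_mul_of_nonneg_left (hWu γ y hy') hA.le)) hc.le
  have key := hasFDerivAt_tsum_of_isPreconnected (hu.mul_left (c * A)) Metric.isOpen_ball
    (convex_ball (0 : E n) R).isPreconnected (fun γ y _ => (hd γ y).hasFDerivAt)
    (fun γ y hy => hbd γ y hy) hx (hv.sum x).summable hx
  have e : (fun y : E n => ∑' γ : Γ, v (γ • y)) = fun _ => (1 : ℝ) := by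
    funext y; exact (hv.sum y).tsum_eq
  rw [e] at key
  have h0 := key.unique (hasFDerivAt_const (1 : ℝ) x)
  have hsum : Summable fun γ : Γ => fderiv ℝ (fun y : E n => v (γ • y)) x :=
    Summable.of_norm_bounded (hu.mul_left (c * A)) fun γ => hbd γ x hx
  rw [← h0]
  exact hsum.hasSum

/-- The truncated function. -/
theorem trunc {R η : ℝ} (hR : 0 < R) (hη : 0 < η) :
    ∃ P : PU n Γ Unit, (∀ x, 0 ≤ P.φ () x) ∧ ∀ x ∈ Metric.ball (0 : E n) R,
      ∑ᶠ γ : Γ, √(gradSq G (P.φ ()) (γ • x)) ≤ HH Γ G v x + η := by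
  classical
  obtain ⟨χ, hχ, hχc, hχ0, hχs⟩ := exists_chi h
  obtain ⟨B, hB, hB'⟩ := exists_B h hG hχ hχc hχs
  obtain ⟨c, hc, hcmp⟩ := cmp hG (isCompact_closedBall (0 : E n) R)
  have hA := A_pos hW hv
  have hvd : Differentiable ℝ v := hv.smooth.differentiable (by simp)
  -- constants
  set E1 : ℝ := c * (c * (2 * A + A * B)) with hE1
  have hE1p : 0 < E1 := by positivity
  set Q : ℝ := A * B + E1 + 2 * A * (A + A * B + E1) with hQ
  have hQp : 0 < Q := by positivity
  set τ : ℝ := min (min 1 (1 / (2 * A))) (η / Q) with hτ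
  have hτp : 0 < τ := by positivity
  have hτ1 : τ ≤ 1 := (min_le_left _ _).trans (min_le_left _ _)
  have hτA : A * τ ≤ 1 / 2 := by
    have : τ ≤ 1 / (2 * A) := (min_le_left _ _).trans (min_le_right _ _)
    calc A * τ ≤ A * (1 / (2 * A)) := mul_le_mul_of_nonneg_left this hA.le
      _ = 1 / 2 := by field_simp
  have hτQ : Q * τ ≤ η := by
    have : τ ≤ η / Q := min_le_right _ _
    calc Q * τ ≤ Q * (η / Q) := mul_le_mul_of_nonneg_left this hQp.le
      _ = η := by field_simp
  obtain ⟨T, u, hu, hWu, hT⟩ := exists_tail h hG hW hv (isCompact_closedBall (0 : E n) R)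
    (by simp [hR.le]) hτp
  have hu0 : ∀ γ, 0 ≤ u γ := fun γ =>
    (hW.pos _).le.trans (hWu γ 0 (by simp [hR.le]))
  -- the finite set of translates
  have hKT : IsCompact (⋃ γ ∈ T, (fun y : E n => γ • y) '' Metric.closedBall (0 : E n) R) :=
    T.isCompact_biUnion fun γ _ => (isCompact_closedBall _ _).image (cont h γ)
  have hFfin := finite_meet h hχc hKT
  set F : Finset Γ := insert 1 hFfin.toFinset with hF
  have hcut1 : ∀ γ ∈ T, ∀ x ∈ Metric.closedBall (0 : E n) R, cut χ F (γ • x) = 1 := by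
    intro γ hγ x hx
    refine cut_eq_one hχs F _ fun g hg => ?_
    rw [hF, Finset.mem_insert, Set.Finite.mem_toFinset]
    right
    refine ⟨g⁻¹ • γ • x, subset_tsupport _ hg, ?_⟩
    simp only [smul_inv_smul]
    exact Set.mem_biUnion hγ ⟨x, hx, rfl⟩
  -- the functions
  set ψ : E n → ℝ := cut χ F with hψ
  have hψs : ContDiff ℝ ∞ ψ := contDiff_cut h hχ F
  have hψd : Differentiable ℝ ψ := hψs.differentiable (by simp)
  have hψ1 : ∀ x, ψ x ≤ 1 := cut_le h hχc hχ0 hχs F
  have hψ0 : ∀ x, 0 ≤ ψ x := cut_nonneg hχ0 F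
  have hψc : HasCompactSupport ψ := compact_cut h hχc F
  set φ : E n → ℝ := fun x => v x * ψ x with hφ
  have hφ1 : ContDiff ℝ 1 φ := (hv.smooth.of_le (by norm_num)).mul (hψs.of_le (mod_cast le_top))
  have hφd : Differentiable ℝ φ := hφ1.differentiable (by simp)
  have hφc : HasCompactSupport φ := hψc.mul_left
  have hφ0 : ∀ x, 0 ≤ φ x := fun x => mul_nonneg (v_pos hW hv x).le (hψ0 x)
  have hφv : ∀ x, φ x ≤ v x := fun x => by
    simpa using mul_le_mul_of_nonneg_left (hψ1 x) (v_pos hW hv x).le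
  set s : E n → ℝ := fun x => ∑ᶠ γ : Γ, φ (γ⁻¹ • x) with hs
  have hs1 : ContDiff ℝ 1 s := contDiff_avg (m := 1) h φ hφc hφ1
  have hsd : Differentiable ℝ s := hs1.differentiable (by simp)
  have hfs : ∀ x : E n, (Function.support fun γ : Γ => φ (γ⁻¹ • x)).Finite := fun x =>
    ((locallyFinite_support h φ hφc).point_finite x).subset fun γ hγ => hγ
  have hfs' : ∀ x : E n, (Function.support fun γ : Γ => φ (γ • x)).Finite := fun x => by
    have := (hfs x).preimage (inv_injective.injOn (s := Function.support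
      (fun γ : Γ => φ (γ⁻¹ • x)) |> fun t => (fun γ : Γ => γ⁻¹) ⁻¹' t))
    refine this.subset fun γ hγ => ?_
    simpa using hγ
  have hsinv : ∀ (γ : Γ) x, s (γ • x) = s x := fun γ x => avg_inv φ γ x
  have hs' : ∀ x, HasSum (fun γ : Γ => φ (γ • x)) (s x) := by
    intro x
    have h1 : s x = ∑ᶠ γ : Γ, φ (γ • x) := by
      refine finsum_eq_of_bijective (fun γ : Γ => γ⁻¹) inv_involutive.bijective fun γ => rfl
    have hsm : Summable fun γ : Γ => φ (γ • x) := summable_of_finite_support (hfs' x)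
    have h2 : ∑' γ : Γ, φ (γ • x) = ∑ᶠ γ : Γ, φ (γ • x) := tsum_eq_finsum (hfs' x)
    rw [h1, ← h2]
    exact hsm.hasSum
  have hspos : ∀ x, 0 < s x := by
    intro x
    have : ∃ g : Γ, 0 < χ (g⁻¹ • x) := by
      by_contra hcon
      push Not at hcon
      have : ∀ g : Γ, χ (g⁻¹ • x) = 0 := fun g => le_antisymm (hcon g) (hχ0 _)
      have h1 := hχs x
      simp [this] at h1
    obtain ⟨g, hg⟩ := this
    have hpos : 0 < φ (g⁻¹ • x) := by
      refine mul_pos (v_pos hW hv _) ?_
      refine lt_of_lt_of_le ?_ (Finset.single_le_sum (fun a _ => hχ0 (a⁻¹ • g⁻¹ • x))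
        (Finset.mem_insert_self 1 _))
      simpa using hg
    exact finsum_pos (fun γ => hφ0 _) ⟨g, hpos⟩ (hfs x)
  -- estimates at `γ x`
  have hgrad : ∀ (γ : Γ), ∀ x ∈ Metric.ball (0 : E n) R, √(gradSq G φ (γ • x)) ≤
      √(gradSq G v (γ • x)) + ((T : Set Γ)ᶜ).indicator (fun γ => A * B * u γ) γ := by
    intro γ x hx
    have hx' := Metric.ball_subset_closedBall hx
    by_cases hγ : γ ∈ T
    · rw [Set.indicator_of_notMem (by simpa using hγ), add_zero]
      have hev : (fun y : E n => φ (γ • y)) =ᶠ[nhds x] fun y => v (γ • y) := by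
        filter_upwards [Metric.isOpen_ball.mem_nhds hx] with y hy
        show v (γ • y) * ψ (γ • y) = _
        rw [hcut1 γ hγ y (Metric.ball_subset_closedBall hy), mul_one]
      rw [← gradSq_comp h hG γ φ x (hφd _), ← gradSq_comp h hG γ v x (hvd _), gradSq_congr hev]
    · rw [Set.indicator_of_mem (by simpa using hγ)]
      refine (sqrt_gradSq_mul_le (hG.pos _) (hvd _) (hψd _)).trans ?_
      rw [add_comm, abs_of_nonneg (hψ0 _), abs_of_pos (v_pos hW hv _)]
      refine add_le_add ?_ ?_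
      · simpa using mul_le_mul_of_nonneg_right (hψ1 (γ • x)) (Real.sqrt_nonneg (gradSq G v (γ • x)))
      · calc v (γ • x) * √(gradSq G ψ (γ • x)) ≤ (A * u γ) * B :=
              mul_le_mul ((hv.upper _).trans (mul_le_mul_of_nonneg_left (hWu γ x hx') hA.le))
                (hB' F _) (Real.sqrt_nonneg _) (mul_nonneg hA.le (hu0 γ))
          _ = A * B * u γ := by ring
  have hIu : Summable ((T : Set Γ)ᶜ.indicator u) := hu.indicator _
  -- (1)
  have h1 : ∀ x ∈ Metric.ball (0 : E n) R, Summable (fun γ : Γ => √(gradSq G φ (γ • x))) ∧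
      ∑' γ : Γ, √(gradSq G φ (γ • x)) ≤ HH Γ G v x + A * B * τ := by
    intro x hx
    have hs2 : HasSum (fun γ : Γ => √(gradSq G v (γ • x)) +
        A * B * ((T : Set Γ)ᶜ).indicator u γ)
        (HH Γ G v x + A * B * ∑' γ, ((T : Set Γ)ᶜ).indicator u γ) :=
      (summable_a hG hW hv x).hasSum.add (hIu.hasSum.mul_left _)
    have hle : ∀ γ : Γ, √(gradSq G φ (γ • x)) ≤ √(gradSq G v (γ • x)) +
        A * B * ((T : Set Γ)ᶜ).indicator u γ := by
      intro γ
      refine (hgrad γ x hx).trans (add_le_add le_rfl (le_of_eq ?_))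
      by_cases hγ : γ ∈ T
      · simp [hγ]
      · simp [hγ]
    have hsm : Summable (fun γ : Γ => √(gradSq G φ (γ • x))) :=
      Summable.of_nonneg_of_le (fun _ => Real.sqrt_nonneg _) hle hs2.summable
    refine ⟨hsm, (hasSum_le hle hsm.hasSum hs2).trans ?_⟩
    exact add_le_add le_rfl (mul_le_mul_of_nonneg_left hT (by positivity))
  -- (2)
  have h2 : ∀ x ∈ Metric.ball (0 : E n) R, 1 - A * τ ≤ s x := by
    intro x hx
    have hx' := Metric.ball_subset_closedBall hx
    have hd := (hv.sum x).sub (hs' x)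
    have hle : ∀ γ : Γ, v (γ • x) - φ (γ • x) ≤ A * ((T : Set Γ)ᶜ).indicator u γ := by
      intro γ
      by_cases hγ : γ ∈ T
      · have : φ (γ • x) = v (γ • x) := by
          show v (γ • x) * ψ (γ • x) = _
          rw [hcut1 γ hγ x hx', mul_one]
        simp [hγ, this]
      · rw [Set.indicator_of_mem (by simpa using hγ)]
        have := hφ0 (γ • x)
        have h3 := (hv.upper (γ • x)).trans (mul_le_mul_of_nonneg_left (hWu γ x hx') hA.le)
        linarith
    have := hasSum_le hle hd (hIu.hasSum.mul_left A)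
    have h4 := mul_le_mul_of_nonneg_left hT hA.le
    linarith
  -- (3)
  have h3 : ∀ x ∈ Metric.ball (0 : E n) R, √(gradSq G s x) ≤ E1 * τ := by
    intro x hx
    have hx' := Metric.ball_subset_closedBall hx
    have hdγ : ∀ γ : Γ, DifferentiableAt ℝ (fun y : E n => φ (γ • y)) x := fun γ =>
      (hφd _).comp x (diff h γ x)
    have hdv : ∀ γ : Γ, DifferentiableAt ℝ (fun y : E n => v (γ • y)) x := fun γ =>
      (hvd _).comp x (diff h γ x)
    have hs3 : HasSum (fun γ : Γ => fderiv ℝ (fun y : E n => φ (γ • y)) x) (fderiv ℝ s x) := by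
      have hlf : LocallyFinite fun γ : Γ => Function.support fun y : E n => φ (γ⁻¹ • y) :=
        locallyFinite_support h φ hφc
      obtain ⟨t, ht, hft⟩ := hlf x
      have hev : s =ᶠ[nhds x] fun y => ∑ γ ∈ hft.toFinset, φ (γ⁻¹ • y) := by
        filter_upwards [ht] with y hy
        refine finsum_eq_sum_of_support_subset _ fun i hi => ?_
        simp only [Set.Finite.coe_toFinset]
        exact ⟨y, hi, hy⟩
      have e1 : fderiv ℝ s x = ∑ γ ∈ hft.toFinset, fderiv ℝ (fun y : E n => φ (γ⁻¹ • y)) x := by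
        rw [hev.fderiv_eq, fderiv_fun_sum fun γ _ => hdγ γ⁻¹]
      have e2 : HasSum (fun γ : Γ => fderiv ℝ (fun y : E n => φ (γ⁻¹ • y)) x)
          (∑ γ ∈ hft.toFinset, fderiv ℝ (fun y : E n => φ (γ⁻¹ • y)) x) := by
        refine hasSum_sum_of_ne_finset_zero fun γ hγ => ?_
        have : (fun y : E n => φ (γ⁻¹ • y)) =ᶠ[nhds x] fun _ => (0 : ℝ) := by
          filter_upwards [ht] with y hy
          by_contra hne
          exact hγ (by simpa using ⟨y, hne, hy⟩)
        rw [this.fderiv_eq]; simp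
      rw [e1]
      have e3 := (Equiv.inv Γ).hasSum_iff.2 e2
      have e4 : ((fun γ : Γ => fderiv ℝ (fun y : E n => φ (γ⁻¹ • y)) x) ∘ (Equiv.inv Γ)) =
          fun γ : Γ => fderiv ℝ (fun y : E n => φ (γ • y)) x := by
        funext γ
        simp
      rwa [e4] at e3
    have hs4 := tsum_fderiv h hG hW hv hR u hu hc (fun f x hx => (hcmp f x hx).1) hWu x hx
    have hs5 := hs3.sub hs4
    rw [sub_zero] at hs5
    have hle : ∀ γ : Γ, ‖fderiv ℝ (fun y : E n => φ (γ • y)) x -
        fderiv ℝ (fun y : E n => v (γ • y)) x‖ ≤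
        c * (2 * A + A * B) * ((T : Set Γ)ᶜ).indicator u γ := by
      intro γ
      by_cases hγ : γ ∈ T
      · have hev : (fun y : E n => φ (γ • y)) =ᶠ[nhds x] fun y => v (γ • y) := by
          filter_upwards [Metric.isOpen_ball.mem_nhds hx] with y hy
          show v (γ • y) * ψ (γ • y) = _
          rw [hcut1 γ hγ y (Metric.ball_subset_closedBall hy), mul_one]
        simp [hγ, hev.fderiv_eq]
      · rw [Set.indicator_of_mem (by simpa using hγ)]
        have hg := hgrad γ x hx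
        rw [Set.indicator_of_mem (by simpa using hγ)] at hg
        have ha := (sqrt_le hG hW hv (γ • x)).trans
          (mul_le_mul_of_nonneg_left (hWu γ x hx') hA.le)
        calc _ ≤ ‖fderiv ℝ (fun y : E n => φ (γ • y)) x‖ +
              ‖fderiv ℝ (fun y : E n => v (γ • y)) x‖ := norm_sub_le _ _
          _ ≤ c * √(gradSq G φ (γ • x)) + c * √(gradSq G v (γ • x)) := by
              refine add_le_add ?_ ?_
              · rw [← gradSq_comp h hG γ φ x (hφd _)]; exact (hcmp _ x hx').1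
              · rw [← gradSq_comp h hG γ v x (hvd _)]; exact (hcmp _ x hx').1
          _ ≤ c * (A * u γ + A * B * u γ) + c * (A * u γ) := by
              refine add_le_add (mul_le_mul_of_nonneg_left (by linarith) hc.le)
                (mul_le_mul_of_nonneg_left ha hc.le)
          _ = c * (2 * A + A * B) * u γ := by ring
    have hn5 : ‖fderiv ℝ s x‖ ≤ c * (2 * A + A * B) * τ := by
      have hsn : Summable fun γ : Γ => ‖fderiv ℝ (fun y : E n => φ (γ • y)) x -
        fderiv ℝ (fun y : E n => v (γ • y)) x‖ :=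
        Summable.of_nonneg_of_le (fun _ => norm_nonneg _) hle (hIu.mul_left _)
      rw [← hs5.tsum_eq]
      refine (norm_tsum_le_tsum_norm hsn).trans ((hasSum_le hle hsn.hasSum
        (hIu.hasSum.mul_left _)).trans ?_)
      exact mul_le_mul_of_nonneg_left hT (by positivity)
    calc √(gradSq G s x) ≤ c * ‖fderiv ℝ s x‖ := (hcmp s x hx').2
      _ ≤ c * (c * (2 * A + A * B) * τ) := mul_le_mul_of_nonneg_left hn5 hc.le
      _ = E1 * τ := by rw [hE1]; ring
  -- (4)
  have hsum1 : ∀ x : E n, ∑ᶠ γ : Γ, φ (γ⁻¹ • x) / s (γ⁻¹ • x) = 1 := by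
    intro x
    have : ∀ γ : Γ, φ (γ⁻¹ • x) / s (γ⁻¹ • x) = φ (γ⁻¹ • x) * (s x)⁻¹ := fun γ => by
      rw [hsinv, div_eq_mul_inv]
    rw [finsum_congr this, ← finsum_mul' _ _ (hfs x)]
    exact mul_inv_cancel₀ (hspos x).ne'
  have hq1 : ContDiff ℝ 1 fun x => φ x / s x := hφ1.div hs1 fun x => (hspos x).ne'
  refine ⟨⟨fun _ x => φ x / s x, fun _ => hq1,
    fun _ => hφc.mono fun x hx h0 => hx (by show φ x / s x = 0; rw [h0, zero_div]),
    fun x => by simpa using hsum1 x⟩,
    fun x => div_nonneg (hφ0 x) (hspos x).le, fun x hx => ?_⟩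
  show ∑ᶠ γ : Γ, √(gradSq G (fun x => φ x / s x) (γ • x)) ≤ _
  obtain ⟨h1a, h1b⟩ := h1 x hx
  have h2x := h2 x hx
  have h3x := h3 x hx
  have hsx := hspos x
  have hle : ∀ γ : Γ, √(gradSq G (fun x => φ x / s x) (γ • x)) ≤
      φ (γ • x) * ((s x ^ 2)⁻¹ * √(gradSq G s x)) + (s x)⁻¹ * √(gradSq G φ (γ • x)) := by
    intro γ
    have hsi : DifferentiableAt ℝ (fun y => (s y)⁻¹) (γ • x) := (hsd _).inv (hspos _).ne'
    have e1 : (fun x => φ x / s x) = fun x => φ x * (s x)⁻¹ := by
      funext x; rw [div_eq_mul_inv]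
    rw [e1]
    refine (sqrt_gradSq_mul_le (hG.pos _) (hφd _) hsi).trans (le_of_eq ?_)
    have e2 : gradSq G s (γ • x) = gradSq G s x := by
      rw [← gradSq_comp h hG γ s x (hsd _)]
      congr 1
      funext y; exact hsinv γ y
    rw [gradSq_comp_real (φ := fun r => r⁻¹) (hasDerivAt_inv (hspos _).ne') (hsd _),
      Real.sqrt_mul (by positivity), Real.sqrt_sq_eq_abs, e2, hsinv, abs_of_nonneg (hφ0 _),
      abs_neg, abs_of_nonneg (by positivity : (0 : ℝ) ≤ (s x ^ 2)⁻¹),
      abs_of_nonneg (by positivity : (0 : ℝ) ≤ (s x)⁻¹)]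
  have hS : HasSum (fun γ : Γ => φ (γ • x) * ((s x ^ 2)⁻¹ * √(gradSq G s x)) +
      (s x)⁻¹ * √(gradSq G φ (γ • x))) (s x * ((s x ^ 2)⁻¹ * √(gradSq G s x)) +
      (s x)⁻¹ * ∑' γ : Γ, √(gradSq G φ (γ • x))) :=
    ((hs' x).mul_right _).add (h1a.hasSum.mul_left _)
  have hsm : Summable fun γ : Γ => √(gradSq G (fun x => φ x / s x) (γ • x)) :=
    Summable.of_nonneg_of_le (fun _ => Real.sqrt_nonneg _) hle hS.summable
  have hfin : (Function.support fun γ : Γ => √(gradSq G (fun x => φ x / s x) (γ • x))).Finite := by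
    refine (h.proper (tsupport φ ∪ {x}) (IsCompact.union hφc isCompact_singleton)).subset
      fun γ hγ => ?_
    refine ⟨x, Or.inr rfl, Or.inl ?_⟩
    by_contra hcon
    apply hγ
    have : (fun x => φ x / s x) =ᶠ[nhds (γ • x)] fun _ => (0 : ℝ) := by
      filter_upwards [notMem_tsupport_iff_eventuallyEq.1 hcon] with y hy
      rw [hy]; simp
    show √(gradSq G (fun x => φ x / s x) (γ • x)) = 0
    rw [gradSq_congr this, show gradSq G (fun _ => (0 : ℝ)) (γ • x) = 0 from gradIp_const_right 0]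
    simp
  have e5 : ∑' γ : Γ, √(gradSq G (fun x => φ x / s x) (γ • x)) =
      ∑ᶠ γ : Γ, √(gradSq G (fun x => φ x / s x) (γ • x)) := tsum_eq_finsum hfin
  rw [← e5]
  refine (hasSum_le hle hsm.hasSum hS).trans ?_
  set H0 := HH Γ G v x with hH0
  have hH0A : H0 ≤ A := HH_le hG hW hv x
  have hH00 : 0 ≤ H0 := HH_nonneg hG hW hv x
  set Y := ∑' γ : Γ, √(gradSq G φ (γ • x)) with hY
  have hY0 : 0 ≤ Y := tsum_nonneg fun _ => Real.sqrt_nonneg _
  have e6 : s x * ((s x ^ 2)⁻¹ * √(gradSq G s x)) + (s x)⁻¹ * Y =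
      (√(gradSq G s x) + Y) / s x := by field_simp
  rw [e6, div_le_iff₀ hsx]
  have hX : √(gradSq G s x) + Y ≤ H0 + (E1 + A * B) * τ := by linarith
  refine hX.trans ?_
  have hQτ : H0 + Q * τ ≤ H0 + η := by linarith
  have h6 : H0 + (E1 + A * B) * τ ≤ (H0 + Q * τ) * (1 - A * τ) := by
    rw [hQ]
    have i1 : 0 ≤ A * τ := by positivity
    have i2 : (E1 + A * B) * τ * (A * τ) ≤ (E1 + A * B) * τ * (1 / 2) :=
      mul_le_mul_of_nonneg_left hτA (by positivity)
    have i3 : 0 ≤ (A + A * B + E1) * (A * τ) := by positivity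
    have i4 : 2 * ((A + A * B + E1) * (A * τ)) * (A * τ) ≤
        2 * ((A + A * B + E1) * (A * τ)) * (1 / 2) :=
      mul_le_mul_of_nonneg_left hτA (by positivity)
    have i5 : H0 * (A * τ) ≤ A * (A * τ) := mul_le_mul_of_nonneg_right hH0A i1
    have i6 : (A * B + E1) * τ * (A * τ) ≤ (A * B + E1) * 1 * (A * τ) :=
      mul_le_mul_of_nonneg_right (mul_le_mul_of_nonneg_left hτ1 (by positivity)) i1
    nlinarith
  refine h6.trans ?_
  have h7 : 0 ≤ 1 - A * τ := by linarith
  calc (H0 + Q * τ) * (1 - A * τ) ≤ (H0 + η) * (1 - A * τ) :=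
        mul_le_mul_of_nonneg_right hQτ h7
    _ ≤ (H0 + η) * s x := mul_le_mul_of_nonneg_left h2x (by positivity)

end main

theorem main (hDom : SpecDom) : SpecTrunc := by
  intro n Γ _ _ G hn h hG W v A hW hv δ hδ
  obtain ⟨D, hD, hDb, hDu⟩ := hDom n Γ h
  obtain ⟨R, hR⟩ := hDb.subset_ball (0 : E n)
  set R' := max R 1 with hR'
  have hDR : D ⊆ Metric.ball (0 : E n) R' := hR.trans (Metric.ball_subset_ball (le_max_left _ _))
  have hR'p : 0 < R' := lt_of_lt_of_le one_pos (le_max_right _ _)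
  have hA := A_pos hW hv
  -- volume of D
  have hVfin : ∫⁻ x in D, ENNReal.ofReal (dens G x) < ⊤ := by
    have hc := (continuous_dens hG)
    have : IntegrableOn (dens G) (Metric.closedBall (0 : E n) R') :=
      hc.continuousOn.integrableOn_compact (isCompact_closedBall _ _)
    have h2 := this.mono_set (hDR.trans Metric.ball_subset_closedBall)
    exact h2.lintegral_lt_top
  set V := (∫⁻ x in D, ENNReal.ofReal (dens G x)).toReal with hV
  have hV0 : 0 ≤ V := ENNReal.toReal_nonneg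
  set M : ℝ := n * (A + 1) ^ (n - 1) with hM
  have hM0 : 0 ≤ M := by positivity
  set η : ℝ := min 1 (δ / (M * V + 1)) with hη
  have hηp : 0 < η := by positivity
  have hη1 : η ≤ 1 := min_le_left _ _
  have hηM : M * η * V ≤ δ := by
    have : η ≤ δ / (M * V + 1) := min_le_right _ _
    calc M * η * V = (M * V) * η := by ring
      _ ≤ (M * V) * (δ / (M * V + 1)) := mul_le_mul_of_nonneg_left this (by positivity)
      _ ≤ (M * V + 1) * (δ / (M * V + 1)) :=
          mul_le_mul_of_nonneg_right (by linarith) (by positivity)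
      _ = δ := by field_simp
  obtain ⟨P, hP0, hP⟩ := trunc h hG hW hv hR'p hηp
  refine ⟨P, D, hP0, hD, fun x => (hDu x).exists, ?_⟩
  have hpt : ∀ x ∈ D, (∑ᶠ γ : Γ, √(gradSq G (P.φ ()) (γ • x))) ^ n ≤
      HH Γ G v x ^ n + M * η := by
    intro x hx
    have h1 := hP x (hDR hx)
    have h0 : 0 ≤ ∑ᶠ γ : Γ, √(gradSq G (P.φ ()) (γ • x)) :=
      finsum_nonneg fun _ => Real.sqrt_nonneg _
    have hH0 := HH_nonneg hG hW hv x
    have hHA := HH_le hG hW hv x
    have h2 := pow_le_pow_left₀ h0 h1 n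
    have h3 := abs_pow_sub_pow_le (HH Γ G v x + η) (HH Γ G v x) n
    rw [add_sub_cancel_left, abs_of_pos hηp, abs_of_nonneg (by positivity : 0 ≤ HH Γ G v x + η),
      abs_of_nonneg hH0, max_eq_left (by linarith)] at h3
    have h4 : (HH Γ G v x + η) ^ (n - 1) ≤ (A + 1) ^ (n - 1) :=
      pow_le_pow_left₀ (by positivity) (by linarith) _
    have h5 := (abs_le.1 h3).2
    have h6 : η * n * (HH Γ G v x + η) ^ (n - 1) ≤ η * n * (A + 1) ^ (n - 1) :=
      mul_le_mul_of_nonneg_left h4 (by positivity)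
    have h7 : η * n * (A + 1) ^ (n - 1) = M * η := by rw [hM]; ring
    linarith
  have hFm : Measurable fun x =>
      ENNReal.ofReal (v x * (gradSq G v x / v x ^ 2) ^ ((n : ℝ) / 2)) := by
    refine ENNReal.measurable_ofReal.comp ?_
    have hv1 : ContDiff ℝ 1 v := hv.smooth.of_le (by norm_num)
    have h1 := (continuous_gradSq hG hv1).measurable
    exact hv1.continuous.measurable.mul
      ((h1.div (hv1.continuous.measurable.pow_const 2)).pow_const _)
  calc int G D (fun x => (∑ᶠ γ : Γ, √(gradSq G (P.φ ()) (γ • x))) ^ n)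
      ≤ ∫⁻ x in D, (ENNReal.ofReal (HH Γ G v x ^ n) * ENNReal.ofReal (dens G x) +
          ENNReal.ofReal (M * η) * ENNReal.ofReal (dens G x)) := by
        refine setLIntegral_mono' hD fun x hx => ?_
        have hd := (dens_pos hG x).le
        have hH0 := HH_nonneg (Γ := Γ) hG hW hv x
        rw [← add_mul, ← ENNReal.ofReal_add (by positivity) (by positivity),
          ← ENNReal.ofReal_mul (by positivity)]
        exact ENNReal.ofReal_le_ofReal (mul_le_mul_of_nonneg_right (hpt x hx) hd)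
    _ ≤ ∫⁻ x in D, ((∑' γ : Γ, ENNReal.ofReal (v (γ • x) * (gradSq G v (γ • x) /
          v (γ • x) ^ 2) ^ ((n : ℝ) / 2))) * ENNReal.ofReal (dens G x) +
          ENNReal.ofReal (M * η) * ENNReal.ofReal (dens G x)) := by
        refine lintegral_mono fun x => ?_
        exact add_le_add (mul_le_mul_left (jensen h hG hW hv hn x) _) le_rfl
    _ = (∫⁻ x in D, (∑' γ : Γ, ENNReal.ofReal (v (γ • x) * (gradSq G v (γ • x) /
          v (γ • x) ^ 2) ^ ((n : ℝ) / 2))) * ENNReal.ofReal (dens G x)) +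
          ∫⁻ x in D, ENNReal.ofReal (M * η) * ENNReal.ofReal (dens G x) := by
        refine lintegral_add_right _ ?_
        exact (ENNReal.measurable_ofReal.comp (continuous_dens hG).measurable).const_mul _
    _ = int G Set.univ (fun x => v x * (gradSq G v x / v x ^ 2) ^ ((n : ℝ) / 2)) +
          ENNReal.ofReal (M * η) * ∫⁻ x in D, ENNReal.ofReal (dens G x) := by
        congr 1
        · rw [← unfold_eq h hG D hD hDu _ hFm]
          unfold int
          rw [Measure.restrict_univ]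
          refine lintegral_congr fun x => ?_
          rw [← ENNReal.ofReal_mul]
          have := v_pos hW hv x
          have := gradSq_nonneg' (hG.pos x) v
          positivity
        · exact lintegral_const_mul _ (ENNReal.measurable_ofReal.comp
            (continuous_dens hG).measurable)
    _ ≤ _ := by
        refine add_le_add le_rfl ?_
        rw [← ENNReal.ofReal_toReal hVfin.ne, ← ENNReal.ofReal_mul (by positivity)]
        exact ENNReal.ofReal_le_ofReal hηM

end Vale.Agent.P223.H.B9
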