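import Vale.Agent.P223.H.Weight1

/-! Block 1b: weights, second part. -/

namespace Vale.Agent.P223.H.Weight1

open scoped ContDiff Topology
open MeasureTheory Metric

variable {n : ℕ} {Γ : Type} [Group Γ] [MulAction Γ (E n)]

/-- nice vector valued functions -/
structure Nice {ι : Type} (u : E n → ι → ℝ) : Prop where
  smooth : ∀ i, ContDiff ℝ ∞ (fun x => u x i)
  supp : ∀ i, HasCompactSupport (fun x => u x i)

theorem Nice.prol {J : Type} [Fintype J] (Fr : Frame n Γ J) {ι : Type} {u : E n → ι → ℝ}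
    (hu : Nice u) : Nice (prol Fr u) where
  smooth := fun p => by
    obtain ⟨_ | j, i⟩ := p
    · exact hu.smooth i
    · exact ((hu.smooth i).fderiv_right (m := ∞) (by simp)).clm_apply (Fr.V_smooth j)
  supp := fun p => by
    obtain ⟨_ | j, i⟩ := p
    · exact hu.supp i
    · refine (hu.supp i).fderiv (𝕜 := ℝ) |>.mono fun x hx h0 => hx ?_
      show fderiv ℝ (fun y => u y i) x (Fr.V j x) = 0
      rw [h0]; simp

/-- averages of vector valued functions -/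
noncomputable def avgv {ι : Type} (a : Γ → ℝ) (u : E n → ι → ℝ) : E n → ι → ℝ :=
  fun x i => avg a (fun y => u y i) x

theorem prol_avgv (h : Act n Γ) {J : Type} [Fintype J] (Fr : Frame n Γ J) (a : Γ → ℝ)
    {ι : Type} {u : E n → ι → ℝ} (hu : Nice u) :
    prol Fr (avgv a u) = avgv a (prol Fr u) := by
  funext x p
  obtain ⟨_ | j, i⟩ := p
  · rfl
  · exact fderiv_avg h Fr a (fun y => u y i) (hu.supp i) (hu.smooth i) j x

theorem NN_le (h : Act n Γ) {J : Type} [Fintype J] (Fr : Frame n Γ J) {a : Γ → ℝ} (ha : Adm a)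
    {χ : E n → ℝ} (hc : HasCompactSupport χ)
    (h0 : ∀ x, 0 ≤ χ x) (h1 : ∀ x, ∑ᶠ γ : Γ, χ (γ⁻¹ • x) = 1) (m : ℕ) :
    ∀ (ι : Type) [Fintype ι] (u : E n → ι → ℝ), Nice u → ∃ C : ℝ, 0 < C ∧ ∀ x,
      NN Fr m ι (avgv a u) x ≤ C * (avg a χ x) ^ 2 := by
  induction m with
  | zero =>
    intro ι _ u hu
    choose C hC hC' using fun i => avg_le h ha hc h0 h1 (fun y => u y i) (hu.supp i)
      (hu.smooth i).continuous
    refine ⟨∑ i, C i ^ 2 + 1, ?_, fun x => ?_⟩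
    · have : 0 ≤ ∑ i, C i ^ 2 := Finset.sum_nonneg fun i _ => sq_nonneg _
      linarith
    · show ∑ i, avgv a u x i ^ 2 ≤ _
      calc ∑ i, avgv a u x i ^ 2 ≤ ∑ i, C i ^ 2 * avg a χ x ^ 2 := by
            refine Finset.sum_le_sum fun i _ => ?_
            rw [← mul_pow, ← sq_abs (avgv a u x i)]
            exact pow_le_pow_left₀ (abs_nonneg _) (hC' i x) 2
        _ ≤ _ := by rw [← Finset.sum_mul]; nlinarith [sq_nonneg (avg a χ x)]
  | succ m ih =>
    intro ι _ u hu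
    obtain ⟨C, hC, hC'⟩ := ih (Option J × ι) (prol Fr u) (hu.prol Fr)
    refine ⟨C, hC, fun x => ?_⟩
    show NN Fr m (Option J × ι) (prol Fr (avgv a u)) x ≤ _
    rw [prol_avgv h Fr a hu]
    exact hC' x

theorem jet_le (h : Act n Γ) {J : Type} [Fintype J] (Fr : Frame n Γ J) {a : Γ → ℝ} (ha : Adm a)
    {χ : E n → ℝ} (hs : ContDiff ℝ ∞ χ) (hc : HasCompactSupport χ)
    (h0 : ∀ x, 0 ≤ χ x) (h1 : ∀ x, ∑ᶠ γ : Γ, χ (γ⁻¹ • x) = 1) :
    ∃ C : ℝ, 0 < C ∧ ∀ x, jet Fr (avg a χ) x ≤ C * (avg a χ x) ^ 2 :=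
  NN_le h Fr ha hc h0 h1 4 Unit (fun x _ => χ x) ⟨fun _ => hs, fun _ => hc⟩

section
variable (h : Act n Γ) {a : Γ → ℝ} (ha : Adm a) {χ : E n → ℝ} (hs : ContDiff ℝ ∞ χ)
  (hc : HasCompactSupport χ) (h0 : ∀ x, 0 ≤ χ x) (h1 : ∀ x, ∑ᶠ γ : Γ, χ (γ⁻¹ • x) = 1)
include h ha hc h0 h1

theorem avg_pos (x : E n) : 0 < avg a χ x := by
  obtain ⟨C, hC, hC'⟩ := comparable h ha hc h0 h1 (isCompact_singleton (x := x))
  have := (hC' 1 x rfl).1
  rw [one_smul] at this
  exact pos_of_mul_pos_right ((ha.pos 1).trans_le this) hC.le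

omit h ha hc h0 h1 in
theorem pd_sum {ι : Type} (s : Finset ι) (c : ι → ℝ) (f : ι → E n → ℝ) (y : E n)
    (hf : ∀ i, DifferentiableAt ℝ (f i) y) (k : Fin n) :
    pd k (fun z => ∑ i ∈ s, c i • f i z) y = ∑ i ∈ s, c i * pd k (f i) y := by
  unfold pd
  have : HasFDerivAt (fun z => ∑ i ∈ s, c i • f i z) (∑ i ∈ s, c i • fderiv ℝ (f i) y) y :=
    HasFDerivAt.fun_sum fun i _ => (hf i).hasFDerivAt.const_smul (c i)
  rw [this.fderiv]
  simp

include hs

/-- the gradient bound -/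
theorem grad_le {G : E n → Matrix (Fin n) (Fin n) ℝ} (hG : Met n Γ G) :
    ∃ C : ℝ, ∀ x, gradSq G (avg a χ) x ≤ (C * avg a χ x) ^ 2 := by
  obtain ⟨K, hK, hK'⟩ := h.cocompact
  obtain ⟨r, hr⟩ := hK.isBounded.subset_ball (0 : E n)
  obtain ⟨H, hH⟩ := fold h χ hc (isCompact_closedBall (0 : E n) r)
  obtain ⟨C, hC, hC'⟩ := ha.fin H
  obtain ⟨C₂, hC₂, hC₂'⟩ := comparable h ha hc h0 h1 hK
  have hsg : ∀ s : Γ, ContDiff ℝ ∞ fun y : E n => χ (s⁻¹ • y) := fun s => hs.comp (h.smooth s⁻¹)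
  -- bounds for the derivatives on `K`
  have hb : ∀ s : Γ, ∀ k : Fin n, ∃ M : ℝ, ∀ y ∈ K, |pd k (fun z => χ (s⁻¹ • z)) y| ≤ M := by
    intro s k
    have hcont : Continuous fun y => pd k (fun z => χ (s⁻¹ • z)) y :=
      ((hsg s).fderiv_right (m := ∞) (by simp)).continuous.clm_apply continuous_const
    exact hK.exists_bound_of_continuousOn hcont.continuousOn
  choose M hM using hb
  have hGi : ∀ i j, ∃ B : ℝ, ∀ y ∈ K, |(G y)⁻¹ i j| ≤ B := by
    intro i j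
    have hcG : Continuous fun y => G y := continuous_matrix fun i j => (hG.smooth i j).continuous
    have hcont : Continuous fun y => (G y)⁻¹ := by
      have : ∀ y, (G y)⁻¹ = ((G y).det)⁻¹ • (G y).adjugate := fun y => by
        rw [Matrix.inv_def, Ring.inverse_eq_inv']
      simp only [this]
      exact (hcG.matrix_det.inv₀ fun y => (hG.pos y).det_pos.ne').smul hcG.matrix_adjugate
    exact hK.exists_bound_of_continuousOn (hcont.matrix_elem i j).continuousOn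
  choose B hB using hGi
  obtain ⟨P, hP, hP'⟩ : ∃ P : ℝ, 0 ≤ P ∧ ∀ s ∈ H, ∀ k, ∀ y ∈ K,
      |pd k (fun z => χ (s⁻¹ • z)) y| ≤ P := by
    refine ⟨∑ s ∈ H, ∑ k, |M s k|, Finset.sum_nonneg fun _ _ => Finset.sum_nonneg fun _ _ =>
      abs_nonneg _, fun s hsH k y hy => ?_⟩
    calc |pd k (fun z => χ (s⁻¹ • z)) y| ≤ |M s k| := (hM s k y hy).trans (le_abs_self _)
      _ ≤ ∑ k, |M s k| := Finset.single_le_sum (f := fun k => |M s k|) (fun _ _ => abs_nonneg _)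
          (Finset.mem_univ k)
      _ ≤ _ := Finset.single_le_sum (f := fun s => ∑ k, |M s k|)
          (fun _ _ => Finset.sum_nonneg fun _ _ => abs_nonneg _) hsH
  set Q : ℝ := ∑ _s ∈ H, C * P with hQ
  have hQ0 : 0 ≤ Q := Finset.sum_nonneg fun _ _ => by positivity
  set R : ℝ := ∑ i, ∑ j, |B i j| with hR
  have hR0 : 0 ≤ R := Finset.sum_nonneg fun _ _ => Finset.sum_nonneg fun _ _ => abs_nonneg _
  refine ⟨√R * Q * C₂, fun x => ?_⟩
  obtain ⟨γ, hγ⟩ := hK' x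
  have hx : x = γ⁻¹ • γ • x := by simp
  have hWd : Differentiable ℝ (avg a χ) := (avg_smooth h a χ hc hs).differentiable (by simp)
  rw [hx, ← Common.gradSq_comp h hG γ⁻¹ (avg a χ) (γ • x) (hWd _)]
  set y := γ • x with hy
  have hpd : ∀ k, |pd k (fun z => avg a χ (γ⁻¹ • z)) y| ≤ Q * a γ⁻¹ := by
    intro k
    have he : (fun z => avg a χ (γ⁻¹ • z)) =ᶠ[𝓝 y]
        fun z => ∑ s ∈ H, a (γ⁻¹ * s) • χ (s⁻¹ • z) := by
      have hyr : y ∈ ball (0 : E n) r := hr hγ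
      filter_upwards [isOpen_ball.mem_nhds hyr] with z hz
      exact hH a γ⁻¹ z (ball_subset_closedBall hz)
    have : pd k (fun z => avg a χ (γ⁻¹ • z)) y =
        pd k (fun z => ∑ s ∈ H, a (γ⁻¹ * s) • χ (s⁻¹ • z)) y := by
      unfold pd; rw [he.fderiv_eq]
    rw [this, pd_sum H (fun s => a (γ⁻¹ * s)) (fun s z => χ (s⁻¹ • z)) y
      (fun s => (hsg s).differentiable (by simp) y) k]
    calc |∑ s ∈ H, a (γ⁻¹ * s) * pd k (fun z => χ (s⁻¹ • z)) y|
        ≤ ∑ s ∈ H, |a (γ⁻¹ * s) * pd k (fun z => χ (s⁻¹ • z)) y| := Finset.abs_sum_le_sum_abs _ _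
      _ ≤ ∑ _s ∈ H, (C * P) * a γ⁻¹ := by
        refine Finset.sum_le_sum fun s hsH => ?_
        rw [abs_mul, abs_of_pos (ha.pos _)]
        calc a (γ⁻¹ * s) * |pd k (fun z => χ (s⁻¹ • z)) y| ≤ (C * a γ⁻¹) * P :=
            mul_le_mul (hC' s hsH γ⁻¹).1 (hP' s hsH k y hγ) (abs_nonneg _)
              (by have := ha.pos γ⁻¹; positivity)
          _ = _ := by ring
      _ = _ := by rw [hQ, Finset.sum_mul]
  have ha' := ha.pos γ⁻¹
  have hW := (hC₂' γ⁻¹ y hγ).1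
  calc gradSq G (fun z => avg a χ (γ⁻¹ • z)) y
      ≤ ∑ i, ∑ j, |B i j| * (Q * a γ⁻¹) ^ 2 := by
        unfold gradSq gradIp
        refine Finset.sum_le_sum fun i _ => Finset.sum_le_sum fun j _ => ?_
        refine (le_abs_self _).trans ?_
        rw [abs_mul, abs_mul, sq, mul_assoc]
        refine mul_le_mul ((hB i j y hγ).trans (le_abs_self _)) ?_ (by positivity) (abs_nonneg _)
        exact mul_le_mul (hpd i) (hpd j) (abs_nonneg _) (by positivity)
    _ = R * (Q * a γ⁻¹) ^ 2 := by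
        rw [hR]
        generalize (Q * a γ⁻¹) ^ 2 = q
        rw [Finset.sum_mul]
        exact Finset.sum_congr rfl fun i _ => by rw [Finset.sum_mul]
    _ = (√R * (Q * a γ⁻¹)) ^ 2 := by rw [mul_pow (√R), Real.sq_sqrt hR0]
    _ ≤ (√R * Q * C₂ * avg a χ (γ⁻¹ • y)) ^ 2 := by
        refine pow_le_pow_left₀ (by positivity) ?_ 2
        calc √R * (Q * a γ⁻¹) = (√R * Q) * a γ⁻¹ := by ring
          _ ≤ (√R * Q) * (C₂ * avg a χ (γ⁻¹ • y)) :=
            mul_le_mul_of_nonneg_left hW (by positivity)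
          _ = _ := by ring

/-- weight functions from admissible weights -/
theorem wt_of {G : E n → Matrix (Fin n) (Fin n) ℝ} (hG : Met n Γ G) (hsum : HasSum a 1) :
    Wt n Γ G (avg a χ) := by
  have hsumW : ∀ x : E n, HasSum (fun γ : Γ => avg a χ (γ • x)) 1 := by
    intro x
    obtain ⟨H, hH⟩ := fold h χ hc (isCompact_singleton (x := x))
    have hone : ∑ s ∈ H, χ (s⁻¹ • x) = 1 := by
      have h2 := hH (fun _ => 1) 1 x rfl
      simp only [avg, one_smul] at h2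
      rw [← h2, h1 x]
    have h3 : HasSum (fun γ : Γ => ∑ s ∈ H, a (γ * s) * χ (s⁻¹ • x))
        (∑ s ∈ H, 1 * χ (s⁻¹ • x)) := by
      refine hasSum_sum fun s _ => ?_
      exact HasSum.mul_right _ ((Equiv.mulRight s).hasSum_iff.2 hsum)
    simp only [one_mul, hone] at h3
    convert h3 using 2 with γ
    rw [hH a γ x rfl]
    rfl
  refine ⟨avg_smooth h a χ hc hs, avg_pos h ha hc h0 h1, hsumW, ?_,
    grad_le h ha hs hc h0 h1 hG, ?_⟩
  · -- integrability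
    obtain ⟨K, hK, hK'⟩ := h.cocompact
    have hcW : Continuous (avg a χ) := (avg_smooth h a χ hc hs).continuous
    have hcd : Continuous fun x => dens G x := by
      have : Continuous fun x => (G x) := continuous_matrix fun i j => (hG.smooth i j).continuous
      exact Real.continuous_sqrt.comp (Continuous.matrix_det this)
    refine ⟨(hcW.mul hcd).aestronglyMeasurable, ?_⟩
    rw [hasFiniteIntegral_iff_ofReal (Filter.Eventually.of_forall fun x =>
      mul_nonneg (avg_pos h ha hc h0 h1 x).le (Common.dens_pos hG x).le)]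
    have h2 := Common.unfold_le h hG K hK.isClosed.measurableSet hK'
      (fun x => ENNReal.ofReal (avg a χ x)) hcW.measurable.ennreal_ofReal
    have h3 : ∀ x : E n, ∑' γ : Γ, ENNReal.ofReal (avg a χ (γ • x)) = 1 := by
      intro x
      rw [← ENNReal.ofReal_tsum_of_nonneg (fun γ => (avg_pos h ha hc h0 h1 _).le)
        (hsumW x).summable, (hsumW x).tsum_eq, ENNReal.ofReal_one]
    simp only [h3, one_mul] at h2
    calc ∫⁻ x, ENNReal.ofReal (avg a χ x * dens G x)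
        = ∫⁻ x, ENNReal.ofReal (avg a χ x) * ENNReal.ofReal (dens G x) :=
          lintegral_congr fun x => ENNReal.ofReal_mul (avg_pos h ha hc h0 h1 x).le
      _ ≤ ∫⁻ x in K, ENNReal.ofReal (dens G x) := h2
      _ < ⊤ := by
        have := (hcd.continuousOn (s := K)).integrableOn_compact (μ := volume) hK
        exact (hasFiniteIntegral_iff_ofReal (Filter.Eventually.of_forall fun x =>
          (Common.dens_pos hG x).le)).1 this.2
  · -- Harnack
    intro K hK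
    obtain ⟨C, hC, hC'⟩ := comparable h ha hc h0 h1 hK
    refine ⟨C * C, fun γ x hx y hy => ?_⟩
    calc avg a χ (γ • x) ≤ C * a γ := (hC' γ x hx).2
      _ ≤ C * (C * avg a χ (γ • y)) := mul_le_mul_of_nonneg_left (hC' γ y hy).1 hC.le
      _ = _ := by ring

end

theorem specWeight : SpecWeight := by
  intro n Γ _ _ G J _ Fr h hG
  obtain ⟨χ, hs, hc, h0, h1⟩ := Common.exists_chi h
  have := Common.countable h
  obtain ⟨a, hpos, hsum, hq⟩ := exists_weight (Γ := Γ)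
  have ha : Adm a := ⟨hpos, hq⟩
  have hb : Adm (fun g => a g ^ 2) := ha.sq
  obtain ⟨C₁, hC₁, hC₁'⟩ := jet_le h Fr ha hs hc h0 h1
  obtain ⟨C₂, hC₂, hC₂'⟩ := jet_le h Fr hb hs hc h0 h1
  obtain ⟨K, hK, hK'⟩ := h.cocompact
  obtain ⟨C₃, hC₃, hC₃'⟩ := comparable h ha hc h0 h1 hK
  obtain ⟨C₄, hC₄, hC₄'⟩ := comparable h hb hc h0 h1 hK
  set W := avg a χ with hWdef
  set U := avg (fun g => a g ^ 2) χ with hUdef
  have hWpos : ∀ x, 0 < W x := avg_pos h ha hc h0 h1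
  have hUpos : ∀ x, 0 < U x := avg_pos h hb hc h0 h1
  have e1 : ∀ x, U x ≤ C₄ * C₃ ^ 2 * W x ^ 2 := by
    intro x
    obtain ⟨γ, hγ⟩ := hK' x
    have hx : x = γ⁻¹ • γ • x := by simp
    rw [hx]
    calc U (γ⁻¹ • γ • x) ≤ C₄ * a γ⁻¹ ^ 2 := (hC₄' γ⁻¹ _ hγ).2
      _ ≤ C₄ * (C₃ * W (γ⁻¹ • γ • x)) ^ 2 :=
        mul_le_mul_of_nonneg_left (pow_le_pow_left₀ (hpos _).le (hC₃' γ⁻¹ _ hγ).1 2) hC₄.le
      _ = _ := by ring
  have e2 : ∀ x, W x ^ 2 ≤ C₃ ^ 2 * C₄ * U x := by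
    intro x
    obtain ⟨γ, hγ⟩ := hK' x
    have hx : x = γ⁻¹ • γ • x := by simp
    rw [hx]
    calc W (γ⁻¹ • γ • x) ^ 2 ≤ (C₃ * a γ⁻¹) ^ 2 :=
        pow_le_pow_left₀ (hWpos _).le (hC₃' γ⁻¹ _ hγ).2 2
      _ = C₃ ^ 2 * a γ⁻¹ ^ 2 := by ring
      _ ≤ C₃ ^ 2 * (C₄ * U (γ⁻¹ • γ • x)) :=
        mul_le_mul_of_nonneg_left (hC₄' γ⁻¹ _ hγ).1 (by positivity)
      _ = _ := by ring
  set C := C₁ + C₂ + C₄ * C₃ ^ 2 + C₃ ^ 2 * C₄ with hCdef
  have p1 : 0 < C₄ * C₃ ^ 2 := by positivity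
  have p2 : 0 < C₃ ^ 2 * C₄ := by positivity
  refine ⟨W, U, C, wt_of h ha hs hc h0 h1 hG hsum, avg_smooth h _ χ hc hs, hUpos,
    fun x => (hC₁' x).trans ?_, fun x => (hC₂' x).trans ?_, fun x => (e1 x).trans ?_,
    fun x => (e2 x).trans ?_⟩
  · exact mul_le_mul_of_nonneg_right (by rw [hCdef]; linarith) (sq_nonneg _)
  · exact mul_le_mul_of_nonneg_right (by rw [hCdef]; linarith) (sq_nonneg _)
  · exact mul_le_mul_of_nonneg_right (by rw [hCdef]; linarith) (sq_nonneg _)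
  · exact mul_le_mul_of_nonneg_right (by rw [hCdef]; linarith) (hUpos x).le

end Vale.Agent.P223.H.Weight1
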