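import Vale.Agent.P223.H.Frame2
import Vale.Agent.P223.H.Weight2

/-! Block 1: final statements. -/

namespace Vale.Agent.P223.H

theorem Frame.main : SpecFrame := Frame1.specFrame

theorem Weight.main : SpecWeight := Weight1.specWeight

theorem Dom.main : SpecDom := Frame1.specDom

end Vale.Agent.P223.H
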