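import Vale.Agent.P223.H.Grad

/-! Corollaries for the scalar curvature. -/

namespace Vale.Agent.P223.H.Cor

open scoped ContDiff
open MeasureTheory Common

variable {n : ℕ} {G : E n → Matrix (Fin n) (Fin n) ℝ}

theorem continuous_scal (h1 : ∀ i j, ContDiff ℝ ∞ (fun x => G x i j)) (h2 : ∀ x, (G x).PosDef) :
    Continuous fun x => scal G x :=
  continuous_iff_continuousAt.2 fun x =>
    ((Bridge.metricOn h1 h2).sm_scal isOpen_univ (Set.mem_univ x)).continuousAt

/-- If `Ric ≤ 0` then `Ric ≥ Scal g`. -/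
theorem ricGe_of_nonpos (h2 : ∀ x, (G x).PosDef)
    (h : ∀ x v : E n, ∑ i, ∑ j, v i * v j * ric G x i j ≤ 0) :
    RicGe G (fun x => max 0 (-scal G x)) := by
  intro x v
  set H : Matrix (Fin n) (Fin n) ℝ := fun i j => -(ric G x i j + ric G x j i) / 2 with hH
  have e : ∀ v : E n, qf H v = - ∑ i, ∑ j, v i * v j * ric G x i j := by
    intro v
    have e1 : ∑ i, ∑ j, v i * v j * ric G x j i = ∑ i, ∑ j, v i * v j * ric G x i j := by
      rw [Finset.sum_comm]
      refine Finset.sum_congr rfl fun i _ => Finset.sum_congr rfl fun j _ => by ring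
    have e2 : qf H v = -(∑ i, ∑ j, v i * v j * ric G x i j +
        ∑ i, ∑ j, v i * v j * ric G x j i) / 2 := by
      simp only [qf, hH]
      rw [← Finset.sum_add_distrib, ← Finset.sum_neg_distrib, Finset.sum_div]
      refine Finset.sum_congr rfl fun i _ => ?_
      rw [← Finset.sum_add_distrib, ← Finset.sum_neg_distrib, Finset.sum_div]
      refine Finset.sum_congr rfl fun j _ => by ring
    rw [e2, e1]; ring
  have hps : H.PosSemidef := by
    refine Matrix.PosSemidef.of_dotProduct_mulVec_nonneg ?_ fun v => ?_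
    · ext i j
      rw [Matrix.conjTranspose_apply, star_trivial]
      show -(ric G x j i + ric G x i j) / 2 = -(ric G x i j + ric G x j i) / 2
      ring
    · have : star v ⬝ᵥ H.mulVec v = qf H v := by
        unfold dotProduct qf
        refine Finset.sum_congr rfl fun a _ => ?_
        have hm : (H.mulVec v) a = ∑ b, H a b * v b := rfl
        rw [hm, Finset.mul_sum]
        refine Finset.sum_congr rfl fun b _ => ?_
        simp only [star_trivial]; ring
      rw [this, e v]
      linarith [h x v]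
  have h3 := qf_le_trace (h2 x) hps v
  have e3 : tr2 (G x)⁻¹ H = -scal G x := by
    have hs : ((G x)⁻¹).transpose = (G x)⁻¹ := by
      have := (h2 x).inv.isHermitian
      simpa [Matrix.IsHermitian, Matrix.conjTranspose_eq_transpose_of_trivial] using this
    have hs' : ∀ i j, (G x)⁻¹ i j = (G x)⁻¹ j i := fun i j => by
      conv_lhs => rw [← hs]
      rfl
    have e1 : ∑ i, ∑ j, (G x)⁻¹ i j * ric G x j i = ∑ i, ∑ j, (G x)⁻¹ i j * ric G x i j := by
      rw [Finset.sum_comm]
      refine Finset.sum_congr rfl fun i _ => Finset.sum_congr rfl fun j _ => by rw [hs' j i]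
    have e2 : tr2 (G x)⁻¹ H = -(∑ i, ∑ j, (G x)⁻¹ i j * ric G x i j +
        ∑ i, ∑ j, (G x)⁻¹ i j * ric G x j i) / 2 := by
      simp only [tr2, hH]
      rw [← Finset.sum_add_distrib, ← Finset.sum_neg_distrib, Finset.sum_div]
      refine Finset.sum_congr rfl fun i _ => ?_
      rw [← Finset.sum_add_distrib, ← Finset.sum_neg_distrib, Finset.sum_div]
      refine Finset.sum_congr rfl fun j _ => by ring
    rw [e2, e1]; unfold scal; ring
  rw [e3, e v] at h3
  have h4 : 0 ≤ ∑ i, ∑ j, v i * v j * G x i j := quad_of_posSemidef (h2 x).posSemidef v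
  have h5 : -scal G x * qf (G x) v ≤ max 0 (-scal G x) * ∑ i, ∑ j, v i * v j * G x i j :=
    mul_le_mul_of_nonneg_right (le_max_right _ _) h4
  linarith

/-- The final statement, from the general theorem. -/
theorem final_scal (n : ℕ) (Γ : Type) [Group Γ] [MulAction Γ (E n)]
    (hΓ : Act n Γ) (G : E n → Matrix (Fin n) (Fin n) ℝ) (hG : Met n Γ G)
    (D : Set (E n)) (κ : ENNReal)
    (H : ∀ (ρ : E n → ℝ), Continuous ρ → (∀ x, 0 ≤ ρ x) →
      (∀ (γ : Γ) (x : E n), ρ (γ • x) = ρ x) → RicGe G ρ →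
      sv n Γ ≤ κ * int G D (fun x => ρ x ^ ((n : ℝ) / 2)))
    (C : ℝ) (hC : 0 ≤ C) (hr : RicGe G (fun x => C * max 0 (-scal G x))) :
    sv n Γ ≤ κ * ENNReal.ofReal (C ^ ((n : ℝ) / 2)) *
      int G D (fun x => max 0 (-scal G x) ^ ((n : ℝ) / 2)) := by
  refine (H _ ?_ ?_ ?_ hr).trans ?_
  · exact continuous_const.mul (continuous_const.max (continuous_scal hG.smooth hG.pos).neg)
  · exact fun x => mul_nonneg hC (le_max_left _ _)
  · exact fun γ x => by rw [Bridge.scal_inv hΓ hG γ x]
  · rw [mul_assoc]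
    refine mul_le_mul_right (le_of_eq ?_) _
    unfold int
    rw [← lintegral_const_mul' _ _ ENNReal.ofReal_ne_top]
    refine lintegral_congr fun x => ?_
    rw [← ENNReal.ofReal_mul (by positivity)]
    show ENNReal.ofReal ((C * max 0 (-scal G x)) ^ ((n : ℝ) / 2) * dens G x) = _
    rw [Real.mul_rpow hC (le_max_left _ _), mul_assoc]

end Vale.Agent.P223.H.Cor
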