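import Vale.Agent.P223.H.Spec2
import Vale.Agent.P223.H.IBP

/-! Block 20b. -/

namespace Vale.Agent.P223.H.LapInt

open scoped ContDiff
open MeasureTheory Common Set

section div
variable {n : ℕ} {G : E n → Matrix (Fin n) (Fin n) ℝ}

/-- The Laplacian is the divergence of the gradient. -/
theorem lap_eq_divg (h1 : ∀ i j, ContDiff ℝ ∞ (fun x => G x i j)) (h2 : ∀ x, (G x).PosDef)
    {f : E n → ℝ} (hf : ContDiff ℝ 2 f) (x : E n) : lap G f x = divg G (grd G f) x := by
  have hM := Bridge.metricOn h1 h2
  have hdpos : 0 < dens G x := Real.sqrt_pos.2 (h2 x).det_pos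
  have hpdf : ∀ j, DifferentiableAt ℝ (fun y => pd j f y) x := fun j =>
    (Bridge.contDiff_pd hf (k := 1) (by norm_num) j).differentiable one_ne_zero x
  have hinv : ∀ i j, DifferentiableAt ℝ (fun y => (G y)⁻¹ i j) x := fun i j =>
    (hM.sm_inv isOpen_univ (mem_univ x) i j).diff
  have hdens : DifferentiableAt ℝ (dens G) x := (hM.sm_dens isOpen_univ (mem_univ x)).diff
  have hprod : ∀ i j, DifferentiableAt ℝ (fun y => (G y)⁻¹ i j * pd j f y) x := fun i j =>
    (hinv i j).fun_mul (hpdf j)
  have hgi : ∀ i, DifferentiableAt ℝ (fun y => ∑ j, (G y)⁻¹ i j * pd j f y) x := fun i =>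
    DifferentiableAt.fun_sum fun j _ => hprod i j
  have e1 : ∀ i, pd i (fun y => dens G y * grd G f y i) x =
      dens G x * ((∑ a, chr G x a a i) * ∑ j, (G x)⁻¹ i j * pd j f x +
        ∑ j, (pd i (fun y => (G y)⁻¹ i j) x * pd j f x +
          (G x)⁻¹ i j * pd i (fun y => pd j f y) x)) := by
    intro i
    have hd : pd i (dens G) x = dens G x * ∑ a, chr G x a a i :=
      hM.pd_dens isOpen_univ (mem_univ x) i
    have h3 : pd i (fun y => dens G y * grd G f y i) x =
        pd i (dens G) x * (∑ j, (G x)⁻¹ i j * pd j f x) +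
        dens G x * pd i (fun y => ∑ j, (G y)⁻¹ i j * pd j f y) x :=
      Bridge.pd_mul hdens (hgi i)
    rw [h3, hd, Bridge.pd_sum fun j _ => hprod i j]
    have h4 : ∀ j, pd i (fun y => (G y)⁻¹ i j * pd j f y) x =
        pd i (fun y => (G y)⁻¹ i j) x * pd j f x + (G x)⁻¹ i j * pd i (fun y => pd j f y) x :=
      fun j => Bridge.pd_mul (hinv i j) (hpdf j)
    simp only [h4]
    ring
  have e2 : ∀ i j, pd i (fun y => (G y)⁻¹ i j) x =
      - ∑ d, (chr G x i i d * (G x)⁻¹ d j + chr G x j i d * (G x)⁻¹ i d) := fun i j =>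
    hM.pd_inv isOpen_univ (mem_univ x) i i j
  unfold divg
  simp only [e1]
  rw [← Finset.mul_sum, ← mul_assoc, inv_mul_cancel₀ hdpos.ne', one_mul]
  simp only [e2, Finset.sum_add_distrib]
  unfold lap
  have t1 : ∑ i, (∑ a, chr G x a a i) * ∑ j, (G x)⁻¹ i j * pd j f x =
      ∑ i, ∑ j, ∑ d, chr G x i i d * (G x)⁻¹ d j * pd j f x := by
    simp only [Finset.sum_mul_sum]
    rw [Finset.sum_comm]
    refine Finset.sum_congr rfl fun a _ => ?_
    rw [Finset.sum_comm]
    refine Finset.sum_congr rfl fun j _ => Finset.sum_congr rfl fun d _ => by ring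
  have t2 : ∑ i, ∑ j, -(∑ d, chr G x i i d * (G x)⁻¹ d j + ∑ d, chr G x j i d * (G x)⁻¹ i d) *
      pd j f x = - (∑ i, ∑ j, ∑ d, chr G x i i d * (G x)⁻¹ d j * pd j f x) -
      ∑ i, ∑ j, (G x)⁻¹ i j * ∑ k, chr G x k i j * pd k f x := by
    have t3 : ∀ i, ∑ j, ∑ d, chr G x j i d * (G x)⁻¹ i d * pd j f x =
        ∑ j, (G x)⁻¹ i j * ∑ k, chr G x k i j * pd k f x := by
      intro i
      rw [Finset.sum_comm]
      refine Finset.sum_congr rfl fun d _ => ?_
      rw [Finset.mul_sum]
      exact Finset.sum_congr rfl fun j _ => by ring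
    simp only [← t3]
    rw [← Finset.sum_neg_distrib, ← Finset.sum_sub_distrib]
    refine Finset.sum_congr rfl fun i _ => ?_
    rw [← Finset.sum_neg_distrib, ← Finset.sum_sub_distrib]
    refine Finset.sum_congr rfl fun j _ => ?_
    rw [neg_mul, add_mul, Finset.sum_mul, Finset.sum_mul]
    ring
  rw [t1, t2]
  simp only [mul_sub, Finset.sum_sub_distrib]
  ring

end div

section unfold
variable {n : ℕ} {Γ : Type} [Group Γ] [MulAction Γ (E n)] {G : E n → Matrix (Fin n) (Fin n) ℝ}

theorem integral_smul_set (h : Act n Γ) (hG : Met n Γ G) (γ : Γ) {S : Set (E n)}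
    (hS : MeasurableSet S) (F : E n → ℝ) :
    ∫ x in (fun y : E n => γ • y) '' S, F x * dens G x = ∫ x in S, F (γ • x) * dens G x := by
  rw [integral_image_eq_integral_abs_det_fderiv_smul volume hS
    (fun x _ => (diff h γ x).hasFDerivAt.hasFDerivWithinAt) (inj γ).injOn]
  congr 1
  funext x
  rw [← det_Dm, abs_of_pos (det_pos h γ x), smul_eq_mul, ← dens_trans h hG γ x]
  ring

/-- Unfolding for integrals of continuous functions with compact support. -/
theorem unfold_int (h : Act n Γ) (hG : Met n Γ G) {D : Set (E n)} (hD : MeasurableSet D)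
    (hDb : Bornology.IsBounded D) (hD' : ∀ x : E n, ∃! γ : Γ, γ • x ∈ D) {F : E n → ℝ}
    (hF : Continuous F) (hFc : HasCompactSupport F) :
    ∫ x, F x * dens G x = ∫ x in D, (∑ᶠ γ : Γ, F (γ • x)) * dens G x := by
  classical
  have := countable h
  have hdc : Continuous (dens G) := (IBP.contDiff_dens hG).continuous
  have hfin := finite_meet h hDb.isCompact_closure hFc
  set T := hfin.toFinset with hT
  have hTout : ∀ γ : Γ, γ ∉ T → ∀ x ∈ D, F (γ • x) = 0 := by
    intro γ hγ x hx
    by_contra hne
    exact hγ ((Finite.mem_toFinset _).2 ⟨x, subset_closure hx, subset_tsupport _ hne⟩)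
  have hc : (⋃ γ : Γ, (fun y : E n => γ • y) '' D) = Set.univ := by
    refine Set.eq_univ_of_forall fun x => ?_
    obtain ⟨γ, hγ, _⟩ := hD' x
    exact Set.mem_iUnion.2 ⟨γ⁻¹, γ • x, hγ, by simp⟩
  have hm : ∀ γ : Γ, MeasurableSet ((fun y : E n => γ • y) '' D) := fun γ => by
    have : (fun y : E n => γ • y) '' D = (fun y : E n => γ⁻¹ • y) ⁻¹' D := by
      ext x
      constructor
      · rintro ⟨y, hy, rfl⟩; simpa using hy
      · intro hx; exact ⟨γ⁻¹ • x, hx, by simp⟩
    rw [this]
    exact measurable_smul h γ⁻¹ hD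
  have hdis : Pairwise (Function.onFun Disjoint fun γ : Γ => (fun y : E n => γ • y) '' D) := by
    intro γ γ' hne
    refine Set.disjoint_left.2 ?_
    rintro x ⟨y, hy, rfl⟩ ⟨z, hz, hzy⟩
    obtain ⟨g, _, hg2⟩ := hD' (γ • y)
    apply hne
    have h1 := hg2 γ⁻¹ (by simpa using hy)
    have h2 := hg2 γ'⁻¹ (by
      have : γ'⁻¹ • γ • y = z := by rw [← show γ' • z = γ • y from hzy]; simp
      show γ'⁻¹ • γ • y ∈ D
      rw [this]; exact hz)
    exact inv_injective (h1.trans h2.symm)
  have hint : Integrable fun x => F x * dens G x :=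
    (hF.mul hdc).integrable_of_hasCompactSupport hFc.mul_right
  have hintD : ∀ γ : Γ, IntegrableOn (fun x => F (γ • x) * dens G x) D := fun γ =>
    (((hF.comp (cont h γ)).mul hdc).continuousOn.integrableOn_compact
      hDb.isCompact_closure).mono_set subset_closure
  calc ∫ x, F x * dens G x
      = ∫ x in ⋃ γ : Γ, (fun y : E n => γ • y) '' D, F x * dens G x := by
        rw [hc, setIntegral_univ]
    _ = ∑' γ : Γ, ∫ x in (fun y : E n => γ • y) '' D, F x * dens G x :=
        integral_iUnion hm hdis hint.integrableOn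
    _ = ∑' γ : Γ, ∫ x in D, F (γ • x) * dens G x :=
        tsum_congr fun γ => integral_smul_set h hG γ hD F
    _ = ∑ γ ∈ T, ∫ x in D, F (γ • x) * dens G x := by
        refine tsum_eq_sum fun γ hγ => ?_
        exact setIntegral_eq_zero_of_forall_eq_zero fun x hx => by rw [hTout γ hγ x hx, zero_mul]
    _ = ∫ x in D, ∑ γ ∈ T, F (γ • x) * dens G x := by
        rw [integral_finsetSum _ fun γ _ => hintD γ]
    _ = _ := by
        refine setIntegral_congr_fun hD fun x hx => ?_
        rw [finsum_eq_sum_of_support_subset (s := T), Finset.sum_mul]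
        intro γ hγ
        by_contra hcon
        exact hγ (hTout γ hcon x hx)

end unfold

/-- Block 20b. -/
theorem main : SpecLapInt := by
  classical
  intro n Γ _ _ G h hG f hf hfi D hD hDb hD'
  obtain ⟨χ, hχ, hχc, hχ0, hχ1⟩ := exists_chi (n := n) (Γ := Γ) h
  have hf2 : ContDiff ℝ 2 f := contDiff_infty.1 hf 2
  have hM := Bridge.metricOn hG.smooth hG.pos
  have hχ1' : ∀ x, ∑ᶠ γ : Γ, χ (γ • x) = 1 := by
    intro x
    rw [← hχ1 x]
    exact finsum_eq_of_bijective (fun γ => γ⁻¹) inv_involutive.bijective fun γ => by simp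
  have hgrd : ContDiff ℝ 1 (grd G f) := by
    refine contDiff_pi.2 fun i => ?_
    refine ContDiff.sum fun j _ => ContDiff.mul ?_ (Bridge.contDiff_pd hf2 (by norm_num) j)
    refine contDiff_iff_contDiffAt.2 fun x => ?_
    exact (hM.sm_inv isOpen_univ (mem_univ x) i j).of_le (by exact_mod_cast le_top)
  have hlapc : Continuous (lap G f) := by
    have : lap G f = fun x => divg G (grd G f) x :=
      funext fun x => lap_eq_divg hG.smooth hG.pos hf2 x
    rw [this]
    unfold divg
    have hd : ContDiff ℝ 1 (dens G) := contDiff_infty.1 (IBP.contDiff_dens hG) 1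
    refine (hd.continuous.inv₀ fun x => (dens_pos hG x).ne').mul ?_
    refine continuous_finsetSum _ fun i _ => ?_
    exact ((hd.mul (contDiff_pi.1 hgrd i)).continuous_fderiv one_ne_zero).clm_apply
      continuous_const
  have hlapi : ∀ (γ : Γ) x, lap G f (γ • x) = lap G f x := by
    intro γ x
    rw [← Bridge.lap_comp h hG γ f hf2 x]
    congr 1
    funext y
    exact hfi γ y
  -- left hand side
  have e1 : ∫ x, χ x * lap G f x * dens G x = ∫ x in D, lap G f x * dens G x := by
    rw [unfold_int h hG hD hDb hD' (F := fun x => χ x * lap G f x) (hχ.continuous.mul hlapc)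
      hχc.mul_right]
    congr 1
    funext x
    congr 1
    have hfin : (Function.support fun γ : Γ => χ (γ • x)).Finite := by
      refine (finite_meet h isCompact_singleton hχc.isCompact (K := {x})).subset fun γ hγ => ?_
      exact ⟨x, rfl, subset_tsupport _ hγ⟩
    simp only [hlapi]
    rw [← finsum_mul' _ _ hfin, hχ1', one_mul]
  -- right hand side
  have hpairc : Continuous fun x => IBP.pair χ (grd G f) x := by
    unfold IBP.pair
    refine continuous_finsetSum _ fun i _ => ?_
    exact ((hχ.continuous_fderiv (by simp)).clm_apply continuous_const).mul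
      (contDiff_pi.1 hgrd i).continuous
  have hpairs : HasCompactSupport fun x => IBP.pair χ (grd G f) x := by
    refine HasCompactSupport.intro hχc.isCompact fun x hx => ?_
    have h0 : fderiv ℝ χ x = 0 := by
      by_contra hne
      exact hx ((support_fderiv_subset ℝ) hne)
    simp [IBP.pair, pd, h0]
  have hpair : ∀ x, IBP.pair χ (grd G f) x = gradIp G χ f x := by
    intro x
    unfold IBP.pair grd gradIp
    refine Finset.sum_congr rfl fun i _ => ?_
    rw [Finset.mul_sum]
    exact Finset.sum_congr rfl fun j _ => by ring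
  have e2 : ∫ x, IBP.pair χ (grd G f) x * dens G x = 0 := by
    rw [unfold_int h hG hD hDb hD' hpairc hpairs]
    have : ∀ x, ∑ᶠ γ : Γ, IBP.pair χ (grd G f) (γ • x) = 0 := by
      intro x
      have hfin : {γ : Γ | ∃ y ∈ Metric.closedBall x 1, γ • y ∈ tsupport χ}.Finite :=
        finite_meet h (isCompact_closedBall x 1) hχc
      set T := hfin.toFinset with hT
      have hd : ∀ γ : Γ, DifferentiableAt ℝ (fun y : E n => χ (γ • y)) x := fun γ =>
        ((hχ.comp (h.smooth γ)).differentiable (by simp)) x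
      have hk : ∀ γ : Γ, IBP.pair χ (grd G f) (γ • x) =
          gradIp G (fun y => χ (γ • y)) f x := by
        intro γ
        rw [hpair, ← gradIp_comp h hG γ χ f x (hχ.differentiable (by simp) _)
          (hf.differentiable (by simp) _)]
        congr 1
        funext y
        exact hfi γ y
      rw [finsum_eq_sum_of_support_subset (s := T)]
      · simp only [hk]
        have hsum : ∑ γ ∈ T, gradIp G (fun y => χ (γ • y)) f x =
            gradIp G (fun y => ∑ γ ∈ T, χ (γ • y)) f x := by
          unfold gradIp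
          rw [Finset.sum_comm]
          refine Finset.sum_congr rfl fun i _ => ?_
          rw [Finset.sum_comm]
          refine Finset.sum_congr rfl fun j _ => ?_
          have : pd i (fun y => ∑ γ ∈ T, χ (γ • y)) x = ∑ γ ∈ T, pd i (fun y => χ (γ • y)) x :=
            Bridge.pd_sum fun γ _ => hd γ
          rw [this, Finset.mul_sum, Finset.sum_mul]
        rw [hsum]
        have hev : (fun y => ∑ γ ∈ T, χ (γ • y)) =ᶠ[nhds x] fun _ => 1 := by
          filter_upwards [Metric.closedBall_mem_nhds x one_pos] with y hy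
          rw [← hχ1' y, finsum_eq_sum_of_support_subset (s := T)]
          intro γ hγ
          exact (Finite.mem_toFinset _).2 ⟨y, hy, subset_tsupport _ hγ⟩
        unfold gradIp pd
        rw [hev.fderiv_eq]
        simp
      · intro γ hγ
        refine (Finite.mem_toFinset _).2 ⟨x, Metric.mem_closedBall_self zero_le_one, ?_⟩
        by_contra hx
        apply hγ
        have h0 : fderiv ℝ χ (γ • x) = 0 := by
          by_contra hne
          exact hx ((support_fderiv_subset ℝ) hne)
        simp [IBP.pair, pd, h0]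
    simp [this]
  have e3 := IBP.ibp hG χ (hχ.of_le (by exact_mod_cast le_top)) hχc (grd G f) hgrd
  simp only [← lap_eq_divg hG.smooth hG.pos hf2] at e3
  rw [e1, e2, neg_zero] at e3
  exact e3

end Vale.Agent.P223.H.LapInt
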