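import Vale.Agent.P223.H.Spec2
import Vale.Agent.P223.H.LapInt
import Vale.Agent.P223.H.Cor

/-! Block 20c. -/

namespace Vale.Agent.P223.H.Conf

open scoped ContDiff
open MeasureTheory Common Set

variable {n : ℕ} {Γ : Type} [Group Γ] [MulAction Γ (E n)] {G : E n → Matrix (Fin n) (Fin n) ℝ}

theorem posDef_smul {M : Matrix (Fin n) (Fin n) ℝ} (hM : M.PosDef) {c : ℝ} (hc : 0 < c) :
    (c • M).PosDef := hM.smul hc

/-- The conformal metric. -/
theorem confm_met (hG : Met n Γ G) {f : E n → ℝ} (hf : ContDiff ℝ ∞ f)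
    (hfi : ∀ (γ : Γ) (x : E n), f (γ • x) = f x) : Met n Γ (confm f G) where
  smooth := fun i j => by
    have : (fun x => confm f G x i j) = fun x => Real.exp (2 * f x) * G x i j := by
      funext x
      simp [confm, Matrix.smul_apply]
    rw [this]
    exact (contDiff_const.mul hf).exp.mul (hG.smooth i j)
  pos := fun x => posDef_smul (hG.pos x) (Real.exp_pos _)
  inv := fun γ x v w => by
    have h := hG.inv γ x v w
    have e1 : ∀ i j, confm f G (γ • x) i j = Real.exp (2 * f x) * G (γ • x) i j := fun i j => by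
      simp [confm, Matrix.smul_apply, hfi]
    have e2 : ∀ i j, confm f G x i j = Real.exp (2 * f x) * G x i j := fun i j => by
      simp [confm, Matrix.smul_apply]
    simp only [e1, e2]
    have h1 : ∀ a b : Fin n → Fin n → ℝ, ∑ i, ∑ j, a i j * (Real.exp (2 * f x) * b i j) =
        Real.exp (2 * f x) * ∑ i, ∑ j, a i j * b i j := by
      intro a b
      simp only [Finset.mul_sum]
      exact Finset.sum_congr rfl fun i _ => Finset.sum_congr rfl fun j _ => by ring
    rw [h1 (fun i j => fderiv ℝ (fun y : E n => γ • y) x v i *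
      fderiv ℝ (fun y : E n => γ • y) x w j) (fun i j => G (γ • x) i j),
      h1 (fun i j => v i * w j) (fun i j => G x i j), h]

theorem confm_dens (f : E n → ℝ) (G : E n → Matrix (Fin n) (Fin n) ℝ) (x : E n) :
    dens (confm f G) x = Real.exp (n * f x) * dens G x := by
  unfold dens confm
  rw [Matrix.det_smul, Fintype.card_fin, Real.sqrt_mul (by positivity)]
  congr 1
  rw [← Real.exp_nat_mul, show (n : ℝ) * (2 * f x) = n * f x + n * f x by ring, Real.exp_add,
    Real.sqrt_mul_self (Real.exp_pos _).le]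

/-- The integral of an invariant function over a strict fundamental domain is minimal. -/
theorem int_le (h : Act n Γ) (hG : Met n Γ G) {D₀ D : Set (E n)} (hD₀ : MeasurableSet D₀)
    (hD₀' : ∀ x : E n, ∃! γ : Γ, γ • x ∈ D₀) (hD : MeasurableSet D)
    (hD' : ∀ x : E n, ∃ γ : Γ, γ • x ∈ D) {F : E n → ℝ} (hF : Measurable F)
    (hF0 : ∀ x, 0 ≤ F x) (hFi : ∀ (γ : Γ) x, F (γ • x) = F x) : int G D₀ F ≤ int G D F := by
  classical
  have e : ∀ S : Set (E n), int G S F =
      ∫⁻ x in S, ENNReal.ofReal (F x) * ENNReal.ofReal (dens G x) := fun S => by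
    unfold int
    exact lintegral_congr fun x => ENNReal.ofReal_mul (hF0 x)
  rw [e, e]
  have h1 := unfold_le h hG D hD hD' (D₀.indicator fun x => ENNReal.ofReal (F x))
    (hF.ennreal_ofReal.indicator hD₀)
  have h2 : ∫⁻ x, D₀.indicator (fun x => ENNReal.ofReal (F x)) x * ENNReal.ofReal (dens G x) =
      ∫⁻ x in D₀, ENNReal.ofReal (F x) * ENNReal.ofReal (dens G x) := by
    rw [← lintegral_indicator hD₀]
    refine lintegral_congr fun x => ?_
    by_cases hx : x ∈ D₀
    · simp [hx]
    · simp [hx]
  rw [h2] at h1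
  refine h1.trans (le_of_eq ?_)
  refine lintegral_congr fun x => ?_
  congr 1
  obtain ⟨γ₀, h3, h4⟩ := hD₀' x
  rw [tsum_eq_single γ₀]
  · rw [indicator_of_mem h3, hFi]
  · intro γ hγ
    exact indicator_of_notMem (fun hx => hγ (h4 γ hx)) _

theorem bernoulli {s t p : ℝ} (hs : 0 < s) (ht : 0 ≤ t) (hp : 1 ≤ p) :
    s ^ p * (1 + p * (t / s - 1)) ≤ t ^ p := by
  have h := one_add_mul_self_le_rpow_one_add (s := t / s - 1) (by
    have : 0 ≤ t / s := by positivity
    linarith) hp
  have e : t ^ p = s ^ p * (1 + (t / s - 1)) ^ p := by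
    rw [← Real.mul_rpow hs.le (by
      have : 0 ≤ t / s := by positivity
      linarith)]
    congr 1
    field_simp
    ring
  rw [e]
  exact mul_le_mul_of_nonneg_left h (Real.rpow_nonneg hs.le p)

/-- Block 20c. -/
theorem main (hDom : SpecDom) (hCS : SpecConfScal) (hLI : SpecLapInt) : SpecConf := by
  intro n Γ _ _ G hn h hG κ hmain s C hs hC hscal hric f hf hfi D hD hD'
  obtain ⟨D₀, hD₀, hD₀b, hD₀'⟩ := hDom n Γ h
  set p : ℝ := (n : ℝ) / 2 with hp
  have hn4 : (4 : ℝ) ≤ n := by exact_mod_cast hn
  have hp1 : 1 ≤ p := by rw [hp]; linarith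
  have hg : Met n Γ (confm f G) := confm_met hG hf hfi
  have hf2 : ContDiff ℝ 2 f := contDiff_infty.1 hf 2
  have hdc : Continuous (dens G) := (IBP.contDiff_dens hG).continuous
  have hscg : Continuous fun x => scal (confm f G) x := Cor.continuous_scal hg.smooth hg.pos
  -- continuity of the Laplacian
  have hscG : Continuous fun x => scal G x := Cor.continuous_scal hG.smooth hG.pos
  have hgrdc : Continuous fun x => gradSq G f x := by
    have hM := Bridge.metricOn hG.smooth hG.pos
    unfold gradSq gradIp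
    refine continuous_finsetSum _ fun i _ => continuous_finsetSum _ fun j _ => ?_
    have h1 : Continuous fun x => (G x)⁻¹ i j := continuous_iff_continuousAt.2 fun x =>
      (hM.sm_inv isOpen_univ (mem_univ x) i j).continuousAt
    exact (h1.mul (Bridge.contDiff_pd hf2 (k := 1) (by norm_num) i).continuous).mul
      (Bridge.contDiff_pd hf2 (k := 1) (by norm_num) j).continuous
  have hlapc : Continuous fun x => lap G f x := by
    have hn1 : (n : ℝ) - 1 ≠ 0 := by
      have : (0 : ℝ) < (n : ℝ) - 1 := by linarith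
      exact this.ne'
    have : (fun x => lap G f x) = fun x => (2 * ((n : ℝ) - 1))⁻¹ * (scal G x -
        ((n : ℝ) - 1) * ((n : ℝ) - 2) * gradSq G f x -
        Real.exp (2 * f x) * scal (confm f G) x) := by
      funext x
      rw [hCS n G hG.smooth hG.pos f hf x]
      field_simp
      ring
    rw [this]
    exact continuous_const.mul ((hscG.sub (continuous_const.mul hgrdc)).sub
      ((Real.continuous_exp.comp (continuous_const.mul hf.continuous)).mul hscg))
  -- integrability
  have hio : ∀ F : E n → ℝ, Continuous F → IntegrableOn F D₀ := fun F hF =>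
    (hF.continuousOn.integrableOn_compact hD₀b.isCompact_closure).mono_set subset_closure
  set V : ℝ := ∫ x in D₀, dens G x with hV
  set t : E n → ℝ := fun x => Real.exp (2 * f x) * max 0 (-scal (confm f G) x) with ht
  have htc : Continuous t :=
    (Real.continuous_exp.comp (continuous_const.mul hf.continuous)).mul
      (continuous_const.max hscg.neg)
  have ht0 : ∀ x, 0 ≤ t x := fun x => mul_nonneg (Real.exp_pos _).le (le_max_left _ _)
  have hts : ∀ x, s + 2 * ((n : ℝ) - 1) * lap G f x ≤ t x := by
    intro x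
    have h1 := hCS n G hG.smooth hG.pos f hf x
    have h2 : -(Real.exp (2 * f x) * scal (confm f G) x) ≤ t x := by
      rw [← mul_neg]
      exact mul_le_mul_of_nonneg_left (le_max_right _ _) (Real.exp_pos _).le
    have h3 := hscal x
    have h4 : 0 ≤ ((n : ℝ) - 1) * ((n : ℝ) - 2) * gradSq G f x :=
      mul_nonneg (mul_nonneg (by linarith) (by linarith)) (Grad.gradSq_nonneg' (hG.pos x) f)
    linarith
  set c : ℝ := s ^ p * p * (2 * ((n : ℝ) - 1)) / s with hc
  have hpt : ∀ x, s ^ p + c * lap G f x ≤ t x ^ p := by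
    intro x
    refine le_trans ?_ (bernoulli hs (ht0 x) hp1)
    have h5 : 1 + p * ((s + 2 * ((n : ℝ) - 1) * lap G f x) / s - 1) ≤
        1 + p * (t x / s - 1) := by
      have : (s + 2 * ((n : ℝ) - 1) * lap G f x) / s ≤ t x / s :=
        div_le_div_of_nonneg_right (hts x) hs.le
      have hp0 : 0 ≤ p := by linarith
      nlinarith
    refine le_trans (le_of_eq ?_) (mul_le_mul_of_nonneg_left h5 (Real.rpow_nonneg hs.le p))
    rw [hc]
    field_simp
    ring
  have hLI' := hLI n Γ G h hG f hf hfi D₀ hD₀ hD₀b hD₀'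
  have hint1 : ∫ x in D₀, (s ^ p + c * lap G f x) * dens G x = s ^ p * V := by
    have e : ∀ x, (s ^ p + c * lap G f x) * dens G x =
        s ^ p * dens G x + c * (lap G f x * dens G x) := fun x => by ring
    simp only [e]
    have i1 : IntegrableOn (fun x => s ^ p * dens G x) D₀ := (hio _ hdc).const_mul _
    have i2 : IntegrableOn (fun x => c * (lap G f x * dens G x)) D₀ :=
      hio _ (continuous_const.mul (hlapc.mul hdc))
    rw [integral_add i1 i2, integral_const_mul, integral_const_mul, hLI', mul_zero, add_zero]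
  have hdn : ∀ x, 0 ≤ dens G x := fun x => (dens_pos hG x).le
  have hint2 : ENNReal.ofReal (s ^ p * V) ≤
      ∫⁻ x in D₀, ENNReal.ofReal (t x ^ p * dens G x) := by
    have hcp : Continuous fun x => t x ^ p * dens G x :=
      (htc.rpow_const fun x => Or.inr (by linarith)).mul hdc
    rw [← hint1, ← ofReal_integral_eq_lintegral_ofReal (hio _ hcp)
      (ae_of_all _ fun x => mul_nonneg (Real.rpow_nonneg (ht0 x) _) (hdn x))]
    refine ENNReal.ofReal_le_ofReal (integral_mono
      (hio _ ((continuous_const.add (continuous_const.mul hlapc)).mul hdc)) (hio _ hcp)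
      fun x => mul_le_mul_of_nonneg_right (hpt x) (hdn x))
  have hint3 : ∫⁻ x in D₀, ENNReal.ofReal (t x ^ p * dens G x) =
      int (confm f G) D₀ (fun x => max 0 (-scal (confm f G) x) ^ p) := by
    unfold int
    refine lintegral_congr fun x => ?_
    congr 1
    rw [confm_dens, ht]
    dsimp only
    rw [Real.mul_rpow (Real.exp_pos _).le (le_max_left _ _), ← Real.exp_mul,
      show 2 * f x * p = n * f x by rw [hp]; ring]
    ring
  have hmain' := hmain (fun _ => C * s) D₀ hD₀ (fun x => (hD₀' x).exists) continuous_const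
    (fun _ => mul_nonneg hC hs.le) (fun _ _ => rfl) hric
  have hVeq : int G D₀ (fun _ => (C * s) ^ p) =
      ENNReal.ofReal (C ^ p) * ENNReal.ofReal (s ^ p * V) := by
    unfold int
    rw [← ENNReal.ofReal_mul (Real.rpow_nonneg hC p),
      ← ofReal_integral_eq_lintegral_ofReal ((hio _ hdc).const_mul _)
      (ae_of_all _ fun x => mul_nonneg (Real.rpow_nonneg (mul_nonneg hC hs.le) _) (hdn x)),
      integral_const_mul, Real.mul_rpow hC hs.le, mul_assoc]
  calc sv n Γ ≤ κ * int G D₀ (fun _ => (C * s) ^ p) := hmain'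
    _ = κ * ENNReal.ofReal (C ^ p) * ENNReal.ofReal (s ^ p * V) := by rw [hVeq, mul_assoc]
    _ ≤ κ * ENNReal.ofReal (C ^ p) *
        int (confm f G) D₀ (fun x => max 0 (-scal (confm f G) x) ^ p) := by
        rw [← hint3]
        exact mul_le_mul_right hint2 _
    _ ≤ _ := by
        refine mul_le_mul_right (int_le h hg hD₀ hD₀' hD hD' ?_ ?_ ?_) _
        · exact ((continuous_const.max hscg.neg).rpow_const fun x =>
            Or.inr (by linarith)).measurable
        · exact fun x => Real.rpow_nonneg (le_max_left _ _) _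
        · intro γ x
          rw [Bridge.scal_inv h hg γ x]

end Vale.Agent.P223.H.Conf
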