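import Vale.Agent.P223.H.Conf

/-! The conformal inequality by itself. -/

namespace Vale.Agent.P223.H.ConfCore

open scoped ContDiff
open MeasureTheory Common Set Conf

/-- If `Scal ≤ -s < 0` then `s^(n/2) vol(G) ≤ ∫ (Scal⁻)^(n/2)` for all conformal metrics. -/
theorem core (hCS : SpecConfScal) (hLI : SpecLapInt) (n : ℕ) (Γ : Type)
    [Group Γ] [MulAction Γ (E n)] (G : E n → Matrix (Fin n) (Fin n) ℝ) (hn : 4 ≤ n)
    (h : Act n Γ) (hG : Met n Γ G) (s : ℝ) (hs : 0 < s) (hscal : ∀ x, scal G x ≤ -s) (f : E n → ℝ)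
    (hf : ContDiff ℝ ∞ f) (hfi : ∀ (γ : Γ) (x : E n), f (γ • x) = f x) (D₀ : Set (E n))
    (hD₀ : MeasurableSet D₀) (hD₀b : Bornology.IsBounded D₀)
    (hD₀' : ∀ x : E n, ∃! γ : Γ, γ • x ∈ D₀) :
    int G D₀ (fun _ => s ^ ((n : ℝ) / 2)) ≤
      int (confm f G) D₀ (fun x => max 0 (-scal (confm f G) x) ^ ((n : ℝ) / 2)) := by
  set p : ℝ := (n : ℝ) / 2 with hp
  have hn4 : (4 : ℝ) ≤ n := by exact_mod_cast hn
  have hp1 : 1 ≤ p := by rw [hp]; linarith
  have hg : Met n Γ (confm f G) := confm_met hG hf hfi
  have hf2 : ContDiff ℝ 2 f := contDiff_infty.1 hf 2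
  have hdc : Continuous (dens G) := (IBP.contDiff_dens hG).continuous
  have hscg : Continuous fun x => scal (confm f G) x := Cor.continuous_scal hg.smooth hg.pos
  -- continuity of the Laplacian
  have hscG : Continuous fun x => scal G x := Cor.continuous_scal hG.smooth hG.pos
  have hgrdc : Continuous fun x => gradSq G f x := by
    have hM := Bridge.metricOn hG.smooth hG.pos
    unfold gradSq gradIp
    refine continuous_finsetSum _ fun i _ => continuous_finsetSum _ fun j _ => ?_
    have h1 : Continuous fun x => (G x)⁻¹ i j := continuous_iff_continuousAt.2 fun x =>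
      (hM.sm_inv isOpen_univ (mem_univ x) i j).continuousAt
    exact (h1.mul (Bridge.contDiff_pd hf2 (k := 1) (by norm_num) i).continuous).mul
      (Bridge.contDiff_pd hf2 (k := 1) (by norm_num) j).continuous
  have hlapc : Continuous fun x => lap G f x := by
    have hn1 : (n : ℝ) - 1 ≠ 0 := by
      have : (0 : ℝ) < (n : ℝ) - 1 := by linarith
      exact this.ne'
    have : (fun x => lap G f x) = fun x => (2 * ((n : ℝ) - 1))⁻¹ * (scal G x -
        ((n : ℝ) - 1) * ((n : ℝ) - 2) * gradSq G f x -
        Real.exp (2 * f x) * scal (confm f G) x) := by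
      funext x
      rw [hCS n G hG.smooth hG.pos f hf x]
      field_simp
      ring
    rw [this]
    exact continuous_const.mul ((hscG.sub (continuous_const.mul hgrdc)).sub
      ((Real.continuous_exp.comp (continuous_const.mul hf.continuous)).mul hscg))
  -- integrability
  have hio : ∀ F : E n → ℝ, Continuous F → IntegrableOn F D₀ := fun F hF =>
    (hF.continuousOn.integrableOn_compact hD₀b.isCompact_closure).mono_set subset_closure
  set V : ℝ := ∫ x in D₀, dens G x with hV
  set t : E n → ℝ := fun x => Real.exp (2 * f x) * max 0 (-scal (confm f G) x) with ht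
  have htc : Continuous t :=
    (Real.continuous_exp.comp (continuous_const.mul hf.continuous)).mul
      (continuous_const.max hscg.neg)
  have ht0 : ∀ x, 0 ≤ t x := fun x => mul_nonneg (Real.exp_pos _).le (le_max_left _ _)
  have hts : ∀ x, s + 2 * ((n : ℝ) - 1) * lap G f x ≤ t x := by
    intro x
    have h1 := hCS n G hG.smooth hG.pos f hf x
    have h2 : -(Real.exp (2 * f x) * scal (confm f G) x) ≤ t x := by
      rw [← mul_neg]
      exact mul_le_mul_of_nonneg_left (le_max_right _ _) (Real.exp_pos _).le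
    have h3 := hscal x
    have h4 : 0 ≤ ((n : ℝ) - 1) * ((n : ℝ) - 2) * gradSq G f x :=
      mul_nonneg (mul_nonneg (by linarith) (by linarith)) (Grad.gradSq_nonneg' (hG.pos x) f)
    linarith
  set c : ℝ := s ^ p * p * (2 * ((n : ℝ) - 1)) / s with hc
  have hpt : ∀ x, s ^ p + c * lap G f x ≤ t x ^ p := by
    intro x
    refine le_trans ?_ (bernoulli hs (ht0 x) hp1)
    have h5 : 1 + p * ((s + 2 * ((n : ℝ) - 1) * lap G f x) / s - 1) ≤
        1 + p * (t x / s - 1) := by
      have : (s + 2 * ((n : ℝ) - 1) * lap G f x) / s ≤ t x / s :=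
        div_le_div_of_nonneg_right (hts x) hs.le
      have hp0 : 0 ≤ p := by linarith
      nlinarith
    refine le_trans (le_of_eq ?_) (mul_le_mul_of_nonneg_left h5 (Real.rpow_nonneg hs.le p))
    rw [hc]
    field_simp
    ring
  have hLI' := hLI n Γ G h hG f hf hfi D₀ hD₀ hD₀b hD₀'
  have hint1 : ∫ x in D₀, (s ^ p + c * lap G f x) * dens G x = s ^ p * V := by
    have e : ∀ x, (s ^ p + c * lap G f x) * dens G x =
        s ^ p * dens G x + c * (lap G f x * dens G x) := fun x => by ring
    simp only [e]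
    have i1 : IntegrableOn (fun x => s ^ p * dens G x) D₀ := (hio _ hdc).const_mul _
    have i2 : IntegrableOn (fun x => c * (lap G f x * dens G x)) D₀ :=
      hio _ (continuous_const.mul (hlapc.mul hdc))
    rw [integral_add i1 i2, integral_const_mul, integral_const_mul, hLI', mul_zero, add_zero]
  have hdn : ∀ x, 0 ≤ dens G x := fun x => (dens_pos hG x).le
  have hint2 : ENNReal.ofReal (s ^ p * V) ≤
      ∫⁻ x in D₀, ENNReal.ofReal (t x ^ p * dens G x) := by
    have hcp : Continuous fun x => t x ^ p * dens G x :=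
      (htc.rpow_const fun x => Or.inr (by linarith)).mul hdc
    rw [← hint1, ← ofReal_integral_eq_lintegral_ofReal (hio _ hcp)
      (ae_of_all _ fun x => mul_nonneg (Real.rpow_nonneg (ht0 x) _) (hdn x))]
    refine ENNReal.ofReal_le_ofReal (integral_mono
      (hio _ ((continuous_const.add (continuous_const.mul hlapc)).mul hdc)) (hio _ hcp)
      fun x => mul_le_mul_of_nonneg_right (hpt x) (hdn x))
  have hint3 : ∫⁻ x in D₀, ENNReal.ofReal (t x ^ p * dens G x) =
      int (confm f G) D₀ (fun x => max 0 (-scal (confm f G) x) ^ p) := by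
    unfold int
    refine lintegral_congr fun x => ?_
    congr 1
    rw [confm_dens, ht]
    dsimp only
    rw [Real.mul_rpow (Real.exp_pos _).le (le_max_left _ _), ← Real.exp_mul,
      show 2 * f x * p = n * f x by rw [hp]; ring]
    ring
  have hVeq : int G D₀ (fun _ => s ^ p) = ENNReal.ofReal (s ^ p * V) := by
    unfold int
    rw [← ofReal_integral_eq_lintegral_ofReal ((hio _ hdc).const_mul _)
      (ae_of_all _ fun x => mul_nonneg (Real.rpow_nonneg hs.le _) (hdn x)),
      integral_const_mul]
  rw [hVeq, ← hint3]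
  exact hint2

end Vale.Agent.P223.H.ConfCore
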