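import Vale.Agent.P223.MathlibUsed
import Mathlib.MeasureTheory.Measure.Haar.OfBasis
import Mathlib.MeasureTheory.Measure.WithDensity

/-! Definitions for the statements: closed manifolds `ℝ^n / Γ` with a Riemannian metric. -/

namespace Vale.Agent.P223.D

open scoped ContDiff
open MeasureTheory

/-- `ℝ^n`. -/
abbrev E (n : ℕ) := Fin n → ℝ

/-- The derivative at `x` of the action of `γ`. -/
noncomputable def dact {n : ℕ} {Γ : Type} [Group Γ] [MulAction Γ (E n)] (γ : Γ) (x : E n) :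
    E n →L[ℝ] E n := fderiv ℝ (fun y : E n => γ • y) x

/-- `Γ` acts on `ℝ^n` freely, properly discontinuously, cocompactly, by smooth orientation
preserving maps: `ℝ^n / Γ` is a closed oriented smooth manifold with universal cover `ℝ^n`. -/
structure Act (n : ℕ) (Γ : Type) [Group Γ] [MulAction Γ (E n)] : Prop where
  smooth : ∀ γ : Γ, ContDiff ℝ ∞ (fun x : E n => γ • x)
  orient : ∀ (γ : Γ) (x : E n), 0 < (dact γ x).det
  free : ∀ (γ : Γ) (x : E n), γ • x = x → γ = 1
  proper : ∀ K : Set (E n), IsCompact K → {γ : Γ | ∃ x ∈ K, γ • x ∈ K}.Finite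
  cocompact : ∃ K : Set (E n), IsCompact K ∧ ∀ x, ∃ γ : Γ, γ • x ∈ K

/-- Matrix valued functions on `ℝ^n`. -/
abbrev Mtx (n : ℕ) := E n → Matrix (Fin n) (Fin n) ℝ

/-- The value of the bilinear form with matrix `A` at `(v, w)`. -/
noncomputable def bil {n : ℕ} (A : Fin n → Fin n → ℝ) (v w : E n) : ℝ :=
  ∑ i, ∑ j, v i * w j * A i j

/-- `G` is a smooth `Γ`-invariant Riemannian metric on `ℝ^n`, i.e. a Riemannian metric on
`ℝ^n / Γ`. -/
structure Met (n : ℕ) (Γ : Type) [Group Γ] [MulAction Γ (E n)] (G : Mtx n) : Prop where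
  smooth : ∀ i j, ContDiff ℝ ∞ (fun x => G x i j)
  pos : ∀ x, (G x).PosDef
  inv : ∀ (γ : Γ) (x v w : E n), bil (G (γ • x)) (dact γ x v) (dact γ x w) = bil (G x) v w

/-- Partial derivative of `f` in the direction of the coordinate `i`. -/
noncomputable def pd {n : ℕ} (i : Fin n) (f : E n → ℝ) (x : E n) : ℝ :=
  fderiv ℝ f x (Pi.single i 1)

/-- Christoffel symbol with upper index `k` and lower indices `i j`. -/
noncomputable def chr {n : ℕ} (G : Mtx n) (x : E n) (k i j : Fin n) : ℝ :=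
  (1 / 2) * ∑ l, (G x)⁻¹ k l *
    (pd i (fun y => G y j l) x + pd j (fun y => G y i l) x - pd l (fun y => G y i j) x)

/-- Ricci tensor. -/
noncomputable def ric {n : ℕ} (G : Mtx n) (x : E n) (i j : Fin n) : ℝ :=
  ∑ k, (pd k (fun y => chr G y k i j) x - pd j (fun y => chr G y k i k) x)
  + ∑ k, ∑ l, (chr G x k k l * chr G x l i j - chr G x k j l * chr G x l i k)

/-- Scalar curvature. -/
noncomputable def scal {n : ℕ} (G : Mtx n) (x : E n) : ℝ := ∑ i, ∑ j, (G x)⁻¹ i j * ric G x i j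

/-- The negative part of the scalar curvature. -/
noncomputable def sn {n : ℕ} (G : Mtx n) (x : E n) : ℝ := max 0 (-scal G x)

/-- `Ric ≥ -ρ G`. -/
def RicGe {n : ℕ} (G : Mtx n) (ρ : E n → ℝ) : Prop :=
  ∀ x v : E n, -ρ x * bil (G x) v v ≤ bil (ric G x) v v

/-- The integral of `h^(n/2)` over `D` with respect to the Riemannian volume of `G`. -/
noncomputable def L {n : ℕ} (G : Mtx n) (D : Set (E n)) (h : E n → ℝ) : ENNReal :=
  ∫⁻ x in D, ENNReal.ofReal (h x ^ ((n : ℝ) / 2) * √(G x).det)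

/-- The quotient manifold. -/
def Mfd (n : ℕ) (Γ : Type) [Group Γ] [MulAction Γ (E n)] : Type :=
  Quotient (MulAction.orbitRel Γ (E n))

/-- The quotient map. -/
def pr {n : ℕ} {Γ : Type} [Group Γ] [MulAction Γ (E n)] (x : E n) : Mfd n Γ := Quotient.mk _ x

instance (n : ℕ) (Γ : Type) [Group Γ] [MulAction Γ (E n)] : TopologicalSpace (Mfd n Γ) :=
  inferInstanceAs (TopologicalSpace (Quotient (MulAction.orbitRel Γ (E n))))

/-- The standard simplex with `k` vertices. -/
abbrev Δ (k : ℕ) := stdSimplex ℝ (Fin k)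

/-- Singular simplices with `k` vertices. -/
structure Simp (k : ℕ) (X : Type) [TopologicalSpace X] where
  f : Δ k → X
  cont : Continuous f

/-- The point with barycentric coordinates `t` of the `i`-th face of the standard simplex. -/
noncomputable def fc {k : ℕ} (i : Fin (k + 1)) (t : Δ k) : Δ (k + 1) :=
  stdSimplex.map i.succAbove t

/-- The coefficient of `τ` in the singular boundary of a real singular chain `z`. -/
noncomputable def bd {k : ℕ} {X : Type} [TopologicalSpace X] (z : Simp (k + 1) X →₀ ℝ)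
    (τ : Simp k X) : ℝ :=
  z.sum fun σ r => ∑ᶠ (i : Fin (k + 1)) (_ : ∀ t, τ.f t = σ.f (fc i t)), (-1) ^ (i : ℕ) * r

/-- `s` is a positively oriented affine simplex of `ℝ^n`, which contains `p` in its interior and is
mapped injectively to the quotient. -/
def Aff {n : ℕ} (Γ : Type) [Group Γ] [MulAction Γ (E n)] (p : E n) (s : Δ (n + 1) → E n) : Prop :=
  ∃ (w : E n) (A : Matrix (Fin n) (Fin n) ℝ), 0 < A.det ∧
    (∀ t j, s t j = w j + ∑ i : Fin n, t i.succ * A i j) ∧ (∃ t, (∀ i, 0 < t i) ∧ s t = p) ∧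
    ∀ t t' (γ : Γ), γ • s t = s t' → γ = 1

open Classical in
/-- `z` is a cycle which represents the fundamental class of `ℝ^n / Γ`: for every point `p` there
are a simplex `s` as above and a chain `b`, such that `z - s - ∂b` is supported on simplices which
do not meet the image of `p`. -/
def IsFund (n : ℕ) (Γ : Type) [Group Γ] [MulAction Γ (E n)]
    (z : Simp (n + 1) (Mfd n Γ) →₀ ℝ) : Prop :=
  (∀ τ, bd z τ = 0) ∧ ∀ p : E n, ∃ s, Aff Γ p s ∧ ∃ b : Simp (n + 2) (Mfd n Γ) →₀ ℝ,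
    ∀ τ : Simp (n + 1) (Mfd n Γ), (∃ t, τ.f t = pr p) →
      z τ = bd b τ + if ∀ t, τ.f t = pr (s t) then 1 else 0

/-- The simplicial volume of `ℝ^n / Γ`. -/
noncomputable def sv (n : ℕ) (Γ : Type) [Group Γ] [MulAction Γ (E n)] : ENNReal :=
  ⨅ (z : Simp (n + 1) (Mfd n Γ) →₀ ℝ) (_ : IsFund n Γ z), ENNReal.ofReal (z.sum fun _ r => |r|)

/-- The dimensional constant `n - 2 + √n`. -/
noncomputable def kap (n : ℕ) : ℝ := (n : ℝ) - 2 + √n

/-- `h` is invariant. -/
def Inv {n : ℕ} (Γ : Type) [Group Γ] [MulAction Γ (E n)] (h : E n → ℝ) : Prop :=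
  ∀ (γ : Γ) x, h (γ • x) = h x

/-- The conformal metric `exp(2 f) G`. -/
noncomputable def conf {n : ℕ} (f : E n → ℝ) (G : Mtx n) : Mtx n :=
  fun x => Real.exp (2 * f x) • G x

/-- `Ric ≤ 0`. -/
def RicNonpos {n : ℕ} (G : Mtx n) : Prop := ∀ x v : E n, bil (ric G x) v v ≤ 0

/-- `G` minimises the integral of `(Scal⁻)^(n/2)` among all metrics on `ℝ^n / Γ`. -/
def Mini (n : ℕ) (Γ : Type) [Group Γ] [MulAction Γ (E n)] (D : Set (E n)) (G : Mtx n) : Prop :=
  ∀ G' : Mtx n, Met n Γ G' → L G D (sn G) ≤ L G' D (sn G')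

/-- The time derivative of a family of metrics. -/
noncomputable def dtG {n : ℕ} (G : ℝ → Mtx n) (t : ℝ) (x : E n) (i j : Fin n) : ℝ :=
  deriv (fun s => G s x i j) t

/-- A smooth one-parameter family of Riemannian metrics on `ℝ^n / Γ`. -/
structure Fam (n : ℕ) (Γ : Type) [Group Γ] [MulAction Γ (E n)] (G : ℝ → Mtx n) : Prop where
  smooth : ∀ i j, ContDiff ℝ ∞ (fun p : ℝ × E n => G p.1 p.2 i j)
  met : ∀ t, Met n Γ (G t)

/-- A Ricci flow on `ℝ^n / Γ` for all times `t ≥ 0`. -/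
structure RF (n : ℕ) (Γ : Type) [Group Γ] [MulAction Γ (E n)] (G : ℝ → Mtx n) : Prop where
  smooth : ∀ i j, ContDiffOn ℝ ∞ (fun p : ℝ × E n => G p.1 p.2 i j) (Set.Ici 0 ×ˢ Set.univ)
  met : ∀ t, 0 ≤ t → Met n Γ (G t)
  flow : ∀ t, 0 < t → ∀ x i j, HasDerivAt (fun s => G s x i j) (-2 * ric (G t) x i j) t

end Vale.Agent.P223.D
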