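import Vale.Agent.P223.H.ConfScal
import Vale.Agent.P223.H.B25c

/-! Block 25b: evolution of the scalar curvature and of the volume under the Ricci flow. -/

namespace Vale.Agent.P223.H.Evol

open scoped ContDiff Matrix Topology
open Finset Common

/-! ### Algebra -/

section alg

variable {ι : Type} [Fintype ι]

theorem s1 (f : ι → ι → ι → ι → ℝ) :
    ∑ i, ∑ j, ∑ k, ∑ l, f i j k l = ∑ j, ∑ i, ∑ k, ∑ l, f i j k l := Finset.sum_comm

theorem s2 (f : ι → ι → ι → ι → ℝ) :
    ∑ i, ∑ j, ∑ k, ∑ l, f i j k l = ∑ i, ∑ k, ∑ j, ∑ l, f i j k l :=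
  Finset.sum_congr rfl fun _ _ => Finset.sum_comm

theorem s3 (f : ι → ι → ι → ι → ℝ) :
    ∑ i, ∑ j, ∑ k, ∑ l, f i j k l = ∑ i, ∑ j, ∑ l, ∑ k, f i j k l :=
  Finset.sum_congr rfl fun _ _ => Finset.sum_congr rfl fun _ _ => Finset.sum_comm

theorem q3 (gi : ι → ι → ℝ) (C A : ι → ι → ι → ℝ)
    (hC : ∀ k i j, C k i j = C k j i)
    (hA : ∀ k i j, A k i j = A k j i) :
    ∑ i, ∑ j, ∑ k, ∑ l, gi i j * (A k j l * C l i k) =
    ∑ k, ∑ i, ∑ j, ∑ d, C i k d * gi d j * A k i j := by
  rw [s2, s1, s3, s2, s3]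
  refine sum_congr rfl fun k _ => sum_congr rfl fun i _ => sum_congr rfl fun j _ =>
    sum_congr rfl fun d _ => ?_
  rw [hA k i j, hC i k d]; ring

theorem q4 (gi : ι → ι → ℝ) (C A : ι → ι → ι → ℝ)
    (hC : ∀ k i j, C k i j = C k j i) :
    ∑ i, ∑ j, ∑ k, ∑ l, gi i j * (C k j l * A l i k) =
    ∑ k, ∑ i, ∑ j, ∑ d, C j k d * gi i d * A k i j := by
  rw [s3, s2, s1, s3]
  refine sum_congr rfl fun k _ => sum_congr rfl fun i _ => sum_congr rfl fun j _ =>
    sum_congr rfl fun d _ => ?_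
  rw [hC j k d]; ring

theorem q1 (gi : ι → ι → ℝ) (C A : ι → ι → ι → ℝ) :
    ∑ i, ∑ j, ∑ k, ∑ l, gi i j * (A k k l * C l i j) =
    ∑ k, ∑ i, ∑ j, ∑ d, C i k d * gi k d * A j j i := by
  rw [s3, s2, s3]
  refine sum_congr rfl fun k _ => sum_congr rfl fun i _ => sum_congr rfl fun j _ =>
    sum_congr rfl fun d _ => ?_
  ring

theorem q5 (gi : ι → ι → ℝ) (C A : ι → ι → ι → ℝ) :
    ∑ l, (∑ k, C k k l) * ∑ i, gi l i * ∑ j, A j i j =
    ∑ k, ∑ i, ∑ j, ∑ d, C k k d * gi d i * A j i j := by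
  have e : ∀ l, (∑ k, C k k l) * ∑ i, gi l i * ∑ j, A j i j =
      ∑ k, ∑ i, ∑ j, C k k l * gi l i * A j i j := by
    intro l
    rw [Finset.sum_mul]
    refine sum_congr rfl fun k _ => ?_
    rw [Finset.mul_sum]
    refine sum_congr rfl fun i _ => ?_
    rw [Finset.mul_sum, Finset.mul_sum]
    exact sum_congr rfl fun j _ => by ring
  simp only [e]
  rw [s1, s2, s3]

theorem q2 (gi : ι → ι → ℝ) (C A : ι → ι → ι → ℝ) :
    ∑ i, ∑ j, ∑ k, ∑ l, gi i j * (C k k l * A l i j) =
    ∑ l, (∑ k, C k k l) * ∑ i, ∑ j, gi i j * A l i j := by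
  have : ∀ l, (∑ k, C k k l) * ∑ i, ∑ j, gi i j * A l i j =
      ∑ k, ∑ i, ∑ j, gi i j * (C k k l * A l i j) := by
    intro l
    rw [Finset.sum_mul]
    refine sum_congr rfl fun k _ => ?_
    rw [Finset.mul_sum]
    refine sum_congr rfl fun i _ => ?_
    rw [Finset.mul_sum]
    exact sum_congr rfl fun j _ => by ring
  simp only [this]
  rw [s3, s2, s1, s3, s2]

theorem t2 (gi : ι → ι → ℝ) (dA : ι → ι → ι → ι → ℝ)
    (hgi : ∀ i j, gi i j = gi j i) :
    ∑ i, ∑ j, ∑ k, gi i j * dA j k i k = ∑ k, ∑ i, gi k i * ∑ j, dA k j i j := by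
  rw [Finset.sum_comm]
  refine sum_congr rfl fun k _ => sum_congr rfl fun i _ => ?_
  rw [Finset.mul_sum, hgi i k]

/-- the trace of `∇_k A^k_ij - ∇_j A^k_ik` is a divergence -/
theorem trace_div (gi : ι → ι → ℝ) (C A : ι → ι → ι → ℝ) (dA : ι → ι → ι → ι → ℝ)
    (dgi : ι → ι → ι → ℝ) (hgi : ∀ i j, gi i j = gi j i) (hC : ∀ k i j, C k i j = C k j i)
    (hA : ∀ k i j, A k i j = A k j i)
    (hd : ∀ c i j, dgi c i j = - ∑ d, (C i c d * gi d j + C j c d * gi i d)) :
    ∑ i, ∑ j, gi i j * (∑ k, (dA k k i j - dA j k i k) +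
      ∑ k, ∑ l, ((A k k l * C l i j + C k k l * A l i j) -
        (A k j l * C l i k + C k j l * A l i k))) =
    ∑ k, (∑ i, ∑ j, (dgi k i j * A k i j + gi i j * dA k k i j) -
      ∑ i, (dgi k k i * ∑ j, A j i j + gi k i * ∑ j, dA k j i j)) +
    ∑ l, (∑ k, C k k l) * (∑ i, ∑ j, gi i j * A l i j - ∑ i, gi l i * ∑ j, A j i j) := by
  have e1 : ∑ k, ∑ i, ∑ j, dgi k i j * A k i j =
      -∑ k, ∑ i, ∑ j, ∑ d, C i k d * gi d j * A k i j -
        ∑ k, ∑ i, ∑ j, ∑ d, C j k d * gi i d * A k i j := by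
    rw [← Finset.sum_neg_distrib, ← Finset.sum_sub_distrib]
    refine sum_congr rfl fun k _ => ?_
    rw [← Finset.sum_neg_distrib, ← Finset.sum_sub_distrib]
    refine sum_congr rfl fun i _ => ?_
    rw [← Finset.sum_neg_distrib, ← Finset.sum_sub_distrib]
    refine sum_congr rfl fun j _ => ?_
    rw [hd, neg_mul, Finset.sum_mul, ← Finset.sum_neg_distrib, ← Finset.sum_neg_distrib,
      ← Finset.sum_sub_distrib]
    refine sum_congr rfl fun d _ => ?_
    ring
  have e2 : ∑ k, ∑ i, dgi k k i * ∑ j, A j i j =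
      -∑ k, ∑ i, ∑ j, ∑ d, C k k d * gi d i * A j i j -
        ∑ k, ∑ i, ∑ j, ∑ d, C i k d * gi k d * A j j i := by
    rw [← Finset.sum_neg_distrib, ← Finset.sum_sub_distrib]
    refine sum_congr rfl fun k _ => ?_
    rw [← Finset.sum_neg_distrib, ← Finset.sum_sub_distrib]
    refine sum_congr rfl fun i _ => ?_
    rw [← Finset.sum_neg_distrib, ← Finset.sum_sub_distrib, Finset.mul_sum]
    refine sum_congr rfl fun j _ => ?_
    rw [hd, neg_mul, Finset.sum_mul, ← Finset.sum_neg_distrib, ← Finset.sum_neg_distrib,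
      ← Finset.sum_sub_distrib]
    refine sum_congr rfl fun d _ => ?_
    rw [hA j i j]
    ring
  have l1 : ∑ i, ∑ j, gi i j * (∑ k, (dA k k i j - dA j k i k) +
      ∑ k, ∑ l, ((A k k l * C l i j + C k k l * A l i j) -
        (A k j l * C l i k + C k j l * A l i k))) =
      ∑ i, ∑ j, gi i j * ∑ k, dA k k i j - ∑ i, ∑ j, ∑ k, gi i j * dA j k i k +
      ∑ i, ∑ j, ∑ k, ∑ l, gi i j * (A k k l * C l i j) +
      ∑ i, ∑ j, ∑ k, ∑ l, gi i j * (C k k l * A l i j) -
      ∑ i, ∑ j, ∑ k, ∑ l, gi i j * (A k j l * C l i k) -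
      ∑ i, ∑ j, ∑ k, ∑ l, gi i j * (C k j l * A l i k) := by
    simp only [mul_add, Finset.sum_add_distrib, Finset.sum_sub_distrib, mul_sub, Finset.mul_sum]
    ring
  have l2 : ∑ i, ∑ j, gi i j * ∑ k, dA k k i j = ∑ k, ∑ i, ∑ j, gi i j * dA k k i j := by
    simp only [Finset.mul_sum]
    rw [Finset.sum_comm]
    rw [Finset.sum_congr rfl fun j _ => Finset.sum_comm, Finset.sum_comm]
    exact sum_congr rfl fun k _ => Finset.sum_comm
  rw [l1, q1 gi C A, q2, q3 gi C A hC hA, q4 gi C A hC, t2 gi dA hgi, l2]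
  have r1 : ∑ l, (∑ k, C k k l) * (∑ i, ∑ j, gi i j * A l i j - ∑ i, gi l i * ∑ j, A j i j) =
      ∑ l, (∑ k, C k k l) * ∑ i, ∑ j, gi i j * A l i j -
      ∑ l, (∑ k, C k k l) * ∑ i, gi l i * ∑ j, A j i j := by
    rw [← Finset.sum_sub_distrib]
    exact sum_congr rfl fun l _ => by rw [mul_sub]
  rw [r1, q5 gi C A]
  simp only [Finset.sum_sub_distrib, Finset.sum_add_distrib] at e1 e2 ⊢
  rw [e1, e2]
  ring

end alg

/-! ### Calculus -/

section cal

variable {n : ℕ}

/-- time derivative and partial derivative commute -/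
theorem hasDerivAt_pd {F : ℝ → E n → ℝ} (hF : ContDiff ℝ ∞ (fun p : ℝ × E n => F p.1 p.2))
    (k : Fin n) (t : ℝ) (x : E n) :
    HasDerivAt (fun s => H.pd k (F s) x) (H.pd k (fun y => deriv (fun s => F s y) t) x) t := by
  set Φ : ℝ × E n → ℝ := fun p => F p.1 p.2 with hΦ
  have hd : Differentiable ℝ Φ := hF.differentiable (by simp)
  have e1 : ∀ s y, H.pd k (F s) y = fderiv ℝ Φ (s, y) (0, Pi.single k 1) := by
    intro s y
    have h1 : HasFDerivAt Φ (fderiv ℝ Φ (s, y)) (s, y) := (hd _).hasFDerivAt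
    have h2 : HasFDerivAt (fun z : E n => (s, z)) (ContinuousLinearMap.inr ℝ ℝ (E n)) y :=
      hasFDerivAt_prodMk_right s y
    have h3 := h1.comp y h2
    have h4 : fderiv ℝ (F s) y = (fderiv ℝ Φ (s, y)).comp
        (ContinuousLinearMap.inr ℝ ℝ (E n)) := h3.fderiv
    unfold H.pd
    rw [h4]
    simp
  have hpath : ∀ (s : ℝ) (y : E n), HasDerivAt (fun r : ℝ => ((r, y) : ℝ × E n)) (1, 0) s :=
    fun s y => (hasDerivAt_id s).prodMk (hasDerivAt_const s y)
  have e2 : ∀ s y, deriv (fun s => F s y) s = fderiv ℝ Φ (s, y) (1, 0) := by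
    intro s y
    have h1 : HasFDerivAt Φ (fderiv ℝ Φ (s, y)) (s, y) := (hd _).hasFDerivAt
    exact (h1.comp_hasDerivAt s (hpath s y)).deriv
  have hc2 : ContDiff ℝ ∞ (fderiv ℝ Φ) := hF.fderiv_right (m := ∞) (by simp)
  have hd2 : HasFDerivAt (fderiv ℝ Φ) (fderiv ℝ (fderiv ℝ Φ) (t, x)) (t, x) :=
    (hc2.differentiable (by simp) _).hasFDerivAt
  have hsym : fderiv ℝ (fderiv ℝ Φ) (t, x) (1, 0) (0, Pi.single k 1) =
      fderiv ℝ (fderiv ℝ Φ) (t, x) (0, Pi.single k 1) (1, 0) := by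
    have h := ((hF.contDiffAt (x := (t, x))).of_le
      (WithTop.coe_le_coe.2 le_top : ((2 : ℕ∞) : WithTop ℕ∞) ≤ ∞)).isSymmSndFDerivAt (by simp)
    exact h _ _
  have r1 : HasDerivAt (fun s => fderiv ℝ Φ (s, x) (0, Pi.single k 1))
      (fderiv ℝ (fderiv ℝ Φ) (t, x) (1, 0) (0, Pi.single k 1)) t := by
    have h := hd2.comp_hasDerivAt t (hpath t x)
    exact h.clm_apply (hasDerivAt_const t ((0, Pi.single k 1) : ℝ × E n)) |>.congr_deriv (by simp)
  have r2 : H.pd k (fun y => deriv (fun s => F s y) t) x =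
      fderiv ℝ (fderiv ℝ Φ) (t, x) (0, Pi.single k 1) (1, 0) := by
    have h5 : (fun y => deriv (fun s => F s y) t) = fun y => fderiv ℝ Φ (t, y) (1, 0) := by
      funext y; exact e2 t y
    rw [h5]
    have h6 : HasFDerivAt (fun z : E n => (t, z)) (ContinuousLinearMap.inr ℝ ℝ (E n)) x :=
      hasFDerivAt_prodMk_right t x
    have h7 := hd2.comp x h6
    have h8 : HasFDerivAt (fun y : E n => fderiv ℝ Φ (t, y) (1, 0))
        (((ContinuousLinearMap.apply ℝ ℝ ((1, 0) : ℝ × E n))).comp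
          ((fderiv ℝ (fderiv ℝ Φ) (t, x)).comp (ContinuousLinearMap.inr ℝ ℝ (E n)))) x :=
      (ContinuousLinearMap.apply ℝ ℝ ((1, 0) : ℝ × E n)).hasFDerivAt.comp x h7
    unfold H.pd
    rw [h8.fderiv]
    simp
  simp only [e1]
  rw [r2, ← hsym]
  exact r1

/-- time slices -/
theorem hasDerivAt_t {F : ℝ → E n → ℝ} (hF : ContDiff ℝ ∞ (fun p : ℝ × E n => F p.1 p.2))
    (t : ℝ) (x : E n) : HasDerivAt (fun s => F s x) (deriv (fun s => F s x) t) t := by
  have h : ContDiff ℝ ∞ (fun s => F s x) :=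
    hF.comp (contDiff_id.prodMk contDiff_const : ContDiff ℝ ∞ fun s : ℝ => (s, x))
  exact (h.differentiable (by simp) t).hasDerivAt

/-- derivative of a determinant -/
theorem hasDerivAt_det {M : ℝ → Matrix (Fin n) (Fin n) ℝ} {M' : Matrix (Fin n) (Fin n) ℝ} {t : ℝ}
    (h : ∀ i j, HasDerivAt (fun s => M s i j) (M' i j) t) :
    HasDerivAt (fun s => (M s).det) (∑ i, ∑ a, (M t).adjugate i a * M' a i) t := by
  have h1 : ∀ i, (∑ a, (M t).adjugate i a * M' a i) =
      ((M t).updateCol i (fun a => M' a i)).det := by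
    intro i
    rw [← Matrix.cramer_apply, Matrix.cramer_eq_adjugate_mulVec]
    rfl
  simp only [h1]
  have h2 : (fun s => (M s).det)
      = fun s => ∑ σ : Equiv.Perm (Fin n), ((Equiv.Perm.sign σ : ℤ) : ℝ) * ∏ i, M s (σ i) i := by
    funext s
    rw [Matrix.det_apply']
  rw [h2]
  have h3 : ∀ σ : Equiv.Perm (Fin n), HasDerivAt (fun s => ((Equiv.Perm.sign σ : ℤ) : ℝ) *
      ∏ i, M s (σ i) i) (((Equiv.Perm.sign σ : ℤ) : ℝ) *
      ∑ i, (∏ j ∈ Finset.univ.erase i, M t (σ j) j) * M' (σ i) i) t := by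
    intro σ
    refine HasDerivAt.const_mul _ ?_
    have := HasDerivAt.fun_finsetProd (u := Finset.univ) (f := fun i s => M s (σ i) i)
      (f' := fun i => M' (σ i) i) (x := t) (fun i _ => h (σ i) i)
    simpa only [smul_eq_mul] using this
  refine (HasDerivAt.fun_sum fun σ _ => h3 σ).congr_deriv ?_
  simp only [Finset.mul_sum]
  rw [Finset.sum_comm]
  refine Finset.sum_congr rfl fun i _ => ?_
  rw [Matrix.det_apply']
  refine Finset.sum_congr rfl fun σ _ => ?_
  congr 1
  rw [← Finset.mul_prod_erase Finset.univ _ (Finset.mem_univ i)]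
  rw [Matrix.updateCol_self, mul_comm]
  congr 1
  refine Finset.prod_congr rfl fun j hj => ?_
  rw [Matrix.updateCol_ne (Finset.ne_of_mem_erase hj)]

end cal

/-! ### The evolution equations -/

section evol

variable {n : ℕ} {G : ℝ → E n → Matrix (Fin n) (Fin n) ℝ}
  (hs : ∀ i j, ContDiff ℝ ∞ (fun p : ℝ × E n => G p.1 p.2 i j))
  (hp : ∀ t x, (G t x).PosDef) {t : ℝ}
  (hR : ∀ x i j, dtG G t x i j = -2 * H.ric (G t) x i j)

include hs hR in
theorem dG (x : E n) (i j : Fin n) :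
    HasDerivAt (fun s => G s x i j) (-2 * H.ric (G t) x i j) t := by
  rw [← hR]
  exact hasDerivAt_t (F := fun s y => G s y i j) (hs i j) t x

include hs hR in
theorem pdG (x : E n) (k i j : Fin n) :
    HasDerivAt (fun s => H.pd k (fun y => G s y i j) x)
      (-2 * H.pd k (fun y => H.ric (G t) y i j) x) t := by
  have h := hasDerivAt_pd (F := fun s y => G s y i j) (hs i j) k t x
  have e : (fun y => deriv (fun s => G s y i j) t) = fun y => (-2) * H.ric (G t) y i j := by
    funext y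
    exact hR y i j
  have e2 : H.pd k (fun y => (-2) * H.ric (G t) y i j) x =
      -2 * H.pd k (fun y => H.ric (G t) y i j) x := by
    unfold H.pd
    rw [show (fun y => (-2) * H.ric (G t) y i j) = (-2 : ℝ) • fun y => H.ric (G t) y i j from by
      funext y; simp, fderiv_const_smul_field]
    simp
  rw [e, e2] at h
  exact h

include hs hp hR in
theorem dGinv (x : E n) (i j : Fin n) : HasDerivAt (fun s => (G s x)⁻¹ i j)
    (2 * ∑ a, ∑ b, (G t x)⁻¹ i a * H.ric (G t) x a b * (G t x)⁻¹ b j) t := by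
  have h0 : ∀ i j, HasDerivAt (fun s => (G s x)⁻¹ i j) (deriv (fun s => (G s x)⁻¹ i j) t) t :=
    fun i j => hasDerivAt_t (F := fun s y => (G s y)⁻¹ i j) (B25c.cd_G_inv hs hp i j) t x
  have h1 : ∀ b, ∑ a, (deriv (fun s => (G s x)⁻¹ i a) t * G t x a b +
      (G t x)⁻¹ i a * (-2 * H.ric (G t) x a b)) = 0 := by
    intro b
    have h2 : HasDerivAt (fun s => ∑ a, (G s x)⁻¹ i a * G s x a b)
        (∑ a, (deriv (fun s => (G s x)⁻¹ i a) t * G t x a b +
          (G t x)⁻¹ i a * (-2 * H.ric (G t) x a b))) t :=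
      HasDerivAt.fun_sum fun a _ => (h0 i a).fun_mul (dG hs hR x a b)
    have h3 : (fun s => ∑ a, (G s x)⁻¹ i a * G s x a b) = fun _ => if i = b then 1 else 0 := by
      funext s
      exact ConfScal.gi_g (hp s) x i b
    rw [h3] at h2
    exact h2.unique (hasDerivAt_const t _)
  have h4 : ∀ b, ∑ a, deriv (fun s => (G s x)⁻¹ i a) t * G t x a b =
      2 * ∑ a, (G t x)⁻¹ i a * H.ric (G t) x a b := by
    intro b
    have := h1 b
    rw [Finset.sum_add_distrib] at this
    rw [Finset.mul_sum]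
    rw [eq_neg_of_add_eq_zero_left this, ← Finset.sum_neg_distrib]
    exact Finset.sum_congr rfl fun a _ => by ring
  have h5 : ∑ b, (∑ a, deriv (fun s => (G s x)⁻¹ i a) t * G t x a b) * (G t x)⁻¹ b j =
      deriv (fun s => (G s x)⁻¹ i j) t := by
    simp only [Finset.sum_mul, mul_assoc]
    rw [Finset.sum_comm]
    simp only [← Finset.mul_sum, ConfScal.g_gi (hp t)]
    simp
  rw [show (2 * ∑ a, ∑ b, (G t x)⁻¹ i a * H.ric (G t) x a b * (G t x)⁻¹ b j) =
      deriv (fun s => (G s x)⁻¹ i j) t from ?_]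
  · exact h0 i j
  rw [← h5]
  simp only [h4, Finset.mul_sum, Finset.sum_mul]
  rw [Finset.sum_comm]
  exact Finset.sum_congr rfl fun a _ => Finset.sum_congr rfl fun b _ => by ring

/-- the time derivative of the Christoffel symbols -/
noncomputable def AA (g : E n → Matrix (Fin n) (Fin n) ℝ) (x : E n) (k i j : Fin n) : ℝ :=
  -∑ l, (g x)⁻¹ k l * (dric g x i j l + dric g x j i l - dric g x l i j)

theorem dric_symm {g : E n → Matrix (Fin n) (Fin n) ℝ}
    (hsym : ∀ y i j, H.ric g y i j = H.ric g y j i) (x : E n) (k i j : Fin n) :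
    dric g x k i j = dric g x k j i := by
  unfold dric
  have e : (fun y => H.ric g y i j) = fun y => H.ric g y j i := by funext y; exact hsym y i j
  rw [e]
  congr 1
  refine Finset.sum_congr rfl fun l _ => ?_
  rw [hsym x l j, hsym x i l]
  ring

theorem AA_symm {g : E n → Matrix (Fin n) (Fin n) ℝ}
    (hsym : ∀ y i j, H.ric g y i j = H.ric g y j i) (x : E n) (k i j : Fin n) :
    AA g x k i j = AA g x k j i := by
  unfold AA
  congr 1
  refine Finset.sum_congr rfl fun l _ => ?_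
  rw [dric_symm hsym x l i j]
  ring

theorem chr_symm {g : E n → Matrix (Fin n) (Fin n) ℝ} (hpg : ∀ x, (g x).PosDef) (x : E n)
    (k i j : Fin n) : H.chr g x k i j = H.chr g x k j i := by
  unfold H.chr
  congr 1
  refine Finset.sum_congr rfl fun l _ => ?_
  have e : (fun y => g y i j) = fun y => g y j i := by
    funext y; exact ConfScal.g_symm hpg y i j
  rw [e]
  ring

include hs hp hR in
theorem dchr (hsym : ∀ y i j, H.ric (G t) y i j = H.ric (G t) y j i) (x : E n) (k i j : Fin n) :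
    HasDerivAt (fun s => H.chr (G s) x k i j) (AA (G t) x k i j) t := by
  have h1 : HasDerivAt (fun s => H.chr (G s) x k i j) ((1 / 2) * ∑ l,
      ((2 * ∑ a, ∑ b, (G t x)⁻¹ k a * H.ric (G t) x a b * (G t x)⁻¹ b l) *
        (H.pd i (fun y => G t y j l) x + H.pd j (fun y => G t y i l) x -
          H.pd l (fun y => G t y i j) x) + (G t x)⁻¹ k l *
        (-2 * H.pd i (fun y => H.ric (G t) y j l) x + -2 * H.pd j (fun y => H.ric (G t) y i l) x -
          -2 * H.pd l (fun y => H.ric (G t) y i j) x))) t :=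
    (HasDerivAt.fun_sum fun l _ => (dGinv hs hp hR x k l).fun_mul
      (((pdG hs hR x i j l).fun_add (pdG hs hR x j i l)).fun_sub (pdG hs hR x l i j))).const_mul _
  refine h1.congr_deriv ?_
  have e1 : ∑ l, (2 * ∑ a, ∑ b, (G t x)⁻¹ k a * H.ric (G t) x a b * (G t x)⁻¹ b l) *
      (H.pd i (fun y => G t y j l) x + H.pd j (fun y => G t y i l) x -
          H.pd l (fun y => G t y i j) x) =
      4 * ∑ l, (G t x)⁻¹ k l * ∑ m, H.chr (G t) x m i j * H.ric (G t) x m l := by
    have e2 : ∀ l, (2 * ∑ a, ∑ b, (G t x)⁻¹ k a * H.ric (G t) x a b * (G t x)⁻¹ b l) *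
      (H.pd i (fun y => G t y j l) x + H.pd j (fun y => G t y i l) x -
          H.pd l (fun y => G t y i j) x) = ∑ a, ∑ b, 4 * ((G t x)⁻¹ k a * (H.ric (G t) x b a *
          (1 / 2 * ((G t x)⁻¹ b l * (H.pd i (fun y => G t y j l) x +
          H.pd j (fun y => G t y i l) x - H.pd l (fun y => G t y i j) x))))) := by
      intro l
      rw [Finset.mul_sum, Finset.sum_mul]
      refine Finset.sum_congr rfl fun a _ => ?_
      rw [Finset.mul_sum, Finset.sum_mul]
      refine Finset.sum_congr rfl fun b _ => ?_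
      rw [hsym x a b]
      ring
    simp only [e2]
    rw [Finset.sum_comm, Finset.mul_sum]
    refine Finset.sum_congr rfl fun a _ => ?_
    rw [Finset.sum_comm, Finset.mul_sum, Finset.mul_sum]
    refine Finset.sum_congr rfl fun b _ => ?_
    simp only [← Finset.mul_sum]
    unfold H.chr
    ring
  rw [Finset.sum_add_distrib, e1, Finset.mul_sum, ← Finset.sum_add_distrib, Finset.mul_sum]
  unfold AA
  rw [← Finset.sum_neg_distrib]
  refine Finset.sum_congr rfl fun l _ => ?_
  have e3 : dric (G t) x i j l + dric (G t) x j i l - dric (G t) x l i j =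
      H.pd i (fun y => H.ric (G t) y j l) x + H.pd j (fun y => H.ric (G t) y i l) x -
          H.pd l (fun y => H.ric (G t) y i j) x -
      2 * ∑ m, H.chr (G t) x m i j * H.ric (G t) x m l := by
    unfold dric
    have e4 : ∑ m, (H.chr (G t) x m i j * H.ric (G t) x m l +
        H.chr (G t) x m i l * H.ric (G t) x j m) +
        ∑ m, (H.chr (G t) x m j i * H.ric (G t) x m l +
        H.chr (G t) x m j l * H.ric (G t) x i m) -
        ∑ m, (H.chr (G t) x m l i * H.ric (G t) x m j +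
        H.chr (G t) x m l j * H.ric (G t) x i m) =
        2 * ∑ m, H.chr (G t) x m i j * H.ric (G t) x m l := by
      rw [← Finset.sum_add_distrib, ← Finset.sum_sub_distrib, Finset.mul_sum]
      refine Finset.sum_congr rfl fun m _ => ?_
      rw [hsym x j m, chr_symm (hp t) x m j i, chr_symm (hp t) x m i l, chr_symm (hp t) x m j l]
      ring
    linarith
  rw [e3]
  ring

include hs hp in
theorem cd_chr' (k i j : Fin n) : ContDiff ℝ ∞ (fun y => H.chr (G t) y k i j) :=
  B25c.cd_at (f := fun s y => H.chr (G s) y k i j) (B25c.cd_chr hs hp k i j) t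

include hs hp in
theorem cd_ric' (i j : Fin n) : ContDiff ℝ ∞ (fun y => H.ric (G t) y i j) :=
  B25c.cd_at (f := fun s y => H.ric (G s) y i j) (B25c.cd_ric hs hp i j) t

include hs hp in
theorem cd_inv' (i j : Fin n) : ContDiff ℝ ∞ (fun y => (G t y)⁻¹ i j) :=
  B25c.cd_at (f := fun s y => (G s y)⁻¹ i j) (B25c.cd_G_inv hs hp i j) t

include hs hp in
theorem cd_dric (k i j : Fin n) : ContDiff ℝ ∞ (fun y => dric (G t) y k i j) := by
  unfold dric
  refine (Bridge.contDiff_pd (k := ∞) (cd_ric' hs hp i j) (by simp) k).sub ?_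
  refine ContDiff.sum fun l _ => ?_
  exact ((cd_chr' hs hp l k i).mul (cd_ric' hs hp l j)).add
    ((cd_chr' hs hp l k j).mul (cd_ric' hs hp i l))

include hs hp in
theorem cd_AA (k i j : Fin n) : ContDiff ℝ ∞ (fun y => AA (G t) y k i j) := by
  unfold AA
  refine (ContDiff.sum fun l _ => ?_).neg
  exact (cd_inv' hs hp k l).mul (((cd_dric hs hp i j l).add (cd_dric hs hp j i l)).sub
    (cd_dric hs hp l i j))

include hs hp hR in
theorem dRic (hsym : ∀ y i j, H.ric (G t) y i j = H.ric (G t) y j i) (x : E n) (i j : Fin n) :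
    HasDerivAt (fun s => H.ric (G s) x i j)
      (∑ k, (H.pd k (fun y => AA (G t) y k i j) x - H.pd j (fun y => AA (G t) y k i k) x) +
      ∑ k, ∑ l, ((AA (G t) x k k l * H.chr (G t) x l i j + H.chr (G t) x k k l * AA (G t) x l i j) -
        (AA (G t) x k j l * H.chr (G t) x l i k + H.chr (G t) x k j l * AA (G t) x l i k))) t := by
  have h1 : ∀ c k i j, HasDerivAt (fun s => H.pd c (fun y => H.chr (G s) y k i j) x)
      (H.pd c (fun y => AA (G t) y k i j) x) t := by
    intro c k i j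
    have h := hasDerivAt_pd (F := fun s y => H.chr (G s) y k i j) (B25c.cd_chr hs hp k i j) c t x
    have e : (fun y => deriv (fun s => H.chr (G s) y k i j) t) = fun y => AA (G t) y k i j := by
      funext y
      exact (dchr hs hp hR hsym y k i j).deriv
    rwa [e] at h
  have h2 := dchr hs hp hR hsym x
  unfold H.ric
  exact (HasDerivAt.fun_sum fun k _ => (h1 k k i j).fun_sub (h1 j k i k)).fun_add
    (HasDerivAt.fun_sum fun k _ => HasDerivAt.fun_sum fun l _ =>
      ((h2 k k l).fun_mul (h2 l i j)).fun_sub ((h2 k j l).fun_mul (h2 l i k)))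

include hs hp in
/-- the trace of the covariant derivative of the Ricci tensor -/
theorem trace_dric (x : E n) (m : Fin n) :
    ∑ i, ∑ j, (G t x)⁻¹ i j * dric (G t) x m i j = H.pd m (fun y => H.scal (G t) y) x := by
  have hst : ∀ i j, ContDiff ℝ ∞ (fun y => G t y i j) := fun i j =>
    B25c.cd_at (f := fun s y => G s y i j) (hs i j) t
  have hM := Bridge.metricOn hst (hp t)
  have hr : ∀ i j, DifferentiableAt ℝ (fun y => H.ric (G t) y i j) x := fun i j =>
    (cd_ric' hs hp i j).differentiable (by simp) x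
  have hgid : ∀ i j, DifferentiableAt ℝ (fun y => (G t y)⁻¹ i j) x := fun i j =>
    (cd_inv' hs hp i j).differentiable (by simp) x
  have e2 : ∀ c a b, H.pd c (fun y => (G t y)⁻¹ a b) x
      = - ∑ d, (H.chr (G t) x a c d * (G t x)⁻¹ d b + H.chr (G t) x b c d * (G t x)⁻¹ a d) :=
    fun c a b => hM.pd_inv isOpen_univ (Set.mem_univ x) c a b
  have e1 : H.pd m (fun y => H.scal (G t) y) x = ∑ i, ∑ j,
      (H.pd m (fun y => (G t y)⁻¹ i j) x * H.ric (G t) x i j +
        (G t x)⁻¹ i j * H.pd m (fun y => H.ric (G t) y i j) x) := by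
    unfold H.scal
    rw [Bridge.pd_sum fun i _ => DifferentiableAt.fun_sum fun j _ => (hgid i j).fun_mul (hr i j)]
    refine Finset.sum_congr rfl fun i _ => ?_
    rw [Bridge.pd_sum fun j _ => (hgid i j).fun_mul (hr i j)]
    exact Finset.sum_congr rfl fun j _ => Bridge.pd_mul (hgid i j) (hr i j)
  rw [e1]
  unfold dric
  simp only [mul_sub, Finset.sum_sub_distrib, Finset.sum_add_distrib]
  have e3 : ∑ i, ∑ j, H.pd m (fun y => (G t y)⁻¹ i j) x * H.ric (G t) x i j =
      -∑ i, ∑ j, (G t x)⁻¹ i j * (∑ l, H.chr (G t) x l m i * H.ric (G t) x l j +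
        ∑ l, H.chr (G t) x l m j * H.ric (G t) x i l) := by
    have e4 : ∑ i, ∑ j, H.pd m (fun y => (G t y)⁻¹ i j) x * H.ric (G t) x i j =
        -∑ i, ∑ j, ∑ d, H.chr (G t) x i m d * (G t x)⁻¹ d j * H.ric (G t) x i j -
        ∑ i, ∑ j, ∑ d, H.chr (G t) x j m d * (G t x)⁻¹ i d * H.ric (G t) x i j := by
      rw [← Finset.sum_neg_distrib, ← Finset.sum_sub_distrib]
      refine Finset.sum_congr rfl fun i _ => ?_
      rw [← Finset.sum_neg_distrib, ← Finset.sum_sub_distrib]
      refine Finset.sum_congr rfl fun j _ => ?_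
      rw [e2, neg_mul, Finset.sum_mul, ← Finset.sum_neg_distrib, ← Finset.sum_neg_distrib,
        ← Finset.sum_sub_distrib]
      exact Finset.sum_congr rfl fun d _ => by ring
    have e5 : ∑ i, ∑ j, (G t x)⁻¹ i j * (∑ l, H.chr (G t) x l m i * H.ric (G t) x l j +
        ∑ l, H.chr (G t) x l m j * H.ric (G t) x i l) =
        ∑ i, ∑ j, ∑ l, (G t x)⁻¹ i j * (H.chr (G t) x l m i * H.ric (G t) x l j) +
        ∑ i, ∑ j, ∑ l, (G t x)⁻¹ i j * (H.chr (G t) x l m j * H.ric (G t) x i l) := by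
      simp only [mul_add, Finset.mul_sum, Finset.sum_add_distrib]
    have e6 : ∑ i, ∑ j, ∑ l, (G t x)⁻¹ i j * (H.chr (G t) x l m i * H.ric (G t) x l j) =
        ∑ i, ∑ j, ∑ d, H.chr (G t) x i m d * (G t x)⁻¹ d j * H.ric (G t) x i j := by
      rw [Finset.sum_comm, Finset.sum_congr rfl fun j _ => Finset.sum_comm, Finset.sum_comm]
      exact Finset.sum_congr rfl fun i _ => Finset.sum_congr rfl fun j _ =>
        Finset.sum_congr rfl fun d _ => by ring
    have e7 : ∑ i, ∑ j, ∑ l, (G t x)⁻¹ i j * (H.chr (G t) x l m j * H.ric (G t) x i l) =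
        ∑ i, ∑ j, ∑ d, H.chr (G t) x j m d * (G t x)⁻¹ i d * H.ric (G t) x i j := by
      refine Finset.sum_congr rfl fun i _ => ?_
      rw [Finset.sum_comm]
      exact Finset.sum_congr rfl fun j _ => Finset.sum_congr rfl fun d _ => by ring
    rw [e4, e5, e6, e7]
    ring
  rw [e3]
  ring

include hs hp in
/-- first contraction of `AA` -/
theorem contr1 (hB : SpecBianchi) (x : E n) (l : Fin n) :
    ∑ i, ∑ j, (G t x)⁻¹ i j * AA (G t) x l i j = 0 := by
  have hst : ∀ i j, ContDiff ℝ ∞ (fun y => G t y i j) := fun i j =>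
    B25c.cd_at (f := fun s y => G s y i j) (hs i j) t
  have hsym : ∀ y i j, H.ric (G t) y i j = H.ric (G t) y j i := fun y =>
    (hB n (G t) hst (hp t) y).1
  have hb := (hB n (G t) hst (hp t) x).2
  have h1 : ∀ i j, (G t x)⁻¹ i j * AA (G t) x l i j = -∑ m, (G t x)⁻¹ l m *
      ((G t x)⁻¹ i j * dric (G t) x i j m + (G t x)⁻¹ j i * dric (G t) x j i m -
        (G t x)⁻¹ i j * dric (G t) x m i j) := by
    intro i j
    unfold AA
    rw [mul_neg, Finset.mul_sum]
    congr 1
    refine Finset.sum_congr rfl fun m _ => ?_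
    rw [ConfScal.gi_symm (hp t) x j i]
    ring
  simp only [h1, Finset.sum_neg_distrib]
  rw [neg_eq_zero]
  have h2 : ∑ i, ∑ j, ∑ m, (G t x)⁻¹ l m *
      ((G t x)⁻¹ i j * dric (G t) x i j m + (G t x)⁻¹ j i * dric (G t) x j i m -
        (G t x)⁻¹ i j * dric (G t) x m i j) = ∑ m, (G t x)⁻¹ l m * ∑ i, ∑ j,
      ((G t x)⁻¹ i j * dric (G t) x i j m + (G t x)⁻¹ j i * dric (G t) x j i m -
        (G t x)⁻¹ i j * dric (G t) x m i j) := by
    rw [Finset.sum_congr rfl fun i _ => Finset.sum_comm, Finset.sum_comm]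
    simp only [Finset.mul_sum]
  rw [h2]
  refine Finset.sum_eq_zero fun m _ => ?_
  have h3 : ∑ i, ∑ j, (G t x)⁻¹ j i * dric (G t) x j i m =
      ∑ i, ∑ j, (G t x)⁻¹ i j * dric (G t) x i j m := Finset.sum_comm
  simp only [Finset.sum_sub_distrib, Finset.sum_add_distrib]
  rw [h3, trace_dric hs hp, ← hb m]
  ring

include hs hp in
/-- second contraction of `AA` -/
theorem contr2 (x : E n) (i : Fin n) :
    ∑ j, AA (G t) x j i j = -H.pd i (fun y => H.scal (G t) y) x := by
  unfold AA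
  rw [Finset.sum_neg_distrib, ← trace_dric hs hp]
  congr 1
  have h3 : ∑ j, ∑ l, (G t x)⁻¹ j l * dric (G t) x j i l =
      ∑ j, ∑ l, (G t x)⁻¹ j l * dric (G t) x l i j := by
    rw [Finset.sum_comm]
    exact Finset.sum_congr rfl fun j _ => Finset.sum_congr rfl fun l _ => by
      rw [ConfScal.gi_symm (hp t) x l j]
  simp only [mul_add, mul_sub, Finset.sum_sub_distrib, Finset.sum_add_distrib]
  rw [h3]
  ring

include hs hp hR in
theorem dscal (hB : SpecBianchi) (x : E n) : HasDerivAt (fun s => H.scal (G s) x)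
    (lap (G t) (fun y => H.scal (G t) y) x + 2 * ricSq (G t) x) t := by
  have hst : ∀ i j, ContDiff ℝ ∞ (fun y => G t y i j) := fun i j =>
    B25c.cd_at (f := fun s y => G s y i j) (hs i j) t
  have hM := Bridge.metricOn hst (hp t)
  have hsym : ∀ y i j, H.ric (G t) y i j = H.ric (G t) y j i := fun y =>
    (hB n (G t) hst (hp t) y).1
  have hgid : ∀ i j, DifferentiableAt ℝ (fun y => (G t y)⁻¹ i j) x := fun i j =>
    (cd_inv' hs hp i j).differentiable (by simp) x
  have hAd : ∀ k i j, DifferentiableAt ℝ (fun y => AA (G t) y k i j) x := fun k i j =>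
    (cd_AA hs hp k i j).differentiable (by simp) x
  have e2 : ∀ c a b, H.pd c (fun y => (G t y)⁻¹ a b) x
      = - ∑ d, (H.chr (G t) x a c d * (G t x)⁻¹ d b + H.chr (G t) x b c d * (G t x)⁻¹ a d) :=
    fun c a b => hM.pd_inv isOpen_univ (Set.mem_univ x) c a b
  have hV : ∀ y l, ∑ i, ∑ j, (G t y)⁻¹ i j * AA (G t) y l i j -
      ∑ i, (G t y)⁻¹ l i * ∑ j, AA (G t) y j i j =
      grd (G t) (fun y => H.scal (G t) y) y l := by
    intro y l
    rw [contr1 hs hp hB]
    simp only [contr2 hs hp]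
    unfold grd
    rw [zero_sub, ← Finset.sum_neg_distrib]
    exact Finset.sum_congr rfl fun i _ => by ring
  have hT := trace_div (fun i j => (G t x)⁻¹ i j) (H.chr (G t) x) (AA (G t) x)
    (fun c k i j => H.pd c (fun y => AA (G t) y k i j) x)
    (fun c i j => H.pd c (fun y => (G t y)⁻¹ i j) x)
    (fun i j => ConfScal.gi_symm (hp t) x i j) (chr_symm (hp t) x) (AA_symm hsym x) e2
  have hD : ∀ k, ∑ i, ∑ j, (H.pd k (fun y => (G t y)⁻¹ i j) x * AA (G t) x k i j +
      (G t x)⁻¹ i j * H.pd k (fun y => AA (G t) y k i j) x) -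
      ∑ i, (H.pd k (fun y => (G t y)⁻¹ k i) x * ∑ j, AA (G t) x j i j +
        (G t x)⁻¹ k i * ∑ j, H.pd k (fun y => AA (G t) y j i j) x) =
      H.pd k (fun y => grd (G t) (fun y => H.scal (G t) y) y k) x := by
    intro k
    rw [show (fun y => grd (G t) (fun y => H.scal (G t) y) y k) = fun y =>
      ∑ i, ∑ j, (G t y)⁻¹ i j * AA (G t) y k i j -
      ∑ i, (G t y)⁻¹ k i * ∑ j, AA (G t) y j i j from by funext y; rw [hV y k]]
    rw [Bridge.pd_sub, Bridge.pd_sum, Bridge.pd_sum]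
    · congr 1
      · refine Finset.sum_congr rfl fun i _ => ?_
        rw [Bridge.pd_sum fun j _ => (hgid i j).fun_mul (hAd k i j)]
        exact Finset.sum_congr rfl fun j _ => (Bridge.pd_mul (hgid i j) (hAd k i j)).symm
      · refine Finset.sum_congr rfl fun i _ => ?_
        rw [Bridge.pd_mul (hgid k i) (DifferentiableAt.fun_sum fun j _ => hAd j i j),
          Bridge.pd_sum fun j _ => hAd j i j]
    · exact fun i _ => (hgid k i).fun_mul (DifferentiableAt.fun_sum fun j _ => hAd j i j)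
    · exact fun i _ => DifferentiableAt.fun_sum fun j _ => (hgid i j).fun_mul (hAd k i j)
    · exact DifferentiableAt.fun_sum fun i _ => DifferentiableAt.fun_sum fun j _ =>
        (hgid i j).fun_mul (hAd k i j)
    · exact DifferentiableAt.fun_sum fun i _ =>
        (hgid k i).fun_mul (DifferentiableAt.fun_sum fun j _ => hAd j i j)
  simp only [hD, hV] at hT
  rw [ConfScal.lap_eq_div hst (hp t) (B25c.cd_at (f := fun s y => H.scal (G s) y)
    (B25c.cd_scal hs hp) t)] at hT
  have h1 : HasDerivAt (fun s => H.scal (G s) x) (∑ i, ∑ j,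
      ((2 * ∑ a, ∑ b, (G t x)⁻¹ i a * H.ric (G t) x a b * (G t x)⁻¹ b j) * H.ric (G t) x i j +
      (G t x)⁻¹ i j * (∑ k, (H.pd k (fun y => AA (G t) y k i j) x -
          H.pd j (fun y => AA (G t) y k i k) x) +
      ∑ k, ∑ l, ((AA (G t) x k k l * H.chr (G t) x l i j + H.chr (G t) x k k l * AA (G t) x l i j) -
        (AA (G t) x k j l * H.chr (G t) x l i k +
          H.chr (G t) x k j l * AA (G t) x l i k))))) t := by
    unfold H.scal
    exact HasDerivAt.fun_sum fun i _ => HasDerivAt.fun_sum fun j _ =>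
      (dGinv hs hp hR x i j).fun_mul (dRic hs hp hR hsym x i j)
  refine h1.congr_deriv ?_
  simp only [Finset.sum_add_distrib] at hT ⊢
  rw [hT]
  have h4 : ∑ i, ∑ j, (2 * ∑ a, ∑ b, (G t x)⁻¹ i a * H.ric (G t) x a b * (G t x)⁻¹ b j) *
      H.ric (G t) x i j = 2 * ricSq (G t) x := by
    unfold ricSq
    rw [Finset.mul_sum]
    refine Finset.sum_congr rfl fun i _ => ?_
    rw [Finset.mul_sum]
    refine Finset.sum_congr rfl fun j _ => ?_
    rw [mul_assoc, Finset.sum_mul]
    congr 1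
    refine Finset.sum_congr rfl fun a _ => ?_
    rw [Finset.sum_mul]
    refine Finset.sum_congr rfl fun b _ => ?_
    rw [ConfScal.gi_symm (hp t) x b j]
    ring
  rw [h4]
  ring

include hs hp hR in
theorem ddens (x : E n) : HasDerivAt (fun s => H.dens (G s) x)
    (-H.scal (G t) x * H.dens (G t) x) t := by
  have hpos := (hp t x).det_pos
  have h1 := hasDerivAt_det (M := fun s => G s x)
    (M' := Matrix.of fun i j => -2 * H.ric (G t) x i j) (t := t) (fun i j => dG hs hR x i j)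
  have h2 : ∑ i, ∑ a, (G t x).adjugate i a * (Matrix.of fun i j => -2 * H.ric (G t) x i j) a i =
      -2 * (G t x).det * H.scal (G t) x := by
    unfold H.scal
    rw [Finset.mul_sum]
    have hadj : ∀ i j, (G t x).adjugate i j = (G t x).det * (G t x)⁻¹ i j := by
      intro i j
      rw [Matrix.inv_def, Ring.inverse_eq_inv', Matrix.smul_apply, smul_eq_mul, ← mul_assoc,
        mul_inv_cancel₀ hpos.ne', one_mul]
    rw [Finset.sum_comm]
    refine Finset.sum_congr rfl fun i _ => ?_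
    rw [Finset.mul_sum]
    refine Finset.sum_congr rfl fun j _ => ?_
    rw [hadj, Matrix.of_apply, ConfScal.gi_symm (hp t) x j i]
    ring
  rw [h2] at h1
  have h3 := h1.sqrt hpos.ne'
  unfold H.dens
  refine h3.congr_deriv ?_
  have h4 : √(G t x).det * √(G t x).det = (G t x).det := Real.mul_self_sqrt hpos.le
  have h5 : 0 < √(G t x).det := Real.sqrt_pos.2 hpos
  rw [div_eq_iff (by positivity)]
  linear_combination (2 * H.scal (G t) x) * h4

end evol

/-! ### Cauchy-Schwarz -/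

theorem cs {n : ℕ} (B R : Matrix (Fin n) (Fin n) ℝ) (hR : Rᵀ = R) :
    (Bᵀ * B * R).trace ^ 2 ≤ n * (Bᵀ * B * R * (Bᵀ * B * R)).trace := by
  set S := B * R * Bᵀ with hS
  have hSt : Sᵀ = S := by
    rw [hS, Matrix.transpose_mul, Matrix.transpose_mul, Matrix.transpose_transpose, hR,
      Matrix.mul_assoc]
  have h1 : (Bᵀ * B * R).trace = S.trace := by
    rw [Matrix.mul_assoc, Matrix.trace_mul_comm]
  have h2 : (Bᵀ * B * R * (Bᵀ * B * R)).trace = (S * S).trace := by
    rw [show Bᵀ * B * R * (Bᵀ * B * R) = Bᵀ * (B * R * Bᵀ * (B * R)) by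
      simp only [Matrix.mul_assoc], Matrix.trace_mul_comm]
    simp only [hS, Matrix.mul_assoc]
  rw [h1, h2]
  have h3 : (S * S).trace = ∑ i, ∑ j, S i j ^ 2 := by
    unfold Matrix.trace
    refine Finset.sum_congr rfl fun i _ => ?_
    rw [Matrix.diag_apply, Matrix.mul_apply]
    refine Finset.sum_congr rfl fun j _ => ?_
    have : S j i = S i j := by rw [← hSt, Matrix.transpose_apply, hSt]
    rw [this]; ring
  have h4 : S.trace ^ 2 ≤ n * ∑ i, S i i ^ 2 := by
    have := Finset.sum_mul_sq_le_sq_mul_sq (Finset.univ : Finset (Fin n)) (fun _ => (1 : ℝ))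
      (fun i => S i i)
    simpa [Matrix.trace] using this
  rw [h3]
  refine h4.trans (mul_le_mul_of_nonneg_left ?_ (Nat.cast_nonneg n))
  exact Finset.sum_le_sum fun i _ =>
    Finset.single_le_sum (f := fun j => S i j ^ 2) (fun j _ => sq_nonneg _) (Finset.mem_univ i)

theorem scal_sq_le {n : ℕ} {g : E n → Matrix (Fin n) (Fin n) ℝ} (hp : ∀ x, (g x).PosDef)
    (hsym : ∀ y i j, H.ric g y i j = H.ric g y j i) (x : E n) :
    H.scal g x ^ 2 ≤ n * ricSq g x := by
  obtain ⟨B, hB, -⟩ := exists_factor ((g x)⁻¹) (hp x).inv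
  set R : Matrix (Fin n) (Fin n) ℝ := Matrix.of fun i j => H.ric g x i j with hR
  have hRt : Rᵀ = R := by
    ext i j
    rw [Matrix.transpose_apply, hR, Matrix.of_apply, Matrix.of_apply, hsym]
  have h := cs B R hRt
  rw [← hB] at h
  have h1 : ((g x)⁻¹ * R).trace = H.scal g x := by
    unfold Matrix.trace H.scal
    refine Finset.sum_congr rfl fun i _ => ?_
    rw [Matrix.diag_apply, Matrix.mul_apply]
    refine Finset.sum_congr rfl fun j _ => ?_
    rw [hR, Matrix.of_apply, hsym]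
  have h2 : ((g x)⁻¹ * R * ((g x)⁻¹ * R)).trace = ricSq g x := by
    unfold Matrix.trace ricSq
    have e : ∀ i k, (((g x)⁻¹ * R) i k) * (((g x)⁻¹ * R) k i) = ∑ l, ∑ j,
        (g x)⁻¹ i j * (g x)⁻¹ l k * H.ric g x i l * H.ric g x j k := by
      intro i k
      rw [Matrix.mul_apply, Matrix.mul_apply, Finset.mul_sum]
      refine Finset.sum_congr rfl fun l _ => ?_
      rw [Finset.sum_mul]
      refine Finset.sum_congr rfl fun j _ => ?_
      rw [hR, Matrix.of_apply, Matrix.of_apply, hsym x l i, ConfScal.gi_symm hp x k l]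
      ring
    refine Finset.sum_congr rfl fun i _ => ?_
    rw [Matrix.diag_apply, Matrix.mul_apply]
    simp only [e]
    rw [Finset.sum_comm]
    refine Finset.sum_congr rfl fun l _ => ?_
    rw [Finset.sum_comm]
  rw [h1, h2] at h
  exact h

theorem main (hB : SpecBianchi) : SpecEvol := by
  intro n G hs hp t hR x
  have hst : ∀ i j, ContDiff ℝ ∞ (fun y => G t y i j) := fun i j =>
    B25c.cd_at (f := fun s y => G s y i j) (hs i j) t
  exact ⟨dscal hs hp hR hB x, ddens hs hp hR x,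
    scal_sq_le (hp t) (fun y => (hB n (G t) hst (hp t) y).1) x⟩

end Vale.Agent.P223.H.Evol
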