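import Mathlib.Analysis.SpecialFunctions.SmoothTransition
import Vale.Agent.P223.H.SpecT

/-! BLOCK 26a : reparametrisation of the time of a Ricci flow. -/

namespace Vale.Agent.P223.H

open scoped ContDiff

namespace Ext

/-- smooth positive function which is the identity on `[t₀, ∞)` -/
noncomputable def th (t₀ t : ℝ) : ℝ :=
  Real.smoothTransition (2 * t / t₀ - 1) * t +
    (1 - Real.smoothTransition (2 * t / t₀ - 1)) * (t₀ / 2)

lemma th_contDiff (t₀ : ℝ) : ContDiff ℝ ∞ (th t₀) := by
  have h : ContDiff ℝ ∞ (fun t : ℝ => Real.smoothTransition (2 * t / t₀ - 1)) :=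
    Real.smoothTransition.contDiff.comp
      (((contDiff_const.mul contDiff_id).div_const _).sub contDiff_const)
  exact (h.mul contDiff_id).add ((contDiff_const.sub h).mul contDiff_const)

lemma th_pos {t₀ : ℝ} (h₀ : 0 < t₀) (t : ℝ) : 0 < th t₀ t := by
  have h0 := Real.smoothTransition.nonneg (2 * t / t₀ - 1)
  have h1 := Real.smoothTransition.le_one (2 * t / t₀ - 1)
  unfold th
  by_cases h : 2 * t / t₀ - 1 ≤ 0
  · rw [Real.smoothTransition.zero_of_nonpos h]
    simp only [zero_mul, sub_zero, one_mul, zero_add]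
    positivity
  · push Not at h
    have h2 : 0 < 2 * t / t₀ := by linarith
    have h3 : 0 < t := by
      rw [div_pos_iff] at h2
      rcases h2 with h2 | h2
      · linarith
      · linarith
    set s := Real.smoothTransition (2 * t / t₀ - 1)
    rcases h1.eq_or_lt with h4 | h4
    · rw [h4]; simpa using h3
    · have : 0 < (1 - s) * (t₀ / 2) := mul_pos (by linarith) (by positivity)
      have : 0 ≤ s * t := mul_nonneg h0 h3.le
      linarith

lemma th_eq {t₀ : ℝ} (h₀ : 0 < t₀) {t : ℝ} (h : t₀ ≤ t) : th t₀ t = t := by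
  have h1 : 1 ≤ 2 * t / t₀ - 1 := by
    have : 2 ≤ 2 * t / t₀ := by
      rw [le_div_iff₀ h₀]; linarith
    linarith
  unfold th
  rw [Real.smoothTransition.one_of_one_le h1]
  ring

theorem main : SpecExt := by
  intro n Γ _ _ G hG t₀ h₀
  refine ⟨fun t => G (th t₀ t), ⟨?_, fun t => hG.met _ (th_pos h₀ t).le⟩, fun t ht => ?_⟩
  · intro i j
    have h1 : ContDiff ℝ ∞ (fun p : ℝ × E n => (th t₀ p.1, p.2)) :=
      ((th_contDiff t₀).comp contDiff_fst).prodMk contDiff_snd
    exact (hG.smooth i j).comp_contDiff h1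
      (fun p => ⟨(th_pos h₀ p.1).le, Set.mem_univ _⟩)
  · show G (th t₀ t) = G t
    rw [th_eq h₀ ht]

end Ext

end Vale.Agent.P223.H
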