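import Vale.Agent.P223.H.MinC

/-! Block 27 : metrics which minimise `∫ (Scal⁻)^(n/2)` are Einstein metrics. -/

namespace Vale.Agent.P223.H.Min

open scoped ContDiff Topology Matrix
open MeasureTheory Set Common B25c

variable {n : ℕ} {Γ : Type} [Group Γ] [MulAction Γ (E n)]

theorem F1_cont {p η : ℝ} (hη : 0 < η) : Continuous (F1 p η) :=
  continuous_iff_continuousAt.2 fun s => (F1_deriv hη s).continuousAt

/-- `∫ ψ'(u) Δu ≤ 0` -/
theorem int_lap_nonpos (hL : SpecLapInt) {G : E n → Matrix (Fin n) (Fin n) ℝ} (h : Act n Γ)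
    (hG : Met n Γ G) {p : ℝ} (hp : 1 < p) {u : E n → ℝ} (hu : ContDiff ℝ ∞ u)
    (hi : ∀ (γ : Γ) x, u (γ • x) = u x) {D : Set (E n)} (hD : MeasurableSet D)
    (hDb : Bornology.IsBounded D) (hD' : ∀ x : E n, ∃! γ : Γ, γ • x ∈ D) :
    ∫ x in D, h1 p (u x) * lap G u x * dens G x ≤ 0 := by
  have hcl : Continuous (fun x => lap G u x) := (cont_lap hG.smooth hG.pos hu).continuous
  have hcd : Continuous (fun x => dens G x) := (cont_dens hG.smooth hG.pos).continuous
  have hle : ∀ k : ℕ, ∫ x in D, F1 p (1 / ((k : ℝ) + 1)) (u x) * lap G u x * dens G x ≤ 0 := by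
    intro k
    have hη : (0 : ℝ) < 1 / ((k : ℝ) + 1) := by positivity
    have hcf : ContDiff ℝ ∞ (fun x => B25c.FF p (1 / ((k : ℝ) + 1)) (u x)) := (FF_cd hη).comp hu
    have h0 := hL n Γ G h hG (fun x => B25c.FF p (1 / ((k : ℝ) + 1)) (u x)) hcf
      (fun γ x => by rw [hi]) D hD hDb hD'
    rw [← h0]
    refine integral_mono (intOn hDb ((((F1_cont hη).comp hu.continuous).mul hcl).mul hcd))
      (intOn hDb ((cont_lap hG.smooth hG.pos hcf).continuous.mul hcd)) fun x => ?_
    refine mul_le_mul_of_nonneg_right ?_ (dens_pos hG x).le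
    rw [B25c.lap_comp (contDiff_infty.1 hu 2) (fun s => FF_deriv hη s)
      (fun s => F1_deriv hη s) x]
    have := mul_nonneg (F2_nonneg hη hp.le (u x)) (Grad.gradSq_nonneg' (hG.pos x) u)
    show F1 p (1 / ((k : ℝ) + 1)) (u x) * lap G u x ≤ _
    linarith
  have hlim : Filter.Tendsto
      (fun k : ℕ => ∫ x in D, F1 p (1 / ((k : ℝ) + 1)) (u x) * lap G u x * dens G x)
      Filter.atTop (𝓝 (∫ x in D, h1 p (u x) * lap G u x * dens G x)) := by
    refine tendsto_integral_of_dominated_convergence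
      (fun x => p * (max 0 (-u x) + 1) ^ (p - 1) * |lap G u x| * dens G x) ?_ ?_ ?_ ?_
    · intro k
      have hη : (0 : ℝ) < 1 / ((k : ℝ) + 1) := by positivity
      exact ((((F1_cont hη).comp hu.continuous).mul hcl).mul hcd).aestronglyMeasurable
    · refine intOn hDb (((continuous_const.mul ?_).mul hcl.abs).mul hcd)
      exact ((continuous_const.max hu.continuous.neg).add continuous_const).rpow_const
        fun x => Or.inr (by linarith)
    · intro k
      refine Filter.Eventually.of_forall fun x => ?_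
      rw [norm_mul, norm_mul, Real.norm_eq_abs, Real.norm_eq_abs,
        Real.norm_of_nonneg (dens_pos hG x).le]
      have h1 := F1_bound hp k (u x)
      have h2 := (dens_pos hG x).le
      have h3 := abs_nonneg (lap G u x)
      gcongr
    · refine Filter.Eventually.of_forall fun x => ?_
      exact ((F1_tendsto hp (u x)).mul_const _).mul_const _
  exact le_of_tendsto' hlim hle

/-- the first variation -/
theorem crit (hE : SpecEvol) (hB : SpecBianchi) {G : E n → Matrix (Fin n) (Fin n) ℝ}
    (hn : 4 ≤ n) (h : Act n Γ) (hG : Met n Γ G) {D : Set (E n)} (hDb : Bornology.IsBounded D)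
    (hmin : ∀ G' : E n → Matrix (Fin n) (Fin n) ℝ, Met n Γ G' →
      int G D (fun x => max 0 (-scal G x) ^ ((n : ℝ) / 2)) ≤
      int G' D (fun x => max 0 (-scal G' x) ^ ((n : ℝ) / 2))) :
    ∫ x in D, (h1 ((n : ℝ) / 2) (scal G x) * lap G (scal G) x * dens G x +
      2 * (h1 ((n : ℝ) / 2) (scal G x) * (ricSq G x - scal G x ^ 2 / n)) * dens G x) = 0 := by
  have hn4 : (4 : ℝ) ≤ n := by exact_mod_cast hn
  obtain ⟨p, hp⟩ : ∃ p : ℝ, p = (n : ℝ) / 2 := ⟨_, rfl⟩
  rw [← hp] at hmin ⊢
  have hp1 : 1 < p := by rw [hp]; linarith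
  have hp0 : 0 < p := by linarith
  obtain ⟨M, hM0, hM⟩ := exists_bound h hG
  obtain ⟨ε, hε⟩ : ∃ ε : ℝ, ε = 1 / (4 * M) := ⟨_, rfl⟩
  have hε0 : 0 < ε := by rw [hε]; positivity
  have hεM : 2 * ε * M < 1 := by
    rw [hε]
    have : 2 * (1 / (4 * M)) * M = 1 / 2 := by field_simp; norm_num
    rw [this]; norm_num
  have hsym : ∀ x i j, ric G x i j = ric G x j i := fun x i j =>
    (hB n G hG.smooth hG.pos x).1 i j
  have hF := Gt_fam h hG hsym hε0 hM hεM
  have hs := hF.smooth
  have hpos : ∀ t x, (Gt G ε t x).PosDef := fun t x => (hF.met t).pos x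
  have hsc := cd_scal hs hpos
  have hde := cd_dens hs hpos
  have hdpos : ∀ t x, 0 < dens (Gt G ε t) x := fun t x => Real.sqrt_pos.2 (hpos t x).det_pos
  have hcs : ∀ t, ContDiff ℝ ∞ (scal (Gt G ε t)) := fun t =>
    cd_at (f := fun t x => scal (Gt G ε t) x) hsc t
  have hcd : ∀ t, ContDiff ℝ ∞ (dens (Gt G ε t)) := fun t =>
    cd_at (f := fun t x => dens (Gt G ε t) x) hde t
  obtain ⟨s1, s2⟩ := cd_dt (f := fun t x => scal (Gt G ε t) x) hsc
  obtain ⟨e1, e2⟩ := cd_dt (f := fun t x => dens (Gt G ε t) x) hde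
  have hd := integral_deriv'
    (K := fun t x => h0 p (scal (Gt G ε t) x) * dens (Gt G ε t) x)
    (K' := fun t x => h1 p (scal (Gt G ε t) x) * deriv (fun s => scal (Gt G ε s) x) t *
      dens (Gt G ε t) x + h0 p (scal (Gt G ε t) x) * deriv (fun s => dens (Gt G ε s) x) t)
    (fun t => ((h0_cont hp1).comp (hcs t).continuous).mul (hcd t).continuous)
    (fun t x => (HasDerivAt.comp (h₂ := h0 p) (h := fun s => scal (Gt G ε s) x) t
      (h0_deriv hp1 _) (s2 t x)).mul (e2 t x))
    (((((h1_cont hp1).comp hsc.continuous).mul s1).mul hde.continuous).add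
      (((h0_cont hp1).comp hsc.continuous).mul e1)) hDb 0
  have hloc : IsLocalMin
      (fun s => ∫ x in D, h0 p (scal (Gt G ε s) x) * dens (Gt G ε s) x) 0 := by
    refine Filter.Eventually.of_forall fun t => ?_
    have h2 := hmin (Gt G ε t) (hF.met t)
    rw [int_eq (hcs t).continuous (hcd t).continuous (hdpos t) hDb hp0] at h2
    have h3 := int_eq (G := Gt G ε 0) (hcs 0).continuous (hcd 0).continuous (hdpos 0) hDb hp0
    rw [Gt_zero] at h3
    rw [h3, ENNReal.ofReal_le_ofReal_iff] at h2
    · show ∫ x in D, h0 p (scal (Gt G ε 0) x) * dens (Gt G ε 0) x ≤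
        ∫ x in D, h0 p (scal (Gt G ε t) x) * dens (Gt G ε t) x
      rw [Gt_zero]
      exact h2
    · refine integral_nonneg fun x => ?_
      have h4 := hdpos t x
      show (0 : ℝ) ≤ max 0 (-scal (Gt G ε t) x) ^ p * dens (Gt G ε t) x
      positivity
  have hz := hloc.hasDerivAt_eq_zero hd
  rw [← hz]
  refine integral_congr_ae (Filter.Eventually.of_forall fun x => ?_)
  obtain ⟨d1, d2, -⟩ := hE n (Gt G ε) hs hpos 0 (fun x i j => by
    rw [Gt_deriv hε0, Gt_zero]) x
  show _ = h1 p (scal (Gt G ε 0) x) * deriv (fun s => scal (Gt G ε s) x) 0 *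
      dens (Gt G ε 0) x + h0 p (scal (Gt G ε 0) x) * deriv (fun s => dens (Gt G ε s) x) 0
  rw [d1.deriv, d2.deriv, Gt_zero]
  have hc := cancel (N := (n : ℝ)) (by linarith) hp hp1 (scal G x)
  have e : (fun y => scal G y) = scal G := rfl
  rw [e]
  linear_combination (-dens G x) * hc

/-- the Einstein equation on `{scal < 0}` -/
theorem einstein (hE : SpecEvol) (hB : SpecBianchi) (hL : SpecLapInt)
    {G : E n → Matrix (Fin n) (Fin n) ℝ}
    (hn : 4 ≤ n) (h : Act n Γ) (hG : Met n Γ G) {D : Set (E n)} (hD : MeasurableSet D)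
    (hDb : Bornology.IsBounded D) (hD' : ∀ x : E n, ∃! γ : Γ, γ • x ∈ D)
    (hmin : ∀ G' : E n → Matrix (Fin n) (Fin n) ℝ, Met n Γ G' →
      int G D (fun x => max 0 (-scal G x) ^ ((n : ℝ) / 2)) ≤
      int G' D (fun x => max 0 (-scal G' x) ^ ((n : ℝ) / 2))) (x : E n) (hx : scal G x < 0) :
    Rm G x = (scal G x / n) • G x := by
  have hn4 : (4 : ℝ) ≤ n := by exact_mod_cast hn
  have hcr := crit hE hB hn h hG hDb hmin
  obtain ⟨p, hp⟩ : ∃ p : ℝ, p = (n : ℝ) / 2 := ⟨_, rfl⟩
  rw [← hp] at hcr
  have hp1 : 1 < p := by rw [hp]; linarith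
  have hcs : ContDiff ℝ ∞ (scal G) := cont_scal hG.smooth hG.pos
  have hcd : Continuous (dens G) := (cont_dens hG.smooth hG.pos).continuous
  have hcl : Continuous (fun x => lap G (scal G) x) :=
    (cont_lap hG.smooth hG.pos hcs).continuous
  have hcq : Continuous (fun x => ricSq G x - scal G x ^ 2 / n) :=
    (cont_ricSq hG.smooth hG.pos).continuous.sub ((hcs.continuous.pow 2).div_const _)
  have hch : Continuous (fun x => h1 p (scal G x)) := (h1_cont hp1).comp hcs.continuous
  have hle := int_lap_nonpos hL h hG hp1 hcs (fun γ x => Bridge.scal_inv h hG γ x) hD hDb hD'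
  have i1 : IntegrableOn (fun x => h1 p (scal G x) * lap G (scal G) x * dens G x) D :=
    intOn hDb ((hch.mul hcl).mul hcd)
  have i2 : IntegrableOn
      (fun x => 2 * (h1 p (scal G x) * (ricSq G x - scal G x ^ 2 / n)) * dens G x) D :=
    intOn hDb ((continuous_const.mul (hch.mul hcq)).mul hcd)
  rw [integral_add i1 i2] at hcr
  have hq : ∀ x, 0 ≤ ricSq G x - scal G x ^ 2 / n := by
    intro x
    obtain ⟨B, m, hB1, hGB, hR, r1, r2⟩ := frame (G x) (Rm G x) (hG.pos x)
    have r3 : ricSq G x = ∑ a, ∑ b, m a b ^ 2 := r1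
    have r4 : scal G x = ∑ a, m a a := r2
    have r5 : (∑ a, m a a) ^ 2 ≤ n * ∑ a, m a a ^ 2 := by
      have := Finset.sum_mul_sq_le_sq_mul_sq (Finset.univ : Finset (Fin n)) (fun _ => (1 : ℝ))
        (fun a => m a a)
      simpa using this
    have r6 : ∑ a, m a a ^ 2 ≤ ∑ a, ∑ b, m a b ^ 2 :=
      Finset.sum_le_sum fun a _ => Finset.single_le_sum (f := fun b => m a b ^ 2)
        (fun b _ => sq_nonneg _) (Finset.mem_univ a)
    rw [r3, r4, sub_nonneg, div_le_iff₀ (by linarith)]
    nlinarith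
  have hnn : ∀ x, 0 ≤ -(2 * (h1 p (scal G x) * (ricSq G x - scal G x ^ 2 / n)) * dens G x) := by
    intro x
    have a1 := h1_nonpos hp1 (scal G x)
    have a2 := hq x
    have a3 := dens_pos hG x
    have a4 : 0 ≤ (-h1 p (scal G x)) * (ricSq G x - scal G x ^ 2 / n) :=
      mul_nonneg (by linarith) a2
    nlinarith
  have hz : ∫ x in D, -(2 * (h1 p (scal G x) * (ricSq G x - scal G x ^ 2 / n)) * dens G x) = 0 := by
    refine le_antisymm ?_ (integral_nonneg hnn)
    rw [integral_neg]
    linarith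
  rw [integral_eq_zero_iff_of_nonneg hnn i2.neg] at hz
  -- the bad set
  set B : Set (E n) := {x | scal G x < 0 ∧ Rm G x ≠ (scal G x / n) • G x} with hBdef
  have hBD : volume (B ∩ D) = 0 := by
    have h2 : ∀ᵐ x ∂(volume.restrict D), x ∉ B := by
      filter_upwards [hz] with x hx0
      rintro ⟨b1, b2⟩
      apply b2
      have a1 := h1_neg hp1 b1
      have a3 := dens_pos hG x
      have hx1 : -(2 * (h1 p (scal G x) * (ricSq G x - scal G x ^ 2 / n)) * dens G x) = 0 := hx0
      have hx2 : ricSq G x - scal G x ^ 2 / n = 0 := by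
        rcases mul_eq_zero.1 (neg_eq_zero.1 hx1) with c | c
        · rcases mul_eq_zero.1 c with c | c
          · norm_num at c
          · rcases mul_eq_zero.1 c with c | c
            · exact absurd c a1.ne
            · exact c
        · exact absurd c a3.ne'
      refine eq_of_trace (by omega) (G x) (Rm G x) (hG.pos x) ?_
      show (n : ℝ) * ricSq G x = scal G x ^ 2
      have : (n : ℝ) ≠ 0 := by linarith
      field_simp at hx2
      linarith
    rw [ae_restrict_iff' hD] at h2
    refine measure_mono_null ?_ h2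
    rintro y ⟨y1, y2⟩ hy
    exact hy y2 y1
  have hBinv : ∀ (γ : Γ) (x : E n), x ∈ B → γ • x ∈ B := by
    rintro γ x ⟨b1, b2⟩
    refine ⟨by rw [Bridge.scal_inv h hG γ x]; exact b1, fun hc => b2 ?_⟩
    rw [← Rm_trans h hG γ x, hc, Bridge.scal_inv h hG γ x, Matrix.mul_smul, Matrix.smul_mul,
      G_trans hG]
  have hBnull : volume B = 0 := by
    have := countable h
    have hsub : B ⊆ ⋃ γ : Γ, (fun y : E n => γ⁻¹ • y) '' (B ∩ D) := by
      intro x hx
      obtain ⟨γ, hγ, -⟩ := hD' x
      exact mem_iUnion.2 ⟨γ, γ • x, ⟨hBinv γ x hx, hγ⟩, by simp⟩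
    refine measure_mono_null hsub (measure_iUnion_null fun γ => ?_)
    exact addHaar_image_eq_zero_of_differentiableOn_of_addHaar_eq_zero volume
      (fun x _ => (diff h γ⁻¹ x).differentiableWithinAt) hBD
  have hRc : Continuous (Rm G) := continuous_matrix fun i j =>
    (cont_Rm hG.smooth hG.pos i j).continuous
  have hGc : Continuous G := continuous_matrix fun i j => (hG.smooth i j).continuous
  have hBo : IsOpen B := by
    refine (isOpen_lt hcs.continuous continuous_const).inter ?_
    exact isOpen_ne_fun hRc ((hcs.continuous.div_const _).smul hGc)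
  have hBe : B = ∅ := (hBo.measure_eq_zero_iff volume).1 hBnull
  by_contra hc
  have : x ∈ B := ⟨hx, hc⟩
  rw [hBe] at this
  exact this

/-- on `{scal < 0}` the scalar curvature is locally constant -/
theorem fderiv_zero (hB : SpecBianchi) {G : E n → Matrix (Fin n) (Fin n) ℝ} (hn : 4 ≤ n)
    (h1 : ∀ i j, ContDiff ℝ ∞ (fun x => G x i j)) (h2 : ∀ x, (G x).PosDef)
    (hein : ∀ x, scal G x < 0 → Rm G x = (scal G x / n) • G x) (x : E n) (hx : scal G x < 0) :
    fderiv ℝ (scal G) x = 0 := by
  have hn4 : (4 : ℝ) ≤ n := by exact_mod_cast hn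
  have hcs : ContDiff ℝ ∞ (scal G) := cont_scal h1 h2
  have hev : ∀ᶠ y in 𝓝 x, scal G y < 0 := hcs.continuous.continuousAt.eventually_lt_const hx
  have hric : ∀ i j, (fun y => ric G y i j) =ᶠ[𝓝 x] fun y => (scal G y * (1 / n)) * G y i j := by
    intro i j
    filter_upwards [hev] with y hy
    have := congrFun (congrFun (hein y hy) i) j
    rw [Rm_apply] at this
    rw [this, Matrix.smul_apply, smul_eq_mul, div_eq_mul_one_div]
  have hsd : DifferentiableAt ℝ (fun y => scal G y * (1 / (n : ℝ))) x :=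
    (hcs.differentiable (by simp) x).mul_const _
  have hpd : ∀ k, pd k (fun y => scal G y * (1 / (n : ℝ))) x = pd k (scal G) x * (1 / n) := by
    intro k
    unfold pd
    rw [fderiv_mul_const (hcs.differentiable (by simp) x)]
    simp [mul_comm]
  have hdric : ∀ k i j, dric G x k i j = pd k (scal G) x * (1 / n) * G x i j := by
    intro k i j
    have e1 : pd k (fun y => ric G y i j) x =
        pd k (fun y => (scal G y * (1 / n)) * G y i j) x := by
      unfold pd
      rw [(hric i j).fderiv_eq]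
    have e2 : pd k (fun y => (scal G y * (1 / n)) * G y i j) x =
        pd k (scal G) x * (1 / n) * G x i j + scal G x * (1 / n) * pd k (fun y => G y i j) x := by
      rw [← hpd k]
      exact Bridge.pd_mul hsd ((h1 i j).differentiable (by simp) x)
    have e3 := ConfScal.compat h2 x k i j
    have e4 : ∀ a b, ric G x a b = scal G x * (1 / n) * G x a b := fun a b =>
      (hric a b).self_of_nhds
    unfold dric
    rw [e1, e2, e3]
    simp only [e4, Finset.sum_add_distrib, mul_add, Finset.mul_sum]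
    have hg : ∀ a b, G x a b = G x b a := fun a b => ConfScal.g_symm h2 x a b
    have e5 : ∑ l, chr G x l k i * (scal G x * (1 / n) * G x l j) =
        ∑ l, scal G x * (1 / n) * (G x j l * chr G x l k i) :=
      Finset.sum_congr rfl fun l _ => by rw [hg l j]; ring
    have e6 : ∑ l, chr G x l k j * (scal G x * (1 / n) * G x i l) =
        ∑ l, scal G x * (1 / n) * (G x i l * chr G x l k j) :=
      Finset.sum_congr rfl fun l _ => by ring
    rw [e5, e6]
    ring
  have hpd0 : ∀ k, pd k (scal G) x = 0 := by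
    intro k
    have e1 := (hB n G h1 h2 x).2 k
    have e2 : ∑ i, ∑ j, (G x)⁻¹ i j * dric G x i j k = pd k (scal G) x * (1 / n) := by
      have hu : IsUnit (G x).det := (h2 x).det_pos.ne'.isUnit
      have e3 : ∀ i, ∑ j, (G x)⁻¹ i j * G x j k = (1 : Matrix (Fin n) (Fin n) ℝ) i k := by
        intro i
        rw [← Matrix.mul_apply, Matrix.nonsing_inv_mul _ hu]
      have e4 : ∀ i, ∑ j, (G x)⁻¹ i j * dric G x i j k =
          pd i (scal G) x * (1 / n) * (1 : Matrix (Fin n) (Fin n) ℝ) i k := by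
        intro i
        rw [← e3 i, Finset.mul_sum]
        exact Finset.sum_congr rfl fun j _ => by rw [hdric]; ring
      simp only [e4]
      simp [Matrix.one_apply]
    rw [e2] at e1
    have e5 : pd k (fun y => scal G y) x = pd k (scal G) x := rfl
    rw [e5] at e1
    have hn0 : (n : ℝ) ≠ 0 := by linarith
    field_simp at e1
    have e6 : ((n : ℝ) - 2) * pd k (scal G) x = 0 := by linarith
    rcases mul_eq_zero.1 e6 with c | c
    · linarith
    · exact c
  refine ContinuousLinearMap.ext fun v => ?_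
  have hv : v = ∑ k, v k • (Pi.single k (1 : ℝ) : E n) := by
    ext i; simp [Finset.sum_apply, Pi.single_apply]
  rw [hv, map_sum]
  simp only [map_smul]
  refine (Finset.sum_eq_zero fun k _ => ?_).trans (by simp)
  have := hpd0 k
  unfold pd at this
  rw [this, smul_zero]

/-- Block 27 -/
theorem main (hE : SpecEvol) (hB : SpecBianchi) (hL : SpecLapInt) : SpecMin := by
  intro n Γ _ _ G hn h hG D hD hDb hD' hmin hne
  have hein := einstein hE hB hL hn h hG hD hDb hD' hmin
  have hcs : ContDiff ℝ ∞ (scal G) := cont_scal hG.smooth hG.pos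
  have hfd := fderiv_zero hB hn hG.smooth hG.pos hein
  obtain ⟨x₀, hx₀⟩ : ∃ x₀, scal G x₀ < 0 := by
    by_contra hcon
    push Not at hcon
    apply hne
    have hn0 : (n : ℝ) / 2 ≠ 0 := by
      have : (4 : ℝ) ≤ n := by exact_mod_cast hn
      linarith
    unfold int
    have : ∀ x, ENNReal.ofReal (max 0 (-scal G x) ^ ((n : ℝ) / 2) * dens G x) = 0 := by
      intro x
      rw [max_eq_left (by linarith [hcon x]), Real.zero_rpow hn0, zero_mul, ENNReal.ofReal_zero]
    simp only [this, lintegral_zero]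
  have hcl : IsClopen {x : E n | scal G x = scal G x₀} := by
    refine ⟨isClosed_eq hcs.continuous continuous_const, ?_⟩
    rw [isOpen_iff_mem_nhds]
    intro x hx
    have hx1 : scal G x = scal G x₀ := hx
    have hU : IsOpen {y : E n | scal G y < 0} := isOpen_lt hcs.continuous continuous_const
    obtain ⟨r, hr, hb⟩ := Metric.isOpen_iff.1 hU x (by
      show scal G x < 0
      rw [hx1]; exact hx₀)
    refine Filter.mem_of_superset (Metric.ball_mem_nhds x hr) fun y hy => ?_
    show scal G y = scal G x₀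
    rw [← hx1]
    exact Metric.isOpen_ball.is_const_of_fderiv_eq_zero
      (convex_ball x r).isPreconnected (hcs.differentiable (by simp)).differentiableOn
      (fun z hz => hfd z (hb hz)) hy (Metric.mem_ball_self hr)
  have huniv := hcl.eq_univ ⟨x₀, rfl⟩
  have hall : ∀ x, scal G x = scal G x₀ := fun x => by
    have : x ∈ {x : E n | scal G x = scal G x₀} := by rw [huniv]; trivial
    exact this
  refine ⟨-scal G x₀, by linarith, fun x => ⟨by rw [hall x, neg_neg], fun i j => ?_⟩⟩
  have h3 := congrFun (congrFun (hein x (by rw [hall x]; exact hx₀)) i) j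
  rw [Rm_apply, Matrix.smul_apply, smul_eq_mul, hall x] at h3
  rw [h3]
  ring

end Vale.Agent.P223.H.Min
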