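import Vale.Agent.P223.H.SpecT
import Vale.Agent.P223.H.Common

/-! Block 21a.1: the action of `Γ × ℤ` on `ℝ × ℝ^n`. -/

namespace Vale.Agent.P223.H.Prod1

open scoped ContDiff Matrix

variable {n : ℕ} {Γ : Type} [Group Γ] [MulAction Γ (E n)] {P : ℝ}

/-- the integer component -/
def kk (g : GZ Γ P) : ℤ := Multiplicative.toAdd g.2

theorem smul_zero' (g : GZ Γ P) (y : E (n + 1)) : (g • y) 0 = y 0 + (kk g : ℝ) * P := rfl

theorem smul_succ' (g : GZ Γ P) (y : E (n + 1)) (i : Fin n) :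
    (g • y) i.succ = (g.1 • (Fin.tail y : E n)) i := rfl

theorem tail_smul (g : GZ Γ P) (y : E (n + 1)) :
    (Fin.tail (g • y) : E n) = g.1 • (Fin.tail y : E n) := rfl

/-- the inclusion `ℝ^n → ℝ × ℝ^n` -/
noncomputable def ins (n : ℕ) : E n →L[ℝ] E (n + 1) :=
  ContinuousLinearMap.pi (Fin.cases 0 fun i => ContinuousLinearMap.proj i)

theorem ins_zero (v : E n) : ins n v 0 = 0 := rfl
theorem ins_succ (v : E n) (i : Fin n) : ins n v i.succ = v i := rfl

theorem ins_apply (v : E n) : ins n v = (Fin.cons 0 v : E (n + 1)) := by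
  funext i
  refine Fin.cases ?_ (fun j => ?_) i
  · simp [ins_zero]
  · simp [ins_succ]

/-- the projection `ℝ × ℝ^n → ℝ^n` -/
noncomputable def tl (n : ℕ) : E (n + 1) →L[ℝ] E n :=
  ContinuousLinearMap.pi fun i => ContinuousLinearMap.proj i.succ

theorem tl_apply (v : E (n + 1)) : tl n v = (Fin.tail v : E n) := rfl

theorem tl_single_succ (i : Fin n) (a : ℝ) :
    tl n (Pi.single i.succ a) = (Pi.single i a : E n) := by
  funext j
  rw [tl_apply]
  show (Pi.single i.succ a : E (n + 1)) j.succ = _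
  simp [Pi.single_apply]

theorem tl_single_zero (a : ℝ) : tl n (Pi.single 0 a) = 0 := by
  funext j
  rw [tl_apply]
  show (Pi.single 0 a : E (n + 1)) j.succ = _
  simp

theorem ins_single (i : Fin n) (a : ℝ) :
    ins n (Pi.single i a) = (Pi.single i.succ a : E (n + 1)) := by
  funext j
  refine Fin.cases ?_ (fun j => ?_) j
  · rw [ins_zero]; simp
  · rw [ins_succ]; simp [Pi.single_apply]

/-- the derivative of the action -/
noncomputable def Dg (g : GZ Γ P) (y : E (n + 1)) : E (n + 1) →L[ℝ] E (n + 1) :=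
  ContinuousLinearMap.pi (Fin.cases (ContinuousLinearMap.proj 0) fun i =>
    (ContinuousLinearMap.proj i).comp
      ((fderiv ℝ (fun x : E n => g.1 • x) (Fin.tail y)).comp (tl n)))

theorem hasFDerivAt_smul (h : Act n Γ) (g : GZ Γ P) (y : E (n + 1)) :
    HasFDerivAt (fun z : E (n + 1) => g • z) (Dg g y) y := by
  refine hasFDerivAt_pi'.2 fun i => ?_
  refine Fin.cases ?_ (fun j => ?_) i
  · show HasFDerivAt (fun z : E (n + 1) => z 0 + (kk g : ℝ) * P) _ y
    exact (hasFDerivAt_apply (𝕜 := ℝ) (0 : Fin (n + 1)) y).add_const _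
  · show HasFDerivAt (fun z : E (n + 1) => (g.1 • (Fin.tail z : E n)) j) _ y
    have h1 : HasFDerivAt (fun z : E (n + 1) => (Fin.tail z : E n)) (tl n) y :=
      (tl n).hasFDerivAt
    have h2 := ((Common.diff h g.1 (Fin.tail y)).hasFDerivAt).comp y h1
    exact (hasFDerivAt_apply (𝕜 := ℝ) j (g.1 • (Fin.tail y : E n))).comp y h2

theorem fderiv_smul (h : Act n Γ) (g : GZ Γ P) (y : E (n + 1)) :
    fderiv ℝ (fun z : E (n + 1) => g • z) y = Dg g y := (hasFDerivAt_smul h g y).fderiv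

theorem Dg_zero (g : GZ Γ P) (y v : E (n + 1)) : Dg g y v 0 = v 0 := rfl

theorem Dg_succ (g : GZ Γ P) (y v : E (n + 1)) (i : Fin n) :
    Dg g y v i.succ = fderiv ℝ (fun x : E n => g.1 • x) (Fin.tail y) (Fin.tail v) i := rfl

theorem smooth_smul (h : Act n Γ) (g : GZ Γ P) :
    ContDiff ℝ ∞ (fun z : E (n + 1) => g • z) := by
  refine contDiff_pi.2 fun i => ?_
  refine Fin.cases ?_ (fun j => ?_) i
  · show ContDiff ℝ ∞ (fun z : E (n + 1) => z 0 + (kk g : ℝ) * P)
    exact (contDiff_apply ℝ ℝ 0).add contDiff_const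
  · show ContDiff ℝ ∞ (fun z : E (n + 1) => (g.1 • (Fin.tail z : E n)) j)
    have h1 : ContDiff ℝ ∞ (fun z : E (n + 1) => (Fin.tail z : E n)) := (tl n).contDiff
    exact (contDiff_apply ℝ ℝ j).comp ((h.smooth g.1).comp h1)

/-- block matrix -/
def blk (M : Matrix (Fin n) (Fin n) ℝ) : Matrix (Fin (n + 1)) (Fin (n + 1)) ℝ :=
  Matrix.of (Fin.cons (Fin.cons 1 fun _ => 0) fun i => Fin.cons 0 fun j => M i j)

theorem blk_00 (M : Matrix (Fin n) (Fin n) ℝ) : blk M 0 0 = 1 := rfl
theorem blk_0s (M : Matrix (Fin n) (Fin n) ℝ) (j : Fin n) : blk M 0 j.succ = 0 := rfl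
theorem blk_s0 (M : Matrix (Fin n) (Fin n) ℝ) (i : Fin n) : blk M i.succ 0 = 0 := rfl
theorem blk_ss (M : Matrix (Fin n) (Fin n) ℝ) (i j : Fin n) : blk M i.succ j.succ = M i j := rfl

theorem blk_det (M : Matrix (Fin n) (Fin n) ℝ) : (blk M).det = M.det := by
  rw [Matrix.det_succ_row_zero, Fin.sum_univ_succ]
  simp only [blk_0s, mul_zero, zero_mul, Finset.sum_const_zero, add_zero, blk_00]
  simp only [Fin.val_zero, pow_zero, one_mul]
  congr 1

theorem Dm_eq (h : Act n Γ) (g : GZ Γ P) (y : E (n + 1)) :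
    Common.Dm g y = blk (Common.Dm g.1 (Fin.tail y : E n)) := by
  ext i j
  rw [Common.Dm_apply, fderiv_smul h]
  refine Fin.cases ?_ (fun i => ?_) i
  · rw [Dg_zero]
    refine Fin.cases ?_ (fun j => ?_) j
    · rw [blk_00]; simp
    · rw [blk_0s]; simp
  · rw [Dg_succ]
    refine Fin.cases ?_ (fun j => ?_) j
    · rw [blk_s0]
      have := tl_single_zero (n := n) 1
      rw [tl_apply] at this
      rw [this]; simp
    · rw [blk_ss, Common.Dm_apply]
      have := tl_single_succ j 1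
      rw [tl_apply] at this
      rw [this]

theorem main : SpecProdAct := by
  intro n Γ _ _ P hP h
  refine ⟨fun g => smooth_smul h g, fun g y => ?_, fun g y hg => ?_, fun K hK => ?_, ?_⟩
  · rw [← Common.det_Dm, Dm_eq h, blk_det]
    exact Common.det_pos h g.1 _
  · have h0 : y 0 + (kk g : ℝ) * P = y 0 := by
      have := congrFun hg 0
      rwa [smul_zero'] at this
    have h1 : g.1 • (Fin.tail y : E n) = (Fin.tail y : E n) := by
      rw [← tail_smul, hg]
    have h2 : kk g = 0 := by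
      have : (kk g : ℝ) * P = 0 := by linarith
      rcases mul_eq_zero.1 this with h3 | h3
      · exact_mod_cast h3
      · exact absurd h3 hP.ne'
    have h3 := h.free _ _ h1
    exact Prod.ext h3 h2
  · have hK1 : IsCompact ((fun y : E (n + 1) => (Fin.tail y : E n)) '' K) :=
      hK.image (tl n).continuous
    obtain ⟨R, hR⟩ := hK.isBounded.exists_norm_le
    have hf1 := h.proper _ hK1
    have hf2 : {k : ℤ | |(k : ℝ)| ≤ 2 * R / P}.Finite := by
      refine (Set.finite_Icc (-⌈2 * R / P⌉) ⌈2 * R / P⌉).subset fun k hk => ?_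
      have h1 := abs_le.1 (show |(k : ℝ)| ≤ 2 * R / P from hk)
      constructor
      · have := Int.le_ceil (2 * R / P)
        have : ((-⌈2 * R / P⌉ : ℤ) : ℝ) ≤ (k : ℝ) := by push_cast; linarith
        exact_mod_cast this
      · have := Int.le_ceil (2 * R / P)
        have : (k : ℝ) ≤ ((⌈2 * R / P⌉ : ℤ) : ℝ) := by linarith
        exact_mod_cast this
    refine ((hf1.prod (hf2.preimage
      (Multiplicative.toAdd.injective.injOn : Set.InjOn
        (Multiplicative.toAdd : Multiplicative ℤ → ℤ) _))).subset ?_ :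
        ({γ : Γ × Multiplicative ℤ | _}).Finite)
    rintro g ⟨y, hy, hy'⟩
    refine ⟨⟨Fin.tail y, ⟨y, hy, rfl⟩, ⟨_, hy', rfl⟩⟩, ?_⟩
    show |((kk (P := P) g : ℤ) : ℝ)| ≤ 2 * R / P
    rw [le_div_iff₀ hP]
    have h1 : |y 0| ≤ R := by
      have := (norm_le_pi_norm y 0).trans (hR y hy)
      rwa [Real.norm_eq_abs] at this
    have h2 : |y 0 + (kk (P := P) g : ℝ) * P| ≤ R := by
      have := (norm_le_pi_norm _ 0).trans (hR _ hy')
      rw [Real.norm_eq_abs] at this
      exact this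
    have h3 : |(kk (P := P) g : ℝ)| * P = |(kk (P := P) g : ℝ) * P| := by
      rw [abs_mul, abs_of_pos hP]
    rw [h3]
    have h4 := abs_sub (y 0 + (kk (P := P) g : ℝ) * P) (y 0)
    rw [add_sub_cancel_left] at h4
    linarith
  · obtain ⟨K, hK, hK'⟩ := h.cocompact
    have hc : Continuous fun p : ℝ × E n => (Fin.cons p.1 p.2 : E (n + 1)) := by
      refine continuous_pi fun i => ?_
      refine Fin.cases ?_ (fun j => ?_) i
      · simpa using continuous_fst
      · simp only [Fin.cons_succ]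
        exact (continuous_apply j).comp continuous_snd
    refine ⟨_, (isCompact_Icc (a := (0 : ℝ)) (b := P)).prod hK |>.image hc, fun y => ?_⟩
    obtain ⟨γ, hγ⟩ := hK' (Fin.tail y)
    refine ⟨((γ, Multiplicative.ofAdd (-⌊y 0 / P⌋)) : Γ × Multiplicative ℤ), ?_⟩
    refine ⟨(y 0 + ((-⌊y 0 / P⌋ : ℤ) : ℝ) * P, γ • (Fin.tail y : E n)), ⟨?_, hγ⟩, rfl⟩
    have h1 := Int.floor_le (y 0 / P)
    have h2 := Int.lt_floor_add_one (y 0 / P)
    rw [le_div_iff₀ hP] at h1
    rw [div_lt_iff₀ hP] at h2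
    simp only [Int.cast_neg]
    exact ⟨by nlinarith, by nlinarith⟩

end Vale.Agent.P223.H.Prod1
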