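import Vale.Agent.P223.H.ProdAct

/-! Block 21a.3: frames and jets on `ℝ × ℝ^n`. -/

namespace Vale.Agent.P223.H.Prod3

open scoped ContDiff Matrix
open Vale.Agent.P223.H.Prod1

variable {n : ℕ} {Γ : Type} [Group Γ] [MulAction Γ (E n)] {P : ℝ} {J : Type} [Fintype J]

/-- the vector fields of the product frame -/
noncomputable def VV (Fr : Frame n Γ J) : Option J → E (n + 1) → E (n + 1)
  | none => fun _ => Pi.single 0 1
  | some j => fun y => ins n (Fr.V j (tl n y))

/-- the forms of the product frame -/
noncomputable def TH (Fr : Frame n Γ J) : Option J → E (n + 1) → (E (n + 1) →L[ℝ] ℝ)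
  | none => fun _ => ContinuousLinearMap.proj 0
  | some j => fun y => (Fr.th j (tl n y)).comp (tl n)

theorem VV_smooth (Fr : Frame n Γ J) (j : Option J) : ContDiff ℝ ∞ (VV Fr j) := by
  cases j with
  | none => exact contDiff_const
  | some j => exact (ins n).contDiff.comp ((Fr.V_smooth j).comp (tl n).contDiff)

theorem TH_smooth (Fr : Frame n Γ J) (j : Option J) : ContDiff ℝ ∞ (TH Fr j) := by
  cases j with
  | none => exact contDiff_const
  | some j => exact ((Fr.th_smooth j).comp (tl n).contDiff).clm_comp contDiff_const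

theorem fd (h : Act n Γ) (g : GZ Γ P) (y w : E (n + 1)) :
    fderiv ℝ (fun z : E (n + 1) => g • z) y w =
      (Fin.cons (w 0) (fderiv ℝ (fun x : E n => g.1 • x) (tl n y) (tl n w)) : E (n + 1)) := by
  rw [(hasFDerivAt_smul h g y).fderiv]
  funext i
  refine Fin.cases ?_ (fun j => ?_) i
  · rfl
  · rfl

theorem tl_cons (a : ℝ) (v : E n) : tl n (Fin.cons a v : E (n + 1)) = v := rfl

theorem tl_ins (v : E n) : tl n (ins n v) = v := rfl

theorem VV_inv (h : Act n Γ) (Fr : Frame n Γ J) (g : GZ Γ P) (j : Option J) (y : E (n + 1)) :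
    VV Fr j (g • y) = fderiv ℝ (fun z : E (n + 1) => g • z) y (VV Fr j y) := by
  rw [fd h]
  cases j with
  | none =>
    show (Pi.single 0 1 : E (n + 1)) = Fin.cons ((Pi.single 0 1 : E (n + 1)) 0)
      (fderiv ℝ (fun x : E n => g.1 • x) (tl n y) (tl n (Pi.single 0 1)))
    rw [tl_single_zero, map_zero]
    funext i
    refine Fin.cases ?_ (fun j => ?_) i
    · simp
    · simp
  | some j =>
    show ins n (Fr.V j (g.1 • tl n y)) = Fin.cons (0 : ℝ)
      (fderiv ℝ (fun x : E n => g.1 • x) (tl n y) (tl n (ins n (Fr.V j (tl n y)))))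
    rw [tl_ins, Fr.V_inv, ins_apply]

theorem TH_inv (h : Act n Γ) (Fr : Frame n Γ J) (g : GZ Γ P) (j : Option J) (y w : E (n + 1)) :
    TH Fr j (g • y) (fderiv ℝ (fun z : E (n + 1) => g • z) y w) = TH Fr j y w := by
  rw [fd h]
  cases j with
  | none => rfl
  | some j =>
    show Fr.th j (g.1 • tl n y) (fderiv ℝ (fun x : E n => g.1 • x) (tl n y) (tl n w)) =
      Fr.th j (tl n y) (tl n w)
    rw [Fr.th_inv]

theorem dual (Fr : Frame n Γ J) (y w : E (n + 1)) : ∑ j, TH Fr j y w • VV Fr j y = w := by
  rw [Fintype.sum_option]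
  have h1 : ∀ j : J, TH Fr (some j) y w • VV Fr (some j) y =
      ins n (Fr.th j (tl n y) (tl n w) • Fr.V j (tl n y)) := fun j => by
    rw [map_smul]; rfl
  rw [Finset.sum_congr rfl fun j _ => h1 j, ← map_sum, Fr.dual]
  show w 0 • (Pi.single 0 1 : E (n + 1)) + ins n (tl n w) = w
  funext i
  refine Fin.cases ?_ (fun j => ?_) i
  · simp [ins_zero]
  · simp [ins_succ, tl_apply, Fin.tail]

/-- the product frame -/
noncomputable def frame (h : Act n Γ) (P : ℝ) (Fr : Frame n Γ J) :
    Frame (n + 1) (GZ Γ P) (Option J) where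
  V := VV Fr
  th := TH Fr
  V_smooth := VV_smooth Fr
  th_smooth := TH_smooth Fr
  V_inv g j y := VV_inv h Fr g j y
  th_inv g j y w := TH_inv h Fr g j y w
  dual := dual Fr

variable {ι ι' : Type} [Fintype ι] [Fintype ι']

/-- the index map -/
def up (e : ι → ι') : Option J × ι → Option (Option J) × ι' := fun p => (p.1.map some, e p.2)

omit [Fintype J] [Fintype ι] [Fintype ι'] in
theorem up_inj {e : ι → ι'} (he : Function.Injective e) :
    Function.Injective (up (J := J) e) := by
  rintro ⟨a, i⟩ ⟨b, j⟩ h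
  simp only [up, Prod.mk.injEq] at h
  obtain ⟨h1, h2⟩ := h
  exact Prod.ext (Option.map_injective (Option.some_injective _) h1) (he h2)

theorem nn_eq (h : Act n Γ) (Fr : Frame n Γ J) : ∀ (m : ℕ) (ι ι' : Type) [Fintype ι] [Fintype ι']
    (e : ι → ι'), Function.Injective e → ∀ (u : E n → ι → ℝ) (u' : E (n + 1) → ι' → ℝ),
    (∀ i, ContDiff ℝ m (fun x => u x i)) →
    (∀ y i, u' y (e i) = u (tl n y) i) → (∀ y k, k ∉ Set.range e → u' y k = 0) →
    ∀ y, NN (frame h P Fr) m ι' u' y = NN Fr m ι u (tl n y) := by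
  intro m
  induction m with
  | zero =>
    intro ι ι' _ _ e he u u' _ h1 h2 y
    show ∑ i, u' y i ^ 2 = ∑ i, u (tl n y) i ^ 2
    classical
    symm
    refine Finset.sum_of_injOn e (he.injOn) (fun _ _ => Finset.mem_coe.2 (Finset.mem_univ _))
      (fun k _ hk => ?_) (fun i _ => by rw [← h1 y i])
    rw [h2 y k (fun ⟨i, hi⟩ => hk ⟨i, Finset.mem_coe.2 (Finset.mem_univ _), hi⟩)]
    norm_num
  | succ m ih =>
    intro ι ι' _ _ e he u u' hu h1 h2 y
    show NN (frame h P Fr) m (Option (Option J) × ι') (prol (frame h P Fr) u') y =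
      NN Fr m (Option J × ι) (prol Fr u) (tl n y)
    have hd : ∀ i y, fderiv ℝ (fun y => u' y (e i)) y =
        (fderiv ℝ (fun x => u x i) (tl n y)).comp (tl n) := fun i y => by
      rw [funext fun y => h1 y i]
      have hx : DifferentiableAt ℝ (fun x => u x i) (tl n y) :=
        ((hu i).differentiable (by simp)) _
      exact (hx.hasFDerivAt.comp y (tl n).hasFDerivAt).fderiv
    refine ih _ _ (up e) (up_inj he) _ _ (fun p => ?_) (fun y p => ?_) (fun y p hp => ?_) y
    · obtain ⟨a, i⟩ := p
      cases a with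
      | none => exact (hu i).of_le (by exact_mod_cast Nat.le_succ m)
      | some j =>
        exact ((hu i).fderiv_right (by norm_cast)).clm_apply
          ((Fr.V_smooth j).of_le (by exact_mod_cast le_top))
    · obtain ⟨a, i⟩ := p
      cases a with
      | none => exact h1 y i
      | some j =>
        show fderiv ℝ (fun y => u' y (e i)) y (ins n (Fr.V j (tl n y))) =
          fderiv ℝ (fun x => u x i) (tl n y) (Fr.V j (tl n y))
        rw [hd]; rfl
    · obtain ⟨a, k⟩ := p
      by_cases hk : k ∈ Set.range e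
      · obtain ⟨i, rfl⟩ := hk
        rcases a with _ | _ | j
        · exact absurd ⟨(none, i), rfl⟩ hp
        · show fderiv ℝ (fun y => u' y (e i)) y (Pi.single 0 1) = 0
          rw [hd, ContinuousLinearMap.comp_apply, tl_single_zero, map_zero]
        · exact absurd ⟨(some j, i), rfl⟩ hp
      · cases a with
        | none => exact h2 y k hk
        | some a =>
          show fderiv ℝ (fun y => u' y k) y _ = 0
          rw [funext fun y => h2 y k hk]
          simp

theorem nn_le (h : Act n Γ) (Fr : Frame n Γ J) (a : ℝ) :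
    ∀ (m : ℕ) (ι ι' : Type) [Fintype ι] [Fintype ι']
    (e : ι → ι'), Function.Injective e → ∀ (u : E n → ι → ℝ) (u' : E (n + 1) → ι' → ℝ),
    (∀ i, ContDiff ℝ m (fun x => u' x i)) →
    (∀ x i, u x i = u' (Fin.cons a x : E (n + 1)) (e i)) →
    ∀ x, NN Fr m ι u x ≤ NN (frame h P Fr) m ι' u' (Fin.cons a x : E (n + 1)) := by
  intro m
  induction m with
  | zero =>
    intro ι ι' _ _ e he u u' _ h1 x
    show ∑ i, u x i ^ 2 ≤ ∑ i, u' (Fin.cons a x : E (n + 1)) i ^ 2
    classical
    rw [Finset.sum_congr rfl fun i _ => by rw [h1 x i]]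
    calc ∑ i, u' (Fin.cons a x : E (n + 1)) (e i) ^ 2
        = ∑ k ∈ Finset.univ.image e, u' (Fin.cons a x : E (n + 1)) k ^ 2 := by
          rw [Finset.sum_image he.injOn]
      _ ≤ _ := Finset.sum_le_sum_of_subset_of_nonneg (Finset.subset_univ _)
          fun _ _ _ => sq_nonneg _
  | succ m ih =>
    intro ι ι' _ _ e he u u' hu h1 x
    show NN Fr m (Option J × ι) (prol Fr u) x ≤
      NN (frame h P Fr) m (Option (Option J) × ι') (prol (frame h P Fr) u') _
    refine ih _ _ (up e) (up_inj he) _ _ (fun p => ?_) (fun x p => ?_) x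
    · obtain ⟨b, i⟩ := p
      cases b with
      | none => exact (hu i).of_le (by exact_mod_cast Nat.le_succ m)
      | some j =>
        exact ((hu i).fderiv_right (by norm_cast)).clm_apply
          (((frame h P Fr).V_smooth j).of_le (by exact_mod_cast le_top))
    · obtain ⟨b, i⟩ := p
      cases b with
      | none => exact h1 x i
      | some j =>
        show fderiv ℝ (fun x => u x i) x (Fr.V j x) =
          fderiv ℝ (fun y => u' y (e i)) (Fin.cons a x : E (n + 1)) (ins n (Fr.V j x))
        rw [funext fun x => h1 x i]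
        have hy : DifferentiableAt ℝ (fun y => u' y (e i)) (Fin.cons a x : E (n + 1)) :=
          ((hu (e i)).differentiable (by simp)) _
        have hc : HasFDerivAt (fun x : E n => (Fin.cons a x : E (n + 1))) (ins n) x := by
          have h2 : (fun x : E n => (Fin.cons a x : E (n + 1))) =
              fun x => (Fin.cons a 0 : E (n + 1)) + ins n x := by
            funext x i
            refine Fin.cases ?_ (fun j => ?_) i
            · simp [ins_zero]
            · simp [ins_succ]
          rw [h2]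
          exact (ins n).hasFDerivAt.const_add _
        have h3 : fderiv ℝ (fun x : E n => u' (Fin.cons a x : E (n + 1)) (e i)) x =
            (fderiv ℝ (fun y => u' y (e i)) (Fin.cons a x : E (n + 1))).comp (ins n) :=
          (hy.hasFDerivAt.comp x hc).fderiv
        rw [h3]
        rfl

theorem main : SpecProdFrame := by
  intro n Γ _ _ P J _ Fr h
  refine ⟨frame h P Fr, fun f hf y => ?_, fun F hF y => ?_⟩
  · exact nn_eq h Fr 4 Unit Unit id Function.injective_id (fun x _ => f x)
      (fun z _ => f (Fin.tail z)) (fun _ => hf) (fun _ _ => rfl)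
      (fun _ k hk => absurd ⟨k, rfl⟩ hk) y
  · have h1 := nn_le (P := P) h Fr (y 0) 4 Unit Unit id Function.injective_id
      (fun x _ => F (Fin.cons (y 0) x)) (fun z _ => F z) (fun _ => hF) (fun _ _ => rfl)
      (Fin.tail y)
    rw [Fin.cons_self_tail] at h1
    exact h1

end Vale.Agent.P223.H.Prod3
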