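import Vale.Agent.P223.H.ProdAct
import Vale.Agent.P223.H.Bridge

/-! Block 21a.2: the metric `dt² + G t`. -/

namespace Vale.Agent.P223.H.Prod2

open scoped ContDiff Matrix
open Prod1

variable {n : ℕ} {Γ : Type} [Group Γ] [MulAction Γ (E n)] {P : ℝ}

theorem prodMet_eq (G : ℝ → E n → Matrix (Fin n) (Fin n) ℝ) (y : E (n + 1)) :
    prodMet G y = blk (G (y 0) (Fin.tail y)) := rfl

theorem blk_mul (M N : Matrix (Fin n) (Fin n) ℝ) : blk M * blk N = blk (M * N) := by
  ext i j
  rw [Matrix.mul_apply, Fin.sum_univ_succ]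
  refine Fin.cases ?_ (fun i => ?_) i
  · refine Fin.cases ?_ (fun j => ?_) j
    · simp [blk_00, blk_0s]
    · simp [blk_00, blk_0s]
  · refine Fin.cases ?_ (fun j => ?_) j
    · simp [blk_s0]
    · simp only [blk_s0, zero_mul, blk_ss, zero_add]
      rw [Matrix.mul_apply]

theorem blk_one : blk (1 : Matrix (Fin n) (Fin n) ℝ) = 1 := by
  ext i j
  refine Fin.cases ?_ (fun i => ?_) i
  · refine Fin.cases ?_ (fun j => ?_) j
    · simp [blk_00]
    · rw [blk_0s, Matrix.one_apply_ne (Fin.succ_ne_zero j).symm]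
  · refine Fin.cases ?_ (fun j => ?_) j
    · rw [blk_s0, Matrix.one_apply_ne (Fin.succ_ne_zero i)]
    · rw [blk_ss]
      simp [Matrix.one_apply]

theorem blk_inv {M : Matrix (Fin n) (Fin n) ℝ} (h : IsUnit M.det) : (blk M)⁻¹ = blk M⁻¹ := by
  refine Matrix.inv_eq_right_inv ?_
  rw [blk_mul, Matrix.mul_nonsing_inv _ h, blk_one]

theorem blk_quad (M : Matrix (Fin n) (Fin n) ℝ) (v w : E (n + 1)) :
    ∑ i, ∑ j, v i * w j * blk M i j =
      v 0 * w 0 + ∑ i, ∑ j, (Fin.tail v : E n) i * (Fin.tail w : E n) j * M i j := by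
  rw [Fin.sum_univ_succ, Fin.sum_univ_succ]
  simp only [blk_00, blk_0s, mul_one, mul_zero, Finset.sum_const_zero, add_zero]
  congr 1
  refine Finset.sum_congr rfl fun i _ => ?_
  rw [Fin.sum_univ_succ, blk_s0, mul_zero, zero_add]
  rfl

theorem quad_eq {k : ℕ} (M : Matrix (Fin k) (Fin k) ℝ) (v : E k) :
    star v ⬝ᵥ (M *ᵥ v) = ∑ i, ∑ j, v i * v j * M i j := by
  simp only [dotProduct, Matrix.mulVec, Finset.mul_sum, Pi.star_apply, star_trivial]
  refine Finset.sum_congr rfl fun i _ => Finset.sum_congr rfl fun j _ => by ring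

theorem blk_posDef {M : Matrix (Fin n) (Fin n) ℝ} (h : M.PosDef) : (blk M).PosDef := by
  refine Matrix.PosDef.of_dotProduct_mulVec_pos ?_ fun v hv => ?_
  · have h1 := h.isHermitian
    ext i j
    rw [Matrix.conjTranspose_apply, star_trivial]
    refine Fin.cases ?_ (fun i => ?_) i
    · refine Fin.cases ?_ (fun j => ?_) j
      · rfl
      · rw [blk_0s, blk_s0]
    · refine Fin.cases ?_ (fun j => ?_) j
      · rw [blk_0s, blk_s0]
      · rw [blk_ss, blk_ss]
        have := congrFun (congrFun h1 i) j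
        rwa [Matrix.conjTranspose_apply, star_trivial] at this
  · rw [quad_eq, blk_quad]
    by_cases h0 : (Fin.tail v : E n) = 0
    · have h1 : v 0 ≠ 0 := by
        intro h2
        apply hv
        funext i
        refine Fin.cases h2 (fun j => ?_) i
        exact congrFun h0 j
      rw [h0]
      simp only [Pi.zero_apply, zero_mul, Finset.sum_const_zero, add_zero]
      exact mul_self_pos.2 h1
    · have h1 := h.dotProduct_mulVec_pos h0
      rw [quad_eq] at h1
      have h2 := mul_self_nonneg (v 0)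
      linarith

theorem comp_smooth {G : ℝ → E n → Matrix (Fin n) (Fin n) ℝ} (hG : Fam n Γ G) (i j : Fin n) :
    ContDiff ℝ ∞ (fun y : E (n + 1) => G (y 0) (Fin.tail y) i j) := by
  have h1 : ContDiff ℝ ∞ (fun y : E (n + 1) => (y 0, (Fin.tail y : E n))) :=
    (contDiff_apply ℝ ℝ 0).prodMk (tl n).contDiff
  exact (hG.smooth i j).comp h1

theorem met (h : Act n Γ) {G : ℝ → E n → Matrix (Fin n) (Fin n) ℝ} (hG : Fam n Γ G)
    (hP : ∀ t, G (t + P) = G t) : Met (n + 1) (GZ Γ P) (prodMet G) := by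
  have hk : ∀ (k : ℤ) t, G (t + k * P) = G t := by
    have h1 : ∀ (k : ℕ) t, G (t + k * P) = G t := by
      intro k
      induction k with
      | zero => intro t; simp
      | succ k ih =>
        intro t
        have : t + ((k + 1 : ℕ) : ℝ) * P = (t + k * P) + P := by push_cast; ring
        rw [this, hP, ih]
    intro k t
    rcases Int.eq_nat_or_neg k with ⟨m, rfl | rfl⟩
    · exact_mod_cast h1 m t
    · have := h1 m (t + ((-(m : ℤ) : ℤ) : ℝ) * P)
      rw [← this]
      congr 1
      push_cast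
      ring
  refine ⟨fun i j => ?_, fun y => blk_posDef ((hG.met _).pos _), fun g y v w => ?_⟩
  · simp only [prodMet_eq]
    refine Fin.cases ?_ (fun i => ?_) i
    · refine Fin.cases ?_ (fun j => ?_) j
      · simp only [blk_00]; exact contDiff_const
      · simp only [blk_0s]; exact contDiff_const
    · refine Fin.cases ?_ (fun j => ?_) j
      · simp only [blk_s0]; exact contDiff_const
      · simp only [blk_ss]; exact comp_smooth hG i j
  · rw [fderiv_smul h]
    simp only [prodMet_eq]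
    rw [blk_quad, blk_quad, smul_zero', hk, tail_smul]
    congr 1
    exact (hG.met (y 0)).inv g.1 (Fin.tail y) (Fin.tail v) (Fin.tail w)

/-! ### derivatives -/

theorem hasFDerivAt_cons (t : ℝ) (x : E n) :
    HasFDerivAt (fun x : E n => (Fin.cons t x : E (n + 1))) (ins n) x := by
  have h1 : (fun x : E n => (Fin.cons t x : E (n + 1))) =
      fun x => (Fin.cons t 0 : E (n + 1)) + ins n x := by
    funext x i
    refine Fin.cases ?_ (fun j => ?_) i
    · show t = t + ins n x 0
      rw [ins_zero, add_zero]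
    · show x j = 0 + ins n x j.succ
      rw [ins_succ, zero_add]
  rw [h1]
  exact (ins n).hasFDerivAt.const_add _

theorem cons_tail (y : E (n + 1)) : (Fin.cons (y 0) (Fin.tail y) : E (n + 1)) = y :=
  Fin.cons_self_tail y

theorem pd_succ (F : E (n + 1) → ℝ) (y : E (n + 1)) (hF : DifferentiableAt ℝ F y) (i : Fin n) :
    pd i.succ F y = pd i (fun x : E n => F (Fin.cons (y 0) x)) (Fin.tail y) := by
  have h0 : DifferentiableAt ℝ F (Fin.cons (y 0) (Fin.tail y) : E (n + 1)) := by
    rwa [cons_tail]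
  have h1 := h0.hasFDerivAt.comp (Fin.tail y : E n) (hasFDerivAt_cons (y 0) (Fin.tail y))
  unfold pd
  have h2 : fderiv ℝ (fun x : E n => F (Fin.cons (y 0) x)) (Fin.tail y) = _ := h1.fderiv
  rw [h2, ContinuousLinearMap.comp_apply, ins_single, cons_tail]

theorem pd_tail_succ (f : E n → ℝ) (y : E (n + 1)) (hf : DifferentiableAt ℝ f (Fin.tail y))
    (i : Fin n) : pd i.succ (fun z : E (n + 1) => f (Fin.tail z)) y = pd i f (Fin.tail y) := by
  have h1 : fderiv ℝ (fun z : E (n + 1) => f (Fin.tail z)) y =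
      (fderiv ℝ f (Fin.tail y)).comp (tl n) :=
    (hf.hasFDerivAt.comp y (tl n).hasFDerivAt).fderiv
  unfold pd
  rw [h1, ContinuousLinearMap.comp_apply, tl_single_succ]

theorem pd_tail_zero (f : E n → ℝ) (y : E (n + 1)) (hf : DifferentiableAt ℝ f (Fin.tail y)) :
    pd 0 (fun z : E (n + 1) => f (Fin.tail z)) y = 0 := by
  have h1 : fderiv ℝ (fun z : E (n + 1) => f (Fin.tail z)) y =
      (fderiv ℝ f (Fin.tail y)).comp (tl n) :=
    (hf.hasFDerivAt.comp y (tl n).hasFDerivAt).fderiv
  unfold pd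
  rw [h1, ContinuousLinearMap.comp_apply, tl_single_zero, map_zero]

section
variable {G : ℝ → E n → Matrix (Fin n) (Fin n) ℝ} (hG : Fam n Γ G)
include hG

theorem prod_inv (y : E (n + 1)) : (prodMet G y)⁻¹ = blk (G (y 0) (Fin.tail y))⁻¹ :=
  blk_inv (Common.G_unit (hG.met (y 0)) _)

theorem pd_G (a b i : Fin n) (y : E (n + 1)) :
    pd i.succ (fun z : E (n + 1) => prodMet G z a.succ b.succ) y =
      pd i (fun x => G (y 0) x a b) (Fin.tail y) := by
  have h1 : DifferentiableAt ℝ (fun z : E (n + 1) => G (z 0) (Fin.tail z) a b) y :=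
    (comp_smooth hG a b).differentiable (by simp) y
  exact pd_succ (fun z : E (n + 1) => G (z 0) (Fin.tail z) a b) y h1 i

theorem chr_sss (y : E (n + 1)) (k i j : Fin n) :
    chr (prodMet G) y k.succ i.succ j.succ = chr (G (y 0)) (Fin.tail y) k i j := by
  unfold chr
  rw [prod_inv hG, Fin.sum_univ_succ, blk_s0, zero_mul, zero_add]
  simp only [blk_ss, pd_G hG]

omit hG in
theorem pd_00 (c : Fin (n + 1)) (y : E (n + 1)) :
    pd c (fun z : E (n + 1) => prodMet G z 0 0) y = 0 := by
  have : (fun z : E (n + 1) => prodMet G z 0 0) = fun _ => 1 := rfl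
  rw [this]
  exact Bridge.pd_const 1

omit hG in
theorem pd_0s (c : Fin (n + 1)) (j : Fin n) (y : E (n + 1)) :
    pd c (fun z : E (n + 1) => prodMet G z 0 j.succ) y = 0 := by
  have : (fun z : E (n + 1) => prodMet G z 0 j.succ) = fun _ => 0 := rfl
  rw [this]
  exact Bridge.pd_const 0

theorem chr_s00 (y : E (n + 1)) (k : Fin n) : chr (prodMet G) y k.succ 0 0 = 0 := by
  unfold chr
  rw [prod_inv hG, Fin.sum_univ_succ, blk_s0, zero_mul, zero_add]
  simp only [pd_00, pd_0s]
  simp

theorem lap_eq (f : E n → ℝ) (hf : ContDiff ℝ 2 f) (y : E (n + 1)) :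
    lap (prodMet G) (fun z => f (Fin.tail z)) y = lap (G (y 0)) f (Fin.tail y) := by
  have hfd : Differentiable ℝ f := hf.differentiable (by simp)
  have hpd : ∀ e, Differentiable ℝ (fun y => pd e f y) := fun e =>
    (Bridge.contDiff_pd hf (k := 1) (by norm_num) e).differentiable (by simp)
  have e0 : (fun z : E (n + 1) => pd 0 (fun z : E (n + 1) => f (Fin.tail z)) z) = fun _ => 0 := by
    funext z; exact pd_tail_zero f z (hfd _)
  have e1 : ∀ j : Fin n, (fun z : E (n + 1) => pd j.succ (fun z : E (n + 1) => f (Fin.tail z)) z) =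
      fun z => (fun x => pd j f x) (Fin.tail z) := by
    intro j; funext z; exact pd_tail_succ f z (hfd _) j
  unfold lap
  rw [prod_inv hG]
  rw [Fin.sum_univ_succ]
  have h1 : ∑ j, blk (G (y 0) (Fin.tail y))⁻¹ 0 j *
      (pd 0 (fun z => pd j (fun z : E (n + 1) => f (Fin.tail z)) z) y -
        ∑ k, chr (prodMet G) y k 0 j * pd k (fun z : E (n + 1) => f (Fin.tail z)) y) = 0 := by
    rw [Fin.sum_univ_succ]
    simp only [blk_0s, zero_mul, Finset.sum_const_zero, add_zero, blk_00, one_mul]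
    rw [e0, Bridge.pd_const, Fin.sum_univ_succ, pd_tail_zero f y (hfd _)]
    simp only [chr_s00 hG, zero_mul, Finset.sum_const_zero, mul_zero, add_zero, sub_zero]
  rw [h1, zero_add]
  refine Finset.sum_congr rfl fun i _ => ?_
  rw [Fin.sum_univ_succ, blk_s0, zero_mul, zero_add]
  refine Finset.sum_congr rfl fun j _ => ?_
  rw [blk_ss, e1, pd_tail_succ (fun x => pd j f x) y (hpd j _) i, Fin.sum_univ_succ,
    pd_tail_zero f y (hfd _), mul_zero, zero_add]
  congr 2
  refine Finset.sum_congr rfl fun k _ => ?_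
  rw [chr_sss hG, pd_tail_succ f y (hfd _) k]

theorem gradSq_eq (F : E (n + 1) → ℝ) (y : E (n + 1)) (hF : DifferentiableAt ℝ F y) :
    gradSq (prodMet G) F y = pd 0 F y ^ 2 +
      gradSq (G (y 0)) (fun x : E n => F (Fin.cons (y 0) x)) (Fin.tail y) := by
  unfold gradSq gradIp
  rw [prod_inv hG, Fin.sum_univ_succ]
  congr 1
  · rw [Fin.sum_univ_succ]
    simp only [blk_0s, zero_mul, Finset.sum_const_zero, add_zero, blk_00, one_mul]
    ring
  · refine Finset.sum_congr rfl fun i _ => ?_
    rw [Fin.sum_univ_succ, blk_s0, zero_mul, zero_mul, zero_add]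
    refine Finset.sum_congr rfl fun j _ => ?_
    rw [blk_ss, pd_succ F y hF i, pd_succ F y hF j]

end

theorem main : SpecProdMet := by
  intro n Γ _ _ P G h hG hP
  exact ⟨met h hG hP, fun f hf y => lap_eq hG f hf y, fun F y hF => gradSq_eq hG F y hF⟩

end Vale.Agent.P223.H.Prod2
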