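import Mathlib.Analysis.SpecialFunctions.Trigonometric.Bounds
import Mathlib.Analysis.SpecialFunctions.Trigonometric.InverseDeriv
import Vale.Agent.P223.H.SpecT

/-! BLOCK 21a.4 : a smooth periodic time function which is the identity on `[0, T]`. -/

namespace Vale.Agent.P223.H

open scoped ContDiff

namespace Tau

theorem main : SpecTau := by
  intro T hT
  let b : ContDiffBump (0 : ℝ) := ⟨1 / 2, 3 / 4, by norm_num, by norm_num⟩
  have hg : ContDiff ℝ ∞ (fun x : ℝ => b x * Real.arcsin x) := by
    rw [contDiff_iff_contDiffAt]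
    intro x
    by_cases hx : x = -1 ∨ x = 1
    · have hz : (fun x : ℝ => b x * Real.arcsin x) =ᶠ[nhds x] fun _ => (0 : ℝ) := by
        have ho : {y : ℝ | 3 / 4 < |y|} ∈ nhds x := by
          refine (isOpen_lt continuous_const continuous_abs).mem_nhds ?_
          rcases hx with rfl | rfl <;> norm_num
        filter_upwards [ho] with y hy
        have : b y = 0 := b.zero_of_le_dist (by
          rw [Real.dist_eq, sub_zero]; exact le_of_lt hy)
        rw [this, zero_mul]
      exact contDiffAt_const.congr_of_eventuallyEq hz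
    · push Not at hx
      exact b.contDiffAt.mul (Real.contDiffAt_arcsin hx.1 hx.2)
  have hT2 : (2 * T) ≠ 0 := by positivity
  refine ⟨2 * T * (2 * Real.pi), fun t => 2 * T * (b (Real.sin (t / (2 * T))) *
    Real.arcsin (Real.sin (t / (2 * T)))), by positivity, ?_, ?_, ?_⟩
  · have h1 : ContDiff ℝ ∞ (fun t : ℝ => Real.sin (t / (2 * T))) :=
      Real.contDiff_sin.comp (contDiff_id.div_const _)
    exact contDiff_const.mul (hg.comp h1)
  · intro t
    have : (t + 2 * T * (2 * Real.pi)) / (2 * T) = t / (2 * T) + 2 * Real.pi := by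
      field_simp
    simp only [this, Real.sin_add_two_pi]
  · intro t h0 h1
    have h2 : 0 ≤ t / (2 * T) := by positivity
    have h3 : t / (2 * T) ≤ 1 / 2 := by
      rw [div_le_iff₀ (by positivity)]; linarith
    have hpi := Real.two_le_pi
    have h4 : Real.sin (t / (2 * T)) ≤ t / (2 * T) := Real.sin_le h2
    have h5 : 0 ≤ Real.sin (t / (2 * T)) := Real.sin_nonneg_of_nonneg_of_le_pi h2 (by linarith)
    have h6 : b (Real.sin (t / (2 * T))) = 1 := b.one_of_mem_closedBall (by
      rw [Metric.mem_closedBall, Real.dist_eq, sub_zero, abs_of_nonneg h5]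
      exact h4.trans h3)
    show 2 * T * (b (Real.sin (t / (2 * T))) * Real.arcsin (Real.sin (t / (2 * T)))) = t
    rw [h6, Real.arcsin_sin (by linarith) (by linarith)]
    field_simp

end Tau

end Vale.Agent.P223.H
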