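import Vale.Agent.P223.H.SpecT
import Vale.Agent.P223.H.B3c
import Vale.Agent.P223.H.B3d
import Vale.Agent.P223.H.B5c

/-! Block 21a.5 : maps for a moving metric, with uniform constants on `[0, T]`. -/

namespace Vale.Agent.P223.H.Uni

open scoped ContDiff

variable {n : ℕ}

theorem contDiff_tail {m : WithTop ℕ∞} : ContDiff ℝ m (fun z : E (n + 1) => (Fin.tail z : E n)) :=
  contDiff_pi.2 fun i => contDiff_apply ℝ ℝ i.succ

theorem contDiff_cons {m : WithTop ℕ∞} :
    ContDiff ℝ m (fun p : ℝ × E n => (Fin.cons p.1 p.2 : E (n + 1))) :=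
  contDiff_pi.2 fun i => Fin.cases contDiff_fst
    (fun j => (contDiff_apply ℝ ℝ j).comp contDiff_snd) i

theorem pd_zero_tail (f : E n → ℝ) (y : E (n + 1)) (hf : Differentiable ℝ f) :
    pd 0 (fun z : E (n + 1) => f (Fin.tail z)) y = 0 := by
  have h0 : HasFDerivAt (fun z : E (n + 1) => (Fin.tail z : E n))
      (ContinuousLinearMap.pi fun i : Fin n =>
        ContinuousLinearMap.proj (R := ℝ) (φ := fun _ : Fin (n + 1) => ℝ) i.succ) y :=
    hasFDerivAt_pi.2 fun i => (ContinuousLinearMap.proj (R := ℝ)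
      (φ := fun _ : Fin (n + 1) => ℝ) i.succ).hasFDerivAt
  have h1 := (hf (Fin.tail y)).hasFDerivAt.comp y h0
  show fderiv ℝ (f ∘ fun z : E (n + 1) => (Fin.tail z : E n)) y (Pi.single 0 1) = 0
  rw [h1.fderiv, ContinuousLinearMap.comp_apply]
  have : (ContinuousLinearMap.pi fun i : Fin n =>
      ContinuousLinearMap.proj (R := ℝ) (φ := fun _ : Fin (n + 1) => ℝ) i.succ)
      (Pi.single 0 1 : E (n + 1)) = 0 := by
    funext i
    simp
  rw [this, map_zero]

/-- the element `(γ, 1)` of `Γ × ℤ` -/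
def gz {Γ : Type} (P : ℝ) (γ : Γ) : GZ Γ P := (γ, 1)

theorem main (h2 : SpecMaps) (h3 : SpecQC) (h4 : SpecCons) (h5 : SpecBdd) (a1 : SpecProdAct)
    (a2 : SpecProdMet) (a3 : SpecProdFrame) (a4 : SpecTau) : SpecUni := by
  intro n Γ _ _ G J _ Fr T hΓ hG hT
  obtain ⟨P, τ, hP, hτ, hper, hτT⟩ := a4 T hT
  have hG' : Fam n Γ (fun t => G (τ t)) :=
    ⟨fun i j => (hG.smooth i j).comp ((hτ.comp contDiff_fst).prodMk contDiff_snd),
      fun t => hG.met (τ t)⟩
  have hper' : ∀ t, (fun t => G (τ t)) (t + P) = (fun t => G (τ t)) t := fun t => by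
    show G (τ (t + P)) = G (τ t)
    rw [hper]
  have hA := a1 n Γ P hP hΓ
  obtain ⟨hM, hlap, hgrad⟩ := a2 n Γ P _ hΓ hG' hper'
  obtain ⟨Fr', hj1, hj2⟩ := a3 n Γ P J Fr hΓ
  obtain ⟨N, hN, ⟨M⟩⟩ := h2 (n + 1) (GZ Γ P) _ hA hM
  obtain ⟨C₁, hC₁, q1⟩ := h3 (n + 1) (GZ Γ P) _ _ Fr' N M hA hN
  obtain ⟨C₂, hC₂, q2⟩ := h4 (n + 1) (GZ Γ P) _ _ Fr' N M hA hM hN
  obtain ⟨C₃, hC₃, q3⟩ := h5 (n + 1) (GZ Γ P) _ _ Fr' hA hM
  -- the maps
  have hsm : ∀ a, ContDiff ℝ ∞ (fun p : ℝ × ℝ × E n =>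
      (Fin.tail (M.φ a p.2.1 (Fin.cons p.1 p.2.2 : E (n + 1))) : E n)) := fun a =>
    contDiff_tail.comp ((M.smooth a).comp (contDiff_snd.fst.prodMk
      (contDiff_cons.comp (contDiff_fst.prodMk contDiff_snd.snd))))
  have hzero : ∀ a (t : ℝ) (x : E n),
      (Fin.tail (M.φ a 0 (Fin.cons t x : E (n + 1))) : E n) = x := fun a t x => by
    rw [M.zero, Fin.tail_cons]
  have hcons : ∀ (γ : Γ) (t : ℝ) (x : E n),
      (Fin.cons t (γ • x) : E (n + 1)) = gz P γ • (Fin.cons t x : E (n + 1)) := by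
    intro γ t x
    show (Fin.cons t (γ • x) : E (n + 1)) = Fin.cons
      ((Fin.cons t x : E (n + 1)) 0 + (Multiplicative.toAdd (1 : Multiplicative ℤ) : ℤ) * P)
      (γ • (Fin.tail (Fin.cons t x : E (n + 1)) : E n) : E n)
    rw [Fin.tail_cons]
    simp
  have hequi : ∀ a (t r : ℝ) (γ : Γ) (x : E n),
      (Fin.tail (M.φ a r (Fin.cons t (γ • x) : E (n + 1))) : E n) =
        γ • (Fin.tail (M.φ a r (Fin.cons t x : E (n + 1))) : E n) := by
    intro a t r γ x
    rw [hcons, M.equi]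
    rfl
  refine ⟨N, ⟨fun a t r x => Fin.tail (M.φ a r (Fin.cons t x : E (n + 1))), hsm, hzero, hequi⟩,
    max C₁ (max C₂ C₃), hN, lt_max_of_lt_left hC₁, ?_⟩
  intro t ht0 htT f hf
  have m1 : C₁ ≤ max C₁ (max C₂ C₃) := le_max_left _ _
  have m2 : C₂ ≤ max C₁ (max C₂ C₃) := (le_max_left _ _).trans (le_max_right _ _)
  have m3 : C₃ ≤ max C₁ (max C₂ C₃) := (le_max_right _ _).trans (le_max_right _ _)
  set C := max C₁ (max C₂ C₃)
  have hC : 0 < C := lt_of_lt_of_le hC₁ m1
  have hf' : ContDiff ℝ 4 (fun z : E (n + 1) => f (Fin.tail z)) := hf.comp contDiff_tail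
  have hGt : ∀ x : E n, G (τ ((Fin.cons t x : E (n + 1)) 0)) = G t := fun x => by
    rw [Fin.cons_zero, hτT t ht0 htT]
  have hlap' : ∀ x : E n, lap (prodMet fun t => G (τ t)) (fun z => f (Fin.tail z)) (Fin.cons t x) = lap (G t) f x := by
    intro x
    rw [hlap f (hf.of_le (by norm_num)) (Fin.cons t x), hGt, Fin.tail_cons]
  have hgrad' : ∀ (F : E (n + 1) → ℝ) (x : E n), DifferentiableAt ℝ F (Fin.cons t x) →
      gradSq (G t) (fun y : E n => F (Fin.cons t y)) x ≤ gradSq (prodMet fun t => G (τ t)) F (Fin.cons t x) := by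
    intro F x hF
    rw [hgrad F (Fin.cons t x) hF, hGt, Fin.tail_cons]
    have : 0 ≤ pd 0 F (Fin.cons t x : E (n + 1)) ^ 2 := sq_nonneg _
    simp only [Fin.cons_zero]
    linarith
  have hgf : ∀ x : E n, gradSq (prodMet fun t => G (τ t)) (fun z => f (Fin.tail z)) (Fin.cons t x) =
      gradSq (G t) f x := by
    intro x
    rw [hgrad _ (Fin.cons t x) (hf'.differentiable (by norm_num) _), hGt, Fin.tail_cons,
      pd_zero_tail f _ (hf.differentiable (by norm_num))]
    simp only [Fin.tail_cons]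
    ring
  have hjf : ∀ y : E (n + 1), jet Fr' (fun z => f (Fin.tail z)) y = jet Fr f (Fin.tail y) :=
    hj1 f hf
  refine ⟨?_, ?_, ?_⟩
  · intro ε hε0 hε1 x
    have e1 := hj2 (M.P ε fun z => f (Fin.tail z))
      (B3d.P_contDiff M ε (by norm_cast) hf') (Fin.cons t x)
    have e2 := q1 ε hε0 hε1 _ hf' (Fin.cons t x)
    rw [Fin.tail_cons, Fin.cons_zero] at e1
    refine e1.trans (e2.trans ?_)
    have e3 : M.P ε (jet Fr' fun z => f (Fin.tail z)) (Fin.cons t x) =
        MapsT.P ⟨fun a t r x => Fin.tail (M.φ a r (Fin.cons t x : E (n + 1))), hsm, hzero, hequi⟩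
          t ε (jet Fr f) x := by
      unfold Maps.P MapsT.P
      simp only [hjf]
    rw [e3]
    refine mul_le_mul_of_nonneg_right ?_ ?_
    · gcongr
    · unfold MapsT.P
      refine mul_nonneg (by positivity) (Finset.sum_nonneg fun a _ => ?_)
      have := B3c.jet_nonneg Fr f
      exact div_nonneg (add_nonneg (this _) (this _)) (by norm_num)
  · intro ε hε0 hε1 x B hB hj
    have e := q2 ε hε0 hε1 _ hf' (Fin.cons t x) B hB (fun a r hr => by
      rw [hjf]; exact hj a r hr)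
    have hB' : 0 ≤ ε ^ 3 * B := by positivity
    constructor
    · have e1 := e.1
      rw [hlap', Fin.tail_cons] at e1
      refine e1.trans ?_
      rw [mul_assoc, mul_assoc]
      exact mul_le_mul_of_nonneg_right m2 hB'
    · have hd : DifferentiableAt ℝ (fun y => M.P ε (fun z => f (Fin.tail z)) y - f (Fin.tail y) -
          ε ^ 2 * (N : ℝ)⁻¹ * lap (prodMet fun t => G (τ t)) (fun z => f (Fin.tail z)) y) (Fin.cons t x : E (n + 1)) := by
        refine DifferentiableAt.sub (DifferentiableAt.sub ?_ ?_) (DifferentiableAt.const_mul ?_ _)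
        · exact (B3d.P_contDiff M ε (k := 4) (by norm_cast) hf').differentiable
            (by norm_num) _
        · exact hf'.differentiable (by norm_num) _
        · exact (B5c.contDiff_lap hM hf').differentiable (by norm_num) _
      have e1 := (hgrad' _ x hd).trans e.2
      have e2 : (fun y : E n => M.P ε (fun z => f (Fin.tail z)) (Fin.cons t y) -
          f (Fin.tail (Fin.cons t y : E (n + 1))) -
          ε ^ 2 * (N : ℝ)⁻¹ * lap (prodMet fun t => G (τ t)) (fun z => f (Fin.tail z)) (Fin.cons t y)) =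
          fun y : E n => M.P ε (fun z => f (Fin.tail z)) (Fin.cons t y) - f y -
            ε ^ 2 * (N : ℝ)⁻¹ * lap (G t) f y := by
        funext y
        rw [hlap', Fin.tail_cons]
      rw [e2] at e1
      refine e1.trans (pow_le_pow_left₀ (by positivity) ?_ 2)
      rw [mul_assoc, mul_assoc]
      exact mul_le_mul_of_nonneg_right m2 hB'
  · intro x
    obtain ⟨b1, b2, b3, b4, b5⟩ := q3 _ hf' (Fin.cons t x)
    rw [hjf, Fin.tail_cons] at b1 b2 b3 b4 b5
    have hj0 := B3c.jet_nonneg Fr f x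
    rw [hlap'] at b4
    rw [hgf] at b2
    have g1 := (hgrad' (fun y => gradSq (prodMet fun t => G (τ t)) (fun z => f (Fin.tail z)) y) x
      ((B5c.contDiff_gradSq hM (m := 1) hf' (by norm_num)).differentiable
        (by norm_num) _)).trans b3
    have g2 := (hgrad' (fun y => lap (prodMet fun t => G (τ t)) (fun z => f (Fin.tail z)) y) x
      ((B5c.contDiff_lap hM hf').differentiable (by norm_num) _)).trans b5
    simp only [hgf] at g1
    simp only [hlap'] at g2
    refine ⟨b1, ?_, ?_, ?_, ?_⟩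
    · exact b2.trans (mul_le_mul_of_nonneg_right m3 hj0)
    · exact g1.trans (mul_le_mul_of_nonneg_right m3 (sq_nonneg _))
    · exact b4.trans (mul_le_mul_of_nonneg_right m3 hj0)
    · exact g2.trans (mul_le_mul_of_nonneg_right m3 hj0)

end Vale.Agent.P223.H.Uni
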