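import Vale.Agent.P223.H.SpecT
import Vale.Agent.P223.H.Grad

/-! Block 26b : continuity at time `0`. -/

namespace Vale.Agent.P223.H.Zero

open scoped ContDiff Topology
open MeasureTheory Set

variable {n : ℕ}

/-- space-time -/
def ST (n : ℕ) : Set (ℝ × E n) := Ici 0 ×ˢ univ

theorem ud : UniqueDiffOn ℝ (ST n) := (uniqueDiffOn_Ici (0 : ℝ)).prod uniqueDiffOn_univ

theorem cd_pd {f : ℝ → E n → ℝ} (hf : ContDiffOn ℝ ∞ (fun p : ℝ × E n => f p.1 p.2) (ST n))
    (i : Fin n) : ContDiffOn ℝ ∞ (fun p : ℝ × E n => pd i (f p.1) p.2) (ST n) := by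
  have e : ∀ p ∈ ST n, pd i (f p.1) p.2 =
      fderivWithin ℝ (fun q : ℝ × E n => f q.1 q.2) (ST n) p (0, Pi.single i 1) := by
    intro p hp
    unfold pd
    have h1 : HasFDerivWithinAt (fun q : ℝ × E n => f q.1 q.2)
        (fderivWithin ℝ (fun q : ℝ × E n => f q.1 q.2) (ST n) (p.1, p.2)) (ST n) (p.1, p.2) :=
      (hf.differentiableOn (by simp) _ hp).hasFDerivWithinAt
    have h2 : HasFDerivWithinAt (fun y : E n => (p.1, y)) (ContinuousLinearMap.inr ℝ ℝ (E n))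
        univ p.2 := (hasFDerivAt_prodMk_right p.1 p.2).hasFDerivWithinAt
    have h3 := h1.comp p.2 h2 (fun y _ => ⟨hp.1, mem_univ _⟩)
    have h4 : fderiv ℝ (f p.1) p.2 =
        (fderivWithin ℝ (fun q : ℝ × E n => f q.1 q.2) (ST n) (p.1, p.2)).comp
        (ContinuousLinearMap.inr ℝ ℝ (E n)) := (hasFDerivWithinAt_univ.1 h3).fderiv
    rw [h4]
    simp
  refine ContDiffOn.congr ?_ e
  exact (hf.fderivWithin ud (m := ∞) (by simp)).clm_apply contDiffOn_const

theorem cd_det {M : ℝ × E n → Matrix (Fin n) (Fin n) ℝ}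
    (h : ∀ i j, ContDiffOn ℝ ∞ (fun x => M x i j) (ST n)) :
    ContDiffOn ℝ ∞ (fun x => (M x).det) (ST n) := by
  simp only [Matrix.det_apply']
  exact ContDiffOn.sum fun σ _ => contDiffOn_const.mul (contDiffOn_prod fun i _ => h _ _)

theorem cd_inv {M : ℝ × E n → Matrix (Fin n) (Fin n) ℝ}
    (h : ∀ i j, ContDiffOn ℝ ∞ (fun x => M x i j) (ST n)) (h0 : ∀ x ∈ ST n, (M x).det ≠ 0)
    (i j : Fin n) : ContDiffOn ℝ ∞ (fun x => (M x)⁻¹ i j) (ST n) := by
  have e : (fun x => (M x)⁻¹ i j) = fun x => ((M x).det)⁻¹ * (M x).adjugate i j := by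
    funext x
    rw [Matrix.inv_def, Ring.inverse_eq_inv', Matrix.smul_apply, smul_eq_mul]
  rw [e]
  refine (ContDiffOn.inv (cd_det h) h0).mul ?_
  simp only [Matrix.adjugate_apply]
  refine cd_det fun k l => ?_
  by_cases hk : k = j
  · subst hk
    simp only [Matrix.updateRow_self]
    exact contDiffOn_const
  · simp only [Matrix.updateRow_ne hk]
    exact h k l

variable {G : ℝ → E n → Matrix (Fin n) (Fin n) ℝ}
  (hs : ∀ i j, ContDiffOn ℝ ∞ (fun p : ℝ × E n => G p.1 p.2 i j) (ST n))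
  (hp : ∀ t, 0 ≤ t → ∀ x, (G t x).PosDef)
include hs hp

theorem cd_G_inv (i j : Fin n) :
    ContDiffOn ℝ ∞ (fun p : ℝ × E n => (G p.1 p.2)⁻¹ i j) (ST n) :=
  cd_inv (M := fun p : ℝ × E n => G p.1 p.2) hs
    (fun p h => (hp p.1 h.1 p.2).det_pos.ne') i j

theorem cd_dens : ContDiffOn ℝ ∞ (fun p : ℝ × E n => dens (G p.1) p.2) (ST n) := by
  unfold dens
  exact (cd_det (M := fun p : ℝ × E n => G p.1 p.2) hs).sqrt
    fun p h => (hp p.1 h.1 p.2).det_pos.ne'

theorem cd_chr (k i j : Fin n) :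
    ContDiffOn ℝ ∞ (fun p : ℝ × E n => chr (G p.1) p.2 k i j) (ST n) := by
  unfold chr
  refine contDiffOn_const.mul (ContDiffOn.sum fun l _ => (cd_G_inv hs hp k l).mul ?_)
  exact ((cd_pd (f := fun t y => G t y j l) (hs j l) i).add
    (cd_pd (f := fun t y => G t y i l) (hs i l) j)).sub
    (cd_pd (f := fun t y => G t y i j) (hs i j) l)

theorem cd_ric (i j : Fin n) :
    ContDiffOn ℝ ∞ (fun p : ℝ × E n => ric (G p.1) p.2 i j) (ST n) := by
  unfold ric
  refine (ContDiffOn.sum fun k _ => ?_).add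
    (ContDiffOn.sum fun k _ => ContDiffOn.sum fun l _ => ?_)
  · exact (cd_pd (f := fun t y => chr (G t) y k i j) (cd_chr hs hp k i j) k).sub
      (cd_pd (f := fun t y => chr (G t) y k i k) (cd_chr hs hp k i k) j)
  · exact ((cd_chr hs hp k k l).mul (cd_chr hs hp l i j)).sub
      ((cd_chr hs hp k j l).mul (cd_chr hs hp l i k))

theorem cd_scal : ContDiffOn ℝ ∞ (fun p : ℝ × E n => scal (G p.1) p.2) (ST n) := by
  unfold scal
  exact ContDiffOn.sum fun i _ => ContDiffOn.sum fun j _ =>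
    (cd_G_inv hs hp i j).mul (cd_ric hs hp i j)

omit hs hp in
/-- the abstract statement -/
theorem abs_zero {K : ℝ → E n → ℝ} (hK : ContinuousOn (fun p : ℝ × E n => K p.1 p.2) (ST n))
    {D : Set (E n)} (hD : MeasurableSet D) (hDb : Bornology.IsBounded D) (δ : ENNReal)
    (hδ : 0 < δ) : ∃ t₁ : ℝ, 0 < t₁ ∧ ∀ t, 0 ≤ t → t < t₁ →
      ∫⁻ x in D, ENNReal.ofReal (K t x) ≤ (∫⁻ x in D, ENNReal.ofReal (K 0 x)) + δ := by
  obtain ⟨R, hR⟩ := hDb.subset_closedBall (0 : E n)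
  have hfin : volume D < ⊤ := hDb.measure_lt_top
  -- choose ε
  obtain ⟨ε, hε0, hε⟩ : ∃ ε : ℝ, 0 < ε ∧ ENNReal.ofReal ε * volume D ≤ δ := by
    rcases eq_or_ne (volume D) 0 with h0 | h0
    · exact ⟨1, one_pos, by rw [h0, mul_zero]; exact zero_le⟩
    · rcases eq_or_ne δ ⊤ with h1 | h1
      · exact ⟨1, one_pos, by rw [h1]; exact le_top⟩
      · refine ⟨(δ / volume D).toReal, ENNReal.toReal_pos ?_ ?_, ?_⟩
        · exact (ENNReal.div_pos hδ.ne' hfin.ne).ne'
        · exact ENNReal.div_ne_top h1 h0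
        · rw [ENNReal.ofReal_toReal (ENNReal.div_ne_top h1 h0),
            ENNReal.div_mul_cancel h0 hfin.ne]
  have hcpt : IsCompact (Icc (0 : ℝ) 1 ×ˢ Metric.closedBall (0 : E n) R) :=
    isCompact_Icc.prod (isCompact_closedBall 0 R)
  have hsub : Icc (0 : ℝ) 1 ×ˢ Metric.closedBall (0 : E n) R ⊆ ST n := fun p h =>
    ⟨h.1.1, mem_univ _⟩
  have huc := hcpt.uniformContinuousOn_of_continuous (hK.mono hsub)
  rw [Metric.uniformContinuousOn_iff] at huc
  obtain ⟨η, hη0, hη⟩ := huc ε hε0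
  refine ⟨min η 1, lt_min hη0 one_pos, fun t ht0 ht1 => ?_⟩
  have h1 : ∀ x ∈ D, ENNReal.ofReal (K t x) ≤ ENNReal.ofReal (K 0 x) + ENNReal.ofReal ε := by
    intro x hx
    have h2 := hη (t, x) ⟨⟨ht0, (ht1.le.trans (min_le_right _ _))⟩, hR hx⟩ (0, x)
      ⟨⟨le_rfl, zero_le_one⟩, hR hx⟩ (by
        rw [Prod.dist_eq, dist_self, Real.dist_eq, sub_zero, abs_of_nonneg ht0]
        exact max_lt (lt_of_lt_of_le ht1 (min_le_left _ _)) hη0)
    rw [Real.dist_eq] at h2
    have h3 : K t x ≤ K 0 x + ε := by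
      have h4 := le_abs_self (K t x - K 0 x)
      have h5 : |K t x - K 0 x| < ε := h2
      linarith
    exact (ENNReal.ofReal_le_ofReal h3).trans ENNReal.ofReal_add_le
  calc ∫⁻ x in D, ENNReal.ofReal (K t x) ≤
      ∫⁻ x in D, (ENNReal.ofReal (K 0 x) + ENNReal.ofReal ε) := setLIntegral_mono' hD h1
    _ = (∫⁻ x in D, ENNReal.ofReal (K 0 x)) + ENNReal.ofReal ε * volume D := by
        rw [lintegral_add_right _ measurable_const]
        simp
    _ ≤ _ := add_le_add le_rfl hε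

omit hs hp in
/-- Block 26b -/
theorem main : SpecZero := by
  intro n Γ _ _ G h hG D hD hDb p hp0 δ hδ
  have hs : ∀ i j, ContDiffOn ℝ ∞ (fun p : ℝ × E n => G p.1 p.2 i j) (ST n) := hG.smooth
  have hp : ∀ t, 0 ≤ t → ∀ x, (G t x).PosDef := fun t ht x => (hG.met t ht).pos x
  have h1 := (cd_scal hs hp).continuousOn
  have h2 := (cd_dens hs hp).continuousOn
  have hK : ContinuousOn (fun q : ℝ × E n =>
      (fun t x => max 0 (-scal (G t) x) ^ p * dens (G t) x) q.1 q.2) (ST n) := by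
    refine ContinuousOn.mul ?_ h2
    have hc : Continuous (fun u : ℝ => max 0 (-u) ^ p) :=
      (continuous_const.max continuous_neg).rpow_const fun x => Or.inr hp0
    exact hc.comp_continuousOn h1
  exact abs_zero (K := fun t x => max 0 (-scal (G t) x) ^ p * dens (G t) x) hK hD hDb δ hδ

end Vale.Agent.P223.H.Zero
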