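import Vale.Agent.P223.H.Final
import Vale.Agent.P223.H.ConfCore
import Vale.Agent.P223.H.B21b
import Vale.Agent.P223.H.B24
import Vale.Agent.P223.H.B25a
import Vale.Agent.P223.H.B25c
import Vale.Agent.P223.H.Equiv
import Vale.Agent.P223.H.Ext
import Vale.Agent.P223.H.Tau
import Vale.Agent.P223.H.Min
import Vale.Agent.P223.H.Evol
import Vale.Agent.P223.H.ProdAct
import Vale.Agent.P223.H.ProdMet
import Vale.Agent.P223.H.ProdFrame
import Vale.Agent.P223.H.SpecMin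
import Vale.Agent.P223.H.TT
import Vale.Agent.P223.H.Uni
import Vale.Agent.P223.H.Zero

/-! Final assembly of phase 2B. -/

namespace Vale.Agent.P223.H.Final2

open scoped ContDiff
open MeasureTheory

/-- topological half -/
theorem sv_le (n : ℕ) (hn1 : 1 ≤ n) (Γ : Type) [Group Γ] [MulAction Γ (E n)]
    (hΓ : Act n Γ) (G : E n → Matrix (Fin n) (Fin n) ℝ) (hG : Met n Γ G) (W v : E n → ℝ) (A : ℝ)
    (hW : Wt n Γ G W) (hv : Step n Γ G W A v) :
    sv n Γ ≤ int G Set.univ (fun x => v x * (gradSq G v x / v x ^ 2) ^ ((n : ℝ) / 2)) := by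
  refine ENNReal.le_of_forall_pos_le_add fun δ hδ _ => ?_
  obtain ⟨P, D₀, hP, hD₀, hD₀', hPD⟩ := B9.main Dom.main n Γ G hn1 hΓ hG W v A hW hv δ hδ
  obtain ⟨R, hR⟩ := B6a.main n Γ hΓ
  have h1 := Norm.main n Γ G hn1 hΓ hG R P (fun _ => 0) hP D₀ hD₀ hD₀'
  have hfund : IsFund n Γ (cyc R P fun _ => 0) := by
    refine ⟨(B6d.main n Γ hn1 hΓ R Unit P _).1, fun p => ?_⟩
    obtain ⟨ι, _, P', q, w, B, s, hB, hs, hs1, hs2, b, c, hc, hcyc⟩ := Final.hLoc n Γ hn1 hΓ R hR p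
    obtain ⟨b', hb'⟩ := (B6d.main n Γ hn1 hΓ R Unit P fun _ => 0).2 ι P' q
    refine ⟨w, B, s, hB, hs, hs1, hs2, b' + b, c, hc, ?_⟩
    have : cyc R P (fun _ => 0) = cyc R P' q + bd (n + 1) b' := by rw [← hb']; abel
    rw [this, hcyc, map_add]; abel
  have h2 : sv n Γ ≤ ENNReal.ofReal (l1 (cyc R P fun _ => 0)) := iInf₂_le _ hfund
  refine (h2.trans (h1.trans hPD)).trans (le_of_eq ?_)
  rw [ENNReal.ofReal_coe_nnreal]

theorem kap_nonneg {n : ℕ} (hn : 4 ≤ n) : (0 : ℝ) ≤ (n : ℝ) - 2 + √n := by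
  have : (4 : ℝ) ≤ n := by exact_mod_cast hn
  have := Real.sqrt_nonneg (n : ℝ)
  linarith

theorem hFlowT : SpecFlowT :=
  B21b.main Frame.main Weight.main (Uni.main B2.main QC.main B3b.main B3c.main Prod1.main
    Prod2.main Prod3.main Tau.main) Equiv.main

/-- Moving metrics. -/
theorem moving (n : ℕ) (hn : 4 ≤ n) (Γ : Type) [Group Γ] [MulAction Γ (E n)]
    (hΓ : Act n Γ) (G : ℝ → E n → Matrix (Fin n) (Fin n) ℝ) (hG : Fam n Γ G)
    (D : Set (E n)) (hD : MeasurableSet D) (hD' : ∀ x, ∃ γ : Γ, γ • x ∈ D)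
    (ρ σ : ℝ → E n → ℝ) (hρ : Continuous (fun p : ℝ × E n => ρ p.1 p.2))
    (hσ : Continuous (fun p : ℝ × E n => σ p.1 p.2))
    (hρi : ∀ t (γ : Γ) (x : E n), ρ t (γ • x) = ρ t x)
    (hσi : ∀ t (γ : Γ) (x : E n), σ t (γ • x) = σ t x)
    (h1 : ∀ t, 0 ≤ t → ∀ x w : E n, -ρ t x * ∑ i, ∑ j, w i * w j * G t x i j ≤
      ∑ i, ∑ j, w i * w j * (ric (G t) x i j + 1 / 2 * dtG G t x i j))
    (h2 : ∀ t, 0 ≤ t → ∀ x, trh G t x ≤ σ t x) (B : ENNReal)
    (hB : ∀ t, 0 ≤ t →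
      int (G t) D (fun x => max 0 (ρ t x + σ t x / ((n : ℝ) - 2)) ^ ((n : ℝ) / 2)) ≤ B) :
    sv n Γ ≤ ENNReal.ofReal (((n : ℝ) - 2 + √n) ^ n) * B := by
  refine ENNReal.le_of_forall_pos_le_add fun δ hδ _ => ?_
  obtain ⟨t, W, v, A, hW, hv, h⟩ := B24.main hFlowT Equiv.main TT.main Bochner.mainT n Γ G hn hΓ hG
    ρ σ hρ hσ hρi hσi h1 h2 D hD hD' B hB δ hδ
  refine (sv_le n (by omega) Γ hΓ (G t) (hG.met t) W v A hW hv).trans (h.trans (le_of_eq ?_))
  rw [ENNReal.ofReal_coe_nnreal]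

theorem int_smul {n : ℕ} (G : E n → Matrix (Fin n) (Fin n) ℝ) (D : Set (E n)) {c : ℝ}
    (hc : 0 ≤ c) (f : E n → ℝ) :
    int G D (fun x => c * f x) = ENNReal.ofReal c * int G D f := by
  unfold int
  rw [← lintegral_const_mul' _ _ ENNReal.ofReal_ne_top]
  refine lintegral_congr fun x => ?_
  rw [← ENNReal.ofReal_mul hc, mul_assoc]

/-- Ricci flow. -/
theorem ricciFlow (n : ℕ) (hn : 4 ≤ n) (Γ : Type)
    [Group Γ] [MulAction Γ (E n)] (hΓ : Act n Γ)
    (G : ℝ → E n → Matrix (Fin n) (Fin n) ℝ) (hG : RF n Γ G)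
    (D : Set (E n)) (hD : MeasurableSet D) (hD' : ∀ x, ∃ γ : Γ, γ • x ∈ D) :
    sv n Γ ≤ ENNReal.ofReal ((((n : ℝ) - 2 + √n) ^ 2 / ((n : ℝ) - 2)) ^ ((n : ℝ) / 2)) *
      int (G 0) D (fun x => max 0 (-scal (G 0) x) ^ ((n : ℝ) / 2)) := by
  have hn4 : (4 : ℝ) ≤ n := by exact_mod_cast hn
  have hn2 : (0 : ℝ) < (n : ℝ) - 2 := by linarith
  have hκ := kap_nonneg hn
  obtain ⟨D₀, hD₀, hD₀b, hD₀'⟩ := Dom.main n Γ hΓ
  have hD₀'' : ∀ x, ∃ γ : Γ, γ • x ∈ D₀ := fun x => (hD₀' x).exists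
  set κ : ℝ := (n : ℝ) - 2 + √n with hκd
  set I : ℝ → ENNReal := fun t => int (G t) D₀ (fun x => max 0 (-scal (G t) x) ^ ((n : ℝ) / 2))
    with hI
  -- the constant
  have hc : ENNReal.ofReal ((κ ^ 2 / ((n : ℝ) - 2)) ^ ((n : ℝ) / 2)) =
      ENNReal.ofReal (κ ^ n) * ENNReal.ofReal ((((n : ℝ) - 2)⁻¹) ^ ((n : ℝ) / 2)) := by
    rw [← ENNReal.ofReal_mul (pow_nonneg hκ n), div_eq_mul_inv, Real.mul_rpow (by positivity)
      (by positivity)]
    congr 2
    rw [← Real.rpow_natCast κ 2, ← Real.rpow_mul hκ]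
    push_cast
    rw [mul_div_cancel₀ _ (two_ne_zero), Real.rpow_natCast]
  -- inequality at positive times
  have key : ∀ t₀ : ℝ, 0 < t₀ → sv n Γ ≤
      ENNReal.ofReal ((κ ^ 2 / ((n : ℝ) - 2)) ^ ((n : ℝ) / 2)) * I t₀ := by
    intro t₀ ht₀
    obtain ⟨G', hG', hGG⟩ := Ext.main n Γ G hG (t₀ / 2) (by linarith)
    set F : ℝ → E n → Matrix (Fin n) (Fin n) ℝ := fun t => G' (t + t₀) with hF
    have hFam : Fam n Γ F := by
      refine ⟨fun i j => ?_, fun t => hG'.met _⟩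
      exact (hG'.smooth i j).comp (f := fun p : ℝ × E n => (p.1 + t₀, p.2))
        ((contDiff_fst.add contDiff_const).prodMk contDiff_snd)
    have hdt : ∀ t, t₀ / 2 < t → ∀ x i j, dtG G' t x i j = -2 * ric (G' t) x i j := by
      intro t ht x i j
      have h1 := hG.flow t (by linarith) x i j
      have h2 : (fun s => G' s x i j) =ᶠ[nhds t] fun s => G s x i j := by
        filter_upwards [lt_mem_nhds ht] with s hs
        rw [hGG s hs.le]
      unfold dtG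
      rw [(h1.congr_of_eventuallyEq h2).deriv, hGG t ht.le]
    have hdF : ∀ t, 0 ≤ t → ∀ x i j, dtG F t x i j = -2 * ric (F t) x i j := by
      intro t ht x i j
      rw [← hdt (t + t₀) (by linarith) x i j]
      unfold dtG
      exact deriv_comp_add_const (fun s => G' s x i j) t₀ t
    have hsc : ContDiff ℝ ∞ (fun p : ℝ × E n => scal (F p.1) p.2) :=
      B25c.cd_scal hFam.smooth fun t x => (hFam.met t).pos x
    have hmono : ∀ t, 0 ≤ t → int (F t) D₀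
        (fun x => max 0 (-scal (F t) x) ^ ((n : ℝ) / 2)) ≤ I t₀ := by
      intro t ht
      have := B25c.main (Evol.main B25a.main) LapInt.main n Γ G' (by omega) hΓ hG' (t₀ / 2) hdt D₀
        hD₀ hD₀b hD₀' t₀ (t + t₀) (by linarith) (by linarith)
      rw [hGG t₀ (by linarith)] at this
      exact this
    have h := moving n hn Γ hΓ F hFam D₀ hD₀ hD₀'' (fun _ _ => 0)
      (fun t x => -scal (F t) x) continuous_const hsc.continuous.neg (fun _ _ _ => rfl)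
      (fun t γ x => by rw [Bridge.scal_inv hΓ (hFam.met t) γ x]) ?_ ?_
      (ENNReal.ofReal ((((n : ℝ) - 2)⁻¹) ^ ((n : ℝ) / 2)) * I t₀) ?_
    · rw [hc, mul_assoc]
      exact h
    · intro t ht x w
      have : ∀ i j, ric (F t) x i j + 1 / 2 * dtG F t x i j = 0 := fun i j => by
        rw [hdF t ht]; ring
      simp only [this, mul_zero, Finset.sum_const_zero, neg_zero, zero_mul, le_refl]
    · intro t ht x
      unfold trh
      simp only [hdF t ht]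
      refine le_of_eq ?_
      unfold scal
      rw [Finset.mul_sum, ← Finset.sum_neg_distrib]
      refine Finset.sum_congr rfl fun i _ => ?_
      rw [Finset.mul_sum, ← Finset.sum_neg_distrib]
      exact Finset.sum_congr rfl fun j _ => by ring
    · intro t ht
      have e : (fun x => max 0 (0 + -scal (F t) x / ((n : ℝ) - 2)) ^ ((n : ℝ) / 2)) = fun x =>
          (((n : ℝ) - 2)⁻¹) ^ ((n : ℝ) / 2) * max 0 (-scal (F t) x) ^ ((n : ℝ) / 2) := by
        funext x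
        rw [← Real.mul_rpow (by positivity) (le_max_left _ _), mul_max_of_nonneg _ _ (by positivity),
          mul_zero, zero_add, div_eq_inv_mul]
      rw [e, int_smul _ _ (by positivity)]
      exact mul_le_mul_right (hmono t ht) _
  -- the limit `t₀ → 0`
  have hlim : sv n Γ ≤ ENNReal.ofReal ((κ ^ 2 / ((n : ℝ) - 2)) ^ ((n : ℝ) / 2)) * I 0 := by
    refine ENNReal.le_of_forall_pos_le_add fun δ hδ _ => ?_
    set c : ENNReal := ENNReal.ofReal ((κ ^ 2 / ((n : ℝ) - 2)) ^ ((n : ℝ) / 2)) with hcd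
    have hδ' : 0 < (δ : ENNReal) / (c + 1) :=
      ENNReal.div_pos (by exact_mod_cast hδ.ne') (ENNReal.add_ne_top.2 ⟨ENNReal.ofReal_ne_top,
        ENNReal.one_ne_top⟩)
    obtain ⟨t₁, ht₁, h⟩ := Zero.main n Γ G hΓ hG D₀ hD₀ hD₀b ((n : ℝ) / 2) (by positivity) _ hδ'
    refine (key (t₁ / 2) (by linarith)).trans ?_
    refine (mul_le_mul_right (h (t₁ / 2) (by linarith) (by linarith)) c).trans ?_
    rw [mul_add]
    refine add_le_add_right ?_ _
    calc c * (δ / (c + 1)) ≤ (c + 1) * (δ / (c + 1)) := by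
          gcongr
          exact le_self_add
      _ = δ := ENNReal.mul_div_cancel (by simp) (ENNReal.add_ne_top.2 ⟨ENNReal.ofReal_ne_top,
        ENNReal.one_ne_top⟩)
  refine hlim.trans (mul_le_mul_right ?_ _)
  have hM := hG.met 0 le_rfl
  have hs : Continuous fun x => scal (G 0) x := Cor.continuous_scal hM.smooth hM.pos
  refine Conf.int_le hΓ hM hD₀ hD₀' hD hD' ?_ ?_ ?_
  · exact ((continuous_const.max hs.neg).measurable).pow_const _
  · exact fun x => Real.rpow_nonneg (le_max_left _ _) _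
  · exact fun γ x => by rw [Bridge.scal_inv hΓ hM γ x]

/-- integrals of invariant functions over two strict fundamental domains agree -/
theorem int_eq {n : ℕ} {Γ : Type} [Group Γ] [MulAction Γ (E n)] (hΓ : Act n Γ)
    {G : E n → Matrix (Fin n) (Fin n) ℝ} (hG : Met n Γ G) {D₀ D : Set (E n)}
    (hD₀ : MeasurableSet D₀) (hD₀' : ∀ x : E n, ∃! γ : Γ, γ • x ∈ D₀) (hD : MeasurableSet D)
    (hD' : ∀ x : E n, ∃! γ : Γ, γ • x ∈ D) (p : ℝ) :
    int G D (fun x => max 0 (-scal G x) ^ p) = int G D₀ (fun x => max 0 (-scal G x) ^ p) := by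
  have hs : Continuous fun x => scal G x := Cor.continuous_scal hG.smooth hG.pos
  have h1 : Measurable fun x => max 0 (-scal G x) ^ p :=
    ((continuous_const.max hs.neg).measurable).pow_const _
  have h2 : ∀ x, 0 ≤ max 0 (-scal G x) ^ p := fun x => Real.rpow_nonneg (le_max_left _ _) _
  have h3 : ∀ (γ : Γ) x, max 0 (-scal G (γ • x)) ^ p = max 0 (-scal G x) ^ p :=
    fun γ x => by rw [Bridge.scal_inv hΓ hG γ x]
  exact le_antisymm
    (Conf.int_le hΓ hG hD hD' hD₀ (fun x => (hD₀' x).exists) h1 h2 h3)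
    (Conf.int_le hΓ hG hD₀ hD₀' hD (fun x => (hD' x).exists) h1 h2 h3)

/-- If the minimum of `∫ (Scal⁻)^(n/2)` is attained and positive, then the inequality holds for all
metrics. -/
theorem minimizer (n : ℕ) (hn : 4 ≤ n) (Γ : Type)
    [Group Γ] [MulAction Γ (E n)] (hΓ : Act n Γ) (D : Set (E n)) (hD : MeasurableSet D)
    (hD' : ∀ x : E n, ∃! γ : Γ, γ • x ∈ D) (G : E n → Matrix (Fin n) (Fin n) ℝ)
    (hG : Met n Γ G)
    (hmin : ∀ G' : E n → Matrix (Fin n) (Fin n) ℝ, Met n Γ G' →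
      int G D (fun x => max 0 (-scal G x) ^ ((n : ℝ) / 2)) ≤
        int G' D (fun x => max 0 (-scal G' x) ^ ((n : ℝ) / 2)))
    (h0 : int G D (fun x => max 0 (-scal G x) ^ ((n : ℝ) / 2)) ≠ 0)
    (G' : E n → Matrix (Fin n) (Fin n) ℝ) (hG' : Met n Γ G') :
    sv n Γ ≤ ENNReal.ofReal ((((n : ℝ) - 2 + √n) ^ 2 / n) ^ ((n : ℝ) / 2)) *
      int G' D (fun x => max 0 (-scal G' x) ^ ((n : ℝ) / 2)) := by
  have hn4 : (4 : ℝ) ≤ n := by exact_mod_cast hn
  have hn0 : (0 : ℝ) < (n : ℝ) := by linarith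
  have hκ := kap_nonneg hn
  set κ : ℝ := (n : ℝ) - 2 + √n with hκd
  obtain ⟨D₀, hD₀, hD₀b, hD₀'⟩ := Dom.main n Γ hΓ
  obtain ⟨s, hs, hs'⟩ := Min.main (Evol.main B25a.main) B25a.main LapInt.main n Γ G hn hΓ hG D₀ hD₀
    hD₀b hD₀' (fun G₁ hG₁ => by
      rw [← int_eq hΓ hG hD₀ hD₀' hD hD', ← int_eq hΓ hG₁ hD₀ hD₀' hD hD']
      exact hmin G₁ hG₁) (by rw [← int_eq hΓ hG hD₀ hD₀' hD hD']; exact h0)
  have hr : RicGe G (fun _ => s / n) := by
    intro x v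
    refine le_of_eq ?_
    rw [Finset.mul_sum]
    refine Finset.sum_congr rfl fun i _ => ?_
    rw [Finset.mul_sum]
    refine Finset.sum_congr rfl fun j _ => ?_
    rw [(hs' x).2 i j]; ring
  have h1 := Final.ricci n hn Γ hΓ G hG D hD (fun x => (hD' x).exists) (fun _ => s / n)
    continuous_const (fun _ => by positivity) (fun _ _ => rfl) hr
  refine h1.trans ((le_of_eq ?_).trans (mul_le_mul_right (hmin G' hG') _))
  have e : (fun x => max 0 (-scal G x) ^ ((n : ℝ) / 2)) = fun _ : E n => s ^ ((n : ℝ) / 2) := by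
    funext x
    rw [(hs' x).1, neg_neg, max_eq_right hs.le]
  have e2 : (fun _ : E n => (s / (n : ℝ)) ^ ((n : ℝ) / 2)) = fun x : E n =>
      (((n : ℝ))⁻¹) ^ ((n : ℝ) / 2) * (fun _ : E n => s ^ ((n : ℝ) / 2)) x := by
    funext x
    simp only
    rw [← Real.mul_rpow (by positivity) hs.le, div_eq_inv_mul]
  rw [e, e2, int_smul G D (c := ((n : ℝ))⁻¹ ^ ((n : ℝ) / 2)) (by positivity)
    (fun _ => s ^ ((n : ℝ) / 2)), ← mul_assoc, ← ENNReal.ofReal_mul (pow_nonneg hκ n)]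
  congr 2
  have e3 : (κ ^ 2 / (n : ℝ)) ^ ((n : ℝ) / 2) = (κ ^ 2 * ((n : ℝ))⁻¹) ^ ((n : ℝ) / 2) := by
    rw [div_eq_mul_inv (κ ^ 2)]
  rw [e3, Real.mul_rpow (by positivity) (by positivity)]
  congr 1
  rw [← Real.rpow_natCast κ 2, ← Real.rpow_mul hκ]
  push_cast
  rw [mul_div_cancel₀ _ (two_ne_zero), Real.rpow_natCast]

/-- conformal classes of metrics with constant negative scalar curvature -/
theorem conf_le (n : ℕ) (hn : 4 ≤ n) (Γ : Type) [Group Γ] [MulAction Γ (E n)] (hΓ : Act n Γ)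
    (G : E n → Matrix (Fin n) (Fin n) ℝ) (hG : Met n Γ G) (D : Set (E n)) (hD : MeasurableSet D)
    (hD' : ∀ x : E n, ∃! γ : Γ, γ • x ∈ D) (s : ℝ) (hs : 0 < s) (h : ∀ x, scal G x = -s)
    (f : E n → ℝ) (hf : ContDiff ℝ ∞ f) (hfi : ∀ (γ : Γ) (x : E n), f (γ • x) = f x) :
    int G D (fun x => max 0 (-scal G x) ^ ((n : ℝ) / 2)) ≤
      int (confm f G) D (fun x => max 0 (-scal (confm f G) x) ^ ((n : ℝ) / 2)) := by
  obtain ⟨D₀, hD₀, hD₀b, hD₀'⟩ := Dom.main n Γ hΓ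
  have h1 := ConfCore.core ConfScal.main LapInt.main n Γ G hn hΓ hG s hs (fun x => (h x).le) f hf
    hfi D₀ hD₀ hD₀b hD₀'
  rw [int_eq hΓ hG hD₀ hD₀' hD hD', int_eq hΓ (Conf.confm_met hG hf hfi) hD₀ hD₀' hD hD']
  refine (le_of_eq ?_).trans h1
  congr 1
  funext x
  rw [h x, neg_neg, max_eq_right hs.le]

end Vale.Agent.P223.H.Final2
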