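import Vale.Agent.P223.H.Def
import Vale.Agent.P223.H.Final2

/-! Bridge between the definitions of `Def.lean` and of `Defs.lean`. -/

namespace Vale.Agent.P223.H.DefBridge

open scoped ContDiff
open MeasureTheory

variable {n : ℕ} {Γ : Type} [Group Γ] [MulAction Γ (E n)]

theorem act (h : D.Act n Γ) : Act n Γ := ⟨h.smooth, h.orient, h.free, h.proper, h.cocompact⟩

theorem met {G : E n → Matrix (Fin n) (Fin n) ℝ} (h : D.Met n Γ G) : Met n Γ G :=
  ⟨h.smooth, h.pos, h.inv⟩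

theorem met' {G : E n → Matrix (Fin n) (Fin n) ℝ} (h : Met n Γ G) : D.Met n Γ G :=
  ⟨h.smooth, h.pos, h.inv⟩

theorem ric_eq (G : E n → Matrix (Fin n) (Fin n) ℝ) : D.ric G = ric G := rfl

theorem scal_eq (G : E n → Matrix (Fin n) (Fin n) ℝ) : D.scal G = scal G := rfl

theorem ricGe {G : E n → Matrix (Fin n) (Fin n) ℝ} {ρ : E n → ℝ} (h : D.RicGe G ρ) :
    RicGe G ρ := h

theorem L_eq (G : E n → Matrix (Fin n) (Fin n) ℝ) (D₀ : Set (E n)) (h : E n → ℝ) :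
    D.L G D₀ h = int G D₀ (fun x => h x ^ ((n : ℝ) / 2)) := rfl

theorem fam {G : ℝ → E n → Matrix (Fin n) (Fin n) ℝ} (h : D.Fam n Γ G) : Fam n Γ G :=
  ⟨h.smooth, fun t => met (h.met t)⟩

theorem rf {G : ℝ → E n → Matrix (Fin n) (Fin n) ℝ} (h : D.RF n Γ G) : RF n Γ G :=
  ⟨h.smooth, fun t ht => met (h.met t ht), h.flow⟩

end Vale.Agent.P223.H.DefBridge
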