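import Vale.Agent.P223.H.Defs
import Vale.Agent.P223.H.Def

/-! Comparison of the two definitions of the simplicial volume. -/

namespace Vale.Agent.P223.H.DefSv

/-- Singular simplices in the two formats. -/
def e (k : ℕ) (X : Type) [TopologicalSpace X] : H.Simp k X ≃ D.Simp k X where
  toFun σ := ⟨σ, σ.continuous⟩
  invFun τ := ⟨τ.f, τ.cont⟩
  left_inv _ := rfl
  right_inv _ := rfl

/-- Transport of chains. -/
noncomputable def tr {k : ℕ} {X : Type} [TopologicalSpace X] (z : H.Chain k X) :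
    D.Simp k X →₀ ℝ := z.equivMapDomain (e k X)

theorem tr_apply {k : ℕ} {X : Type} [TopologicalSpace X] (z : H.Chain k X) (τ : D.Simp k X) :
    tr z τ = z ((e k X).symm τ) := rfl

theorem tr_sum {k : ℕ} {X : Type} [TopologicalSpace X] (z : H.Chain k X)
    (g : D.Simp k X → ℝ → ℝ) : (tr z).sum g = z.sum fun σ r => g (e k X σ) r := by
  unfold tr
  exact Finsupp.sum_equivMapDomain _ _ _

theorem face_iff {k : ℕ} {X : Type} [TopologicalSpace X] (σ : H.Simp (k + 1) X)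
    (τ : D.Simp k X) (i : Fin (k + 1)) :
    (∀ t, τ.f t = (e (k + 1) X σ).f (D.fc i t)) ↔ σ.comp (H.face k i) = (e k X).symm τ := by
  constructor
  · intro h
    ext t
    exact (h t).symm
  · intro h t
    have := congrArg (fun q : H.Simp k X => q t) h
    exact this.symm

theorem bd_tr {k : ℕ} {X : Type} [TopologicalSpace X] (z : H.Chain (k + 1) X)
    (τ : D.Simp k X) : D.bd (tr z) τ = H.bd k z ((e k X).symm τ) := by
  classical
  unfold D.bd H.bd
  rw [tr_sum, Finsupp.linearCombination_apply, Finsupp.sum_apply]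
  apply Finsupp.sum_congr
  intro σ _
  rw [finsum_eq_sum_of_fintype, Finsupp.smul_apply, Finsupp.finsetSum_apply, smul_eq_mul,
    Finset.mul_sum]
  apply Finset.sum_congr rfl
  intro i _
  rw [finsum_eq_if, Finsupp.single_apply]
  by_cases h : σ.comp (H.face k i) = (e k X).symm τ
  · rw [if_pos h, if_pos ((face_iff σ τ i).mpr h)]
    ring
  · rw [if_neg h, if_neg (fun h' => h ((face_iff σ τ i).mp h'))]
    ring

open Classical in
/-- The transport for an arbitrary space with a map from `ℝ^n`. -/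
theorem gen {n : ℕ} {Γ : Type} [Group Γ] [MulAction Γ (H.E n)] {X : Type} [TopologicalSpace X]
    (pj : C(H.E n, X)) (z : H.Chain (n + 1) X) (h0 : H.bd n z = 0)
    (h : ∀ p : H.E n, ∃ (w : H.E n) (A : Matrix (Fin n) (Fin n) ℝ) (s : H.Simp (n + 1) (H.E n)),
      0 < A.det ∧ (∀ t, s t = fun j => w j + ∑ i : Fin n, t i.succ * A i j) ∧
      (∃ t, (∀ i, 0 < t i) ∧ s t = p) ∧ (∀ (t t' : stdSimplex ℝ (Fin (n + 1))) (γ : Γ),
        γ • s t = s t' → γ = 1) ∧
      ∃ (b : H.Chain (n + 2) X) (c : H.Chain (n + 1) X),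
        (∀ σ ∈ c.support, ∀ t, σ t ≠ pj p) ∧
        z = Finsupp.single (pj.comp s) 1 + H.bd (n + 1) b + c) :
    ∃ z' : D.Simp (n + 1) X →₀ ℝ, ((∀ τ, D.bd z' τ = 0) ∧ ∀ p : D.E n, ∃ s, D.Aff Γ p s ∧
      ∃ b : D.Simp (n + 2) X →₀ ℝ, ∀ τ : D.Simp (n + 1) X, (∃ t, τ.f t = pj p) →
        z' τ = D.bd b τ + if ∀ t, τ.f t = pj (s t) then 1 else 0) ∧
      (z'.sum fun _ r => |r|) = H.l1 z := by
  refine ⟨tr z, ⟨fun τ => ?_, fun p => ?_⟩, ?_⟩
  · rw [bd_tr, h0]
    rfl
  · obtain ⟨w, A, s, hA, hs, hp, hinj, b, c, hc, hzb⟩ := h p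
    refine ⟨s, ⟨w, A, hA, fun t j => by rw [hs t], hp, hinj⟩, tr b, fun τ hτ => ?_⟩
    rw [bd_tr, tr_apply]
    have h2 : c ((e (n + 1) X).symm τ) = 0 := by
      by_contra hne
      obtain ⟨t, ht⟩ := hτ
      exact hc _ (Finsupp.mem_support_iff.mpr hne) t ht
    have h3 : (Finsupp.single (pj.comp s) (1 : ℝ)) ((e (n + 1) X).symm τ) =
        if ∀ t, τ.f t = pj (s t) then 1 else 0 := by
      rw [Finsupp.single_apply]
      refine if_congr ⟨fun h t => ?_, fun h => ?_⟩ rfl rfl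
      · have := congrArg (fun q : H.Simp (n + 1) X => q t) h
        exact this.symm
      · ext t
        exact (h t).symm
    conv_lhs => rw [hzb]
    rw [Finsupp.add_apply, Finsupp.add_apply, h2, h3, add_zero, add_comm]
  · rw [tr_sum]
    rfl

theorem key {n : ℕ} {Γ : Type} [Group Γ] [MulAction Γ (H.E n)]
    (z : H.Chain (n + 1) (H.Mfd n Γ)) (hz : H.IsFund n Γ z) :
    ∃ z' : D.Simp (n + 1) (D.Mfd n Γ) →₀ ℝ, D.IsFund n Γ z' ∧
      (z'.sum fun _ r => |r|) = H.l1 z :=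
  gen (H.proj n Γ) z hz.1 hz.2

/-- The simplicial volume of `Def.lean` is at most the one of `Defs.lean`. -/
theorem sv_le (n : ℕ) (Γ : Type) [Group Γ] [MulAction Γ (H.E n)] :
    D.sv n Γ ≤ H.sv n Γ := by
  unfold H.sv
  refine le_iInf₂ fun z hz => ?_
  obtain ⟨z', h1, h2⟩ := key z hz
  rw [← h2]
  unfold D.sv
  exact iInf₂_le z' h1

end Vale.Agent.P223.H.DefSv
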