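import Vale.Agent.P223.MathlibUsed
import Mathlib.MeasureTheory.Measure.Haar.OfBasis
import Mathlib.MeasureTheory.Measure.WithDensity

/-! Definitions for: closed manifolds `ℝ^n / Γ` with a Riemannian metric. -/

namespace Vale.Agent.P223.H

open scoped ContDiff
open MeasureTheory

/-- `ℝ^n`. -/
abbrev E (n : ℕ) := Fin n → ℝ

/-- `Γ` acts on `ℝ^n` freely, properly discontinuously, cocompactly, by smooth orientation
preserving maps: `ℝ^n / Γ` is a closed oriented smooth manifold with universal cover `ℝ^n`. -/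
structure Act (n : ℕ) (Γ : Type) [Group Γ] [MulAction Γ (E n)] : Prop where
  smooth : ∀ γ : Γ, ContDiff ℝ ∞ (fun x : E n => γ • x)
  orient : ∀ (γ : Γ) (x : E n), 0 < (fderiv ℝ (fun y : E n => γ • y) x).det
  free : ∀ (γ : Γ) (x : E n), γ • x = x → γ = 1
  proper : ∀ K : Set (E n), IsCompact K → {γ : Γ | ∃ x ∈ K, γ • x ∈ K}.Finite
  cocompact : ∃ K : Set (E n), IsCompact K ∧ ∀ x, ∃ γ : Γ, γ • x ∈ K

/-- `G` is a smooth `Γ`-invariant Riemannian metric on `ℝ^n`, i.e. a Riemannian metric on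
`ℝ^n / Γ`. -/
structure Met (n : ℕ) (Γ : Type) [Group Γ] [MulAction Γ (E n)]
    (G : E n → Matrix (Fin n) (Fin n) ℝ) : Prop where
  smooth : ∀ i j, ContDiff ℝ ∞ (fun x => G x i j)
  pos : ∀ x, (G x).PosDef
  inv : ∀ (γ : Γ) (x v w : E n), ∑ i, ∑ j, fderiv ℝ (fun y : E n => γ • y) x v i *
    fderiv ℝ (fun y : E n => γ • y) x w j * G (γ • x) i j = ∑ i, ∑ j, v i * w j * G x i j

/-- Partial derivative of `f` in the direction of the coordinate `i`. -/
noncomputable def pd {n : ℕ} (i : Fin n) (f : E n → ℝ) (x : E n) : ℝ :=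
  fderiv ℝ f x (Pi.single i 1)

/-- Christoffel symbol with upper index `k` and lower indices `i j`. -/
noncomputable def chr {n : ℕ} (G : E n → Matrix (Fin n) (Fin n) ℝ) (x : E n) (k i j : Fin n) :
    ℝ := (1 / 2) * ∑ l, (G x)⁻¹ k l *
    (pd i (fun y => G y j l) x + pd j (fun y => G y i l) x - pd l (fun y => G y i j) x)

/-- Ricci tensor. -/
noncomputable def ric {n : ℕ} (G : E n → Matrix (Fin n) (Fin n) ℝ) (x : E n) (i j : Fin n) : ℝ :=
  ∑ k, (pd k (fun y => chr G y k i j) x - pd j (fun y => chr G y k i k) x)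
  + ∑ k, ∑ l, (chr G x k k l * chr G x l i j - chr G x k j l * chr G x l i k)

/-- Scalar curvature. -/
noncomputable def scal {n : ℕ} (G : E n → Matrix (Fin n) (Fin n) ℝ) (x : E n) : ℝ :=
  ∑ i, ∑ j, (G x)⁻¹ i j * ric G x i j

/-- Riemannian volume density. -/
noncomputable def dens {n : ℕ} (G : E n → Matrix (Fin n) (Fin n) ℝ) (x : E n) : ℝ :=
  Real.sqrt (G x).det

/-- `Ric ≥ -ρ g`. -/
def RicGe {n : ℕ} (G : E n → Matrix (Fin n) (Fin n) ℝ) (ρ : E n → ℝ) : Prop :=
  ∀ x v : E n, -ρ x * ∑ i, ∑ j, v i * v j * G x i j ≤ ∑ i, ∑ j, v i * v j * ric G x i j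

/-- The integral over `D` with respect to the Riemannian volume. -/
noncomputable def int {n : ℕ} (G : E n → Matrix (Fin n) (Fin n) ℝ) (D : Set (E n))
    (h : E n → ℝ) : ENNReal := ∫⁻ x in D, ENNReal.ofReal (h x * dens G x)

/-- The quotient manifold. -/
abbrev Mfd (n : ℕ) (Γ : Type) [Group Γ] [MulAction Γ (E n)] :=
  Quotient (MulAction.orbitRel Γ (E n))

/-- The covering map. -/
def proj (n : ℕ) (Γ : Type) [Group Γ] [MulAction Γ (E n)] : C(E n, Mfd n Γ) :=
  ⟨Quotient.mk _, continuous_quotient_mk'⟩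

/-- Singular simplices with `k` vertices. -/
abbrev Simp (k : ℕ) (M : Type) [TopologicalSpace M] := C(stdSimplex ℝ (Fin k), M)

/-- Finite real singular chains of simplices with `k` vertices. -/
abbrev Chain (k : ℕ) (M : Type) [TopologicalSpace M] := Simp k M →₀ ℝ

/-- The inclusion of the `i`-th face of the standard simplex. -/
noncomputable def face (k : ℕ) (i : Fin (k + 1)) :
    C(stdSimplex ℝ (Fin k), stdSimplex ℝ (Fin (k + 1))) :=
  ⟨stdSimplex.map i.succAbove, stdSimplex.continuous_map _⟩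

/-- The singular boundary. -/
noncomputable def bd {M : Type} [TopologicalSpace M] (k : ℕ) :
    Chain (k + 1) M →ₗ[ℝ] Chain k M :=
  Finsupp.linearCombination ℝ fun σ : Simp (k + 1) M =>
    ∑ i : Fin (k + 1), Finsupp.single (σ.comp (face k i)) ((-1 : ℝ) ^ (i : ℕ))

/-- The `ℓ¹`-norm of a chain. -/
noncomputable def l1 {M : Type} [TopologicalSpace M] {k : ℕ} (z : Chain k M) : ℝ :=
  z.sum fun _ a => |a|

/-- `z` is a singular cycle which represents the fundamental class of `ℝ^n / Γ`: near the image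
of every point `p` it is homologous, relative to the complement of this image, to the image of a
positively oriented affine simplex `s` of `ℝ^n`, which contains `p` in its interior and which is
mapped homeomorphically to the quotient. -/
def IsFund (n : ℕ) (Γ : Type) [Group Γ] [MulAction Γ (E n)] (z : Chain (n + 1) (Mfd n Γ)) :
    Prop :=
  bd n z = 0 ∧ ∀ p : E n, ∃ (w : E n) (A : Matrix (Fin n) (Fin n) ℝ) (s : Simp (n + 1) (E n)),
    0 < A.det ∧ (∀ t, s t = fun j => w j + ∑ i : Fin n, t i.succ * A i j) ∧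
    (∃ t, (∀ i, 0 < t i) ∧ s t = p) ∧ (∀ (t t' : stdSimplex ℝ (Fin (n + 1))) (γ : Γ),
      γ • s t = s t' → γ = 1) ∧
    ∃ (b : Chain (n + 2) (Mfd n Γ)) (c : Chain (n + 1) (Mfd n Γ)),
      (∀ σ ∈ c.support, ∀ t, σ t ≠ proj n Γ p) ∧
      z = Finsupp.single ((proj n Γ).comp s) 1 + bd (n + 1) b + c

/-- The simplicial volume of `ℝ^n / Γ`. -/
noncomputable def sv (n : ℕ) (Γ : Type) [Group Γ] [MulAction Γ (E n)] : ENNReal :=
  ⨅ (z : Chain (n + 1) (Mfd n Γ)) (_ : IsFund n Γ z), ENNReal.ofReal (l1 z)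

end Vale.Agent.P223.H
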