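import Vale.Agent.P223.H.Spec
import Mathlib.Algebra.Order.Chebyshev

/-! Block 3a: quasi-contraction of the jet norms. -/

namespace Vale.Agent.P223.H.QC

open scoped ContDiff
open Vale.Agent.P223.H

/-! ### Uniform estimates for smooth functions of `(r, x)` -/

section compact

variable {V : Type*} [NormedAddCommGroup V] [NormedSpace ℝ V]

omit [NormedSpace ℝ V] in
theorem bound0 (F : ℝ × V → ℝ) (hF : Continuous F) (K : Set V) (hK : IsCompact K) :
    ∃ C : ℝ, 0 ≤ C ∧ ∀ x ∈ K, ∀ r : ℝ, |r| ≤ 1 → |F (r, x)| ≤ C := by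
  obtain ⟨C, hC⟩ := (isCompact_Icc.prod hK).exists_bound_of_continuousOn
    (f := F) (s := Set.Icc (-1 : ℝ) 1 ×ˢ K) hF.continuousOn
  refine ⟨max C 0, le_max_right _ _, fun x hx r hr => ?_⟩
  have := hC (r, x) ⟨abs_le.1 hr, hx⟩
  exact (by simpa using this : |F (r, x)| ≤ C).trans (le_max_left _ _)

theorem hasDerivAt_slice (F : ℝ × V → ℝ) (hF : Differentiable ℝ F) (x : V) (r : ℝ) :
    HasDerivAt (fun s => F (s, x)) (fderiv ℝ F (r, x) (1, 0)) r := by
  have h1 : HasFDerivAt F (fderiv ℝ F (r, x)) (r, x) := (hF (r, x)).hasFDerivAt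
  have h2 : HasDerivAt (fun s : ℝ => (s, x)) ((1 : ℝ), (0 : V)) r :=
    (hasDerivAt_id r).prodMk (hasDerivAt_const r x)
  exact h1.comp_hasDerivAt r h2

theorem bound1 (F : ℝ × V → ℝ) (hF : ContDiff ℝ 1 F) (K : Set V) (hK : IsCompact K) :
    ∃ C : ℝ, 0 ≤ C ∧ ∀ x ∈ K, ∀ r : ℝ, |r| ≤ 1 → |F (r, x) - F (-r, x)| ≤ C * |r| := by
  have hd : Differentiable ℝ F := hF.differentiable (by norm_num)
  have hc : Continuous fun p => fderiv ℝ F p ((1 : ℝ), (0 : V)) :=
    (hF.continuous_fderiv (by norm_num)).clm_apply continuous_const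
  obtain ⟨C, hC0, hC⟩ := bound0 _ hc K hK
  refine ⟨C * 2, by positivity, fun x hx r hr => ?_⟩
  have hmem : ∀ s ∈ Set.uIcc (-r) r, |s| ≤ 1 := by
    intro s hs
    rw [Set.mem_uIcc] at hs
    rw [abs_le] at hr ⊢
    rcases hs with hs | hs <;> constructor <;> linarith [hs.1, hs.2]
  have := (convex_uIcc (-r) r).norm_image_sub_le_of_norm_hasDerivWithin_le
    (f := fun s => F (s, x)) (f' := fun s => fderiv ℝ F (s, x) (1, 0)) (C := C)
    (fun s _ => (hasDerivAt_slice F hd x s).hasDerivWithinAt)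
    (fun s hs => hC x hx s (hmem s hs)) Set.left_mem_uIcc Set.right_mem_uIcc
  have h2 : ‖r - -r‖ = 2 * |r| := by
    rw [sub_neg_eq_add, ← two_mul, norm_mul]; simp
  rw [h2] at this
  calc |F (r, x) - F (-r, x)| ≤ C * (2 * |r|) := this
    _ = C * 2 * |r| := by ring

theorem bound2 (F : ℝ × V → ℝ) (hF : ContDiff ℝ 2 F) (K : Set V) (hK : IsCompact K) :
    ∃ C : ℝ, 0 ≤ C ∧ ∀ x ∈ K, ∀ r : ℝ, |r| ≤ 1 →
      |F (r, x) + F (-r, x) - 2 * F (0, x)| ≤ C * r ^ 2 := by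
  have hd : Differentiable ℝ F := hF.differentiable (by norm_num)
  have hc : ContDiff ℝ 1 fun p => fderiv ℝ F p ((1 : ℝ), (0 : V)) :=
    (hF.fderiv_right (by norm_num)).clm_apply contDiff_const
  obtain ⟨C, hC0, hC⟩ := bound1 _ hc K hK
  refine ⟨C, hC0, fun x hx r hr => ?_⟩
  have hmem : ∀ s ∈ Set.uIcc 0 r, |s| ≤ |r| := by
    intro s hs
    rw [Set.mem_uIcc] at hs
    rcases hs with hs | hs
    · rw [abs_of_nonneg hs.1, abs_of_nonneg (hs.1.trans hs.2)]; exact hs.2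
    · rw [abs_of_nonpos hs.2, abs_of_nonpos (hs.1.trans hs.2)]; linarith [hs.1]
  have hder : ∀ s : ℝ, HasDerivAt (fun s => F (s, x) + F (-s, x) - 2 * F (0, x))
      (fderiv ℝ F (s, x) (1, 0) - fderiv ℝ F (-s, x) (1, 0)) s := by
    intro s
    have h1 := hasDerivAt_slice F hd x s
    have h2 : HasDerivAt (fun s : ℝ => F (-s, x)) (fderiv ℝ F (-s, x) (1, 0) * (-1)) s :=
      (hasDerivAt_slice F hd x (-s)).comp s (hasDerivAt_neg s)
    have h3 := (h1.add h2).sub_const (2 * F (0, x))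
    rw [mul_neg_one, ← sub_eq_add_neg] at h3
    exact h3
  have := (convex_uIcc 0 r).norm_image_sub_le_of_norm_hasDerivWithin_le
    (f := fun s => F (s, x) + F (-s, x) - 2 * F (0, x))
    (f' := fun s => fderiv ℝ F (s, x) (1, 0) - fderiv ℝ F (-s, x) (1, 0)) (C := C * |r|)
    (fun s _ => (hder s).hasDerivWithinAt)
    (fun s hs => (hC x hx s ((hmem s hs).trans hr)).trans
      (mul_le_mul_of_nonneg_left (hmem s hs) hC0)) Set.left_mem_uIcc Set.right_mem_uIcc
  simp only [neg_zero, sub_zero, Real.norm_eq_abs] at this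
  calc |F (r, x) + F (-r, x) - 2 * F (0, x)| = |F (r, x) + F (-r, x) - 2 * F (0, x) -
      (F (0, x) + F (0, x) - 2 * F (0, x))| := by congr 1; ring
    _ ≤ C * |r| * |r| := this
    _ = C * r ^ 2 := by rw [mul_assoc, abs_mul_abs_self]; ring

end compact

/-! ### The algebraic inequality -/

theorem alg {ι : Type*} [Fintype ι] (C ε : ℝ) (hC : 0 ≤ C) (hε : 0 ≤ ε) (hε1 : ε ≤ 1)
    (A B : ι → ι → ℝ) (hA : ∀ i k, |A i k| ≤ C * ε ^ 2) (hB : ∀ i k, |B i k| ≤ C * ε)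
    (m d : ι → ℝ) :
    ∑ i, (m i + ∑ k, A i k * m k + ∑ k, B i k * d k) ^ 2 ≤
      (1 + (2 * C * (Fintype.card ι + 1) + 3 * C ^ 2 * (Fintype.card ι + 1) ^ 2) * ε ^ 2) *
        (∑ i, m i ^ 2 + ∑ i, d i ^ 2) := by
  set ν : ℝ := Fintype.card ι + 1 with hν
  have hν1 : 1 ≤ ν := by rw [hν]; linarith [(Nat.cast_nonneg (Fintype.card ι) : (0 : ℝ) ≤ _)]
  set M1 := ∑ k, |m k| with hM1
  set D1 := ∑ k, |d k| with hD1
  set M2 := ∑ k, m k ^ 2 with hM2
  set D2 := ∑ k, d k ^ 2 with hD2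
  have hM2n : 0 ≤ M2 := Finset.sum_nonneg fun _ _ => sq_nonneg _
  have hD2n : 0 ≤ D2 := Finset.sum_nonneg fun _ _ => sq_nonneg _
  have hM1n : 0 ≤ M1 := Finset.sum_nonneg fun _ _ => abs_nonneg _
  have hD1n : 0 ≤ D1 := Finset.sum_nonneg fun _ _ => abs_nonneg _
  have hMM : M1 ^ 2 ≤ ν * M2 := by
    have := sq_sum_le_card_mul_sum_sq (s := Finset.univ) (f := fun k => |m k|)
    simp only [sq_abs, Finset.card_univ] at this
    rw [hν]; nlinarith
  have hDD : D1 ^ 2 ≤ ν * D2 := by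
    have := sq_sum_le_card_mul_sum_sq (s := Finset.univ) (f := fun k => |d k|)
    simp only [sq_abs, Finset.card_univ] at this
    rw [hν]; nlinarith
  set α : ι → ℝ := fun i => ∑ k, A i k * m k with hα
  set β : ι → ℝ := fun i => ∑ k, B i k * d k with hβ
  have hαb : ∀ i, |α i| ≤ C * ε ^ 2 * M1 := by
    intro i
    calc |α i| ≤ ∑ k, |A i k * m k| := Finset.abs_sum_le_sum_abs _ _
      _ ≤ ∑ k, C * ε ^ 2 * |m k| := Finset.sum_le_sum fun k _ => by
        rw [abs_mul]; exact mul_le_mul_of_nonneg_right (hA i k) (abs_nonneg _)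
      _ = C * ε ^ 2 * M1 := by rw [Finset.mul_sum]
  have hβb : ∀ i, |β i| ≤ C * ε * D1 := by
    intro i
    calc |β i| ≤ ∑ k, |B i k * d k| := Finset.abs_sum_le_sum_abs _ _
      _ ≤ ∑ k, C * ε * |d k| := Finset.sum_le_sum fun k _ => by
        rw [abs_mul]; exact mul_le_mul_of_nonneg_right (hB i k) (abs_nonneg _)
      _ = C * ε * D1 := by rw [Finset.mul_sum]
  have hpt : ∀ i, (m i + α i + β i) ^ 2 ≤ m i ^ 2 + 2 * |m i| * (C * ε ^ 2 * M1 + C * ε * D1) +
      2 * ((C * ε ^ 2 * M1) ^ 2 + (C * ε * D1) ^ 2) := by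
    intro i
    have h1 : m i * α i ≤ |m i| * (C * ε ^ 2 * M1) := by
      calc m i * α i ≤ |m i * α i| := le_abs_self _
        _ = |m i| * |α i| := abs_mul _ _
        _ ≤ _ := mul_le_mul_of_nonneg_left (hαb i) (abs_nonneg _)
    have h2 : m i * β i ≤ |m i| * (C * ε * D1) := by
      calc m i * β i ≤ |m i * β i| := le_abs_self _
        _ = |m i| * |β i| := abs_mul _ _
        _ ≤ _ := mul_le_mul_of_nonneg_left (hβb i) (abs_nonneg _)
    have h3 : α i ^ 2 ≤ (C * ε ^ 2 * M1) ^ 2 := sq_le_sq' (by linarith [abs_le.1 (hαb i)])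
      (abs_le.1 (hαb i)).2
    have h4 : β i ^ 2 ≤ (C * ε * D1) ^ 2 := sq_le_sq' (by linarith [abs_le.1 (hβb i)])
      (abs_le.1 (hβb i)).2
    nlinarith [sq_nonneg (α i - β i)]
  have hsum : ∑ i, (m i + α i + β i) ^ 2 ≤ M2 + 2 * M1 * (C * ε ^ 2 * M1 + C * ε * D1) +
      ν * (2 * ((C * ε ^ 2 * M1) ^ 2 + (C * ε * D1) ^ 2)) := by
    calc ∑ i, (m i + α i + β i) ^ 2 ≤ ∑ i, (m i ^ 2 +
          2 * |m i| * (C * ε ^ 2 * M1 + C * ε * D1) +
          2 * ((C * ε ^ 2 * M1) ^ 2 + (C * ε * D1) ^ 2)) := Finset.sum_le_sum fun i _ => hpt i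
      _ = M2 + 2 * M1 * (C * ε ^ 2 * M1 + C * ε * D1) +
          Fintype.card ι * (2 * ((C * ε ^ 2 * M1) ^ 2 + (C * ε * D1) ^ 2)) := by
        rw [Finset.sum_add_distrib, Finset.sum_add_distrib, ← Finset.sum_mul, ← Finset.mul_sum]
        simp [hM1, hM2]
      _ ≤ _ := by
        have : (Fintype.card ι : ℝ) ≤ ν := by rw [hν]; linarith
        have h0 : 0 ≤ 2 * ((C * ε ^ 2 * M1) ^ 2 + (C * ε * D1) ^ 2) := by positivity
        nlinarith
  refine hsum.trans ?_
  have e1 : 2 * M1 * (C * ε ^ 2 * M1) ≤ 2 * C * ν * ε ^ 2 * M2 := by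
    have : 0 ≤ C * ε ^ 2 := by positivity
    nlinarith
  have e2 : 2 * M1 * (C * ε * D1) ≤ ν ^ 2 * C ^ 2 * ε ^ 2 * M2 + D2 := by
    have h1 : 2 * M1 * (C * ε * D1) ≤ ν * (C * ε * M1) ^ 2 + ν⁻¹ * D1 ^ 2 := by
      have hνp : 0 < ν := by linarith
      have : 0 ≤ ν⁻¹ * (ν * (C * ε * M1) - D1) ^ 2 := by positivity
      have h2 : ν⁻¹ * (ν * (C * ε * M1) - D1) ^ 2 =
          ν * (C * ε * M1) ^ 2 - 2 * M1 * (C * ε * D1) + ν⁻¹ * D1 ^ 2 := by
        field_simp
        ring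
      linarith
    have h3 : ν * (C * ε * M1) ^ 2 ≤ ν ^ 2 * C ^ 2 * ε ^ 2 * M2 := by
      have : 0 ≤ ν * C ^ 2 * ε ^ 2 := by positivity
      nlinarith
    have h4 : ν⁻¹ * D1 ^ 2 ≤ D2 := by
      have hνp : 0 < ν := by linarith
      rw [inv_mul_le_iff₀ hνp]; exact hDD
    linarith
  have e3 : (C * ε ^ 2 * M1) ^ 2 ≤ ν * C ^ 2 * ε ^ 2 * M2 := by
    have h1 : ε ^ 4 ≤ ε ^ 2 := by
      calc ε ^ 4 = ε ^ 2 * ε ^ 2 := by ring
        _ ≤ 1 * ε ^ 2 := mul_le_mul_of_nonneg_right (pow_le_one₀ hε hε1) (by positivity)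
        _ = ε ^ 2 := by ring
    calc (C * ε ^ 2 * M1) ^ 2 = C ^ 2 * ε ^ 4 * M1 ^ 2 := by ring
      _ ≤ C ^ 2 * ε ^ 2 * (ν * M2) := by
        apply mul_le_mul (mul_le_mul_of_nonneg_left h1 (by positivity)) hMM (by positivity)
          (by positivity)
      _ = _ := by ring
  have e4 : (C * ε * D1) ^ 2 ≤ ν * C ^ 2 * ε ^ 2 * D2 := by
    calc (C * ε * D1) ^ 2 = C ^ 2 * ε ^ 2 * D1 ^ 2 := by ring
      _ ≤ C ^ 2 * ε ^ 2 * (ν * D2) := mul_le_mul_of_nonneg_left hDD (by positivity)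
      _ = _ := by ring
  have hνp : 0 ≤ ν := by linarith
  have e5 : ν * (2 * ((C * ε ^ 2 * M1) ^ 2 + (C * ε * D1) ^ 2)) ≤
      ν * (2 * (ν * C ^ 2 * ε ^ 2 * M2 + ν * C ^ 2 * ε ^ 2 * D2)) :=
    mul_le_mul_of_nonneg_left (by linarith) hνp
  have hz1 : 0 ≤ C * ν * ε ^ 2 * D2 := by positivity
  have hz2 : 0 ≤ C ^ 2 * ν ^ 2 * ε ^ 2 * D2 := by positivity
  nlinarith

/-! ### Multipliers -/

section mult

variable {n : ℕ} {Γ : Type} [Group Γ] [MulAction Γ (E n)]
  {G : E n → Matrix (Fin n) (Fin n) ℝ} {N : ℕ} {J : Type} [Fintype J]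

/-- Families of invariant matrix multipliers, trivial at `r = 0`. -/
structure Mult (n : ℕ) (Γ : Type) [Group Γ] [MulAction Γ (E n)] (N : ℕ) (ι : Type)
    [Fintype ι] where
  T : Fin N → ι → ι → ℝ × E n → ℝ
  smooth : ∀ a i k, ContDiff ℝ ∞ (T a i k)
  inv : ∀ a i k (r : ℝ) (γ : Γ) (x : E n), T a i k (r, γ • x) = T a i k (r, x)
  one : ∀ a x (m : ι → ℝ) i, ∑ k, T a i k (0, x) * m k = m i

variable {ι : Type} [Fintype ι]

/-- `T(r,x) u(φ(r,x))` -/
noncomputable def app (M : Maps n Γ G N) (T : Mult n Γ N ι) (a : Fin N) (r : ℝ)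
    (u : E n → ι → ℝ) (x : E n) (i : ι) : ℝ := ∑ k, T.T a i k (r, x) * u (M.φ a r x) k

/-- the averaging operator with multipliers -/
noncomputable def PT (M : Maps n Γ G N) (T : Mult n Γ N ι) (ε : ℝ) (u : E n → ι → ℝ)
    (x : E n) (i : ι) : ℝ :=
  (N : ℝ)⁻¹ * ∑ a, (app M T a ε u x i + app M T a (-ε) u x i) / 2

theorem Mult.bounds (hΓ : Act n Γ) (T : Mult n Γ N ι) : ∃ C : ℝ, 0 ≤ C ∧
    ∀ (x : E n) (r : ℝ), 0 ≤ r → r ≤ 1 → ∀ a i k,
      |T.T a i k (r, x) - T.T a i k (-r, x)| ≤ C * r ∧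
      |T.T a i k (r, x) + T.T a i k (-r, x) - 2 * T.T a i k (0, x)| ≤ C * r ^ 2 := by
  obtain ⟨K, hK, hKc⟩ := hΓ.cocompact
  choose C1 hC1n hC1 using fun (q : Fin N × ι × ι) =>
    bound1 (T.T q.1 q.2.1 q.2.2) (contDiff_infty.1 (T.smooth q.1 q.2.1 q.2.2) 1) K hK
  choose C2 hC2n hC2 using fun (q : Fin N × ι × ι) =>
    bound2 (T.T q.1 q.2.1 q.2.2) (contDiff_infty.1 (T.smooth q.1 q.2.1 q.2.2) 2) K hK
  refine ⟨∑ q, (C1 q + C2 q), Finset.sum_nonneg fun q _ => add_nonneg (hC1n q) (hC2n q),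
    fun x r hr0 hr1 a i k => ?_⟩
  obtain ⟨γ, hγ⟩ := hKc x
  have hle : C1 (a, i, k) + C2 (a, i, k) ≤ ∑ q, (C1 q + C2 q) :=
    Finset.single_le_sum (f := fun q => C1 q + C2 q)
      (fun q _ => add_nonneg (hC1n q) (hC2n q)) (Finset.mem_univ (a, i, k))
  have hr : |r| ≤ 1 := by rwa [abs_of_nonneg hr0]
  have h1 := hC1 (a, i, k) (γ • x) hγ r hr
  have h2 := hC2 (a, i, k) (γ • x) hγ r hr
  simp only [T.inv] at h1 h2
  rw [abs_of_nonneg hr0] at h1
  constructor
  · refine h1.trans (mul_le_mul_of_nonneg_right ?_ hr0)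
    linarith [hC2n (a, i, k)]
  · refine h2.trans (mul_le_mul_of_nonneg_right ?_ (sq_nonneg r))
    linarith [hC1n (a, i, k)]

theorem norm_est (M : Maps n Γ G N) (hΓ : Act n Γ) (hN : 0 < N) (T : Mult n Γ N ι) :
    ∃ C : ℝ, 0 < C ∧ ∀ ε : ℝ, 0 < ε → ε ≤ 1 → ∀ (u : E n → ι → ℝ) (x : E n),
      ∑ i, PT M T ε u x i ^ 2 ≤ (1 + C * ε ^ 2) * M.P ε (fun y => ∑ i, u y i ^ 2) x := by
  obtain ⟨C, hC0, hC⟩ := T.bounds hΓ
  set C' : ℝ := 2 * C * (Fintype.card ι + 1) + 3 * C ^ 2 * (Fintype.card ι + 1) ^ 2 with hC'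
  have hC'0 : 0 ≤ C' := by positivity
  refine ⟨C' + 1, by positivity, fun ε hε hε1 u x => ?_⟩
  have hNp : (0 : ℝ) < N := by exact_mod_cast hN
  -- estimate for each `a`
  have key : ∀ a, ∑ i, ((app M T a ε u x i + app M T a (-ε) u x i) / 2) ^ 2 ≤
      (1 + C' * ε ^ 2) *
        ((∑ i, u (M.φ a ε x) i ^ 2 + ∑ i, u (M.φ a (-ε) x) i ^ 2) / 2) := by
    intro a
    have h := alg C ε hC0 hε.le hε1
      (fun i k => (T.T a i k (ε, x) + T.T a i k (-ε, x)) / 2 - T.T a i k (0, x))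
      (fun i k => (T.T a i k (ε, x) - T.T a i k (-ε, x)) / 2)
      (fun i k => by
        have := (hC x ε hε.le hε1 a i k).2
        have e : (T.T a i k (ε, x) + T.T a i k (-ε, x)) / 2 - T.T a i k (0, x) =
          (T.T a i k (ε, x) + T.T a i k (-ε, x) - 2 * T.T a i k (0, x)) / 2 := by ring
        rw [e, abs_div, abs_two]
        have h0 : 0 ≤ C * ε ^ 2 := by positivity
        linarith)
      (fun i k => by
        have := (hC x ε hε.le hε1 a i k).1
        rw [abs_div, abs_two]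
        have h0 : 0 ≤ C * ε := by positivity
        linarith)
      (fun k => (u (M.φ a ε x) k + u (M.φ a (-ε) x) k) / 2)
      (fun k => (u (M.φ a ε x) k - u (M.φ a (-ε) x) k) / 2)
    have e1 : ∀ i, (u (M.φ a ε x) i + u (M.φ a (-ε) x) i) / 2 +
        ∑ k, ((T.T a i k (ε, x) + T.T a i k (-ε, x)) / 2 - T.T a i k (0, x)) *
          ((u (M.φ a ε x) k + u (M.φ a (-ε) x) k) / 2) +
        ∑ k, (T.T a i k (ε, x) - T.T a i k (-ε, x)) / 2 *
          ((u (M.φ a ε x) k - u (M.φ a (-ε) x) k) / 2) =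
        (app M T a ε u x i + app M T a (-ε) u x i) / 2 := by
      intro i
      have h1 := T.one a x (fun k => (u (M.φ a ε x) k + u (M.φ a (-ε) x) k) / 2) i
      rw [← h1, ← Finset.sum_add_distrib, ← Finset.sum_add_distrib]
      simp only [app]
      rw [← Finset.sum_add_distrib, Finset.sum_div]
      refine Finset.sum_congr rfl fun k _ => ?_
      ring
    have e2 : ∑ k, ((u (M.φ a ε x) k + u (M.φ a (-ε) x) k) / 2) ^ 2 +
        ∑ k, ((u (M.φ a ε x) k - u (M.φ a (-ε) x) k) / 2) ^ 2 =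
        (∑ i, u (M.φ a ε x) i ^ 2 + ∑ i, u (M.φ a (-ε) x) i ^ 2) / 2 := by
      rw [← Finset.sum_add_distrib, ← Finset.sum_add_distrib, Finset.sum_div]
      refine Finset.sum_congr rfl fun k _ => ?_
      ring
    simp only [e1] at h
    rw [e2] at h
    exact h
  -- average over `a`
  have havg : ∀ i, PT M T ε u x i ^ 2 ≤
      (N : ℝ)⁻¹ * ∑ a, ((app M T a ε u x i + app M T a (-ε) u x i) / 2) ^ 2 := by
    intro i
    have h := sq_sum_le_card_mul_sum_sq (s := (Finset.univ : Finset (Fin N)))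
      (f := fun a => (app M T a ε u x i + app M T a (-ε) u x i) / 2)
    simp only [Finset.card_univ, Fintype.card_fin] at h
    simp only [PT, mul_pow]
    calc ((N : ℝ)⁻¹) ^ 2 * (∑ a, (app M T a ε u x i + app M T a (-ε) u x i) / 2) ^ 2
        ≤ ((N : ℝ)⁻¹) ^ 2 * (N * ∑ a, ((app M T a ε u x i + app M T a (-ε) u x i) / 2) ^ 2) :=
          mul_le_mul_of_nonneg_left h (by positivity)
      _ = _ := by field_simp
  have hP : 0 ≤ M.P ε (fun y => ∑ i, u y i ^ 2) x := by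
    unfold Maps.P
    refine mul_nonneg (by positivity) (Finset.sum_nonneg fun a _ => ?_)
    have h1 : 0 ≤ ∑ i, u (M.φ a ε x) i ^ 2 := Finset.sum_nonneg fun _ _ => sq_nonneg _
    have h2 : 0 ≤ ∑ i, u (M.φ a (-ε) x) i ^ 2 := Finset.sum_nonneg fun _ _ => sq_nonneg _
    simp only
    linarith
  calc ∑ i, PT M T ε u x i ^ 2
      ≤ ∑ i, (N : ℝ)⁻¹ * ∑ a, ((app M T a ε u x i + app M T a (-ε) u x i) / 2) ^ 2 :=
        Finset.sum_le_sum fun i _ => havg i
    _ = (N : ℝ)⁻¹ * ∑ a, ∑ i, ((app M T a ε u x i + app M T a (-ε) u x i) / 2) ^ 2 := by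
        rw [← Finset.mul_sum, Finset.sum_comm]
    _ ≤ (N : ℝ)⁻¹ * ∑ a, (1 + C' * ε ^ 2) *
        ((∑ i, u (M.φ a ε x) i ^ 2 + ∑ i, u (M.φ a (-ε) x) i ^ 2) / 2) :=
        mul_le_mul_of_nonneg_left (Finset.sum_le_sum fun a _ => key a) (by positivity)
    _ = (1 + C' * ε ^ 2) * M.P ε (fun y => ∑ i, u y i ^ 2) x := by
        unfold Maps.P
        rw [← Finset.mul_sum]
        ring
    _ ≤ (1 + (C' + 1) * ε ^ 2) * M.P ε (fun y => ∑ i, u y i ^ 2) x := by
        refine mul_le_mul_of_nonneg_right ?_ hP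
        nlinarith [sq_nonneg ε]

end mult

/-! ### Prolongation of multipliers -/

section prolong

variable {V W : Type*} [NormedAddCommGroup V] [NormedSpace ℝ V] [NormedAddCommGroup W]
  [NormedSpace ℝ W]

theorem fderiv_slice (F : ℝ × V → W) (hF : Differentiable ℝ F) (r : ℝ) (x v : V) :
    fderiv ℝ (fun y => F (r, y)) x v = fderiv ℝ F (r, x) (0, v) := by
  have h1 : HasFDerivAt F (fderiv ℝ F (r, x)) (r, x) := (hF (r, x)).hasFDerivAt
  have h2 : HasFDerivAt (fun y : V => (r, y))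
      ((0 : V →L[ℝ] ℝ).prod (ContinuousLinearMap.id ℝ V)) x :=
    (hasFDerivAt_const r x).prodMk (hasFDerivAt_id x)
  have h3 : fderiv ℝ (fun y => F (r, y)) x = _ := (h1.comp x h2).fderiv
  rw [h3]
  simp

end prolong

section prolong2

variable {n : ℕ} {Γ : Type} [Group Γ] [MulAction Γ (E n)]
  {G : E n → Matrix (Fin n) (Fin n) ℝ} {N : ℕ} {J : Type} [Fintype J]

open scoped Classical in
/-- coefficients of the derivative of the maps in the frame -/
noncomputable def cc (Fr : Frame n Γ J) (M : Maps n Γ G N) (a : Fin N) (j l : J)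
    (p : ℝ × E n) : ℝ :=
  Fr.th l (M.φ a p.1 p.2) (fderiv ℝ (fun q : ℝ × E n => M.φ a q.1 q.2) p (0, Fr.V j p.2)) +
    (if j = l then 1 else 0) - Fr.th l (M.φ a p.1 p.2) (Fr.V j (M.φ a p.1 p.2))

theorem cc_smooth (Fr : Frame n Γ J) (M : Maps n Γ G N) (a : Fin N) (j l : J) :
    ContDiff ℝ ∞ (cc Fr M a j l) := by
  classical
  have hφ := M.smooth a
  have h1 : ContDiff ℝ ∞ (fun p : ℝ × E n => Fr.th l (M.φ a p.1 p.2)) :=
    (Fr.th_smooth l).comp hφ
  have h2 : ContDiff ℝ ∞ (fun p : ℝ × E n =>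
      fderiv ℝ (fun q : ℝ × E n => M.φ a q.1 q.2) p ((0 : ℝ), Fr.V j p.2)) :=
    (hφ.fderiv_right (m := ∞) (by simp)).clm_apply
      (contDiff_const.prodMk ((Fr.V_smooth j).comp contDiff_snd))
  have h3 : ContDiff ℝ ∞ (fun p : ℝ × E n => Fr.V j (M.φ a p.1 p.2)) :=
    (Fr.V_smooth j).comp hφ
  exact ((h1.clm_apply h2).add contDiff_const).sub (h1.clm_apply h3)

theorem Maps.diff (M : Maps n Γ G N) (a : Fin N) :
    Differentiable ℝ (fun q : ℝ × E n => M.φ a q.1 q.2) :=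
  (M.smooth a).differentiable (by simp)

theorem Maps.diff' (M : Maps n Γ G N) (a : Fin N) (r : ℝ) :
    Differentiable ℝ (fun y : E n => M.φ a r y) := by
  have h : Differentiable ℝ (fun y : E n => ((r, y) : ℝ × E n)) := by fun_prop
  exact (Maps.diff M a).comp h

theorem cc_eq (Fr : Frame n Γ J) (M : Maps n Γ G N) (a : Fin N) (j l : J) (r : ℝ) (x : E n)
    [Decidable (j = l)] :
    cc Fr M a j l (r, x) = Fr.th l (M.φ a r x) (fderiv ℝ (fun y : E n => M.φ a r y) x (Fr.V j x)) +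
    (if j = l then 1 else 0) - Fr.th l (M.φ a r x) (Fr.V j (M.φ a r x)) := by
  rw [fderiv_slice (fun q : ℝ × E n => M.φ a q.1 q.2) (Maps.diff M a) r x (Fr.V j x)]
  unfold cc
  congr

theorem fderiv_equi (hΓ : Act n Γ) (M : Maps n Γ G N) (a : Fin N) (r : ℝ) (γ : Γ) (x v : E n) :
    fderiv ℝ (fun y : E n => M.φ a r y) (γ • x) (fderiv ℝ (fun y : E n => γ • y) x v) =
    fderiv ℝ (fun y : E n => γ • y) (M.φ a r x) (fderiv ℝ (fun y : E n => M.φ a r y) x v) := by
  have hγ : Differentiable ℝ (fun y : E n => γ • y) := (hΓ.smooth γ).differentiable (by simp)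
  have hφ := Maps.diff' M a r
  have h1 := fderiv_comp x (hφ (γ • x)) (hγ x)
  have h2 := fderiv_comp x (hγ (M.φ a r x)) (hφ x)
  have h3 : (fun y : E n => M.φ a r y) ∘ (fun y : E n => γ • y) =
      (fun y : E n => γ • y) ∘ (fun y : E n => M.φ a r y) := by
    funext y; exact M.equi a r γ y
  rw [h3] at h1
  have h4 := h1.symm.trans h2
  exact congrArg (fun L : E n →L[ℝ] E n => L v) h4

theorem cc_inv (hΓ : Act n Γ) (Fr : Frame n Γ J) (M : Maps n Γ G N) (a : Fin N) (j l : J)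
    (r : ℝ) (γ : Γ) (x : E n) : cc Fr M a j l (r, γ • x) = cc Fr M a j l (r, x) := by
  classical
  rw [cc_eq, cc_eq, Fr.V_inv, fderiv_equi hΓ, M.equi, Fr.th_inv, Fr.V_inv, Fr.th_inv]

theorem cc_zero (Fr : Frame n Γ J) (M : Maps n Γ G N) (a : Fin N) (j l : J) (x : E n)
    [Decidable (j = l)] :
    cc Fr M a j l (0, x) = if j = l then 1 else 0 := by
  rw [cc_eq]
  have h : (fun y : E n => M.φ a 0 y) = id := by funext y; exact M.zero a y
  rw [h, fderiv_id, M.zero]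
  simp

theorem cc_sum (Fr : Frame n Γ J) (M : Maps n Γ G N) (a : Fin N) (j : J) (r : ℝ) (x : E n)
    (L : E n →L[ℝ] ℝ) : ∑ l, cc Fr M a j l (r, x) * L (Fr.V l (M.φ a r x)) =
      L (fderiv ℝ (fun y : E n => M.φ a r y) x (Fr.V j x)) := by
  classical
  have hd : ∀ w, ∑ l, Fr.th l (M.φ a r x) w * L (Fr.V l (M.φ a r x)) = L w := by
    intro w
    conv_rhs => rw [← Fr.dual (M.φ a r x) w]
    simp
  simp only [cc_eq, sub_mul, add_mul, Finset.sum_sub_distrib, Finset.sum_add_distrib, hd]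
  simp

variable {ι : Type} [Fintype ι]

/-- the prolonged multipliers -/
noncomputable def prT (Fr : Frame n Γ J) (M : Maps n Γ G N) (T : Mult n Γ N ι) (a : Fin N) :
    Option J × ι → Option J × ι → ℝ × E n → ℝ
  | (none, i), (none, k), p => T.T a i k p
  | (none, _), (some _, _), _ => 0
  | (some j, i), (none, k), p => fderiv ℝ (T.T a i k) p (0, Fr.V j p.2)
  | (some j, i), (some l, k), p => T.T a i k p * cc Fr M a j l p

theorem Mult.const (T : Mult n Γ N ι) [DecidableEq ι] (a : Fin N) (i k : ι) (x : E n) :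
    T.T a i k (0, x) = (Pi.single k 1 : ι → ℝ) i := by
  rw [← T.one a x (Pi.single k 1) i]
  simp [Pi.single_apply]

theorem Mult.diff (T : Mult n Γ N ι) (a : Fin N) (i k : ι) : Differentiable ℝ (T.T a i k) :=
  (T.smooth a i k).differentiable (by simp)

theorem Mult.fderiv_zero (T : Mult n Γ N ι) (a : Fin N) (i k : ι) (x v : E n) :
    fderiv ℝ (T.T a i k) (0, x) (0, v) = 0 := by
  classical
  rw [← fderiv_slice _ (T.diff a i k)]
  simp only [T.const]
  simp

/-- prolongation of multipliers -/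
noncomputable def pr (hΓ : Act n Γ) (Fr : Frame n Γ J) (M : Maps n Γ G N) (T : Mult n Γ N ι) :
    Mult n Γ N (Option J × ι) where
  T := prT Fr M T
  smooth := by
    rintro a ⟨_ | j, i⟩ ⟨_ | l, k⟩
    · exact T.smooth a i k
    · exact contDiff_const
    · exact ((T.smooth a i k).fderiv_right (m := ∞) (by simp)).clm_apply
        (contDiff_const.prodMk ((Fr.V_smooth j).comp contDiff_snd))
    · exact (T.smooth a i k).mul (cc_smooth Fr M a j l)
  inv := by
    rintro a ⟨_ | j, i⟩ ⟨_ | l, k⟩ r γ x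
    · exact T.inv a i k r γ x
    · rfl
    · change fderiv ℝ (T.T a i k) (r, γ • x) (0, Fr.V j (γ • x)) =
        fderiv ℝ (T.T a i k) (r, x) (0, Fr.V j x)
      have hγ : Differentiable ℝ (fun y : E n => γ • y) :=
        (hΓ.smooth γ).differentiable (by simp)
      have hT : Differentiable ℝ (fun y : E n => T.T a i k (r, y)) :=
        (T.diff a i k).comp (by fun_prop)
      have h1 := fderiv_comp x (hT (γ • x)) (hγ x)
      have h3 : (fun y : E n => T.T a i k (r, y)) ∘ (fun y : E n => γ • y) =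
          (fun y : E n => T.T a i k (r, y)) := by
        funext y; exact T.inv a i k r γ y
      rw [h3] at h1
      rw [← fderiv_slice _ (T.diff a i k), ← fderiv_slice _ (T.diff a i k), h1, Fr.V_inv]
      rfl
    · change T.T a i k (r, γ • x) * cc Fr M a j l (r, γ • x) = T.T a i k (r, x) *
        cc Fr M a j l (r, x)
      rw [T.inv, cc_inv hΓ]
  one := by
    classical
    rintro a x m ⟨_ | j, i⟩
    · rw [Fintype.sum_prod_type, Fintype.sum_option]
      simp only [prT]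
      rw [T.one a x (fun k => m (none, k)) i]
      simp
    · rw [Fintype.sum_prod_type, Fintype.sum_option]
      simp only [prT, T.fderiv_zero, cc_zero]
      have h := T.one a x (fun k => m (some j, k)) i
      simp only [zero_mul, Finset.sum_const_zero, zero_add]
      rw [Finset.sum_eq_single j]
      · simpa using h
      · intro l _ hl
        simp [Ne.symm hl]
      · simp

theorem app_pr_none (hΓ : Act n Γ) (Fr : Frame n Γ J) (M : Maps n Γ G N) (T : Mult n Γ N ι)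
    (a : Fin N) (r : ℝ) (u : E n → ι → ℝ) (x : E n) (i : ι) :
    app M (pr hΓ Fr M T) a r (prol Fr u) x (none, i) = app M T a r u x i := by
  unfold app
  rw [Fintype.sum_prod_type, Fintype.sum_option]
  simp [pr, prT, prol]

theorem app_diff (M : Maps n Γ G N) (T : Mult n Γ N ι) (a : Fin N) (r : ℝ)
    (u : E n → ι → ℝ) (hu : ∀ i, Differentiable ℝ (fun y => u y i)) (i : ι) :
    Differentiable ℝ (fun y => app M T a r u y i) := by
  unfold app
  refine Differentiable.fun_sum fun k _ => ?_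
  have hT : Differentiable ℝ (fun y : E n => T.T a i k (r, y)) :=
    (T.diff a i k).comp (by fun_prop)
  exact hT.mul ((hu k).comp (Maps.diff' M a r))

theorem app_pr_some (hΓ : Act n Γ) (Fr : Frame n Γ J) (M : Maps n Γ G N) (T : Mult n Γ N ι)
    (a : Fin N) (r : ℝ) (u : E n → ι → ℝ) (hu : ∀ i, Differentiable ℝ (fun y => u y i))
    (x : E n) (j : J) (i : ι) :
    app M (pr hΓ Fr M T) a r (prol Fr u) x (some j, i) =
      fderiv ℝ (fun y => app M T a r u y i) x (Fr.V j x) := by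
  have hT : ∀ k, Differentiable ℝ (fun y : E n => T.T a i k (r, y)) := fun k =>
    (T.diff a i k).comp (by fun_prop)
  have hU : ∀ k, Differentiable ℝ (fun y : E n => u (M.φ a r y) k) := fun k =>
    (hu k).comp (Maps.diff' M a r)
  have hcomp : ∀ k, fderiv ℝ (fun y : E n => u (M.φ a r y) k) x (Fr.V j x) =
      fderiv ℝ (fun y => u y k) (M.φ a r x)
        (fderiv ℝ (fun y : E n => M.φ a r y) x (Fr.V j x)) := fun k => by
    have h := fderiv_comp x ((hu k) (M.φ a r x)) (Maps.diff' M a r x)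
    exact congrArg (fun L : E n →L[ℝ] ℝ => L (Fr.V j x)) h
  have hL : fderiv ℝ (fun y => app M T a r u y i) x (Fr.V j x) =
      ∑ k, (T.T a i k (r, x) * fderiv ℝ (fun y : E n => u (M.φ a r y) k) x (Fr.V j x) +
        u (M.φ a r x) k * fderiv ℝ (T.T a i k) (r, x) (0, Fr.V j x)) := by
    have h := HasFDerivAt.fun_sum (u := Finset.univ)
      (A := fun k (y : E n) => T.T a i k (r, y) * u (M.φ a r y) k)
      (A' := fun k => T.T a i k (r, x) • fderiv ℝ (fun y : E n => u (M.φ a r y) k) x +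
        u (M.φ a r x) k • fderiv ℝ (fun y : E n => T.T a i k (r, y)) x) (x := x)
      (fun k _ => (hT k x).hasFDerivAt.mul (hU k x).hasFDerivAt)
    have h' : fderiv ℝ (fun y => app M T a r u y i) x = _ := h.fderiv
    rw [h']
    simp only [sum_apply, add_apply, smul_apply, smul_eq_mul]
    refine Finset.sum_congr rfl fun k _ => ?_
    rw [fderiv_slice _ (T.diff a i k)]
  rw [hL]
  unfold app
  rw [Fintype.sum_prod_type, Fintype.sum_option]
  simp only [pr, prT, prol]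
  rw [Finset.sum_comm, ← Finset.sum_add_distrib]
  refine Finset.sum_congr rfl fun k _ => ?_
  rw [hcomp, ← cc_sum Fr M a j r x, Finset.mul_sum, add_comm]
  congr 1
  · refine Finset.sum_congr rfl fun l _ => ?_
    ring
  · ring

theorem prol_PT (hΓ : Act n Γ) (Fr : Frame n Γ J) (M : Maps n Γ G N) (T : Mult n Γ N ι)
    (ε : ℝ) (u : E n → ι → ℝ) (hu : ∀ i, Differentiable ℝ (fun y => u y i)) :
    prol Fr (PT M T ε u) = PT M (pr hΓ Fr M T) ε (prol Fr u) := by
  funext x ⟨o, i⟩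
  rcases o with _ | j
  · change PT M T ε u x i = _
    unfold PT
    simp only [app_pr_none]
  · change fderiv ℝ (fun y => PT M T ε u y i) x (Fr.V j x) = _
    unfold PT
    simp only [app_pr_some hΓ Fr M T _ _ u hu]
    have h := ((HasFDerivAt.fun_sum (u := Finset.univ)
      (A := fun a (y : E n) => (app M T a ε u y i + app M T a (-ε) u y i) / 2)
      (A' := fun a => (2 : ℝ)⁻¹ • (fderiv ℝ (fun y => app M T a ε u y i) x +
        fderiv ℝ (fun y => app M T a (-ε) u y i) x)) (x := x)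
      (fun a _ => by
        have := (((app_diff M T a ε u hu i) x).hasFDerivAt.add
          ((app_diff M T a (-ε) u hu i) x).hasFDerivAt).mul_const (2 : ℝ)⁻¹
        simp only [div_eq_mul_inv]
        exact this)).const_mul ((N : ℝ)⁻¹)).fderiv
    rw [h]
    simp only [sum_apply, add_apply, smul_apply, smul_eq_mul]
    congr 1
    refine Finset.sum_congr rfl fun a _ => ?_
    ring

theorem ind (hΓ : Act n Γ) (hN : 0 < N) (Fr : Frame n Γ J) (M : Maps n Γ G N) (m : ℕ) :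
    ∀ (ι : Type) [Fintype ι] (T : Mult n Γ N ι), ∃ C : ℝ, 0 < C ∧ ∀ ε : ℝ, 0 < ε → ε ≤ 1 →
      ∀ u : E n → ι → ℝ, (∀ i, ContDiff ℝ m (fun y => u y i)) → ∀ x,
        NN Fr m ι (PT M T ε u) x ≤ (1 + C * ε ^ 2) * M.P ε (NN Fr m ι u) x := by
  induction m with
  | zero =>
    intro ι _ T
    obtain ⟨C, hC, h⟩ := norm_est M hΓ hN T
    exact ⟨C, hC, fun ε hε hε1 u _ x => h ε hε hε1 u x⟩
  | succ m ih =>
    intro ι _ T
    obtain ⟨C, hC, h⟩ := ih (Option J × ι) (pr hΓ Fr M T)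
    refine ⟨C, hC, fun ε hε hε1 u hu x => ?_⟩
    have hd : ∀ i, Differentiable ℝ (fun y => u y i) := fun i =>
      (hu i).differentiable (by simp)
    have h1 := h ε hε hε1 (prol Fr u) (by
      rintro ⟨_ | j, i⟩
      · exact (hu i).of_le (by exact_mod_cast Nat.le_succ m)
      · exact ((hu i).fderiv_right (m := m) (by norm_cast)).clm_apply
          (contDiff_infty.1 (Fr.V_smooth j) m)) x
    rw [← prol_PT hΓ Fr M T ε u hd] at h1
    exact h1

end prolong2

theorem main : SpecQC := by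
  intro n Γ _ _ G J _ Fr N M hΓ hN
  let T : Mult n Γ N Unit :=
    { T := fun _ _ _ _ => 1
      smooth := fun _ _ _ => contDiff_const
      inv := fun _ _ _ _ _ _ => rfl
      one := fun _ _ m i => by simp }
  obtain ⟨C, hC, h⟩ := ind hΓ hN Fr M 4 Unit T
  refine ⟨C, hC, fun ε hε hε1 f hf x => ?_⟩
  have h1 := h ε hε hε1 (fun x _ => f x) (fun _ => hf) x
  have h2 : PT M T ε (fun x _ => f x) = fun x _ => M.P ε f x := by
    funext x i
    simp [PT, app, Maps.P, T]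
  rw [h2] at h1
  exact h1

end Vale.Agent.P223.H.QC
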