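import Vale.Agent.P223.H.Block1
import Vale.Agent.P223.H.B2
import Vale.Agent.P223.H.QC
import Vale.Agent.P223.H.B3c
import Vale.Agent.P223.H.B3b
import Vale.Agent.P223.H.B3d
import Vale.Agent.P223.H.B4
import Vale.Agent.P223.H.B5d
import Vale.Agent.P223.H.B6a
import Vale.Agent.P223.H.B6d
import Vale.Agent.P223.H.B8a
import Vale.Agent.P223.H.B8b
import Vale.Agent.P223.H.B8c
import Vale.Agent.P223.H.B8d
import Vale.Agent.P223.H.B8e
import Vale.Agent.P223.H.B9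
import Vale.Agent.P223.H.Cor
import Vale.Agent.P223.H.Conf
import Vale.Agent.P223.H.ConfScal
import Vale.Agent.P223.H.LapInt
import Vale.Agent.P223.H.Norm

/-! Final assembly of phase 1 and 2A. -/

namespace Vale.Agent.P223.H.Final

open scoped ContDiff
open MeasureTheory

/-- Block 8. -/
theorem hLoc : SpecLoc := B8e.main (B8b.main B8a.main) (B8c.main Stokes.main) B8d.main

theorem ricci (n : ℕ) (hn : 4 ≤ n) (Γ : Type) [Group Γ] [MulAction Γ (E n)]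
    (hΓ : Act n Γ) (G : E n → Matrix (Fin n) (Fin n) ℝ) (hG : Met n Γ G)
    (D : Set (E n)) (hD : MeasurableSet D) (hD' : ∀ x, ∃ γ : Γ, γ • x ∈ D)
    (ρ : E n → ℝ) (hρ : Continuous ρ) (hρ0 : ∀ x, 0 ≤ ρ x) (hρi : ∀ (γ : Γ) x, ρ (γ • x) = ρ x)
    (hric : RicGe G ρ) :
    sv n Γ ≤ ENNReal.ofReal (((n : ℝ) - 2 + √n) ^ n) * int G D (fun x => ρ x ^ ((n : ℝ) / 2)) :=
  final (B5d.main (B3d.main Frame.main Weight.main B2.main QC.main B3b.main B3c.main) Bochner.main) B6a.main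
    B6d.main Norm.main hLoc (B9.main Dom.main) n hn Γ hΓ G hG D hD hD' ρ hρ hρ0 hρi hric

theorem pinched (n : ℕ) (hn : 4 ≤ n) (Γ : Type) [Group Γ] [MulAction Γ (E n)]
    (hΓ : Act n Γ) (G : E n → Matrix (Fin n) (Fin n) ℝ) (hG : Met n Γ G)
    (D : Set (E n)) (hD : MeasurableSet D) (hD' : ∀ x, ∃ γ : Γ, γ • x ∈ D) (C : ℝ) (hC : 0 ≤ C)
    (hric : RicGe G (fun x => C * max 0 (-scal G x))) :
    sv n Γ ≤ ENNReal.ofReal (((n : ℝ) - 2 + √n) ^ n * C ^ ((n : ℝ) / 2)) *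
      int G D (fun x => max 0 (-scal G x) ^ ((n : ℝ) / 2)) := by
  rw [ENNReal.ofReal_mul (by
    have : (4 : ℝ) ≤ n := by exact_mod_cast hn
    exact pow_nonneg (by
      have := Real.sqrt_nonneg (n : ℝ)
      linarith) _)]
  exact Cor.final_scal n Γ hΓ G hG D _
    (fun ρ h1 h2 h3 h4 => ricci n hn Γ hΓ G hG D hD hD' ρ h1 h2 h3 h4) C hC hric

theorem nonpos (n : ℕ) (hn : 4 ≤ n) (Γ : Type) [Group Γ] [MulAction Γ (E n)]
    (hΓ : Act n Γ) (G : E n → Matrix (Fin n) (Fin n) ℝ) (hG : Met n Γ G)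
    (D : Set (E n)) (hD : MeasurableSet D) (hD' : ∀ x, ∃ γ : Γ, γ • x ∈ D)
    (h : ∀ x v : E n, ∑ i, ∑ j, v i * v j * ric G x i j ≤ 0) :
    sv n Γ ≤ ENNReal.ofReal (((n : ℝ) - 2 + √n) ^ n) *
      int G D (fun x => max 0 (-scal G x) ^ ((n : ℝ) / 2)) := by
  have h1 := Cor.ricGe_of_nonpos hG.pos h
  have := pinched n hn Γ hΓ G hG D hD hD' 1 zero_le_one (by
    simpa only [one_mul] using h1)
  simpa using this

theorem conformal (n : ℕ) (hn : 4 ≤ n) (Γ : Type) [Group Γ] [MulAction Γ (E n)]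
    (hΓ : Act n Γ) (G : E n → Matrix (Fin n) (Fin n) ℝ) (hG : Met n Γ G)
    (D : Set (E n)) (hD : MeasurableSet D) (hD' : ∀ x, ∃ γ : Γ, γ • x ∈ D) (s C : ℝ) (hs : 0 < s)
    (hC : 0 ≤ C) (h1 : ∀ x, scal G x ≤ -s) (h2 : RicGe G (fun _ => C * s)) (f : E n → ℝ)
    (hf : ContDiff ℝ ∞ f) (hfi : ∀ (γ : Γ) (x : E n), f (γ • x) = f x) :
    sv n Γ ≤ ENNReal.ofReal (((n : ℝ) - 2 + √n) ^ n * C ^ ((n : ℝ) / 2)) *
      int (fun x => Real.exp (2 * f x) • G x) D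
        (fun x => max 0 (-scal (fun x => Real.exp (2 * f x) • G x) x) ^ ((n : ℝ) / 2)) := by
  rw [ENNReal.ofReal_mul (by
    have : (4 : ℝ) ≤ n := by exact_mod_cast hn
    exact pow_nonneg (by
      have := Real.sqrt_nonneg (n : ℝ)
      linarith) _)]
  exact Conf.main Dom.main ConfScal.main LapInt.main n Γ G hn hΓ hG _
    (fun ρ D hD hD' h1 h2 h3 h4 => ricci n hn Γ hΓ G hG D hD hD' ρ h1 h2 h3 h4)
    s C hs hC h1 h2 f hf hfi D hD hD'

end Vale.Agent.P223.H.Final
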