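import Vale.Agent.P223.H.Frame1

/-! Block 1a: frames. -/

namespace Vale.Agent.P223.H.Frame1

open scoped ContDiff Topology
open MeasureTheory Metric

variable {n : ℕ} {Γ : Type} [Group Γ] [MulAction Γ (E n)]

/-- derivative of the action -/
noncomputable def D (γ : Γ) (x : E n) : E n →L[ℝ] E n := fderiv ℝ (fun y : E n => γ • y) x

theorem D_mul (h : Act n Γ) (γ δ : Γ) (x : E n) :
    D (γ * δ) x = (D γ (δ • x)).comp (D δ x) := by
  unfold D
  rw [← fderiv_comp x (Common.diff h γ (δ • x)) (Common.diff h δ x)]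
  congr 1
  funext y
  simp [mul_smul]

theorem D_one (x : E n) : D (1 : Γ) x = ContinuousLinearMap.id ℝ (E n) := by
  unfold D
  simp only [one_smul]
  exact fderiv_fun_id

theorem D_smooth (h : Act n Γ) (γ : Γ) : ContDiff ℝ ∞ (D γ : E n → E n →L[ℝ] E n) :=
  (h.smooth γ).fderiv_right (m := ∞) (by simp)

/-- the vector fields -/
noncomputable def VV (Γ : Type) [Group Γ] [MulAction Γ (E n)] (χ : E n → ℝ) (k : Fin n)
    (x : E n) : E n :=
  ∑ᶠ γ : Γ, χ (γ⁻¹ • x) • D γ (γ⁻¹ • x) (Pi.single k 1)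

/-- the one forms -/
noncomputable def TH (Γ : Type) [Group Γ] [MulAction Γ (E n)] (χ : E n → ℝ) (k : Fin n)
    (x : E n) : E n →L[ℝ] ℝ :=
  ∑ᶠ γ : Γ, χ (γ⁻¹ • x) • (ContinuousLinearMap.proj k : E n →L[ℝ] ℝ).comp (D γ⁻¹ x)

section
variable (h : Act n Γ) {χ : E n → ℝ} (hs : ContDiff ℝ ∞ χ) (hc : HasCompactSupport χ)
include h hc

theorem lf {F : Type} [AddCommGroup F] [Module ℝ F] (f : Γ → E n → F) :
    LocallyFinite fun γ : Γ => Function.support fun x : E n => χ (γ⁻¹ • x) • f γ x :=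
  (Common.locallyFinite_support h χ hc).subset fun _ x hx h0 => by
    apply hx; simp only at h0 ⊢; rw [h0]; simp

theorem fin_supp {F : Type} [AddCommGroup F] [Module ℝ F] (f : Γ → F) (x : E n) :
    (Function.support fun γ : Γ => χ (γ⁻¹ • x) • f γ).Finite :=
  ((lf h hc (fun γ _ => f γ)).point_finite x).subset fun γ hγ => hγ

include hs

theorem VV_smooth (k : Fin n) : ContDiff ℝ ∞ (VV Γ χ k) := by
  refine Common.contDiff_finsum _ (fun γ => ?_) (lf h hc fun γ x => D γ (γ⁻¹ • x) (Pi.single k 1))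
  exact (hs.comp (h.smooth γ⁻¹)).smul
    (((D_smooth h γ).comp (h.smooth γ⁻¹)).clm_apply contDiff_const)

theorem TH_smooth (k : Fin n) : ContDiff ℝ ∞ (TH Γ χ k) := by
  refine Common.contDiff_finsum _ (fun γ => ?_)
    (lf h hc fun γ x => (ContinuousLinearMap.proj k : E n →L[ℝ] ℝ).comp (D γ⁻¹ x))
  exact (hs.comp (h.smooth γ⁻¹)).smul (contDiff_const.clm_comp (D_smooth h γ⁻¹))

omit hs

theorem VV_inv (k : Fin n) (g : Γ) (x : E n) : VV Γ χ k (g • x) = D g x (VV Γ χ k x) := by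
  unfold VV
  have h1 : D g x (∑ᶠ γ : Γ, χ (γ⁻¹ • x) • D γ (γ⁻¹ • x) (Pi.single k 1)) =
      ∑ᶠ γ : Γ, D g x (χ (γ⁻¹ • x) • D γ (γ⁻¹ • x) (Pi.single k 1)) :=
    AddMonoidHom.map_finsum ((D g x : E n →L[ℝ] E n) : E n →ₗ[ℝ] E n).toAddMonoidHom
      (fin_supp h hc (fun γ => D γ (γ⁻¹ • x) (Pi.single k 1)) x)
  rw [h1]
  refine finsum_eq_of_bijective (fun γ => g⁻¹ * γ) (Group.mulLeft_bijective g⁻¹) fun γ => ?_
  have h2 : (g⁻¹ * γ)⁻¹ • x = γ⁻¹ • g • x := by simp [mul_smul]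
  rw [h2, map_smul]
  congr 1
  have h3 := D_mul h g (g⁻¹ * γ) (γ⁻¹ • g • x)
  rw [mul_inv_cancel_left] at h3
  rw [h3, ContinuousLinearMap.comp_apply]
  congr 2
  simp [mul_smul]

theorem TH_apply (k : Fin n) (x w : E n) :
    TH Γ χ k x w = ∑ᶠ γ : Γ, χ (γ⁻¹ • x) * D γ⁻¹ x w k := by
  unfold TH
  have h1 := AddMonoidHom.map_finsum
    (ContinuousLinearMap.apply ℝ ℝ w : (E n →L[ℝ] ℝ) →ₗ[ℝ] ℝ).toAddMonoidHom
    (fin_supp h hc (fun γ => (ContinuousLinearMap.proj k : E n →L[ℝ] ℝ).comp (D γ⁻¹ x)) x)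
  refine h1.trans (finsum_congr fun γ => ?_)
  simp

theorem TH_inv (k : Fin n) (g : Γ) (x w : E n) : TH Γ χ k (g • x) (D g x w) = TH Γ χ k x w := by
  rw [TH_apply h hc, TH_apply h hc]
  refine finsum_eq_of_bijective (fun γ => g⁻¹ * γ) (Group.mulLeft_bijective g⁻¹) fun γ => ?_
  have h2 : (g⁻¹ * γ)⁻¹ = γ⁻¹ * g := by simp
  rw [h2, mul_smul, D_mul h γ⁻¹ g x, ContinuousLinearMap.comp_apply]

theorem dual1 (hinj : ∀ (γ : Γ) (y : E n), χ y ≠ 0 → χ (γ • y) ≠ 0 → γ = 1) (x w : E n) :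
    ∑ k, TH Γ χ k x w • VV Γ χ k x = (∑ᶠ γ : Γ, χ (γ⁻¹ • x) ^ 2) • w := by
  by_cases hx : ∃ g : Γ, χ (g⁻¹ • x) ≠ 0
  · obtain ⟨g, hg⟩ := hx
    have huniq : ∀ γ : Γ, γ ≠ g → χ (γ⁻¹ • x) = 0 := by
      intro γ hγ
      by_contra h0
      have := hinj (γ⁻¹ * g) (g⁻¹ • x) hg (by rwa [mul_smul, smul_inv_smul])
      exact hγ (inv_mul_eq_one.1 this)
    have e1 : ∀ k, TH Γ χ k x w = χ (g⁻¹ • x) * D g⁻¹ x w k := by
      intro k
      rw [TH_apply h hc]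
      exact finsum_eq_single _ g fun γ hγ => by rw [huniq γ hγ, zero_mul]
    have e2 : ∀ k, VV Γ χ k x = χ (g⁻¹ • x) • D g (g⁻¹ • x) (Pi.single k 1) := by
      intro k
      exact finsum_eq_single _ g fun γ hγ => by rw [huniq γ hγ, zero_smul]
    have e3 : ∑ᶠ γ : Γ, χ (γ⁻¹ • x) ^ 2 = χ (g⁻¹ • x) ^ 2 :=
      finsum_eq_single _ g fun γ hγ => by rw [huniq γ hγ]; simp
    have e4 : D g (g⁻¹ • x) (D g⁻¹ x w) = w := by
      have := D_mul h g g⁻¹ x
      rw [mul_inv_cancel, D_one] at this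
      rw [← ContinuousLinearMap.comp_apply, ← this]
      rfl
    rw [e3]
    have e5 : D g⁻¹ x w = ∑ k, D g⁻¹ x w k • (Pi.single k (1 : ℝ) : E n) := by
      ext j
      simp [Finset.sum_apply, Pi.single_apply]
    calc ∑ k, TH Γ χ k x w • VV Γ χ k x
        = χ (g⁻¹ • x) ^ 2 • ∑ k, D g⁻¹ x w k • D g (g⁻¹ • x) (Pi.single k 1) := by
          rw [Finset.smul_sum]
          refine Finset.sum_congr rfl fun k _ => ?_
          rw [e1, e2, smul_smul, smul_smul]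
          congr 1; ring
      _ = χ (g⁻¹ • x) ^ 2 • D g (g⁻¹ • x) (D g⁻¹ x w) := by
          conv_rhs => rw [e5, map_sum]
          simp only [map_smul]
      _ = _ := by rw [e4]
  · push Not at hx
    have e1 : ∀ k, VV Γ χ k x = 0 := by
      intro k
      unfold VV
      simp [hx]
    have e3 : ∑ᶠ γ : Γ, χ (γ⁻¹ • x) ^ 2 = 0 := by
      simp [hx]
    simp [e1, e3]

end

theorem specFrame : SpecFrame := by
  intro n Γ _ _ h
  obtain ⟨m, χ, hs, hc, -, hinj, hsum⟩ := bumps h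
  refine ⟨Fin m × Fin n, inferInstance, ⟨?_⟩⟩
  exact
    { V := fun j => VV Γ (χ j.1) j.2
      th := fun j => TH Γ (χ j.1) j.2
      V_smooth := fun j => VV_smooth h (hs j.1) (hc j.1) j.2
      th_smooth := fun j => TH_smooth h (hs j.1) (hc j.1) j.2
      V_inv := fun g j x => VV_inv h (hc j.1) j.2 g x
      th_inv := fun g j x w => TH_inv h (hc j.1) j.2 g x w
      dual := fun x w => by
        rw [Fintype.sum_prod_type]
        have : ∀ i, ∑ k, TH Γ (χ i) k x w • VV Γ (χ i) k x =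
            (∑ᶠ γ : Γ, χ i (γ⁻¹ • x) ^ 2) • w := fun i => dual1 h (hc i) (hinj i) x w
        simp only [this]
        rw [← Finset.sum_smul, hsum x, one_smul] }

end Vale.Agent.P223.H.Frame1
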