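import Vale.Agent.P223.H.SpecMin
import Vale.Agent.P223.H.B25c
import Vale.Agent.P223.H.Norm
import Vale.Agent.P223.H.ConfScal

/-! Block 27, part A : linear algebra, deformation of the metric by a tensor. -/

namespace Vale.Agent.P223.H.Min

open scoped ContDiff Topology Matrix
open MeasureTheory Set Common

variable {n : ℕ}

/-! ### linear algebra -/

theorem frame (G R : Matrix (Fin n) (Fin n) ℝ) (hG : G.PosDef) :
    ∃ B m : Matrix (Fin n) (Fin n) ℝ, B.det ≠ 0 ∧ G = Bᵀ * B ∧ R = Bᵀ * m * B ∧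
      (∑ i, ∑ j, ∑ k, ∑ l, G⁻¹ i k * G⁻¹ j l * R i j * R k l = ∑ a, ∑ b, m a b ^ 2) ∧
      (∑ i, ∑ j, G⁻¹ i j * R i j = ∑ a, m a a) := by
  obtain ⟨B, hB, hdet⟩ := Norm.exists_factor G hG
  have hu : IsUnit B.det := isUnit_iff_ne_zero.2 hdet
  have hut : IsUnit Bᵀ.det := by rwa [Matrix.det_transpose]
  have hGi : G⁻¹ = B⁻¹ * (B⁻¹)ᵀ := by
    rw [hB, Matrix.mul_inv_rev, Matrix.transpose_nonsing_inv]
  have hsym : (G⁻¹)ᵀ = G⁻¹ := by
    rw [hGi, Matrix.transpose_mul, Matrix.transpose_transpose]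
  refine ⟨B, (B⁻¹)ᵀ * R * B⁻¹, hdet, hB, ?_, ?_, ?_⟩
  · rw [Matrix.transpose_nonsing_inv]
    calc R = (Bᵀ * (Bᵀ)⁻¹) * R * (B⁻¹ * B) := by
          rw [Matrix.mul_nonsing_inv _ hut, Matrix.nonsing_inv_mul _ hu, Matrix.one_mul,
            Matrix.mul_one]
      _ = _ := by simp only [Matrix.mul_assoc]
  · set m := (B⁻¹)ᵀ * R * B⁻¹ with hm
    have e1 : ∑ a, ∑ b, m a b ^ 2 = (m * mᵀ).trace := by
      simp only [Matrix.trace, Matrix.diag_apply, Matrix.mul_apply, Matrix.transpose_apply]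
      exact Finset.sum_congr rfl fun a _ => Finset.sum_congr rfl fun b _ => by ring
    have e2 : (m * mᵀ).trace = (G⁻¹ * R * G⁻¹ * Rᵀ).trace := by
      rw [hm, hGi]
      simp only [Matrix.transpose_mul, Matrix.transpose_transpose]
      rw [show (B⁻¹)ᵀ * R * B⁻¹ * ((B⁻¹)ᵀ * (Rᵀ * B⁻¹)) =
        ((B⁻¹)ᵀ * R * (B⁻¹ * (B⁻¹)ᵀ) * Rᵀ) * B⁻¹ by simp only [Matrix.mul_assoc],
        Matrix.trace_mul_comm]
      simp only [Matrix.mul_assoc]
    rw [e1, e2]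
    simp only [Matrix.trace, Matrix.diag_apply, Matrix.mul_apply, Matrix.transpose_apply,
      Finset.sum_mul]
    have hs : ∀ a b, G⁻¹ a b = G⁻¹ b a := fun a b => by
      conv_lhs => rw [← hsym]
      rfl
    -- LHS i j k l ; RHS k l j i
    have e3 : ∑ i, ∑ j, ∑ k, ∑ l, G⁻¹ i k * G⁻¹ j l * R i j * R k l =
        ∑ k, ∑ l, ∑ j, ∑ i, G⁻¹ i k * G⁻¹ j l * R i j * R k l := by
      calc _ = ∑ i, ∑ k, ∑ j, ∑ l, G⁻¹ i k * G⁻¹ j l * R i j * R k l :=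
            Finset.sum_congr rfl fun i _ => Finset.sum_comm
        _ = ∑ k, ∑ i, ∑ j, ∑ l, G⁻¹ i k * G⁻¹ j l * R i j * R k l := Finset.sum_comm
        _ = ∑ k, ∑ i, ∑ l, ∑ j, G⁻¹ i k * G⁻¹ j l * R i j * R k l :=
            Finset.sum_congr rfl fun k _ => Finset.sum_congr rfl fun i _ => Finset.sum_comm
        _ = ∑ k, ∑ l, ∑ i, ∑ j, G⁻¹ i k * G⁻¹ j l * R i j * R k l :=
            Finset.sum_congr rfl fun k _ => Finset.sum_comm
        _ = _ := Finset.sum_congr rfl fun k _ => Finset.sum_congr rfl fun l _ => Finset.sum_comm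
    rw [e3]
    refine Finset.sum_congr rfl fun k _ => Finset.sum_congr rfl fun l _ =>
      Finset.sum_congr rfl fun j _ => Finset.sum_congr rfl fun i _ => ?_
    rw [hs i k]
    ring
  · set m := (B⁻¹)ᵀ * R * B⁻¹ with hm
    have e1 : ∑ a, m a a = m.trace := rfl
    have e2 : m.trace = (G⁻¹ * R).trace := by
      rw [hm, hGi, Matrix.mul_assoc, Matrix.trace_mul_comm, Matrix.mul_assoc,
        Matrix.trace_mul_comm]
    rw [e1, e2]
    simp only [Matrix.trace, Matrix.diag_apply, Matrix.mul_apply]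
    have hs : ∀ a b, G⁻¹ a b = G⁻¹ b a := fun a b => by
      conv_lhs => rw [← hsym]
      rfl
    rw [Finset.sum_comm]
    exact Finset.sum_congr rfl fun j _ => Finset.sum_congr rfl fun i _ => by rw [hs i j]

/-- equality case of the trace inequality -/
theorem eq_of_trace (hn : n ≠ 0) (G R : Matrix (Fin n) (Fin n) ℝ) (hG : G.PosDef)
    (h : (n : ℝ) * ∑ i, ∑ j, ∑ k, ∑ l, G⁻¹ i k * G⁻¹ j l * R i j * R k l =
      (∑ i, ∑ j, G⁻¹ i j * R i j) ^ 2) :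
    R = ((∑ i, ∑ j, G⁻¹ i j * R i j) / n) • G := by
  obtain ⟨B, m, hB, hGB, hR, h1, h2⟩ := frame G R hG
  rw [h1, h2] at h
  rw [h2]
  have hn0 : (n : ℝ) ≠ 0 := by exact_mod_cast hn
  set t : ℝ := ∑ a, m a a with ht
  have h3 : ∑ a, ∑ b, (m a b - t / n * (1 : Matrix (Fin n) (Fin n) ℝ) a b) ^ 2 = 0 := by
    have e1 : ∀ a b, (m a b - t / n * (1 : Matrix (Fin n) (Fin n) ℝ) a b) ^ 2 =
        m a b ^ 2 - 2 * (t / n) * (m a b * (1 : Matrix (Fin n) (Fin n) ℝ) a b) +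
          (t / n) ^ 2 * (1 : Matrix (Fin n) (Fin n) ℝ) a b ^ 2 := fun a b => by ring
    simp only [e1, Finset.sum_add_distrib, Finset.sum_sub_distrib, ← Finset.mul_sum]
    have e2 : ∑ a, ∑ b, m a b * (1 : Matrix (Fin n) (Fin n) ℝ) a b = t := by
      rw [ht]
      exact Finset.sum_congr rfl fun a _ => by simp [Matrix.one_apply]
    have e3 : ∑ a : Fin n, ∑ b, (1 : Matrix (Fin n) (Fin n) ℝ) a b ^ 2 = n := by
      simp [Matrix.one_apply]
    rw [e2, e3]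
    have e4 : ∑ a, ∑ b, m a b ^ 2 = t ^ 2 / n := by
      rw [eq_div_iff hn0, mul_comm]; exact h
    rw [e4]
    field_simp
    ring
  have h4 : ∀ a b, m a b = t / n * (1 : Matrix (Fin n) (Fin n) ℝ) a b := by
    intro a b
    have h5 := (Finset.sum_eq_zero_iff_of_nonneg (fun a _ => Finset.sum_nonneg fun b _ =>
      sq_nonneg _)).1 h3 a (Finset.mem_univ a)
    have h6 := (Finset.sum_eq_zero_iff_of_nonneg (fun b _ => sq_nonneg _)).1 h5 b
      (Finset.mem_univ b)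
    have h7 := pow_eq_zero_iff (two_ne_zero) |>.1 h6
    linarith
  have h5 : m = (t / n) • (1 : Matrix (Fin n) (Fin n) ℝ) := by
    ext a b
    rw [h4 a b]; simp
  rw [hR, h5, hGB]
  simp

/-- `|R(v,v)| ≤ |R| G(v,v)` -/
theorem quad_le (G R : Matrix (Fin n) (Fin n) ℝ) (hG : G.PosDef) (v : Fin n → ℝ) :
    |v ⬝ᵥ (R *ᵥ v)| ≤ √(∑ i, ∑ j, ∑ k, ∑ l, G⁻¹ i k * G⁻¹ j l * R i j * R k l) *
      (v ⬝ᵥ (G *ᵥ v)) := by
  obtain ⟨B, m, hB, hGB, hR, h1, h2⟩ := frame G R hG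
  rw [h1]
  set w : Fin n → ℝ := B *ᵥ v with hw
  have e1 : v ⬝ᵥ (G *ᵥ v) = ∑ a, w a ^ 2 := by
    rw [hGB, ← Matrix.mulVec_mulVec, Matrix.dotProduct_mulVec, Matrix.vecMul_transpose, ← hw]
    exact Finset.sum_congr rfl fun a _ => by ring
  have e2 : v ⬝ᵥ (R *ᵥ v) = ∑ a, ∑ b, m a b * (w a * w b) := by
    rw [hR, Matrix.mul_assoc, ← Matrix.mulVec_mulVec, Matrix.dotProduct_mulVec,
      Matrix.vecMul_transpose, ← Matrix.mulVec_mulVec, ← hw]
    simp only [dotProduct, Matrix.mulVec, Finset.mul_sum]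
    exact Finset.sum_congr rfl fun a _ => Finset.sum_congr rfl fun b _ => by ring
  rw [e1, e2]
  have hS : 0 ≤ ∑ a, w a ^ 2 := Finset.sum_nonneg fun a _ => sq_nonneg _
  have h3 : (∑ a, ∑ b, m a b * (w a * w b)) ^ 2 ≤
      (∑ a, ∑ b, m a b ^ 2) * (∑ a, w a ^ 2) ^ 2 := by
    have h4 := Finset.sum_mul_sq_le_sq_mul_sq (Finset.univ : Finset (Fin n × Fin n))
      (fun q => m q.1 q.2) (fun q => w q.1 * w q.2)
    simp only [Fintype.sum_prod_type] at h4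
    refine h4.trans (le_of_eq ?_)
    congr 1
    rw [sq (∑ a, w a ^ 2), Finset.sum_mul_sum]
    exact Finset.sum_congr rfl fun a _ => Finset.sum_congr rfl fun b _ => by ring
  have h5 := Real.abs_le_sqrt h3
  refine h5.trans (le_of_eq ?_)
  rw [Real.sqrt_mul' _ (sq_nonneg _), Real.sqrt_sq hS]

end Vale.Agent.P223.H.Min
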