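import Vale.Agent.P223.H.MinA

/-! Block 27, part B : calculus. -/

namespace Vale.Agent.P223.H.Min

open scoped ContDiff Topology Matrix
open MeasureTheory Set Common B25c

variable {n : ℕ}

/-! ### the function `(u⁻)^p` -/

/-- `(u⁻)^p` -/
noncomputable def h0 (p u : ℝ) : ℝ := max 0 (-u) ^ p

/-- its derivative -/
noncomputable def h1 (p u : ℝ) : ℝ := -(p * max 0 (-u) ^ (p - 1))

theorem h0_deriv {p : ℝ} (hp : 1 < p) (u : ℝ) : HasDerivAt (h0 p) (h1 p u) u := by
  have hp0 : p ≠ 0 := by linarith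
  have hp1 : p - 1 ≠ 0 := by linarith
  rcases lt_trichotomy u 0 with h | h | h
  · have h2 : HasDerivAt (fun v : ℝ => (-v) ^ p) (-1 * p * (-u) ^ (p - 1)) u :=
      (hasDerivAt_neg u).rpow_const (Or.inl (by linarith))
    have e : h1 p u = -1 * p * (-u) ^ (p - 1) := by
      unfold h1
      rw [max_eq_right (by linarith)]; ring
    rw [e]
    refine h2.congr_of_eventuallyEq ?_
    filter_upwards [Iio_mem_nhds h] with v hv
    unfold h0
    rw [max_eq_right (by linarith [mem_Iio.1 hv])]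
  · subst h
    have e : h1 p 0 = 0 := by
      unfold h1
      rw [neg_zero, max_self, Real.zero_rpow hp1, mul_zero, neg_zero]
    rw [e]
    rw [hasDerivAt_iff_isLittleO, Asymptotics.isLittleO_iff]
    intro c hc
    have hcont : ContinuousAt (fun v : ℝ => |v| ^ (p - 1)) 0 :=
      (continuous_abs.rpow_const fun x => Or.inr (by linarith)).continuousAt
    have hlt : ∀ᶠ v in 𝓝 (0 : ℝ), |v| ^ (p - 1) < c := by
      refine hcont.eventually_lt_const ?_
      show |(0 : ℝ)| ^ (p - 1) < c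
      rw [abs_zero, Real.zero_rpow hp1]; exact hc
    filter_upwards [hlt] with v hv
    have e0 : h0 p 0 = 0 := by
      unfold h0
      rw [neg_zero, max_self, Real.zero_rpow hp0]
    rw [e0, smul_zero, sub_zero, sub_zero, sub_zero]
    have h5 : h0 p v ≤ |v| ^ p :=
      Real.rpow_le_rpow (le_max_left _ _) (max_le (abs_nonneg v) (neg_le_abs v)) (by linarith)
    have h6 : |v| ^ p ≤ |v| ^ (p - 1) * |v| := by
      rcases eq_or_lt_of_le (abs_nonneg v) with h7 | h7
      · rw [← h7, Real.zero_rpow hp0, mul_zero]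
      · rw [← Real.rpow_add_one h7.ne']
        exact le_of_eq (by congr 1; ring)
    rw [Real.norm_of_nonneg (show 0 ≤ h0 p v from Real.rpow_nonneg (le_max_left _ _) p),
      Real.norm_eq_abs]
    calc h0 p v ≤ |v| ^ (p - 1) * |v| := h5.trans h6
      _ ≤ c * |v| := by
        have := abs_nonneg v
        gcongr
  · have e : h1 p u = 0 := by
      unfold h1
      rw [max_eq_left (by linarith), Real.zero_rpow hp1, mul_zero, neg_zero]
    rw [e]
    refine (hasDerivAt_const u (0 : ℝ)).congr_of_eventuallyEq ?_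
    filter_upwards [Ioi_mem_nhds h] with v hv
    unfold h0
    rw [max_eq_left (by linarith [mem_Ioi.1 hv]), Real.zero_rpow hp0]

theorem h0_cont {p : ℝ} (hp : 1 < p) : Continuous (h0 p) :=
  continuous_iff_continuousAt.2 fun u => (h0_deriv hp u).continuousAt

theorem h1_cont {p : ℝ} (hp : 1 < p) : Continuous (h1 p) := by
  unfold h1
  exact (continuous_const.mul ((continuous_const.max continuous_neg).rpow_const
    fun x => Or.inr (by linarith))).neg

theorem h1_nonpos {p : ℝ} (hp : 1 < p) (u : ℝ) : h1 p u ≤ 0 := by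
  unfold h1
  have : 0 ≤ max 0 (-u) ^ (p - 1) := Real.rpow_nonneg (le_max_left _ _) _
  have : 0 ≤ p * max 0 (-u) ^ (p - 1) := by positivity
  linarith

theorem h1_neg {p : ℝ} (hp : 1 < p) {u : ℝ} (hu : u < 0) : h1 p u < 0 := by
  unfold h1
  rw [max_eq_right (by linarith)]
  have : 0 < (-u) ^ (p - 1) := Real.rpow_pos_of_pos (by linarith) _
  have : 0 < p * (-u) ^ (p - 1) := by positivity
  linarith

/-- the cancellation -/
theorem cancel {p N : ℝ} (hN : 0 < N) (hp : p = N / 2) (hp1 : 1 < p) (u : ℝ) :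
    h1 p u * (2 * (u ^ 2 / N)) + h0 p u * (-u) = 0 := by
  unfold h0 h1
  rcases le_or_gt 0 u with h | h
  · rw [max_eq_left (by linarith), Real.zero_rpow (by linarith : p ≠ 0),
      Real.zero_rpow (by linarith : p - 1 ≠ 0)]
    ring
  · rw [max_eq_right (by linarith), Real.rpow_sub (by linarith), Real.rpow_one]
    have hu : u ≠ 0 := h.ne
    rw [hp]
    field_simp
    ring

/-- convergence of the derivatives -/
theorem F1_tendsto {p : ℝ} (hp : 1 < p) (u : ℝ) :
    Filter.Tendsto (fun k : ℕ => F1 p (1 / ((k : ℝ) + 1)) u) Filter.atTop (𝓝 (h1 p u)) := by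
  have hηk : ∀ k : ℕ, (0 : ℝ) < 1 / ((k : ℝ) + 1) := fun k => by positivity
  have hη := tendsto_one_div_add_atTop_nhds_zero_nat (𝕜 := ℝ)
  have h1' : Filter.Tendsto (fun k : ℕ => hh (1 / ((k : ℝ) + 1)) u) Filter.atTop
      (𝓝 (max 0 (-u))) := by
    refine tendsto_of_tendsto_of_tendsto_of_le_of_le tendsto_const_nhds ?_
      (fun k => le_hh (hηk k) _) (fun k => hh_le (hηk k) _)
    have := hη.const_add (max 0 (-u))
    simpa using this
  rcases le_or_gt 0 u with h | h
  · have e : h1 p u = 0 := by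
      unfold h1
      rw [max_eq_left (by linarith), Real.zero_rpow (by linarith), mul_zero, neg_zero]
    rw [e]
    have h2 := (h1'.rpow_const (p := p - 1) (Or.inr (by linarith))).const_mul (-p)
    rw [max_eq_left (by linarith), Real.zero_rpow (by linarith), mul_zero] at h2
    refine tendsto_of_tendsto_of_tendsto_of_le_of_le h2 tendsto_const_nhds ?_ ?_
    · intro k
      show -p * hh (1 / ((k : ℝ) + 1)) u ^ (p - 1) ≤ F1 p (1 / ((k : ℝ) + 1)) u
      unfold F1 B25c.FF
      have h3 := hh_pos (hηk k) u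
      have h4 := rr_pos (hηk k) u
      have h5 := abs_lt_rr (hηk k) u
      have h6 := neg_abs_le u
      have h7 : hh (1 / ((k : ℝ) + 1)) u ≤ rr (1 / ((k : ℝ) + 1)) u := by
        unfold hh; linarith
      have h8 : hh (1 / ((k : ℝ) + 1)) u ^ p =
          hh (1 / ((k : ℝ) + 1)) u ^ (p - 1) * hh (1 / ((k : ℝ) + 1)) u := by
        rw [← Real.rpow_add_one h3.ne']; congr 1; ring
      rw [h8]
      have h9 : 0 < hh (1 / ((k : ℝ) + 1)) u ^ (p - 1) := Real.rpow_pos_of_pos h3 _
      rw [neg_mul, neg_le_neg_iff, div_le_iff₀ h4]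
      have : hh (1 / ((k : ℝ) + 1)) u ^ (p - 1) * hh (1 / ((k : ℝ) + 1)) u ≤
        hh (1 / ((k : ℝ) + 1)) u ^ (p - 1) * rr (1 / ((k : ℝ) + 1)) u := by gcongr
      nlinarith
    · intro k
      exact F1_nonpos (hηk k) (by linarith) u
  · have hr : Filter.Tendsto (fun k : ℕ => rr (1 / ((k : ℝ) + 1)) u) Filter.atTop
        (𝓝 |u|) := by
      refine tendsto_of_tendsto_of_tendsto_of_le_of_le tendsto_const_nhds ?_
        (fun k => (abs_lt_rr (hηk k) u).le) (fun k => rr_le (hηk k) _)
      have := hη.const_add |u|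
      simpa using this
    have hu : |u| ≠ 0 := abs_ne_zero.2 h.ne
    have h2 := ((((h1'.rpow_const (p := p) (Or.inr (by linarith))).const_mul p).div hr hu)).neg
    have e : -(p * max 0 (-u) ^ p / |u|) = h1 p u := by
      unfold h1
      rw [max_eq_right (by linarith), abs_of_neg h, Real.rpow_sub (by linarith), Real.rpow_one]
      have : -u ≠ 0 := by linarith
      field_simp
    rw [e] at h2
    exact h2

theorem F1_bound {p : ℝ} (hp : 1 < p) (k : ℕ) (u : ℝ) :
    |F1 p (1 / ((k : ℝ) + 1)) u| ≤ p * (max 0 (-u) + 1) ^ (p - 1) := by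
  have hηk : (0 : ℝ) < 1 / ((k : ℝ) + 1) := by positivity
  have h3 := hh_pos hηk u
  have h4 := rr_pos hηk u
  have h5 := abs_lt_rr hηk u
  have h6 := neg_abs_le u
  have h7 : hh (1 / ((k : ℝ) + 1)) u ≤ rr (1 / ((k : ℝ) + 1)) u := by
    unfold hh; linarith
  have h8 : hh (1 / ((k : ℝ) + 1)) u ^ p =
      hh (1 / ((k : ℝ) + 1)) u ^ (p - 1) * hh (1 / ((k : ℝ) + 1)) u := by
    rw [← Real.rpow_add_one h3.ne']; congr 1; ring
  have h9 : 0 < hh (1 / ((k : ℝ) + 1)) u ^ (p - 1) := Real.rpow_pos_of_pos h3 _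
  have hη1 : 1 / ((k : ℝ) + 1) ≤ 1 := by
    rw [div_le_one (by positivity)]
    have : (0 : ℝ) ≤ k := Nat.cast_nonneg k
    linarith
  have h10 : hh (1 / ((k : ℝ) + 1)) u ≤ max 0 (-u) + 1 := (hh_le hηk u).trans (by linarith)
  have h11 : hh (1 / ((k : ℝ) + 1)) u ^ (p - 1) ≤ (max 0 (-u) + 1) ^ (p - 1) :=
    Real.rpow_le_rpow h3.le h10 (by linarith)
  rw [abs_of_nonpos (F1_nonpos hηk (by linarith) u)]
  unfold F1 B25c.FF
  rw [neg_neg, h8, div_le_iff₀ h4]
  have h12 : hh (1 / ((k : ℝ) + 1)) u ^ (p - 1) * hh (1 / ((k : ℝ) + 1)) u ≤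
      (max 0 (-u) + 1) ^ (p - 1) * rr (1 / ((k : ℝ) + 1)) u := by gcongr
  have h13 : 0 < p := by linarith
  calc p * (hh (1 / ((k : ℝ) + 1)) u ^ (p - 1) * hh (1 / ((k : ℝ) + 1)) u) ≤
      p * ((max 0 (-u) + 1) ^ (p - 1) * rr (1 / ((k : ℝ) + 1)) u) := by gcongr
    _ = _ := by ring

/-! ### differentiation of integrals -/

theorem cd_dt {f : ℝ → E n → ℝ} (hf : ContDiff ℝ ∞ (fun p : ℝ × E n => f p.1 p.2)) :
    Continuous (fun p : ℝ × E n => deriv (fun s => f s p.2) p.1) ∧
      ∀ t x, HasDerivAt (fun s => f s x) (deriv (fun s => f s x) t) t := by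
  have hKd : ∀ s x, HasDerivAt (fun s => f s x)
      (fderiv ℝ (fun q : ℝ × E n => f q.1 q.2) (s, x) (1, 0)) s := by
    intro s x
    have h1 : HasFDerivAt (fun q : ℝ × E n => f q.1 q.2)
        (fderiv ℝ (fun q : ℝ × E n => f q.1 q.2) (s, x)) (s, x) :=
      (hf.differentiable (by simp) _).hasFDerivAt
    have h2 : HasDerivAt (fun s : ℝ => (s, x)) ((1 : ℝ), (0 : E n)) s :=
      (hasDerivAt_id s).prodMk (hasDerivAt_const s x)
    exact h1.comp_hasDerivAt s h2
  have hde : ∀ s x, deriv (fun s => f s x) s =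
      fderiv ℝ (fun q : ℝ × E n => f q.1 q.2) (s, x) (1, 0) := fun s x => (hKd s x).deriv
  refine ⟨?_, fun t x => by rw [hde]; exact hKd t x⟩
  have : (fun p : ℝ × E n => deriv (fun s => f s p.2) p.1) = fun p : ℝ × E n =>
      fderiv ℝ (fun q : ℝ × E n => f q.1 q.2) p (1, 0) := by
    funext p; exact hde p.1 p.2
  rw [this]
  exact (hf.continuous_fderiv (by simp)).clm_apply continuous_const

theorem integral_deriv' {K K' : ℝ → E n → ℝ} (hK : ∀ t, Continuous (K t))
    (hd : ∀ t x, HasDerivAt (fun s => K s x) (K' t x) t)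
    (hc : Continuous (fun p : ℝ × E n => K' p.1 p.2))
    {D : Set (E n)} (hDb : Bornology.IsBounded D) (t : ℝ) :
    HasDerivAt (fun s => ∫ x in D, K s x) (∫ x in D, K' t x) t := by
  obtain ⟨R, hR⟩ := hDb.subset_closedBall (0 : E n)
  have hcpt : IsCompact (Icc (t - 1) (t + 1) ×ˢ Metric.closedBall (0 : E n) R) :=
    isCompact_Icc.prod (isCompact_closedBall 0 R)
  obtain ⟨C, hC⟩ := hcpt.exists_bound_of_continuousOn hc.continuousOn
  have hfin : volume D < ⊤ := hDb.measure_lt_top
  have : IsFiniteMeasure (volume.restrict D) := ⟨by simpa using hfin⟩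
  have hdc : Continuous (fun x => K' t x) :=
    hc.comp (Continuous.prodMk (continuous_const (y := t)) continuous_id)
  have hmem : Icc (t - 1) (t + 1) ∈ 𝓝 t := Icc_mem_nhds (by linarith) (by linarith)
  have := hasDerivAt_integral_of_dominated_loc_of_deriv_le (μ := volume.restrict D)
    (F := K) (F' := K') (x₀ := t) (bound := fun _ => C) hmem
    (Filter.Eventually.of_forall fun s => (hK s).aestronglyMeasurable) (intOn hDb (hK t))
    (hdc.aestronglyMeasurable) ?_ (integrable_const C) ?_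
  · exact this.2
  · have hae : ∀ᵐ x ∂(volume.restrict D), x ∈ Metric.closedBall (0 : E n) R := by
      have h1 : volume.restrict D ≤ volume.restrict (Metric.closedBall (0 : E n) R) :=
        Measure.restrict_mono hR le_rfl
      exact ae_mono h1 (ae_restrict_mem measurableSet_closedBall)
    filter_upwards [hae] with x hx s hs
    exact hC (s, x) ⟨hs, hx⟩
  · exact Filter.Eventually.of_forall fun x s _ => hd s x

end Vale.Agent.P223.H.Min
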