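import Vale.Agent.P223.H.MinB

/-! Block 27, part C : the path of metrics `G - 2 τ(t) Ric`. -/

namespace Vale.Agent.P223.H.Min

open scoped ContDiff Topology Matrix
open MeasureTheory Set Common B25c

variable {n : ℕ} {Γ : Type} [Group Γ] [MulAction Γ (E n)]

/-- the Ricci tensor as a matrix -/
noncomputable def Rm (G : E n → Matrix (Fin n) (Fin n) ℝ) (x : E n) :
    Matrix (Fin n) (Fin n) ℝ := Matrix.of fun i j => ric G x i j

theorem Rm_apply (G : E n → Matrix (Fin n) (Fin n) ℝ) (x : E n) (i j : Fin n) :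
    Rm G x i j = ric G x i j := rfl

theorem Rm_trans {G : E n → Matrix (Fin n) (Fin n) ℝ} (h : Act n Γ) (hG : Met n Γ G)
    (γ : Γ) (x : E n) : (Dm γ x)ᵀ * Rm G (γ • x) * Dm γ x = Rm G x := by
  ext a b
  have := ricci_trans (Bridge.metricOn hG.smooth hG.pos) isOpen_univ
    (Bridge.metricOn hG.smooth hG.pos) isOpen_univ (Bridge.chg h hG γ) (Set.mem_univ x) a b
  simp only [Bridge.jac_eq h] at this
  have e : Rm G x a b = ricci G x a b := rfl
  rw [e, this]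
  simp only [Matrix.mul_apply, Matrix.transpose_apply, Finset.sum_mul]
  refine Finset.sum_congr rfl fun q _ => Finset.sum_congr rfl fun r _ => ?_
  show Dm γ x r a * ricci G (γ • x) r q * Dm γ x q b = _
  ring

/-- bilinear form -/
theorem bil (A : Matrix (Fin n) (Fin n) ℝ) (v w : E n) :
    v ⬝ᵥ (A *ᵥ w) = ∑ i, ∑ j, v i * w j * A i j := by
  simp only [dotProduct, Matrix.mulVec, Finset.mul_sum]
  exact Finset.sum_congr rfl fun i _ => Finset.sum_congr rfl fun j _ => by ring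

theorem bil_trans {A : E n → Matrix (Fin n) (Fin n) ℝ} {γ : Γ} {x : E n}
    (hA : (Dm γ x)ᵀ * A (γ • x) * Dm γ x = A x) (v w : E n) :
    (Dm γ x *ᵥ v) ⬝ᵥ (A (γ • x) *ᵥ (Dm γ x *ᵥ w)) = v ⬝ᵥ (A x *ᵥ w) := by
  rw [← hA, ← Matrix.mulVec_mulVec, ← Matrix.mulVec_mulVec, Matrix.dotProduct_mulVec v,
    Matrix.vecMul_transpose]

theorem inv_of_trans {A : E n → Matrix (Fin n) (Fin n) ℝ}
    (hA : ∀ (γ : Γ) x, (Dm γ x)ᵀ * A (γ • x) * Dm γ x = A x) (γ : Γ) (x v w : E n) :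
    ∑ i, ∑ j, fderiv ℝ (fun y : E n => γ • y) x v i *
    fderiv ℝ (fun y : E n => γ • y) x w j * A (γ • x) i j = ∑ i, ∑ j, v i * w j * A x i j := by
  rw [← bil, ← bil, ← bil_trans (hA γ x), Dm_mulVec, Dm_mulVec]

theorem cont_Rm {G : E n → Matrix (Fin n) (Fin n) ℝ}
    (h1 : ∀ i j, ContDiff ℝ ∞ (fun x => G x i j)) (h2 : ∀ x, (G x).PosDef) (i j : Fin n) :
    ContDiff ℝ ∞ (fun x => Rm G x i j) :=
  cd_at (f := fun t x => ric ((fun _ : ℝ => G) t) x i j)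
    (cd_ric (G := fun _ : ℝ => G) (fun i j => (h1 i j).comp contDiff_snd) (fun _ => h2) i j) 0

theorem cont_scal {G : E n → Matrix (Fin n) (Fin n) ℝ}
    (h1 : ∀ i j, ContDiff ℝ ∞ (fun x => G x i j)) (h2 : ∀ x, (G x).PosDef) :
    ContDiff ℝ ∞ (fun x => scal G x) :=
  cd_at (f := fun t x => scal ((fun _ : ℝ => G) t) x)
    (cd_scal (G := fun _ : ℝ => G) (fun i j => (h1 i j).comp contDiff_snd) (fun _ => h2)) 0

theorem cont_dens {G : E n → Matrix (Fin n) (Fin n) ℝ}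
    (h1 : ∀ i j, ContDiff ℝ ∞ (fun x => G x i j)) (h2 : ∀ x, (G x).PosDef) :
    ContDiff ℝ ∞ (fun x => dens G x) :=
  cd_at (f := fun t x => dens ((fun _ : ℝ => G) t) x)
    (cd_dens (G := fun _ : ℝ => G) (fun i j => (h1 i j).comp contDiff_snd) (fun _ => h2)) 0

theorem cont_Ginv {G : E n → Matrix (Fin n) (Fin n) ℝ}
    (h1 : ∀ i j, ContDiff ℝ ∞ (fun x => G x i j)) (h2 : ∀ x, (G x).PosDef) (i j : Fin n) :
    ContDiff ℝ ∞ (fun x => (G x)⁻¹ i j) :=
  cd_at (f := fun t x => ((fun _ : ℝ => G) t x)⁻¹ i j)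
    (cd_G_inv (G := fun _ : ℝ => G) (fun i j => (h1 i j).comp contDiff_snd) (fun _ => h2) i j) 0

theorem cont_chr {G : E n → Matrix (Fin n) (Fin n) ℝ}
    (h1 : ∀ i j, ContDiff ℝ ∞ (fun x => G x i j)) (h2 : ∀ x, (G x).PosDef) (k i j : Fin n) :
    ContDiff ℝ ∞ (fun x => chr G x k i j) :=
  cd_at (f := fun t x => chr ((fun _ : ℝ => G) t) x k i j)
    (cd_chr (G := fun _ : ℝ => G) (fun i j => (h1 i j).comp contDiff_snd) (fun _ => h2) k i j) 0

theorem cont_ricSq {G : E n → Matrix (Fin n) (Fin n) ℝ}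
    (h1 : ∀ i j, ContDiff ℝ ∞ (fun x => G x i j)) (h2 : ∀ x, (G x).PosDef) :
    ContDiff ℝ ∞ (fun x => ricSq G x) := by
  unfold ricSq
  exact ContDiff.sum fun i _ => ContDiff.sum fun j _ => ContDiff.sum fun k _ =>
    ContDiff.sum fun l _ => (((cont_Ginv h1 h2 i k).mul (cont_Ginv h1 h2 j l)).mul
      (cont_Rm h1 h2 i j)).mul (cont_Rm h1 h2 k l)

theorem cont_lap {G : E n → Matrix (Fin n) (Fin n) ℝ}
    (h1 : ∀ i j, ContDiff ℝ ∞ (fun x => G x i j)) (h2 : ∀ x, (G x).PosDef)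
    {f : E n → ℝ} (hf : ContDiff ℝ ∞ f) : ContDiff ℝ ∞ (fun x => lap G f x) := by
  unfold lap
  refine ContDiff.sum fun i _ => ContDiff.sum fun j _ => (cont_Ginv h1 h2 i j).mul ?_
  have hpd : ∀ k, ContDiff ℝ ∞ (fun y => pd k f y) := fun k =>
    Bridge.contDiff_pd hf (by simp) k
  refine (Bridge.contDiff_pd (hpd j) (by simp) i).sub
    (ContDiff.sum fun k _ => (cont_chr h1 h2 k i j).mul (hpd k))

/-- bound for the Ricci tensor -/
theorem exists_bound {G : E n → Matrix (Fin n) (Fin n) ℝ} (h : Act n Γ) (hG : Met n Γ G) :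
    ∃ M : ℝ, 0 < M ∧ ∀ x v : E n, |v ⬝ᵥ (Rm G x *ᵥ v)| ≤ M * (v ⬝ᵥ (G x *ᵥ v)) := by
  obtain ⟨K, hK, hK'⟩ := h.cocompact
  obtain ⟨C, hC⟩ := hK.exists_bound_of_continuousOn
    (f := fun x => √(ricSq G x)) (cont_ricSq hG.smooth hG.pos).continuous.sqrt.continuousOn
  refine ⟨max C 1, by positivity, fun x v => ?_⟩
  obtain ⟨γ, hγ⟩ := hK' x
  rw [← bil_trans (A := Rm G) (Rm_trans h hG γ x), ← bil_trans (A := G) (G_trans hG γ x)]
  refine (quad_le (G (γ • x)) (Rm G (γ • x)) (hG.pos _) _).trans ?_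
  have h1 : 0 ≤ (Dm γ x *ᵥ v) ⬝ᵥ (G (γ • x) *ᵥ (Dm γ x *ᵥ v)) := by
    have := (hG.pos (γ • x)).posSemidef.dotProduct_mulVec_nonneg (Dm γ x *ᵥ v)
    simpa using this
  refine mul_le_mul_of_nonneg_right ?_ h1
  have h2 := hC _ hγ
  rw [Real.norm_of_nonneg (Real.sqrt_nonneg _)] at h2
  exact h2.trans (le_max_left _ _)

/-- the path of metrics -/
noncomputable def Gt (G : E n → Matrix (Fin n) (Fin n) ℝ) (ε t : ℝ) (x : E n) :
    Matrix (Fin n) (Fin n) ℝ := G x - (2 * (ε * Real.sin (t / ε))) • Rm G x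

theorem Gt_zero (G : E n → Matrix (Fin n) (Fin n) ℝ) (ε : ℝ) : Gt G ε 0 = G := by
  funext x
  simp [Gt]

theorem Gt_smooth {G : E n → Matrix (Fin n) (Fin n) ℝ} {ε : ℝ}
    (h1 : ∀ i j, ContDiff ℝ ∞ (fun x => G x i j)) (h2 : ∀ x, (G x).PosDef) (i j : Fin n) :
    ContDiff ℝ ∞ (fun p : ℝ × E n => Gt G ε p.1 p.2 i j) := by
  have h3 : ContDiff ℝ ∞ (fun p : ℝ × E n => G p.2 i j -
      (2 * (ε * Real.sin (p.1 / ε))) * Rm G p.2 i j) := by
    refine ((h1 i j).comp contDiff_snd).sub (ContDiff.mul ?_ ((cont_Rm h1 h2 i j).comp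
      contDiff_snd))
    exact contDiff_const.mul (contDiff_const.mul
      (Real.contDiff_sin.comp (contDiff_fst.div_const ε)))
  exact h3

theorem Gt_deriv {G : E n → Matrix (Fin n) (Fin n) ℝ} {ε : ℝ} (hε : 0 < ε) (x : E n)
    (i j : Fin n) : dtG (Gt G ε) 0 x i j = -2 * ric G x i j := by
  have h1 : HasDerivAt (fun t : ℝ => Real.sin (t / ε)) (Real.cos (0 / ε) * (1 / ε)) 0 :=
    ((hasDerivAt_id (0 : ℝ)).div_const ε).sin
  have h2 : HasDerivAt (fun t : ℝ => G x i j - (2 * (ε * Real.sin (t / ε))) * Rm G x i j)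
      (0 - 2 * (ε * (Real.cos (0 / ε) * (1 / ε))) * Rm G x i j) 0 :=
    (hasDerivAt_const _ _).sub (((h1.const_mul ε).const_mul 2).mul_const _)
  have h3 : dtG (Gt G ε) 0 x i j =
      deriv (fun t : ℝ => G x i j - (2 * (ε * Real.sin (t / ε))) * Rm G x i j) 0 := rfl
  rw [h3, h2.deriv, zero_div, Real.cos_zero, Rm_apply]
  field_simp
  ring

theorem Gt_fam {G : E n → Matrix (Fin n) (Fin n) ℝ} (h : Act n Γ) (hG : Met n Γ G)
    (hsym : ∀ x i j, ric G x i j = ric G x j i)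
    {M ε : ℝ} (hε : 0 < ε) (hM : ∀ x v : E n, |v ⬝ᵥ (Rm G x *ᵥ v)| ≤ M * (v ⬝ᵥ (G x *ᵥ v)))
    (hεM : 2 * ε * M < 1) : Fam n Γ (Gt G ε) where
  smooth := Gt_smooth hG.smooth hG.pos
  met := fun t => by
    refine ⟨fun i j => ?_, fun x => ?_, ?_⟩
    · exact cd_at (f := fun t x => Gt G ε t x i j) (Gt_smooth hG.smooth hG.pos i j) t
    · refine Matrix.PosDef.of_dotProduct_mulVec_pos ?_ fun v hv => ?_
      · have hR : (Rm G x)ᵀ = Rm G x := by
          ext i j; exact hsym x j i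
        show (Gt G ε t x)ᴴ = Gt G ε t x
        rw [Matrix.conjTranspose_eq_transpose_of_trivial]
        unfold Gt
        rw [Matrix.transpose_sub, Matrix.transpose_smul, hR, G_symm hG]
      · have h1 : 0 < v ⬝ᵥ (G x *ᵥ v) := by
          have := (hG.pos x).dotProduct_mulVec_pos hv
          simpa using this
        have h2 : star v ⬝ᵥ (Gt G ε t x *ᵥ v) = v ⬝ᵥ (G x *ᵥ v) -
            (2 * (ε * Real.sin (t / ε))) * (v ⬝ᵥ (Rm G x *ᵥ v)) := by
          rw [star_trivial]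
          unfold Gt
          rw [Matrix.sub_mulVec, Matrix.smul_mulVec, dotProduct_sub, dotProduct_smul,
            smul_eq_mul]
        rw [h2]
        have h3 := hM x v
        have h4 : |Real.sin (t / ε)| ≤ 1 := Real.abs_sin_le_one _
        have h5 : |(2 * (ε * Real.sin (t / ε))) * (v ⬝ᵥ (Rm G x *ᵥ v))| ≤
            2 * ε * (M * (v ⬝ᵥ (G x *ᵥ v))) := by
          rw [abs_mul, abs_mul, abs_mul, abs_of_pos hε, abs_two]
          have h6 : 2 * (ε * |Real.sin (t / ε)|) ≤ 2 * ε := by nlinarith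
          exact mul_le_mul h6 h3 (abs_nonneg _) (by positivity)
        have h7 := (abs_le.1 h5).2
        nlinarith
    · refine inv_of_trans fun γ x => ?_
      unfold Gt
      rw [Matrix.mul_sub, Matrix.sub_mul, G_trans hG, Matrix.mul_smul, Matrix.smul_mul,
        Rm_trans h hG]

end Vale.Agent.P223.H.Min
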