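import Vale.Agent.P223.H.Defs

/-! Block statements (`Spec...`) for the Ricci theorem. -/

namespace Vale.Agent.P223.H

open scoped ContDiff
open MeasureTheory

/-! ## Riemannian operators -/

noncomputable def gradIp {n : ℕ} (G : E n → Matrix (Fin n) (Fin n) ℝ) (f h : E n → ℝ) (x : E n) :
    ℝ := ∑ i, ∑ j, (G x)⁻¹ i j * pd i f x * pd j h x

noncomputable def gradSq {n : ℕ} (G : E n → Matrix (Fin n) (Fin n) ℝ) (f : E n → ℝ) (x : E n) :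
    ℝ := gradIp G f f x

/-- gradient vector field -/
noncomputable def grd {n : ℕ} (G : E n → Matrix (Fin n) (Fin n) ℝ) (f : E n → ℝ) (x : E n) :
    E n := fun i => ∑ j, (G x)⁻¹ i j * pd j f x

noncomputable def lap {n : ℕ} (G : E n → Matrix (Fin n) (Fin n) ℝ) (f : E n → ℝ) (x : E n) : ℝ :=
  ∑ i, ∑ j, (G x)⁻¹ i j * (pd i (fun y => pd j f y) x - ∑ k, chr G x k i j * pd k f x)

/-- divergence -/
noncomputable def divg {n : ℕ} (G : E n → Matrix (Fin n) (Fin n) ℝ) (Z : E n → E n) (x : E n) :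
    ℝ := (dens G x)⁻¹ * ∑ i, pd i (fun y => dens G y * Z y i) x

/-! ## Frames, jets -/

structure Frame (n : ℕ) (Γ : Type) [Group Γ] [MulAction Γ (E n)] (J : Type) [Fintype J] where
  V : J → E n → E n
  th : J → E n → (E n →L[ℝ] ℝ)
  V_smooth : ∀ j, ContDiff ℝ ∞ (V j)
  th_smooth : ∀ j, ContDiff ℝ ∞ (th j)
  V_inv : ∀ (γ : Γ) j x, V j (γ • x) = fderiv ℝ (fun y : E n => γ • y) x (V j x)
  th_inv : ∀ (γ : Γ) j x w, th j (γ • x) (fderiv ℝ (fun y : E n => γ • y) x w) = th j x w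
  dual : ∀ x w, ∑ j, th j x w • V j x = w

section
variable {n : ℕ} {Γ : Type} [Group Γ] [MulAction Γ (E n)] {J : Type} [Fintype J]

noncomputable def prol (Fr : Frame n Γ J) {ι : Type} (u : E n → ι → ℝ) :
    E n → (Option J × ι) → ℝ := fun x p =>
  match p.1 with
  | none => u x p.2
  | some j => fderiv ℝ (fun y => u y p.2) x (Fr.V j x)

noncomputable def NN (Fr : Frame n Γ J) :
    (m : ℕ) → (ι : Type) → [Fintype ι] → (E n → ι → ℝ) → E n → ℝ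
  | 0, _, _, u => fun x => ∑ i, u x i ^ 2
  | m + 1, ι, _, u => NN Fr m (Option J × ι) (prol Fr u)

/-- Squared norm of the 4-jet of `f`. -/
noncomputable def jet (Fr : Frame n Γ J) (f : E n → ℝ) : E n → ℝ :=
  NN Fr 4 Unit (fun x _ => f x)

end

/-- Families of maps whose average generates the Laplacian. -/
structure Maps (n : ℕ) (Γ : Type) [Group Γ] [MulAction Γ (E n)]
    (G : E n → Matrix (Fin n) (Fin n) ℝ) (N : ℕ) where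
  φ : Fin N → ℝ → E n → E n
  smooth : ∀ a, ContDiff ℝ ∞ (fun p : ℝ × E n => φ a p.1 p.2)
  zero : ∀ a x, φ a 0 x = x
  equi : ∀ a r (γ : Γ) x, φ a r (γ • x) = γ • φ a r x
  gen : ∀ f : E n → ℝ, ContDiff ℝ 2 f → ∀ x,
    ∑ a, iteratedDeriv 2 (fun r => f (φ a r x)) 0 = 2 * lap G f x

section
variable {n : ℕ} {Γ : Type} [Group Γ] [MulAction Γ (E n)]
  {G : E n → Matrix (Fin n) (Fin n) ℝ} {N : ℕ}

/-- The averaging operator. -/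
noncomputable def Maps.P (M : Maps n Γ G N) (ε : ℝ) (f : E n → ℝ) (x : E n) : ℝ :=
  (N : ℝ)⁻¹ * ∑ a, (f (M.φ a ε x) + f (M.φ a (-ε) x)) / 2

end

/-- BLOCK 1a -/
def SpecFrame : Prop := ∀ (n : ℕ) (Γ : Type) [Group Γ] [MulAction Γ (E n)], Act n Γ →
  ∃ (J : Type) (_ : Fintype J), Nonempty (Frame n Γ J)

/-- weight functions -/
structure Wt (n : ℕ) (Γ : Type) [Group Γ] [MulAction Γ (E n)]
    (G : E n → Matrix (Fin n) (Fin n) ℝ) (W : E n → ℝ) : Prop where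
  smooth : ContDiff ℝ ∞ W
  pos : ∀ x, 0 < W x
  sum : ∀ x, HasSum (fun γ : Γ => W (γ • x)) 1
  integ : Integrable (fun x => W x * dens G x)
  grad : ∃ C : ℝ, ∀ x, gradSq G W x ≤ (C * W x) ^ 2
  harnack : ∀ K : Set (E n), IsCompact K → ∃ C : ℝ, ∀ (γ : Γ), ∀ x ∈ K, ∀ y ∈ K,
    W (γ • x) ≤ C * W (γ • y)

/-- BLOCK 1b -/
def SpecWeight : Prop := ∀ (n : ℕ) (Γ : Type) [Group Γ] [MulAction Γ (E n)]
  (G : E n → Matrix (Fin n) (Fin n) ℝ) (J : Type) [Fintype J] (Fr : Frame n Γ J),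
  Act n Γ → Met n Γ G → ∃ (W U : E n → ℝ) (C : ℝ), Wt n Γ G W ∧
    ContDiff ℝ ∞ U ∧ (∀ x, 0 < U x) ∧
    (∀ x, jet Fr W x ≤ C * (W x) ^ 2) ∧ (∀ x, jet Fr U x ≤ C * (U x) ^ 2) ∧
    (∀ x, U x ≤ C * (W x) ^ 2) ∧ (∀ x, (W x) ^ 2 ≤ C * U x)

/-- BLOCK 2 -/
def SpecMaps : Prop := ∀ (n : ℕ) (Γ : Type) [Group Γ] [MulAction Γ (E n)]
  (G : E n → Matrix (Fin n) (Fin n) ℝ), Act n Γ → Met n Γ G →
  ∃ N : ℕ, 0 < N ∧ Nonempty (Maps n Γ G N)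

/-- BLOCK 3a : the jet norm is quasi-contracted -/
def SpecQC : Prop := ∀ (n : ℕ) (Γ : Type) [Group Γ] [MulAction Γ (E n)]
  (G : E n → Matrix (Fin n) (Fin n) ℝ) (J : Type) [Fintype J] (Fr : Frame n Γ J)
  (N : ℕ) (M : Maps n Γ G N), Act n Γ → 0 < N → ∃ C : ℝ, 0 < C ∧ ∀ ε : ℝ, 0 < ε → ε ≤ 1 →
  ∀ f : E n → ℝ, ContDiff ℝ 4 f → ∀ x, jet Fr (M.P ε f) x ≤ (1 + C * ε ^ 2) * M.P ε (jet Fr f) x

/-- BLOCK 3b : consistency -/
def SpecCons : Prop := ∀ (n : ℕ) (Γ : Type) [Group Γ] [MulAction Γ (E n)]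
  (G : E n → Matrix (Fin n) (Fin n) ℝ) (J : Type) [Fintype J] (Fr : Frame n Γ J)
  (N : ℕ) (M : Maps n Γ G N), Act n Γ → Met n Γ G → 0 < N → ∃ C : ℝ, 0 < C ∧
  ∀ ε : ℝ, 0 < ε → ε ≤ 1 → ∀ f : E n → ℝ, ContDiff ℝ 4 f → ∀ (x : E n) (B : ℝ), 0 ≤ B →
  (∀ a (r : ℝ), |r| ≤ ε → jet Fr f (M.φ a r x) ≤ B ^ 2) →
    |M.P ε f x - f x - ε ^ 2 * (N : ℝ)⁻¹ * lap G f x| ≤ C * ε ^ 3 * B ∧
    gradSq G (fun y => M.P ε f y - f y - ε ^ 2 * (N : ℝ)⁻¹ * lap G f y) x ≤ (C * ε ^ 3 * B) ^ 2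

/-- BLOCK 3c : the jet norm controls the Riemannian quantities -/
def SpecBdd : Prop := ∀ (n : ℕ) (Γ : Type) [Group Γ] [MulAction Γ (E n)]
  (G : E n → Matrix (Fin n) (Fin n) ℝ) (J : Type) [Fintype J] (Fr : Frame n Γ J),
  Act n Γ → Met n Γ G → ∃ C : ℝ, 0 < C ∧ ∀ f : E n → ℝ, ContDiff ℝ 4 f → ∀ x,
    f x ^ 2 ≤ jet Fr f x ∧ gradSq G f x ≤ C * jet Fr f x ∧
    gradSq G (fun y => gradSq G f y) x ≤ C * jet Fr f x ^ 2 ∧
    lap G f x ^ 2 ≤ C * jet Fr f x ∧ gradSq G (fun y => lap G f y) x ≤ C * jet Fr f x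

/-- Uniformly controlled discrete heat flow. -/
structure Step (n : ℕ) (Γ : Type) [Group Γ] [MulAction Γ (E n)]
    (G : E n → Matrix (Fin n) (Fin n) ℝ) (W : E n → ℝ) (A : ℝ) (v : E n → ℝ) : Prop where
  smooth : ContDiff ℝ 4 v
  lower : ∀ x, W x ≤ A * v x
  upper : ∀ x, v x ≤ A * W x
  grad : ∀ x, gradSq G v x ≤ (A * W x) ^ 2
  grad2 : ∀ x, gradSq G (fun y => gradSq G v y) x ≤ (A * W x ^ 2) ^ 2
  lap0 : ∀ x, |lap G v x| ≤ A * W x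
  lap1 : ∀ x, gradSq G (fun y => lap G v y) x ≤ (A * W x) ^ 2
  sum : ∀ x, HasSum (fun γ : Γ => v (γ • x)) 1

/-- BLOCK 3d (follows from the previous ones) -/
def SpecFlow : Prop := ∀ (n : ℕ) (Γ : Type) [Group Γ] [MulAction Γ (E n)]
  (G : E n → Matrix (Fin n) (Fin n) ℝ), Act n Γ → Met n Γ G →
  ∃ (W : E n → ℝ) (c₀ : ℝ), Wt n Γ G W ∧ 0 < c₀ ∧ ∀ T : ℝ, 0 < T → ∃ A : ℝ, 0 < A ∧
  ∀ ε : ℝ, 0 < ε → ε ≤ 1 → ∃ v : ℕ → E n → ℝ, v 0 = W ∧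
  (∀ k : ℕ, k * ε ^ 2 ≤ T → Step n Γ G W A (v k)) ∧
  (∀ k : ℕ, k * ε ^ 2 ≤ T → ∀ x,
    |v (k + 1) x - v k x - ε ^ 2 * c₀ * lap G (v k) x| ≤ A * ε ^ 3 * W x ∧
    gradSq G (fun y => v (k + 1) y - v k y - ε ^ 2 * c₀ * lap G (v k) y) x ≤
      (A * ε ^ 3 * W x) ^ 2)

/- to prove: SpecFrame → SpecWeight → SpecMaps → SpecQC → SpecCons → SpecBdd → SpecFlow -/

/-! ## Bochner -/

/-- the energy density `v ((|dv|²/v²) + η)^a` -/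
noncomputable def eD {n : ℕ} (G : E n → Matrix (Fin n) (Fin n) ℝ) (a η : ℝ) (v : E n → ℝ)
    (x : E n) : ℝ := v x * (gradSq G v x / v x ^ 2 + η) ^ a

/-- its first variation in the direction `w` -/
noncomputable def dE {n : ℕ} (G : E n → Matrix (Fin n) (Fin n) ℝ) (a η : ℝ) (v w : E n → ℝ)
    (x : E n) : ℝ := (gradSq G v x / v x ^ 2 + η) ^ a * w x +
  2 * a * (gradSq G v x / v x ^ 2 + η) ^ (a - 1) *
    (gradIp G v w x / v x - gradSq G v x / v x ^ 2 * w x)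

/-- the vector field whose divergence appears in the Bochner inequality -/
noncomputable def ZZ {n : ℕ} (G : E n → Matrix (Fin n) (Fin n) ℝ) (a η κ : ℝ) (v : E n → ℝ)
    (x : E n) : E n := fun i => grd G (fun y => eD G a η v y) x i +
  4 * a / κ ^ 2 * (gradSq G v x / v x ^ 2 + η) ^ a * grd G v x i

/-- BLOCK 4 : pointwise Bochner inequality (local, no group). -/
def SpecBochner : Prop := ∀ (n : ℕ) (G : E n → Matrix (Fin n) (Fin n) ℝ),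
  (∀ i j, ContDiff ℝ ∞ (fun x => G x i j)) → (∀ x, (G x).PosDef) →
  ∀ ρ : E n → ℝ, (∀ x, 0 ≤ ρ x) → RicGe G ρ →
  ∀ (a η : ℝ), 1 ≤ a → 0 < η → ∀ v : E n → ℝ, ContDiff ℝ 4 v → (∀ x, 0 < v x) →
  ∀ κ : ℝ, κ = √n + 2 * a → ∀ x,
    2 * a / (κ ^ 2 * (a + 1)) * (v x * (gradSq G v x / v x ^ 2 + η) ^ (a + 1)) ≤
    2 * a / (κ ^ 2 * (a + 1)) * (v x * (κ ^ 2 * (ρ x + 2 * η / κ ^ 2)) ^ (a + 1))
      - dE G a η v (fun y => lap G v y) x + divg G (ZZ G a η κ v) x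

/-- BLOCK 5a : integration by parts with cutoff functions. -/
def SpecIBP : Prop := ∀ (n : ℕ) (Γ : Type) [Group Γ] [MulAction Γ (E n)]
  (G : E n → Matrix (Fin n) (Fin n) ℝ) (W : E n → ℝ), Act n Γ → Met n Γ G → Wt n Γ G W →
  ∀ (Z : E n → E n) (C : ℝ) (f h : E n → ℝ), ContDiff ℝ 1 Z →
  (∀ x, ∑ i, ∑ j, G x i j * Z x i * Z x j ≤ (C * W x) ^ 2) →
  Integrable (fun x => f x * dens G x) → Integrable (fun x => h x * dens G x) →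
  (∀ x, f x ≤ h x + divg G Z x) → ∫ x, f x * dens G x ≤ ∫ x, h x * dens G x

/-- BLOCK 5b : convexity and second order Taylor estimate of the energy density. -/
def SpecTaylor : Prop := ∀ (a η A : ℝ), 1 ≤ a → 0 < η → 0 < A → ∃ C : ℝ, 0 < C ∧
  ∀ (n : ℕ) (G : E n → Matrix (Fin n) (Fin n) ℝ) (x : E n) (v v' : E n → ℝ) (W : ℝ),
  (G x).PosDef → DifferentiableAt ℝ v x → DifferentiableAt ℝ v' x → 0 < W →
  W ≤ A * v x → W ≤ A * v' x → v x ≤ A * W → v' x ≤ A * W →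
  gradSq G v x ≤ (A * W) ^ 2 → gradSq G v' x ≤ (A * W) ^ 2 →
  eD G a η v' x - eD G a η v x - dE G a η v (fun y => v' y - v y) x ≤
    C * ((v' x - v x) ^ 2 + gradSq G (fun y => v' y - v y) x) / W

/-- BLOCK 5c : main result of the analysis. -/
def SpecA : Prop := ∀ (n : ℕ) (Γ : Type) [Group Γ] [MulAction Γ (E n)]
  (G : E n → Matrix (Fin n) (Fin n) ℝ), 4 ≤ n → Act n Γ → Met n Γ G →
  ∀ ρ : E n → ℝ, Continuous ρ → (∀ x, 0 ≤ ρ x) → (∀ (γ : Γ) (x : E n), ρ (γ • x) = ρ x) → RicGe G ρ →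
  ∀ D : Set (E n), MeasurableSet D → (∀ x : E n, ∃ γ : Γ, γ • x ∈ D) → ∀ δ : ℝ, 0 < δ →
  ∃ (W v : E n → ℝ) (A : ℝ), Wt n Γ G W ∧ Step n Γ G W A v ∧
    int G Set.univ (fun x => v x * (gradSq G v x / v x ^ 2) ^ ((n : ℝ) / 2)) ≤
      ENNReal.ofReal (((n : ℝ) - 2 + √n) ^ n) * int G D (fun x => ρ x ^ ((n : ℝ) / 2)) +
      ENNReal.ofReal δ

/- to prove: SpecFlow → SpecBochner → SpecIBP → SpecTaylor → SpecA -/

/-! ## Topology -/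

/-- Jacobian determinant -/
noncomputable def jdet {n : ℕ} (f : Fin n → E n → ℝ) (x : E n) : ℝ :=
  (Matrix.of fun i j => pd j (f i) x).det

/-- `∫ f₀ df₁ ∧ … ∧ dfₙ` -/
noncomputable def wt {n : ℕ} (f : Fin (n + 1) → E n → ℝ) : ℝ :=
  ∫ x, f 0 x * jdet (fun i => f i.succ) x

/-- Equivariant partitions of unity (not necessarily nonnegative) of class `C¹`. -/
structure PU (n : ℕ) (Γ : Type) [Group Γ] [MulAction Γ (E n)] (ι : Type) [Fintype ι] where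
  φ : ι → E n → ℝ
  smooth : ∀ i, ContDiff ℝ 1 (φ i)
  supp : ∀ i, HasCompactSupport (φ i)
  sum : ∀ x, ∑ i, ∑ᶠ γ : Γ, φ i (γ⁻¹ • x) = 1

section
variable {n : ℕ} {Γ : Type} [Group Γ] [MulAction Γ (E n)] {ι : Type} [Fintype ι]

/-- the function with index `(γ, i)` -/
def PU.fn (P : PU n Γ ι) (l : Γ × ι) (x : E n) : ℝ := P.φ l.2 (l.1⁻¹ • x)

/-- weights -/
noncomputable def PU.wt (P : PU n Γ ι) (l : Fin (n + 1) → Γ × ι) : ℝ :=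
  H.wt (fun k => P.fn (l k))

end

/-- Compatible equivariant systems of simplices: the vertex with label `(γ, x)` is `γ • x`. -/
structure Sys (n : ℕ) (Γ : Type) [Group Γ] [MulAction Γ (E n)] where
  S : (k : ℕ) → (Fin (k + 1) → Γ × E n) → Simp (k + 1) (E n)
  face : ∀ k (l : Fin (k + 2) → Γ × E n) (i : Fin (k + 2)),
    (S (k + 1) l).comp (H.face (k + 1) i) = S k (l ∘ i.succAbove)
  equi : ∀ k (l : Fin (k + 1) → Γ × E n) (γ : Γ) t,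
    S k (fun j => (γ * (l j).1, (l j).2)) t = γ • S k l t
  affine : ∀ k (l : Fin (k + 1) → Γ × E n), (∀ j, (l j).1 = 1) → ∀ t,
    S k l t = ∑ j, t j • (l j).2

/-- Simplices of a system with close vertices are small. -/
def Sys.Small {n : ℕ} {Γ : Type} [Group Γ] [MulAction Γ (E n)] (R : Sys n Γ) : Prop :=
  ∀ K : Set (E n), IsCompact K → ∀ δ : ℝ, 0 < δ → ∃ δ' : ℝ, 0 < δ' ∧
  ∀ l : Fin (n + 1) → Γ × E n, (∀ j, (l j).2 ∈ K) → (∀ j, (l j).1 • (l j).2 ∈ K) →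
    (∀ j j', dist ((l j).1 • (l j).2) ((l j').1 • (l j').2) < δ') →
    ∀ t, dist (R.S n l t) ((l 0).1 • (l 0).2) < δ

/-- BLOCK 6a : iterated cones, `S l t = γ₀ • (t₀ x₀ + (1 - t₀) γ₀⁻¹ • S (l₁ … lₖ) (t')`. -/
def SpecSys : Prop := ∀ (n : ℕ) (Γ : Type) [Group Γ] [MulAction Γ (E n)], Act n Γ →
  ∃ R : Sys n Γ, R.Small

/-- the chain associated with a partition of unity, base points `q` and a system of simplices -/
noncomputable def cyc {n : ℕ} {Γ : Type} [Group Γ] [MulAction Γ (E n)] {ι : Type} [Fintype ι]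
    (R : Sys n Γ) (P : PU n Γ ι) (q : ι → E n) : Chain (n + 1) (Mfd n Γ) :=
  ∑ᶠ l ∈ {l : Fin (n + 1) → Γ × ι | (l 0).1 = 1},
    Finsupp.single ((proj n Γ).comp (R.S n (fun j => ((l j).1, q (l j).2)))) (P.wt l)

/-- BLOCK 6b : `cyc` is a cycle, and its homology class does not depend on the choices. -/
def SpecCyc : Prop := ∀ (n : ℕ) (Γ : Type) [Group Γ] [MulAction Γ (E n)], 1 ≤ n → Act n Γ →
  ∀ (R : Sys n Γ) (ι : Type) [Fintype ι] (P : PU n Γ ι) (q : ι → E n),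
  bd n (cyc R P q) = 0 ∧ ∀ (ι' : Type) [Fintype ι'] (P' : PU n Γ ι') (q' : ι' → E n),
    ∃ b : Chain (n + 2) (Mfd n Γ), cyc R P q - cyc R P' q' = bd (n + 1) b

/-- BLOCK 7a : Stokes. -/
def SpecStokes : Prop := ∀ (n : ℕ) (f : Fin n → E n → ℝ), 1 ≤ n → (∀ i, ContDiff ℝ 1 (f i)) →
  (∀ i, HasCompactSupport (f i)) → ∫ x, jdet f x = 0

/-- BLOCK 7b : norm estimate. -/
def SpecNorm : Prop := ∀ (n : ℕ) (Γ : Type) [Group Γ] [MulAction Γ (E n)]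
  (G : E n → Matrix (Fin n) (Fin n) ℝ), 1 ≤ n → Act n Γ → Met n Γ G →
  ∀ (R : Sys n Γ) (P : PU n Γ Unit) (q : Unit → E n), (∀ x, 0 ≤ P.φ () x) →
  ∀ D : Set (E n), MeasurableSet D → (∀ x : E n, ∃ γ : Γ, γ • x ∈ D) →
  ENNReal.ofReal (l1 (cyc R P q)) ≤
    int G D (fun x => (∑ᶠ γ : Γ, √(gradSq G (P.φ ()) (γ • x))) ^ n)

/-- BLOCK 8 : local structure near a point, for a suitable choice. -/
def SpecLoc : Prop := ∀ (n : ℕ) (Γ : Type) [Group Γ] [MulAction Γ (E n)], 1 ≤ n → Act n Γ →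
  ∀ R : Sys n Γ, R.Small → ∀ p : E n, ∃ (ι : Type) (_ : Fintype ι) (P : PU n Γ ι) (q : ι → E n)
    (w : E n) (A : Matrix (Fin n) (Fin n) ℝ) (s : Simp (n + 1) (E n)),
    0 < A.det ∧ (∀ t, s t = fun j => w j + ∑ i : Fin n, t i.succ * A i j) ∧
    (∃ t, (∀ i, 0 < t i) ∧ s t = p) ∧ (∀ (t t' : stdSimplex ℝ (Fin (n + 1))) (γ : Γ),
      γ • s t = s t' → γ = 1) ∧
    ∃ (b : Chain (n + 2) (Mfd n Γ)) (c : Chain (n + 1) (Mfd n Γ)),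
      (∀ σ ∈ c.support, ∀ t, σ t ≠ proj n Γ p) ∧
      cyc R P q = Finsupp.single ((proj n Γ).comp s) 1 + bd (n + 1) b + c

/-- BLOCK 9a : a bounded strict fundamental domain. -/
def SpecDom : Prop := ∀ (n : ℕ) (Γ : Type) [Group Γ] [MulAction Γ (E n)], Act n Γ →
  ∃ D : Set (E n), MeasurableSet D ∧ Bornology.IsBounded D ∧ ∀ x : E n, ∃! γ : Γ, γ • x ∈ D

/-- BLOCK 9b : truncation. -/
def SpecTrunc : Prop := ∀ (n : ℕ) (Γ : Type) [Group Γ] [MulAction Γ (E n)]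
  (G : E n → Matrix (Fin n) (Fin n) ℝ), 1 ≤ n → Act n Γ → Met n Γ G →
  ∀ (W v : E n → ℝ) (A : ℝ), Wt n Γ G W → Step n Γ G W A v → ∀ δ : ℝ, 0 < δ →
  ∃ (P : PU n Γ Unit) (D : Set (E n)), (∀ x, 0 ≤ P.φ () x) ∧ MeasurableSet D ∧
    (∀ x : E n, ∃ γ : Γ, γ • x ∈ D) ∧
    int G D (fun x => (∑ᶠ γ : Γ, √(gradSq G (P.φ ()) (γ • x))) ^ n) ≤
      int G Set.univ (fun x => v x * (gradSq G v x / v x ^ 2) ^ ((n : ℝ) / 2)) +
      ENNReal.ofReal δ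

theorem final (h5 : SpecA) (h6 : SpecSys) (h6' : SpecCyc) (h7 : SpecNorm) (h8 : SpecLoc)
    (h9 : SpecTrunc) (n : ℕ) (hn : 4 ≤ n) (Γ : Type) [Group Γ] [MulAction Γ (E n)]
    (hΓ : Act n Γ) (G : E n → Matrix (Fin n) (Fin n) ℝ) (hG : Met n Γ G)
    (D : Set (E n)) (hD : MeasurableSet D) (hD' : ∀ x, ∃ γ : Γ, γ • x ∈ D)
    (ρ : E n → ℝ) (hρ : Continuous ρ) (hρ0 : ∀ x, 0 ≤ ρ x) (hρi : ∀ (γ : Γ) x, ρ (γ • x) = ρ x)
    (hric : RicGe G ρ) :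
    sv n Γ ≤ ENNReal.ofReal (((n : ℝ) - 2 + √n) ^ n) * int G D (fun x => ρ x ^ ((n : ℝ) / 2)) := by
  have hn1 : 1 ≤ n := by omega
  refine ENNReal.le_of_forall_pos_le_add fun δ hδ _ => ?_
  have hδ2 : (0 : ℝ) < (δ : ℝ) / 2 := by positivity
  obtain ⟨W, v, A, hW, hv, hvA⟩ := h5 n Γ G hn hΓ hG ρ hρ hρ0 hρi hric D hD hD' (δ / 2) hδ2
  obtain ⟨P, D₀, hP, hD₀, hD₀', hPD⟩ := h9 n Γ G hn1 hΓ hG W v A hW hv (δ / 2) hδ2
  obtain ⟨R, hR⟩ := h6 n Γ hΓ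
  have h1 := h7 n Γ G hn1 hΓ hG R P (fun _ => 0) hP D₀ hD₀ hD₀'
  have hfund : IsFund n Γ (cyc R P fun _ => 0) := by
    refine ⟨(h6' n Γ hn1 hΓ R Unit P _).1, fun p => ?_⟩
    obtain ⟨ι, _, P', q, w, B, s, hB, hs, hs1, hs2, b, c, hc, hcyc⟩ := h8 n Γ hn1 hΓ R hR p
    obtain ⟨b', hb'⟩ := (h6' n Γ hn1 hΓ R Unit P fun _ => 0).2 ι P' q
    refine ⟨w, B, s, hB, hs, hs1, hs2, b' + b, c, hc, ?_⟩
    have : cyc R P (fun _ => 0) = cyc R P' q + bd (n + 1) b' := by rw [← hb']; abel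
    rw [this, hcyc, map_add]; abel
  have h2 : sv n Γ ≤ ENNReal.ofReal (l1 (cyc R P fun _ => 0)) := iInf₂_le _ hfund
  calc sv n Γ ≤ _ := h2
    _ ≤ _ := h1
    _ ≤ _ := hPD
    _ ≤ _ := add_le_add_left hvA _
    _ = _ := by
      rw [add_assoc, ← ENNReal.ofReal_add hδ2.le hδ2.le, add_halves, ENNReal.ofReal_coe_nnreal]

end Vale.Agent.P223.H
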