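import Vale.Agent.P223.H.Spec

/-! Sub-blocks of block 8 (`SpecLoc`). -/

namespace Vale.Agent.P223.H

open scoped ContDiff
open MeasureTheory

/-- `x_0 = 1, x_1, …, x_n, x_{n+1} = 0` -/
def ext {n : ℕ} (x : E n) : ℕ → ℝ
  | 0 => 1
  | j + 1 => if h : j < n then x ⟨j, h⟩ else 0

/-- barycentric coordinates of the Kuhn simplex `1 ≥ x_1 ≥ … ≥ x_n ≥ 0` -/
def bary {n : ℕ} (k : Fin (n + 1)) (x : E n) : ℝ := ext x k - ext x (k + 1)

/-- vertices of the Kuhn simplex -/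
noncomputable def vtx (n : ℕ) (k : Fin (n + 1)) : E n := fun i => if (i : ℕ) < k then 1 else 0

/-- its barycentre -/
noncomputable def xc (n : ℕ) : E n := fun i => ((n : ℝ) - i) / (n + 1)

/-- a partition of unity of `ℝ^n` by `n + 1` functions, whose common support is the unit cube -/
noncomputable def tht {n : ℕ} (k : Fin (n + 1)) (x : E n) : ℝ :=
  (∏ i : Fin n, if (i : ℕ) < k then Real.smoothTransition (x i) else 1) *
    (1 - Real.smoothTransition (ext x (k + 1)))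

/-- coordinates centred at `p` -/
noncomputable def crd {n : ℕ} (p : E n) (c : ℝ) (y : E n) : E n :=
  fun i => xc n i + c⁻¹ * (y i - p i)

/-- inverse of `crd` -/
noncomputable def crdInv {n : ℕ} (p : E n) (c : ℝ) (x : E n) : E n :=
  fun i => p i + c * (x i - xc n i)

/-- BLOCK 8a : generic partitions of unity with small supports, adapted to the ball around `p`. -/
def SpecGen : Prop := ∀ (n : ℕ) (Γ : Type) [Group Γ] [MulAction Γ (E n)], Act n Γ →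
  ∀ (p : E n) (r₂ r₄ : ℝ), 0 < r₂ → r₂ < r₄ →
  (∀ γ : Γ, (∃ x ∈ Metric.ball p r₄, γ • x ∈ Metric.ball p r₄) → γ = 1) →
  ∃ K : Set (E n), IsCompact K ∧ ∀ δ : ℝ, 0 < δ →
  ∃ (ι : Type) (_ : Fintype ι) (φ : ι → E n → ℝ) (q : ι → E n),
    (∀ i, ContDiff ℝ ∞ (φ i)) ∧ (∀ i x, 0 ≤ φ i x) ∧ (∀ i, HasCompactSupport (φ i)) ∧
    (∀ x, ∑ i, ∑ᶠ γ : Γ, φ i (γ⁻¹ • x) = 1) ∧ (∀ i, q i ∈ K) ∧
    (∀ i, tsupport (φ i) ⊆ Metric.closedBall (q i) δ) ∧ (∀ i, tsupport (φ i) ⊆ K) ∧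
    (∀ i (γ : Γ), (∃ x ∈ tsupport (φ i), γ • x ∈ Metric.ball p r₂) → γ = 1)

/-- BLOCK 8c : the weights of the special functions. -/
def SpecTheta : Prop := ∀ (n : ℕ), 1 ≤ n → ∀ (p : E n) (c : ℝ), 0 < c → ∀ χ : E n → ℝ,
  ContDiff ℝ 1 χ → HasCompactSupport χ → (∀ y, (∀ i, -1 < crd p c y i ∧ crd p c y i < 2) →
    χ y = 1) →
  (∀ π : Equiv.Perm (Fin (n + 1)), wt (fun m y => χ y * tht (π m) (crd p c y)) =
    (Equiv.Perm.sign π : ℤ) * ((n + 1).factorial : ℝ)⁻¹) ∧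
  ∀ k : Fin (n + 1) → Fin (n + 1), ¬ Function.Injective k →
    wt (fun m y => χ y * tht (k m) (crd p c y)) = 0

/-- BLOCK 8d : alternating simplices. -/
def SpecAlt : Prop := ∀ (n : ℕ) (Γ : Type) [Group Γ] [MulAction Γ (E n)], Act n Γ →
  ∀ (R : Sys n Γ) (q : Fin (n + 1) → E n) (π : Equiv.Perm (Fin (n + 1))),
  ∃ (b : Chain (n + 2) (Mfd n Γ)) (c : Chain (n + 1) (Mfd n Γ)),
    Finsupp.single ((proj n Γ).comp (R.S n fun m => (1, q (π m)))) (1 : ℝ) =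
      ((Equiv.Perm.sign π : ℤ) : ℝ) • Finsupp.single ((proj n Γ).comp (R.S n fun m => (1, q m))) 1 +
      bd (n + 1) b + c ∧
    ∀ σ ∈ c.support, ∃ k : Fin (n + 1) → Fin (n + 1), ¬ Function.Surjective k ∧
      σ = (proj n Γ).comp (R.S n fun m => (1, q (k m)))

/-- BLOCK 8b : if a simplex whose functions have a common point in their supports meets `p`, then
all its vertices are special and its group elements are trivial. -/
def SpecCase : Prop := ∀ (n : ℕ) (Γ : Type) [Group Γ] [MulAction Γ (E n)], 1 ≤ n → Act n Γ →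
  ∀ R : Sys n Γ, R.Small → ∀ p : E n, ∃ (c : ℝ) (χ : E n → ℝ) (ι : Type) (_ : Fintype ι)
    (P : PU n Γ (Fin (n + 1) ⊕ ι)) (q : Fin (n + 1) ⊕ ι → E n), 0 < c ∧
    ContDiff ℝ 1 χ ∧ HasCompactSupport χ ∧ (∀ y, (∀ i, -1 < crd p c y i ∧ crd p c y i < 2) →
      χ y = 1) ∧
    (∀ k, P.φ (Sum.inl k) = fun y => χ y * tht k (crd p c y)) ∧
    (∀ k, q (Sum.inl k) = crdInv p c (vtx n k)) ∧
    (∀ γ : Γ, (∃ x, (∀ i, -1 < crd p c x i ∧ crd p c x i < 2) ∧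
      (∀ i, -1 < crd p c (γ • x) i ∧ crd p c (γ • x) i < 2)) → γ = 1) ∧
    ∀ (l : Fin (n + 1) → Γ × (Fin (n + 1) ⊕ ι)) (y : E n), (∀ m, y ∈ tsupport (P.fn (l m))) →
      ∀ t, R.S n (fun j => ((l j).1, q (l j).2)) t = p →
      ∀ m, (l m).1 = 1 ∧ ∃ k, (l m).2 = Sum.inl k

/- to prove: SpecGen → SpecCase ; SpecStokes → SpecTheta ; SpecAlt ;
   and  (8e) SpecCase → SpecTheta → SpecAlt → SpecLoc -/

end Vale.Agent.P223.H
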