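import Vale.Agent.P223.H.SpecT

/-! Block 27: metrics which minimise `∫ (Scal⁻)^(n/2)`. -/

namespace Vale.Agent.P223.H

open scoped ContDiff
open MeasureTheory

/-- BLOCK 27 : if `G` minimises `∫ (Scal⁻)^(n/2)` among all metrics and the minimum is positive then
`G` is an Einstein metric with negative scalar curvature.
(SpecEvol → SpecBianchi → SpecLapInt → SpecMin.) -/
def SpecMin : Prop := ∀ (n : ℕ) (Γ : Type) [Group Γ] [MulAction Γ (E n)]
  (G : E n → Matrix (Fin n) (Fin n) ℝ), 4 ≤ n → Act n Γ → Met n Γ G →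
  ∀ D : Set (E n), MeasurableSet D → Bornology.IsBounded D → (∀ x : E n, ∃! γ : Γ, γ • x ∈ D) →
  (∀ G' : E n → Matrix (Fin n) (Fin n) ℝ, Met n Γ G' →
    int G D (fun x => max 0 (-scal G x) ^ ((n : ℝ) / 2)) ≤
      int G' D (fun x => max 0 (-scal G' x) ^ ((n : ℝ) / 2))) →
  int G D (fun x => max 0 (-scal G x) ^ ((n : ℝ) / 2)) ≠ 0 →
  ∃ s : ℝ, 0 < s ∧ ∀ x, scal G x = -s ∧ ∀ i j, ric G x i j = -(s / n) * G x i j

/- Proof. Path `G t = G - 2 τ(t) Ric(G)`, `τ` smooth, `τ t = t` near `0`, `|τ|` so small that all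
`G t` are positive definite (compactness and invariance): `Fam`, `dtG G 0 = -2 ric`. SpecEvol at
`t = 0` (it needs the equation at the single time `0` only): with `ψ(S) = (S⁻)^p`, `p = n/2`,
d/dt ∫_D ψ(scal) dens at `t = 0` equals ∫_D [ψ'(S)(lap S + 2|Ric|²) - S ψ(S)] dens
≤ ∫_D [-2p (S⁻)^(p-1) (|Ric|² - S²/n)] dens ≤ 0 (∫ ψ'(S) lap S ≤ 0 by smooth convex approximation of
`ψ` and SpecLapInt for ψ_δ(scal)); it is ≥ 0 by minimality. Hence |Ric|² = S²/n where S < 0, i.e.
Ric = (S/n) g there; by SpecBianchi dS = (2/n) dS there, so dS = 0 on the open set {S < 0}, which is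
then closed as well, hence everything. -/

end Vale.Agent.P223.H
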