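import Vale.Agent.P223.H.Spec
import Mathlib.MeasureTheory.Function.Jacobian
import Mathlib.LinearAlgebra.Matrix.Polynomial
import Mathlib.Algebra.Group.ForwardDiff
import Mathlib.Analysis.Calculus.InverseFunctionTheorem.ApproximatesLinearOn

/-! Block 7a. -/

namespace Vale.Agent.P223.H.Stokes

open MeasureTheory Set

/-- Finite difference formula for the top coefficient of `det (1 + s M)`. -/
theorem det_fd {n : ℕ} (M : Matrix (Fin n) (Fin n) ℝ) (h : ℝ) :
    ∑ k ∈ Finset.range (n + 1), ((-1 : ℝ) ^ (n - k) * (n.choose k)) *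
      (1 + ((k : ℝ) * h) • M).det = n.factorial * (h ^ n * M.det) := by
  classical
  set P : Polynomial ℝ := ((Polynomial.X : Polynomial ℝ) • (h • M).map Polynomial.C +
    (1 : Matrix (Fin n) (Fin n) ℝ).map Polynomial.C).det with hP
  have hdeg : P.natDegree ≤ n := by
    have := Polynomial.natDegree_det_X_add_C_le (h • M) (1 : Matrix (Fin n) (Fin n) ℝ)
    rw [Fintype.card_fin] at this
    exact this
  have hcoef : P.coeff n = h ^ n * M.det := by
    have := Polynomial.coeff_det_X_add_C_card (h • M) (1 : Matrix (Fin n) (Fin n) ℝ)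
    rw [Fintype.card_fin] at this
    rw [hP, this, Matrix.det_smul, Fintype.card_fin]
  have hev : ∀ k : ℝ, P.eval k = (1 + (k * h) • M).det := by
    intro k
    rw [hP, ← Polynomial.coe_evalRingHom, RingHom.map_det]
    congr 1
    ext i j
    simp [Matrix.add_apply, Matrix.smul_apply, Matrix.one_apply]
    split_ifs <;> simp <;> ring
  have hsum : ∀ x : ℝ, P.eval x = (∑ k ∈ Finset.range n, P.coeff k * x ^ k) + P.coeff n * x ^ n := by
    intro x
    rw [Polynomial.eval_eq_sum_range' (Nat.lt_succ_of_le hdeg), Finset.sum_range_succ]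
  have h1 : (fwdDiff (1 : ℝ))^[n] (fun x : ℝ => P.eval x) 0 = n.factorial * P.coeff n := by
    have e : (fun x : ℝ => P.eval x) = (fun x : ℝ => ∑ k ∈ Finset.range n, P.coeff k * x ^ k) +
        P.coeff n • (fun x : ℝ => x ^ n) := by
      funext x
      simp [hsum x]
    rw [e, fwdDiff_iter_add, fwdDiff_iter_const_smul, fwdDiff_iter_sum_mul_pow_eq_zero,
      fwdDiff_iter_eq_factorial]
    simp [mul_comm]
  rw [fwdDiff_iter_eq_sum_shift] at h1
  rw [← hcoef, ← h1]
  refine Finset.sum_congr rfl fun k _ => ?_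
  simp only [zero_add, nsmul_eq_mul, mul_one, zsmul_eq_mul]
  rw [hev]
  push_cast
  ring

theorem det_ne {n : ℕ} {A : E n →L[ℝ] E n} (hA : ‖A‖ < 1) : (1 + A : E n →L[ℝ] E n).det ≠ 0 := by
  have h : IsUnit (1 + A) := by
    have := isUnit_one_sub_of_norm_lt_one (x := -A) (by simpa using hA)
    simpa using this
  have h2 : IsUnit ((1 + A : E n →L[ℝ] E n) : E n →ₗ[ℝ] E n) := by
    obtain ⟨u, hu⟩ := h
    refine ⟨⟨(u : E n →L[ℝ] E n), ((u⁻¹ : (E n →L[ℝ] E n)ˣ) : E n →L[ℝ] E n), ?_, ?_⟩, by
      rw [← hu]⟩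
    · exact LinearMap.ext fun x => congrArg (fun B : E n →L[ℝ] E n => B x) u.mul_inv
    · exact LinearMap.ext fun x => congrArg (fun B : E n →L[ℝ] E n => B x) u.inv_mul
  exact (LinearMap.isUnit_det _ h2).ne_zero

theorem det_pos {n : ℕ} {A : E n →L[ℝ] E n} (hA : ‖A‖ < 1) : 0 < (1 + A : E n →L[ℝ] E n).det := by
  by_contra hcon
  push Not at hcon
  have hc : Continuous fun r : ℝ => (1 + r • A : E n →L[ℝ] E n).det := by
    apply ContinuousLinearMap.continuous_det.comp
    fun_prop
  have h0 : (1 + (0 : ℝ) • A : E n →L[ℝ] E n).det = 1 := by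
    rw [zero_smul, add_zero]
    exact LinearMap.det_id
  have h1 : (1 + (1 : ℝ) • A : E n →L[ℝ] E n).det ≤ 0 := by rw [one_smul]; exact hcon
  have := intermediate_value_Icc' (zero_le_one (α := ℝ)) hc.continuousOn
  obtain ⟨r, hr, hr0⟩ := this ⟨h1, by rw [h0]; exact zero_le_one⟩
  refine det_ne (A := r • A) ?_ hr0
  rw [norm_smul, Real.norm_eq_abs, abs_of_nonneg hr.1]
  calc r * ‖A‖ ≤ 1 * ‖A‖ := mul_le_mul_of_nonneg_right hr.2 (norm_nonneg _)
    _ < 1 := by rwa [one_mul]

/-- The change of variables `x ↦ x + s F x`, for small `s`, preserves the volume. -/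
theorem vol_small {n : ℕ} {F : E n → E n} (hF : ContDiff ℝ 1 F)
    {L : ℝ} (hL : 0 < L) (hb : ∀ x, ‖fderiv ℝ F x‖ ≤ L) {s : ℝ} (hs : |s| * L < 1) :
    ∫ x in tsupport F, (1 + s • fderiv ℝ F x : E n →L[ℝ] E n).det =
      (volume (tsupport F)).toReal := by
  have hdiff : ∀ x, HasFDerivAt F (fderiv ℝ F x) x := fun x =>
    (hF.differentiable one_ne_zero x).hasFDerivAt
  have hlip : LipschitzWith (Real.toNNReal L) F := by
    refine lipschitzWith_of_nnnorm_fderiv_le (hF.differentiable one_ne_zero) fun x => ?_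
    have := hb x
    rw [← NNReal.coe_le_coe, coe_nnnorm, Real.coe_toNNReal _ hL.le]
    exact this
  -- the map
  set T : E n → E n := fun x => x + s • F x with hT
  have hTd : ∀ x, HasFDerivAt T (1 + s • fderiv ℝ F x : E n →L[ℝ] E n) x := fun x =>
    (hasFDerivAt_id x).add ((hdiff x).const_smul s)
  have happ : ApproximatesLinearOn T ((ContinuousLinearEquiv.refl ℝ (E n) : E n ≃L[ℝ] E n) :
      E n →L[ℝ] E n) univ (Real.toNNReal (|s| * L)) := by
    intro x _ y _
    have e : T x - T y - ((ContinuousLinearEquiv.refl ℝ (E n) : E n ≃L[ℝ] E n) :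
      E n →L[ℝ] E n) (x - y) = s • (F x - F y) := by
      simp [hT, smul_sub]
      abel
    rw [e, norm_smul, Real.coe_toNNReal _ (by positivity), Real.norm_eq_abs, mul_assoc]
    refine mul_le_mul_of_nonneg_left ?_ (abs_nonneg s)
    have := hlip.dist_le_mul x y
    rw [Real.coe_toNNReal _ hL.le, dist_eq_norm, dist_eq_norm] at this
    exact this
  have hnn : Subsingleton (E n) ∨ Real.toNNReal (|s| * L) <
      ‖((ContinuousLinearEquiv.refl ℝ (E n)).symm : E n →L[ℝ] E n)‖₊⁻¹ := by
    rcases subsingleton_or_nontrivial (E n) with h | h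
    · exact Or.inl h
    · right
      have : ‖((ContinuousLinearEquiv.refl ℝ (E n)).symm : E n →L[ℝ] E n)‖₊ = 1 := by
        have : ((ContinuousLinearEquiv.refl ℝ (E n)).symm : E n →L[ℝ] E n) =
          ContinuousLinearMap.id ℝ (E n) := rfl
        rw [this]
        ext
        simp
      rw [this, inv_one, ← NNReal.coe_lt_coe, Real.coe_toNNReal _ (by positivity)]
      exact hs
  have hinj : Function.Injective T := by
    have := happ.injOn hnn
    exact injOn_univ.1 this
  have hsurj : Function.Surjective T := happ.surjective hnn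
  have hout : ∀ x, x ∉ tsupport F → T x = x := by
    intro x hx
    simp [hT, image_eq_zero_of_notMem_tsupport hx]
  have himg : T '' tsupport F = tsupport F := by
    apply Subset.antisymm
    · rintro _ ⟨x, hx, rfl⟩
      by_contra hcon
      have := hinj (hout _ hcon)
      rw [this] at hcon
      exact hcon hx
    · intro y hy
      obtain ⟨x, rfl⟩ := hsurj y
      refine ⟨x, ?_, rfl⟩
      by_contra hcon
      rw [hout x hcon] at hy
      exact hcon hy
  have hmeas : MeasurableSet (tsupport F) := (isClosed_tsupport F).measurableSet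
  have key := integral_image_eq_integral_abs_det_fderiv_smul (μ := (volume : Measure (E n)))
    (s := tsupport F) (f := T) (f' := fun x => (1 + s • fderiv ℝ F x : E n →L[ℝ] E n)) hmeas
    (fun x _ => (hTd x).hasFDerivWithinAt) hinj.injOn (fun _ => (1 : ℝ))
  rw [himg] at key
  simp only [smul_eq_mul, mul_one, integral_const, MeasurableSet.univ, measureReal_restrict_apply,
    univ_inter] at key
  have hpos : ∀ x, 0 < (1 + s • fderiv ℝ F x : E n →L[ℝ] E n).det := by
    intro x
    apply det_pos
    rw [norm_smul, Real.norm_eq_abs]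
    exact lt_of_le_of_lt (mul_le_mul_of_nonneg_left (hb x) (abs_nonneg s)) hs
  calc ∫ x in tsupport F, (1 + s • fderiv ℝ F x : E n →L[ℝ] E n).det
      = ∫ x in tsupport F, |(1 + s • fderiv ℝ F x : E n →L[ℝ] E n).det| := by
        congr 1
        funext x
        rw [abs_of_pos (hpos x)]
    _ = _ := by rw [← key]; rfl

theorem toMatrix_fderiv {n : ℕ} {f : Fin n → E n → ℝ} (hf : ∀ i, ContDiff ℝ 1 (f i)) (x : E n) :
    LinearMap.toMatrix' ((fderiv ℝ (fun y i => f i y) x : E n →L[ℝ] E n) : E n →ₗ[ℝ] E n) =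
      Matrix.of fun i j => pd j (f i) x := by
  ext i j
  rw [LinearMap.toMatrix'_apply, Matrix.of_apply]
  have : fderiv ℝ (fun y i => f i y) x = ContinuousLinearMap.pi fun i => fderiv ℝ (f i) x :=
    fderiv_pi fun i => (hf i).differentiable one_ne_zero x
  rw [this]
  rfl

/-- Block 7a. -/
theorem main : SpecStokes := by
  intro n f hn hf hc
  set F : E n → E n := fun y i => f i y with hF
  have hFd : ContDiff ℝ 1 F := contDiff_pi.2 hf
  have hFc : HasCompactSupport F := by
    refine HasCompactSupport.intro (K := ⋃ i, tsupport (f i))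
      (isCompact_iUnion fun i => hc i) fun x hx => ?_
    funext i
    have : x ∉ tsupport (f i) := fun h => hx (mem_iUnion.2 ⟨i, h⟩)
    simpa [hF] using image_eq_zero_of_notMem_tsupport this
  have hdc : Continuous (fderiv ℝ F) := hFd.continuous_fderiv one_ne_zero
  obtain ⟨L, hL⟩ : ∃ L, ∀ x, ‖fderiv ℝ F x‖ ≤ L :=
    (hFc.fderiv (𝕜 := ℝ)).exists_bound_of_continuous hdc
  have hL0 : 0 ≤ L := (norm_nonneg _).trans (hL 0)
  set h : ℝ := 1 / (((n : ℝ) + 1) * (L + 1)) with hh
  have hpos : 0 < h := by positivity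
  have hvol : ∀ k ∈ Finset.range (n + 1), ∫ x in tsupport F,
      (1 + ((k : ℝ) * h) • Matrix.of fun i j => pd j (f i) x).det =
      (volume (tsupport F)).toReal := by
    intro k hk
    have hk' : (k : ℝ) ≤ n := by exact_mod_cast Nat.lt_succ_iff.1 (Finset.mem_range.1 hk)
    rw [← vol_small hFd (L := L + 1) (by linarith) (fun x => (hL x).trans (by linarith))
      (s := (k : ℝ) * h)]
    · congr 1
      funext x
      rw [ContinuousLinearMap.det, ← LinearMap.det_toMatrix', ← toMatrix_fderiv hf x]
      congr 1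
      simp [hF]
    · rw [abs_of_nonneg (by positivity), hh]
      rw [show (k : ℝ) * (1 / (((n : ℝ) + 1) * (L + 1))) * (L + 1) = k / (n + 1) by field_simp]
      rw [div_lt_one (by positivity)]
      linarith
  have hsupp : ∫ x, jdet f x = ∫ x in tsupport F, jdet f x := by
    symm
    apply setIntegral_eq_integral_of_forall_compl_eq_zero
    intro x hx
    have h0 : fderiv ℝ F x = 0 := by
      by_contra hne
      exact hx ((support_fderiv_subset ℝ) hne)
    rw [jdet, ← toMatrix_fderiv hf x]
    have : (fderiv ℝ (fun y i => f i y) x : E n →L[ℝ] E n) = 0 := h0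
    rw [this]
    simp only [ContinuousLinearMap.toLinearMap_zero, map_zero]
    have : Nonempty (Fin n) := ⟨⟨0, hn⟩⟩
    exact Matrix.det_zero
  have hcont : ∀ c : ℝ, Continuous fun x => (1 + c • Matrix.of fun i j => pd j (f i) x).det := by
    intro c
    have hM : Continuous fun x => Matrix.of fun i j => pd j (f i) x := by
      refine continuous_matrix fun i j => ?_
      simp only [Matrix.of_apply, pd]
      exact ((hf i).continuous_fderiv one_ne_zero).clm_apply continuous_const
    exact (continuous_const.add (hM.const_smul c)).matrix_det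
  have hint : ∀ c : ℝ, IntegrableOn
      (fun x => (1 + c • Matrix.of fun i j => pd j (f i) x).det) (tsupport F) := fun c =>
    (hcont c).continuousOn.integrableOn_compact hFc
  have hfd : (n.factorial : ℝ) * (h ^ n * ∫ x in tsupport F, jdet f x) = 0 := by
    rw [← integral_const_mul, ← integral_const_mul]
    have : ∀ x, (n.factorial : ℝ) * (h ^ n * jdet f x) = ∑ k ∈ Finset.range (n + 1),
        ((-1 : ℝ) ^ (n - k) * (n.choose k)) *
        (1 + ((k : ℝ) * h) • Matrix.of fun i j => pd j (f i) x).det := fun x => by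
      rw [det_fd, jdet]
    simp_rw [this]
    rw [integral_finsetSum _ fun k _ => (hint _).const_mul _]
    simp_rw [integral_const_mul]
    rw [Finset.sum_congr rfl fun k hk => by rw [hvol k hk], ← Finset.sum_mul]
    have h0 : ∑ k ∈ Finset.range (n + 1), ((-1 : ℝ) ^ (n - k) * (n.choose k)) = 0 := by
      have := add_pow (1 : ℝ) (-1) n
      rw [add_neg_cancel, zero_pow (by omega)] at this
      rw [this]
      exact Finset.sum_congr rfl fun k _ => by ring
    rw [h0, zero_mul]
  rw [hsupp]
  have hne : (n.factorial : ℝ) ≠ 0 := by exact_mod_cast n.factorial_ne_zero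
  have hne' : h ^ n ≠ 0 := by positivity
  rcases mul_eq_zero.1 hfd with h1 | h1
  · exact absurd h1 hne
  · rcases mul_eq_zero.1 h1 with h2 | h2
    · exact absurd h2 hne'
    · exact h2

end Vale.Agent.P223.H.Stokes
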