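import Vale.Agent.P223.H.Common

/-! Block 1b: weights, first part. -/

namespace Vale.Agent.P223.H.Weight1

open scoped ContDiff Topology ENNReal
open MeasureTheory Metric

variable {n : ℕ} {Γ : Type} [Group Γ] [MulAction Γ (E n)]

section weight

/-- weighted shifts -/
noncomputable def T (μ : Γ → ℝ≥0∞) (f : Γ → ℝ≥0∞) (g : Γ) : ℝ≥0∞ := ∑' s, μ s * f (g * s)

theorem tsum_T (μ f : Γ → ℝ≥0∞) : ∑' g, T μ f g = (∑' s, μ s) * ∑' g, f g := by
  unfold T
  rw [ENNReal.tsum_comm]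
  have : ∀ s, ∑' g, μ s * f (g * s) = μ s * ∑' g, f g := by
    intro s
    rw [ENNReal.tsum_mul_left]
    congr 1
    exact (Equiv.mulRight s).tsum_eq f
  simp only [this]
  exact ENNReal.tsum_mul_right

theorem tsum_T_iter (μ : Γ → ℝ≥0∞) (k : ℕ) :
    ∑' g, (T μ)^[k] μ g = (∑' s, μ s) ^ (k + 1) := by
  induction k with
  | zero => simp
  | succ k ih =>
    rw [Function.iterate_succ_apply', tsum_T, ih, pow_succ' _ (k + 1)]

theorem exists_weight [Countable Γ] : ∃ a : Γ → ℝ, (∀ g, 0 < a g) ∧ HasSum a 1 ∧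
    ∀ s, ∃ C : ℝ, 0 < C ∧ ∀ g, a (g * s) ≤ C * a g := by
  obtain ⟨_⟩ := nonempty_encodable Γ
  obtain ⟨μ, hμ, c, hc, hc'⟩ := posSumOfEncodable (ε := (1 / 2 : ℝ)) (by norm_num) Γ
  let m : Γ → ℝ≥0∞ := fun g => ENNReal.ofReal (μ g)
  have hm : ∑' g, m g = ENNReal.ofReal c := by
    rw [← hc.tsum_eq, ENNReal.ofReal_tsum_of_nonneg (fun g => (hμ g).le) hc.summable]
  have hm2 : ∑' g, m g ≤ 2⁻¹ := by
    rw [hm]
    calc ENNReal.ofReal c ≤ ENNReal.ofReal (1 / 2) := ENNReal.ofReal_le_ofReal hc'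
      _ = 2⁻¹ := by rw [one_div, ENNReal.ofReal_inv_of_pos two_pos]; simp
  have hmpos : ∀ g, 0 < m g := fun g => ENNReal.ofReal_pos.2 (hμ g)
  let A : Γ → ℝ≥0∞ := fun g => ∑' k : ℕ, (T m)^[k] m g
  have hA1 : ∑' g, A g ≤ 2 := by
    show ∑' g, ∑' k : ℕ, (T m)^[k] m g ≤ 2
    rw [ENNReal.tsum_comm]
    simp only [tsum_T_iter]
    calc ∑' k : ℕ, (∑' s, m s) ^ (k + 1) ≤ ∑' k : ℕ, (2⁻¹ : ℝ≥0∞) ^ k := by
          refine ENNReal.tsum_le_tsum fun k => ?_
          calc (∑' s, m s) ^ (k + 1) ≤ (2⁻¹ : ℝ≥0∞) ^ (k + 1) := by gcongr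
            _ ≤ (2⁻¹ : ℝ≥0∞) ^ k := by
              rw [pow_succ]
              exact mul_le_of_le_one_right' (by simp)
      _ = 2 := ENNReal.tsum_geometric_two
  have hAtop : ∀ g, A g ≠ ⊤ := fun g =>
    ne_top_of_le_ne_top (by simp) ((ENNReal.le_tsum g).trans hA1)
  have hApos : ∀ g, 0 < A g := fun g =>
    (hmpos g).trans_le (ENNReal.le_tsum (f := fun k : ℕ => (T m)^[k] m g) 0)
  have hTA : ∀ g, T m A g ≤ A g := by
    intro g
    have : T m A g = ∑' k : ℕ, (T m)^[k + 1] m g := by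
      show ∑' s, m s * ∑' k : ℕ, (T m)^[k] m (g * s) = _
      simp only [← ENNReal.tsum_mul_left]
      rw [ENNReal.tsum_comm]
      refine tsum_congr fun k => ?_
      rw [Function.iterate_succ_apply']
      rfl
    rw [this]
    exact ENNReal.tsum_comp_le_tsum_of_injective (f := fun k : ℕ => k + 1) (add_left_injective 1)
      (fun k : ℕ => (T m)^[k] m g)
  have hAs : ∀ g s, m s * A (g * s) ≤ A g := fun g s =>
    (ENNReal.le_tsum (f := fun s => m s * A (g * s)) s).trans (hTA g)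
  let a : Γ → ℝ := fun g => (A g).toReal
  have ha : ∀ g, 0 < a g := fun g => ENNReal.toReal_pos (hApos g).ne' (hAtop g)
  have hsum : Summable a := ENNReal.summable_toReal (ne_top_of_le_ne_top (by simp) hA1)
  have hS : 0 < ∑' g, a g := hsum.tsum_pos (fun g => (ha g).le) 1 (ha 1)
  have has : ∀ g s, a (g * s) ≤ (μ s)⁻¹ * a g := by
    intro g s
    have h1 := ENNReal.toReal_mono (hAtop g) (hAs g s)
    rw [ENNReal.toReal_mul, ENNReal.toReal_ofReal (hμ s).le] at h1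
    rw [inv_mul_eq_div, le_div_iff₀ (hμ s), mul_comm]
    exact h1
  refine ⟨fun g => a g / ∑' g, a g, fun g => div_pos (ha g) hS, ?_, fun s =>
    ⟨(μ s)⁻¹, inv_pos.2 (hμ s), fun g => ?_⟩⟩
  · have := hsum.hasSum.div_const (∑' g, a g)
    rwa [div_self hS.ne'] at this
  · rw [← mul_div_assoc]
    exact div_le_div_of_nonneg_right (has g s) hS.le

end weight

/-- weighted average -/
noncomputable def avg {F : Type} [AddCommGroup F] [Module ℝ F] (a : Γ → ℝ) (φ : E n → F)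
    (x : E n) : F := ∑ᶠ g : Γ, a g • φ (g⁻¹ • x)

/-- admissible weights -/
structure Adm (a : Γ → ℝ) : Prop where
  pos : ∀ g, 0 < a g
  q : ∀ s, ∃ C : ℝ, 0 < C ∧ ∀ g, a (g * s) ≤ C * a g

theorem Adm.sq {a : Γ → ℝ} (ha : Adm a) : Adm (fun g => a g ^ 2) where
  pos := fun g => pow_pos (ha.pos g) 2
  q := fun s => by
    obtain ⟨C, hC, h⟩ := ha.q s
    refine ⟨C ^ 2, pow_pos hC 2, fun g => ?_⟩
    rw [← mul_pow]
    exact pow_le_pow_left₀ (ha.pos _).le (h g) 2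

/-- bounds for finitely many shifts -/
theorem Adm.fin {a : Γ → ℝ} (ha : Adm a) (H : Finset Γ) : ∃ C : ℝ, 0 < C ∧ ∀ s ∈ H, ∀ g,
    a (g * s) ≤ C * a g ∧ a g ≤ C * a (g * s) := by
  classical
  choose C hC hC' using ha.q
  refine ⟨∑ s ∈ H, (C s + C s⁻¹) + 1, ?_, fun s hs g => ?_⟩
  · have : 0 ≤ ∑ s ∈ H, (C s + C s⁻¹) := Finset.sum_nonneg fun s _ => by
      have := hC s; have := hC s⁻¹; positivity
    linarith
  · have h1 : C s + C s⁻¹ ≤ ∑ s ∈ H, (C s + C s⁻¹) :=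
      Finset.single_le_sum (f := fun s => C s + C s⁻¹) (fun s _ => by
        have := hC s; have := hC s⁻¹; positivity) hs
    have h2 := hC s
    have h3 := hC s⁻¹
    constructor
    · refine (hC' s g).trans (mul_le_mul_of_nonneg_right ?_ (ha.pos g).le)
      linarith
    · have := hC' s⁻¹ (g * s)
      rw [mul_inv_cancel_right] at this
      refine this.trans (mul_le_mul_of_nonneg_right ?_ (ha.pos _).le)
      linarith

section
variable (h : Act n Γ)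
include h

/-- On translates of a compact set the averages are sums over a fixed finite set. -/
theorem fold {F : Type} [AddCommGroup F] [Module ℝ F] [TopologicalSpace F] (φ : E n → F)
    (hφ : HasCompactSupport φ)
    {K : Set (E n)} (hK : IsCompact K) : ∃ H : Finset Γ, ∀ (a : Γ → ℝ) (g : Γ), ∀ y ∈ K,
      avg a φ (g • y) = ∑ s ∈ H, a (g * s) • φ (s⁻¹ • y) := by
  have hfin := Common.finite_meet h (K := tsupport φ) (L := K) hφ hK
  refine ⟨hfin.toFinset, fun a g y hy => ?_⟩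
  have h1 : avg a φ (g • y) = ∑ᶠ s : Γ, a (g * s) • φ (s⁻¹ • y) := by
    refine finsum_eq_of_bijective (fun γ => g⁻¹ * γ) (Group.mulLeft_bijective g⁻¹) fun γ => ?_
    simp [mul_smul]
  rw [h1]
  refine finsum_eq_sum_of_support_subset _ fun s hs => ?_
  simp only [Set.Finite.coe_toFinset, Set.mem_ofPred_eq]
  refine ⟨s⁻¹ • y, subset_tsupport φ fun h0 => hs ?_, by simpa using hy⟩
  simp only at h0 ⊢
  rw [h0, smul_zero]

/-- An admissible weight is comparable to the average of `χ`. -/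
theorem comparable {a : Γ → ℝ} (ha : Adm a) {χ : E n → ℝ} (hc : HasCompactSupport χ)
    (h0 : ∀ x, 0 ≤ χ x) (h1 : ∀ x, ∑ᶠ γ : Γ, χ (γ⁻¹ • x) = 1) {K : Set (E n)}
    (hK : IsCompact K) : ∃ C : ℝ, 0 < C ∧ ∀ (g : Γ), ∀ y ∈ K,
      a g ≤ C * avg a χ (g • y) ∧ avg a χ (g • y) ≤ C * a g := by
  obtain ⟨H, hH⟩ := fold h χ hc hK
  obtain ⟨C, hC, hC'⟩ := ha.fin H
  have hone : ∀ y ∈ K, ∑ s ∈ H, χ (s⁻¹ • y) = 1 := by
    intro y hy
    have h2 := hH (fun _ => 1) 1 y hy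
    simp only [avg, one_smul] at h2
    rw [← h2, h1 y]
  refine ⟨C, hC, fun g y hy => ?_⟩
  rw [hH a g y hy]
  constructor
  · calc a g = ∑ s ∈ H, a g * χ (s⁻¹ • y) := by rw [← Finset.mul_sum, hone y hy, mul_one]
      _ ≤ ∑ s ∈ H, (C * a (g * s)) * χ (s⁻¹ • y) :=
        Finset.sum_le_sum fun s hs => mul_le_mul_of_nonneg_right (hC' s hs g).2 (h0 _)
      _ = C * ∑ s ∈ H, a (g * s) • χ (s⁻¹ • y) := by
        rw [Finset.mul_sum]
        exact Finset.sum_congr rfl fun s _ => by rw [smul_eq_mul]; ring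
  · calc ∑ s ∈ H, a (g * s) • χ (s⁻¹ • y) ≤ ∑ s ∈ H, (C * a g) * χ (s⁻¹ • y) :=
        Finset.sum_le_sum fun s hs => mul_le_mul_of_nonneg_right (hC' s hs g).1 (h0 _)
      _ = C * a g := by rw [← Finset.mul_sum, hone y hy, mul_one]

/-- Averages are dominated by the average of `χ`. -/
theorem avg_le {a : Γ → ℝ} (ha : Adm a) {χ : E n → ℝ} (hc : HasCompactSupport χ)
    (h0 : ∀ x, 0 ≤ χ x) (h1 : ∀ x, ∑ᶠ γ : Γ, χ (γ⁻¹ • x) = 1) (φ : E n → ℝ)
    (hφ : HasCompactSupport φ) (hφc : Continuous φ) :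
    ∃ C : ℝ, 0 < C ∧ ∀ x, |avg a φ x| ≤ C * avg a χ x := by
  obtain ⟨K, hK, hK'⟩ := h.cocompact
  obtain ⟨H, hH⟩ := fold h φ hφ hK
  obtain ⟨C, hC, hC'⟩ := ha.fin H
  obtain ⟨C₂, hC₂, hC₂'⟩ := comparable h ha hc h0 h1 hK
  obtain ⟨M, hM⟩ := hφc.bounded_above_of_compact_support hφ
  have hM0 : 0 ≤ M := (norm_nonneg _).trans (hM 0)
  refine ⟨(∑ _s ∈ H, C * M) * C₂ + 1, ?_, fun x => ?_⟩
  · have : 0 ≤ ∑ _s ∈ H, C * M := Finset.sum_nonneg fun _ _ => by positivity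
    positivity
  · obtain ⟨γ, hγ⟩ := hK' x
    have hx : x = γ⁻¹ • γ • x := by simp
    rw [hx, hH a γ⁻¹ _ hγ]
    have hW := hC₂' γ⁻¹ _ hγ
    have hWn : 0 ≤ avg a χ (γ⁻¹ • γ • x) := by
      have := (ha.pos γ⁻¹).le.trans hW.1
      exact nonneg_of_mul_nonneg_right this hC₂
    calc |∑ s ∈ H, a (γ⁻¹ * s) • φ (s⁻¹ • γ • x)| ≤ ∑ s ∈ H, |a (γ⁻¹ * s) • φ (s⁻¹ • γ • x)| :=
        Finset.abs_sum_le_sum_abs _ _
      _ ≤ ∑ _s ∈ H, C * M * a γ⁻¹ := by
        refine Finset.sum_le_sum fun s hs => ?_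
        rw [smul_eq_mul, abs_mul, abs_of_pos (ha.pos _)]
        calc a (γ⁻¹ * s) * |φ (s⁻¹ • γ • x)| ≤ (C * a γ⁻¹) * M :=
            mul_le_mul (hC' s hs γ⁻¹).1 (hM _) (abs_nonneg _) (by have := ha.pos γ⁻¹; positivity)
          _ = _ := by ring
      _ = (∑ _s ∈ H, C * M) * a γ⁻¹ := by rw [Finset.sum_mul]
      _ ≤ (∑ _s ∈ H, C * M) * (C₂ * avg a χ (γ⁻¹ • γ • x)) :=
        mul_le_mul_of_nonneg_left hW.1 (Finset.sum_nonneg fun _ _ => by positivity)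
      _ ≤ _ := by nlinarith

/-- Averages are smooth. -/
theorem avg_smooth (a : Γ → ℝ) (φ : E n → ℝ) (hφ : HasCompactSupport φ) (hs : ContDiff ℝ ∞ φ) :
    ContDiff ℝ ∞ (avg a φ) := by
  refine Common.contDiff_finsum _ (fun g => ?_) ?_
  · exact (contDiff_const (c := a g)).smul (hs.comp (h.smooth g⁻¹))
  · refine (Common.locallyFinite_support h φ hφ).subset fun g x hx h0 => ?_
    apply hx
    simp only at h0 ⊢
    rw [h0, smul_zero]

/-- Derivatives of averages along the frame. -/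
theorem fderiv_avg {J : Type} [Fintype J] (Fr : Frame n Γ J) (a : Γ → ℝ) (φ : E n → ℝ)
    (hφ : HasCompactSupport φ) (hs : ContDiff ℝ ∞ φ) (j : J) (x : E n) :
    fderiv ℝ (avg a φ) x (Fr.V j x) = avg a (fun y => fderiv ℝ φ y (Fr.V j y)) x := by
  obtain ⟨t, ht, hft⟩ := Common.locallyFinite_support h φ hφ x
  have h1 : avg a φ =ᶠ[𝓝 x] fun y => ∑ g ∈ hft.toFinset, a g • φ (g⁻¹ • y) := by
    filter_upwards [ht] with y hy
    refine finsum_eq_sum_of_support_subset _ fun g hg => ?_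
    simp only [Set.Finite.coe_toFinset, Set.mem_ofPred_eq]
    refine ⟨y, fun h0 => hg ?_, hy⟩
    simp only at h0 ⊢
    rw [h0, smul_zero]
  have h2 : ∀ g : Γ, HasFDerivAt (fun y => a g • φ (g⁻¹ • y))
      (a g • (fderiv ℝ φ (g⁻¹ • x)).comp (fderiv ℝ (fun y : E n => g⁻¹ • y) x)) x := by
    intro g
    exact ((hs.differentiable (by simp) _).hasFDerivAt.comp x
      (Common.diff h g⁻¹ x).hasFDerivAt).const_smul (a g)
  have h3 : HasFDerivAt (fun y => ∑ g ∈ hft.toFinset, a g • φ (g⁻¹ • y))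
      (∑ g ∈ hft.toFinset,
        a g • (fderiv ℝ φ (g⁻¹ • x)).comp (fderiv ℝ (fun y : E n => g⁻¹ • y) x)) x :=
    HasFDerivAt.fun_sum fun g _ => h2 g
  rw [h1.fderiv_eq, h3.fderiv]
  simp only [sum_apply, smul_apply,
    ContinuousLinearMap.comp_apply, ← Fr.V_inv]
  symm
  refine finsum_eq_sum_of_support_subset _ fun g hg => ?_
  simp only [Set.Finite.coe_toFinset, Set.mem_ofPred_eq]
  by_contra hne
  apply hg
  have h4 : ∀ᶠ y in 𝓝 x, φ (g⁻¹ • y) = 0 := by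
    filter_upwards [ht] with y hy
    by_contra h0
    exact hne ⟨y, h0, hy⟩
  have h5 : ∀ᶠ z in 𝓝 (g⁻¹ • x), φ z = 0 := by
    have hc : Filter.Tendsto (fun z : E n => g • z) (𝓝 (g⁻¹ • x)) (𝓝 x) := by
      have := (Common.cont h g).tendsto (g⁻¹ • x)
      simpa using this
    filter_upwards [hc.eventually h4] with z hz
    simpa using hz
  have h6 : fderiv ℝ φ (g⁻¹ • x) = 0 := by
    have : φ =ᶠ[𝓝 (g⁻¹ • x)] fun _ => (0 : ℝ) := h5
    rw [this.fderiv_eq]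
    simp
  simp [h6]

end

end Vale.Agent.P223.H.Weight1
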